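import Vale.Agent.P248.MathlibUsed
import Vale.Agent.P248.Defs

set_option linter.all false

section

section

section

set_option linter.unusedSectionVars false

open MeasureTheory Set
open scoped ENNReal

namespace Vale.Agent.P248

variable {ι : Type*} [Fintype ι] [DecidableEq ι]

/-- Continuous sublinear functions. -/
structure Sublin (g : (ι → ℝ) → ℝ) : Prop where
  cont : Continuous g
  add_le : ∀ x y, g (x + y) ≤ g x + g y
  smul_eq : ∀ (r : ℝ), 0 ≤ r → ∀ x, g (r • x) = r * g x

/-- Restriction of a vector to the coordinates in J. -/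
def res (J : Finset ι) (x : ι → ℝ) : ι → ℝ := fun i => if i ∈ J then x i else 0

/-- The join of a face with a standard simplex in the remaining coordinates. -/
def body (g : (ι → ℝ) → ℝ) (J : Finset ι) : Set (ι → ℝ) :=
  {x | (∀ i, 0 ≤ x i) ∧ g (res J x) + ∑ i ∈ Jᶜ, x i ≤ 1}

theorem res_continuous (J : Finset ι) : Continuous (res J : (ι → ℝ) → (ι → ℝ)) := by
  refine continuous_pi fun i => ?_
  by_cases h : i ∈ J
  · simpa only [res, h, ↓reduceIte] using continuous_apply i
  · simpa [res, h] using continuous_const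

theorem body_isClosed {g : (ι → ℝ) → ℝ} (hg : Sublin g) (J : Finset ι) :
    IsClosed (body g J) := by
  have h1 : IsClosed {x : ι → ℝ | ∀ i, 0 ≤ x i} := by
    have : {x : ι → ℝ | ∀ i, 0 ≤ x i} = ⋂ i, {x : ι → ℝ | 0 ≤ x i} := by
      ext x; simp only [mem_ofPred_eq, mem_iInter]
    rw [this]
    exact isClosed_iInter fun i => isClosed_le continuous_const (continuous_apply i)
  have h2 : IsClosed {x : ι → ℝ | g (res J x) + ∑ i ∈ Jᶜ, x i ≤ 1} :=
    isClosed_le ((hg.cont.comp (res_continuous J)).add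
      (continuous_finsetSum _ fun i _ => continuous_apply i)) continuous_const
  exact h1.inter h2

/-- The cone map. -/
noncomputable def coneMap (w : ι → ℝ) (i : ι) : (ι → ℝ) →ₗ[ℝ] (ι → ℝ) :=
  LinearMap.id + (LinearMap.proj i : (ι → ℝ) →ₗ[ℝ] ℝ).smulRight (w - Pi.single i 1)

theorem coneMap_apply (w : ι → ℝ) (i : ι) (v : ι → ℝ) :
    coneMap w i v = v + v i • (w - Pi.single i 1) := by
  simp only [coneMap, LinearMap.add_apply, LinearMap.id_coe, id_eq, LinearMap.coe_smulRight, LinearMap.coe_proj, Function.eval]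

theorem coneMap_apply_same (w : ι → ℝ) (i : ι) (v : ι → ℝ) :
    coneMap w i v i = v i * w i := by
  rw [coneMap_apply]; simp only [Pi.add_apply, Pi.smul_apply, Pi.sub_apply, Pi.single_eq_same, smul_eq_mul]; ring

theorem coneMap_apply_ne (w : ι → ℝ) {i k : ι} (h : k ≠ i) (v : ι → ℝ) :
    coneMap w i v k = v k + v i * w k := by
  rw [coneMap_apply]; simp [h]

theorem coneMap_det (w : ι → ℝ) (i : ι) : LinearMap.det (coneMap w i) = w i := by
  have h : coneMap w i = Matrix.toLin' (1 + Matrix.replicateCol Unit (w - Pi.single i 1) *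
      Matrix.replicateRow Unit (Pi.single i (1 : ℝ))) := by
    apply LinearMap.toMatrix'.injective
    rw [LinearMap.toMatrix'_toLin']
    ext a b
    rw [LinearMap.toMatrix'_apply, coneMap_apply]
    simp only [Pi.add_apply, Pi.smul_apply, Pi.sub_apply, smul_eq_mul, Matrix.add_apply,
      Matrix.mul_apply, Matrix.replicateCol_apply, Matrix.replicateRow_apply, Matrix.one_apply,
      Finset.univ_unique, Finset.sum_singleton]
    by_cases hab : a = b
    · subst hab
      by_cases hai : a = i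
      · subst hai; simp
      · simp [hai, Ne.symm hai]
    · by_cases hbi : b = i
      · subst hbi; simp [hab]
      · simp [hbi, Ne.symm hbi, hab, Pi.single_apply]
  rw [h, LinearMap.det_toLin', Matrix.det_one_add_replicateCol_mul_replicateRow]
  simp only [dotProduct_sub, single_dotProduct, one_mul, dotProduct_single, Pi.single_eq_same, mul_one, add_sub_cancel]

theorem coneMap_image_subset {g : (ι → ℝ) → ℝ} (hg : Sublin g) {J : Finset ι} {w : ι → ℝ}
    (hw : ∀ i, 0 ≤ w i) (hwJ : ∀ i, i ∉ J → w i = 0) (hgw : g w ≤ 1) {i : ι} (hi : i ∈ J) :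
    coneMap w i '' body g (J.erase i) ⊆ body g J := by
  rintro _ ⟨v, ⟨hv0, hv1⟩, rfl⟩
  refine ⟨fun k => ?_, ?_⟩
  · by_cases hk : k = i
    · subst hk; rw [coneMap_apply_same]; exact mul_nonneg (hv0 _) (hw _)
    · rw [coneMap_apply_ne w hk]
      exact add_nonneg (hv0 _) (mul_nonneg (hv0 _) (hw _))
  · have h1 : res J (coneMap w i v) = v i • w + res (J.erase i) v := by
      ext k
      by_cases hk : k = i
      · subst hk; simp [res, hi, coneMap_apply_same]
      · by_cases hkJ : k ∈ J
        · simp [res, hkJ, hk, coneMap_apply_ne w hk]; ring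
        · simp [res, hkJ, hwJ k hkJ]
    have h2 : ∑ k ∈ Jᶜ, coneMap w i v k = ∑ k ∈ Jᶜ, v k := by
      refine Finset.sum_congr rfl fun k hk => ?_
      have hkJ : k ∉ J := Finset.mem_compl.mp hk
      have hki : k ≠ i := fun h => hkJ (h ▸ hi)
      rw [coneMap_apply_ne w hki, hwJ k hkJ]; ring
    have h3 : ∑ k ∈ (J.erase i)ᶜ, v k = v i + ∑ k ∈ Jᶜ, v k := by
      rw [Finset.compl_erase, Finset.sum_insert (by simpa using hi)]
    rw [h1, h2]
    rw [h3] at hv1
    have h4 := hg.add_le (v i • w) (res (J.erase i) v)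
    rw [hg.smul_eq _ (hv0 i)] at h4
    have h5 : v i * g w ≤ v i * 1 := by
      have := hv0 i
      (clear * - hgw this; gcongr)
    linarith only [hv1, h4, h5]

/-- The cone lemma. -/
theorem cone_lemma {g : (ι → ℝ) → ℝ} (hg : Sublin g) {J : Finset ι} {w : ι → ℝ}
    (hw : ∀ i, 0 ≤ w i) (hwJ : ∀ i, i ∉ J → w i = 0) (hgw : g w ≤ 1) :
    ∑ i ∈ J, ENNReal.ofReal (w i) * volume (body g (J.erase i)) ≤ volume (body g J) := by
  set P : Finset ι := J.filter (fun i => 0 < w i) with hP
  have hsum : ∑ i ∈ J, ENNReal.ofReal (w i) * volume (body g (J.erase i)) =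
      ∑ i ∈ P, ENNReal.ofReal (w i) * volume (body g (J.erase i)) := by
    rw [hP, Finset.sum_filter]
    refine Finset.sum_congr rfl fun i hi => ?_
    by_cases h : 0 < w i
    · simp [h]
    · have : w i = 0 := le_antisymm (not_lt.mp h) (hw i)
      simp [this]
  have himg : ∀ i ∈ P, volume (coneMap w i '' body g (J.erase i)) =
      ENNReal.ofReal (w i) * volume (body g (J.erase i)) := by
    intro i hi
    rw [Measure.addHaar_image_linearMap, coneMap_det, abs_of_nonneg (hw i)]
  have hmeas : ∀ i ∈ P, MeasurableSet (coneMap w i '' body g (J.erase i)) := by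
    intro i hi
    have hpos : 0 < w i := (Finset.mem_filter.mp hi).2
    have hdet : LinearMap.det (coneMap w i) ≠ 0 := by rw [coneMap_det]; exact hpos.ne'
    have hcl : IsClosed (coneMap w i '' body g (J.erase i)) := by
      have e := (LinearMap.equivOfDetNeZero (coneMap w i) hdet).toContinuousLinearEquiv
      have h := (LinearMap.equivOfDetNeZero (coneMap w i)
        hdet).toContinuousLinearEquiv.toHomeomorph.isClosedMap _ (body_isClosed hg (J.erase i))
      exact h
    exact hcl.measurableSet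
  have hdisj : Set.Pairwise (↑P) (fun i k => AEDisjoint volume
      (coneMap w i '' body g (J.erase i)) (coneMap w k '' body g (J.erase k))) := by
    intro i hi k hk hik
    have hwi : 0 < w i := (Finset.mem_filter.mp hi).2
    have hwk : 0 < w k := (Finset.mem_filter.mp hk).2
    let φ : (ι → ℝ) →ₗ[ℝ] ℝ := w k • (LinearMap.proj i) - w i • (LinearMap.proj k)
    have hφ : ∀ u, φ u = w k * u i - w i * u k := fun u => by simp [φ]
    have hker : LinearMap.ker φ ≠ ⊤ := by
      intro htop
      have h0 : φ (Pi.single i 1) = 0 := by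
        rw [← LinearMap.mem_ker, htop]; trivial
      rw [hφ] at h0
      simp [hik.symm] at h0
      exact hwk.ne' h0
    refine measure_mono_null ?_ (Measure.addHaar_submodule volume (LinearMap.ker φ) hker)
    rintro u ⟨⟨v, hv, rfl⟩, ⟨v', hv', hvv'⟩⟩
    rw [SetLike.mem_coe, LinearMap.mem_ker, hφ]
    apply le_antisymm
    · have h1 : coneMap w i v k = v k + v i * w k := coneMap_apply_ne w hik.symm v
      have h2 := coneMap_apply_same w i v
      have h3 := hv.1 k
      rw [h1, h2]
      linarith only [mul_nonneg (le_of_lt (sub_pos.2 hwi)) (sub_nonneg.2 h3)]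
    · rw [← hvv']
      have h1 : coneMap w k v' i = v' i + v' k * w i := coneMap_apply_ne w hik v'
      have h2 := coneMap_apply_same w k v'
      have h3 := hv'.1 i
      rw [h1, h2]
      linarith only [mul_nonneg (le_of_lt (sub_pos.2 hwk)) (sub_nonneg.2 h3)]
  rw [hsum]
  calc ∑ i ∈ P, ENNReal.ofReal (w i) * volume (body g (J.erase i))
      = ∑ i ∈ P, volume (coneMap w i '' body g (J.erase i)) :=
        Finset.sum_congr rfl fun i hi => (himg i hi).symm
    _ = volume (⋃ i ∈ P, coneMap w i '' body g (J.erase i)) :=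
        (measure_biUnion_finset₀ hdisj fun i hi => (hmeas i hi).nullMeasurableSet).symm
    _ ≤ volume (body g J) := by
        refine measure_mono ?_
        refine iUnion₂_subset fun i hi => ?_
        exact coneMap_image_subset hg hw hwJ hgw (Finset.mem_filter.mp hi).1

end Vale.Agent.P248
end
end
end

section

section

section

set_option linter.unusedSectionVars false

open MeasureTheory Set
open scoped ENNReal Topology Pointwise

namespace Vale.Agent.P248

variable {ι : Type*} [Fintype ι] [DecidableEq ι]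

theorem Sublin.map_zero {g : (ι → ℝ) → ℝ} (hg : Sublin g) : g 0 = 0 := by
  have := hg.smul_eq 0 le_rfl 0
  simpa using this

theorem gauge_sublin {S : Set (ι → ℝ)} (hS : Convex ℝ S) (h0 : S ∈ 𝓝 0) : Sublin (gauge S) where
  cont := continuous_gauge hS h0
  add_le := gauge_add_le hS (absorbent_nhds_zero h0)
  smul_eq := fun r hr x => by rw [gauge_smul_of_nonneg hr, smul_eq_mul]

/-- Diagonal maps. -/
noncomputable def diagMap (c : ι → ℝ) : (ι → ℝ) →ₗ[ℝ] (ι → ℝ) := Matrix.toLin' (Matrix.diagonal c)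

theorem diagMap_apply (c x : ι → ℝ) (i : ι) : diagMap c x i = c i * x i := by
  simp [diagMap, Matrix.toLin'_apply, Matrix.mulVec_diagonal]

theorem diagMap_det (c : ι → ℝ) : LinearMap.det (diagMap c) = ∏ i, c i := by
  simp only [diagMap, LinearMap.det_toLin', Matrix.det_diagonal]

theorem diagMap_image_isClosed {c : ι → ℝ} (hc : ∀ i, c i ≠ 0) {S : Set (ι → ℝ)} (hS : IsClosed S) :
    IsClosed (diagMap c '' S) := by
  have hdet : LinearMap.det (diagMap c) ≠ 0 := by
    rw [diagMap_det]; exact Finset.prod_ne_zero_iff.mpr fun i _ => hc i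
  exact (LinearMap.equivOfDetNeZero (diagMap c)
        hdet).toContinuousLinearEquiv.toHomeomorph.isClosedMap _ hS

theorem volume_coord_zero (i : ι) : volume {x : ι → ℝ | x i = 0} = 0 := by
  have hker : LinearMap.ker (LinearMap.proj i : (ι → ℝ) →ₗ[ℝ] ℝ) ≠ ⊤ := by
    intro htop
    have h0 : (LinearMap.proj i : (ι → ℝ) →ₗ[ℝ] ℝ) (Pi.single i 1) = 0 := by
      rw [← LinearMap.mem_ker, htop]; trivial
    simp at h0
  have := Measure.addHaar_submodule volume _ hker
  refine measure_mono_null ?_ this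
  intro x hx
  simpa using hx

/-- Sign patterns. -/
noncomputable def sgn (z : ι → ℝ) (J : Finset ι) : ι → ℝ := fun i => if i ∈ J then 1 else -(z i)⁻¹

theorem sgn_prod (z : ι → ℝ) (hz : ∀ i, 0 < z i) (J : Finset ι) :
    |∏ i, sgn z J i| = ∏ i ∈ Jᶜ, (z i)⁻¹ := by
  rw [Finset.abs_prod, ← Finset.prod_mul_prod_compl J]
  have h1 : ∏ i ∈ J, |sgn z J i| = 1 := by
    refine Finset.prod_eq_one fun i hi => ?_
    simp [sgn, hi]
  rw [h1, one_mul]
  refine Finset.prod_congr rfl fun i hi => ?_
  have := hz i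
  simp [sgn, Finset.mem_compl.mp hi, abs_of_pos this]

theorem orthant_lemma {z : ι → ℝ} (hz : ∀ i, 0 < z i) (S : Finset ι → Set (ι → ℝ))
    (hS : ∀ J, IsClosed (S J)) (hS0 : ∀ J, ∀ x ∈ S J, ∀ i, 0 ≤ x i) (C : Set (ι → ℝ))
    (hC : ∀ J, diagMap (sgn z J) '' S J ⊆ C) :
    ∑ J, ENNReal.ofReal (∏ i ∈ Jᶜ, (z i)⁻¹) * volume (S J) ≤ volume C := by
  have hne : ∀ J i, sgn z J i ≠ 0 := fun J i => by
    have := (hz i).ne'
    by_cases h : i ∈ J <;> simp [sgn, h, this]
  have himg : ∀ J, volume (diagMap (sgn z J) '' S J) =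
      ENNReal.ofReal (∏ i ∈ Jᶜ, (z i)⁻¹) * volume (S J) := fun J => by
    rw [Measure.addHaar_image_linearMap, diagMap_det, sgn_prod z hz]
  have hmeas : ∀ J, MeasurableSet (diagMap (sgn z J) '' S J) := fun J =>
    (diagMap_image_isClosed (hne J) (hS J)).measurableSet
  have key : ∀ J J' : Finset ι, ∀ i, i ∈ J → i ∉ J' →
      (diagMap (sgn z J) '' S J) ∩ (diagMap (sgn z J') '' S J') ⊆ {x | x i = 0} := by
    rintro J J' i hi hi' _ ⟨⟨u, hu, rfl⟩, ⟨u', hu', h⟩⟩
    have h1 : diagMap (sgn z J) u i = u i := by rw [diagMap_apply]; simp [sgn, hi]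
    have h2 : diagMap (sgn z J') u' i = -(z i)⁻¹ * u' i := by rw [diagMap_apply]; simp [sgn, hi']
    have h3 := hS0 J u hu i
    have h4 := hS0 J' u' hu' i
    have h5 := inv_pos.mpr (hz i)
    have h6 : diagMap (sgn z J) u i = diagMap (sgn z J') u' i := by rw [h]
    simp only [mem_setOf_eq]
    rw [h1]
    rw [h1, h2] at h6
    nlinarith only [h3, h6, h5, h4]
  have hdisj : Set.Pairwise (↑(Finset.univ : Finset (Finset ι))) (fun J J' => AEDisjoint volume
      (diagMap (sgn z J) '' S J) (diagMap (sgn z J') '' S J')) := by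
    intro J _ J' _ hJJ'
    have : ∃ i, (i ∈ J ∧ i ∉ J') ∨ (i ∈ J' ∧ i ∉ J) := by
      by_contra hcon
      push Not at hcon
      apply hJJ'
      ext i
      exact ⟨(hcon i).1, (hcon i).2⟩
    obtain ⟨i, hi | hi⟩ := this
    · exact measure_mono_null (key J J' i hi.1 hi.2) (volume_coord_zero i)
    · rw [AEDisjoint, inter_comm]
      exact measure_mono_null (key J' J i hi.1 hi.2) (volume_coord_zero i)
  calc ∑ J, ENNReal.ofReal (∏ i ∈ Jᶜ, (z i)⁻¹) * volume (S J)
      = ∑ J, volume (diagMap (sgn z J) '' S J) := Finset.sum_congr rfl fun J _ => (himg J).symm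
    _ = volume (⋃ J ∈ (Finset.univ : Finset (Finset ι)), diagMap (sgn z J) '' S J) :=
        (measure_biUnion_finset₀ hdisj fun J _ => (hmeas J).nullMeasurableSet).symm
    _ ≤ volume C := by
        refine measure_mono (iUnion₂_subset fun J _ => hC J)

/-- The standard simplex. -/
def stdS (ι : Type*) [Fintype ι] : Set (ι → ℝ) := {x | (∀ i, 0 ≤ x i) ∧ ∑ i, x i ≤ 1}

theorem body_empty {g : (ι → ℝ) → ℝ} (hg : Sublin g) : body g ∅ = stdS ι := by
  ext x
  have h : res ∅ x = 0 := by ext i; simp [res]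
  simp only [body, Finset.compl_empty, mem_ofPred_eq, h, hg.map_zero, zero_add, stdS]

theorem stdS_isClosed : IsClosed (stdS ι) := by
  have h1 : IsClosed {x : ι → ℝ | ∀ i, 0 ≤ x i} := by
    have : {x : ι → ℝ | ∀ i, 0 ≤ x i} = ⋂ i, {x : ι → ℝ | 0 ≤ x i} := by
      ext x; simp only [mem_ofPred_eq, mem_iInter]
    rw [this]
    exact isClosed_iInter fun i => isClosed_le continuous_const (continuous_apply i)
  have h2 : IsClosed {x : ι → ℝ | ∑ i, x i ≤ 1} :=
    isClosed_le (continuous_finsetSum _ fun i _ => continuous_apply i) continuous_const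
  exact h1.inter h2

theorem volume_stdS_ge :
    ENNReal.ofReal (1 / (Fintype.card ι).factorial) ≤ volume (stdS ι) := by
  set n := Fintype.card ι with hn
  have h1 := MeasureTheory.volume_sum_rpow_lt_one ι (le_refl (1 : ℝ))
  have hcov : {x : ι → ℝ | ∑ i, |x i| ^ (1 : ℝ) < 1} ⊆
      ⋃ J : Finset ι, diagMap (sgn (fun _ => 1) J) '' stdS ι := by
    intro x hx
    simp only [Real.rpow_one, mem_setOf_eq] at hx
    refine mem_iUnion.mpr ⟨Finset.univ.filter (fun i => 0 ≤ x i), fun i => |x i|, ⟨fun i => abs_nonneg _,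
      hx.le⟩, ?_⟩
    ext i
    rw [diagMap_apply]
    by_cases h : 0 ≤ x i
    · simp only [sgn, Finset.mem_filter, Finset.mem_univ, h, and_self, ↓reduceIte, abs_of_nonneg h, one_mul]
    · simp only [sgn, Finset.mem_filter, Finset.mem_univ, h, and_false, ↓reduceIte, inv_one, abs_of_neg (not_le.mp h), mul_neg, neg_mul, one_mul, neg_neg]
  have h2 : ∀ J : Finset ι, volume (diagMap (sgn (fun _ => 1) J) '' stdS ι) = volume (stdS ι) := by
    intro J
    rw [Measure.addHaar_image_linearMap, diagMap_det, sgn_prod _ (fun _ => one_pos)]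
    simp
  have h3 : volume {x : ι → ℝ | ∑ i, |x i| ^ (1 : ℝ) < 1} ≤ 2 ^ n * volume (stdS ι) := by
    calc volume {x : ι → ℝ | ∑ i, |x i| ^ (1 : ℝ) < 1}
        ≤ volume (⋃ J : Finset ι, diagMap (sgn (fun _ => 1) J) '' stdS ι) := measure_mono hcov
      _ ≤ ∑ J : Finset ι, volume (diagMap (sgn (fun _ => 1) J) '' stdS ι) :=
          measure_iUnion_fintype_le _ _
      _ = 2 ^ n * volume (stdS ι) := by
          rw [Finset.sum_congr rfl fun J _ => h2 J]
          simp only [Finset.sum_const, Finset.card_univ, Fintype.card_finset, nsmul_eq_mul, Nat.cast_pow, Nat.cast_ofNat, hn]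
  rw [h1] at h3
  have h4 : (2 * Real.Gamma (1 / 1 + 1)) ^ Fintype.card ι /
      Real.Gamma (Fintype.card ι / 1 + 1) = 2 ^ n * (1 / (n.factorial : ℝ)) := by
    have e1 : (1 : ℝ) / 1 + 1 = 2 := by norm_num
    rw [e1, Real.Gamma_two, div_one, ← hn, Real.Gamma_nat_eq_factorial]
    ring
  rw [h4, ENNReal.ofReal_mul (by positivity)] at h3
  have h5 : ENNReal.ofReal ((2 : ℝ) ^ n) = 2 ^ n := by
    rw [ENNReal.ofReal_pow (by norm_num)]; norm_num
  rw [h5] at h3
  exact (ENNReal.mul_le_mul_iff_right (by positivity) (by finiteness)).mp h3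

end Vale.Agent.P248
end
end
end

section

section

section

set_option linter.unusedSectionVars false

open MeasureTheory Set
open scoped ENNReal Topology Pointwise

namespace Vale.Agent.P248

variable {ι : Type*} [Fintype ι] [DecidableEq ι]

/-- The polar set of K with respect to the point z. -/
def polarP (K : Set (ι → ℝ)) (z : ι → ℝ) : Set (ι → ℝ) :=
  {y | ∀ x ∈ K, ∑ i, (x i - z i) * y i ≤ 1}

/-- Anti-blocking sets in the nonnegative orthant. -/
structure IsAB (K : Set (ι → ℝ)) : Prop where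
  nonneg : ∀ x ∈ K, ∀ i, 0 ≤ x i
  down : ∀ x ∈ K, ∀ y : ι → ℝ, (∀ i, 0 ≤ y i ∧ y i ≤ x i) → y ∈ K

/-- The unconditional hull. -/
def absB (K : Set (ι → ℝ)) : Set (ι → ℝ) := {x | (fun i => |x i|) ∈ K}

theorem absB_convex {K : Set (ι → ℝ)} (hK : Convex ℝ K) (hAB : IsAB K) : Convex ℝ (absB K) := by
  intro x hx y hy a b ha hb hab
  have h1 := hK hx hy ha hb hab
  refine hAB.down _ h1 _ fun i => ⟨abs_nonneg _, ?_⟩
  simp only [Pi.add_apply, Pi.smul_apply, smul_eq_mul]
  calc |a * x i + b * y i| ≤ |a * x i| + |b * y i| := abs_add_le _ _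
    _ = a * |x i| + b * |y i| := by rw [abs_mul, abs_mul, abs_of_nonneg ha, abs_of_nonneg hb]

theorem absB_mem_nhds {K : Set (ι → ℝ)} (hAB : IsAB K) {z : ι → ℝ} (hz : z ∈ K)
    (hzpos : ∀ i, 0 < z i) : absB K ∈ 𝓝 0 := by
  have h1 : ∀ᶠ x : ι → ℝ in 𝓝 0, ∀ i, |x i| < z i := by
    rw [Filter.eventually_all]
    intro i
    have hc : Continuous (fun x : ι → ℝ => |x i|) := (continuous_apply i).abs
    have : Filter.Tendsto (fun x : ι → ℝ => |x i|) (𝓝 0) (𝓝 (|(0 : ι → ℝ) i|)) := hc.tendsto 0
    simp only [Pi.zero_apply, abs_zero] at this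
    exact this.eventually_lt_const (hzpos i)
  filter_upwards [h1] with x hx
  exact hAB.down z hz _ fun i => ⟨abs_nonneg _, (hx i).le⟩

theorem absB_isClosed {K : Set (ι → ℝ)} (hK : IsClosed K) : IsClosed (absB K) := by
  have : Continuous (fun x : ι → ℝ => fun i => |x i|) :=
    continuous_pi fun i => (continuous_apply i).abs
  exact hK.preimage this

theorem absB_isBounded {K : Set (ι → ℝ)} (hK : Bornology.IsBounded K) :
    Bornology.IsBounded (absB K) := by
  obtain ⟨M, hM⟩ := isBounded_iff_forall_norm_le.mp hK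
  refine isBounded_iff_forall_norm_le.mpr ⟨M, fun x hx => ?_⟩
  have h1 := hM _ hx
  have h0 : 0 ≤ M := (norm_nonneg _).trans h1
  rw [pi_norm_le_iff_of_nonneg h0] at h1 ⊢
  intro i
  have := h1 i
  simpa only [Real.norm_eq_abs, ge_iff_le, abs_abs] using this

theorem interior_pos {K : Set (ι → ℝ)} (h : ∀ x ∈ K, ∀ i, 0 ≤ x i) {z : ι → ℝ}
    (hz : z ∈ interior K) (i : ι) : 0 < z i := by
  have hK : K ∈ 𝓝 z := mem_interior_iff_mem_nhds.mp hz
  have hc : Continuous (fun t : ℝ => z - t • (Pi.single i (1 : ℝ) : ι → ℝ)) := by fun_prop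
  have h0 : Filter.Tendsto (fun t : ℝ => z - t • (Pi.single i (1 : ℝ) : ι → ℝ)) (𝓝 0) (𝓝 z) := by
    have := hc.tendsto 0
    simpa only [zero_smul, sub_zero] using this
  have h1 : ∀ᶠ t : ℝ in 𝓝 0, z - t • (Pi.single i (1 : ℝ) : ι → ℝ) ∈ K := h0 hK
  obtain ⟨ε, hε, hball⟩ := Metric.eventually_nhds_iff.mp h1
  have h2 := hball (y := ε / 2) (by rw [Real.dist_eq]; rw [sub_zero, abs_of_pos (by positivity)]; linarith)
  have h3 := h _ h2 i
  simp only [Pi.sub_apply, Pi.smul_apply, Pi.single_eq_same, smul_eq_mul, mul_one, sub_nonneg] at h3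
  linarith only [hε, h3]

theorem exists_smul_mem {K : Set (ι → ℝ)} {z : ι → ℝ} (hz : z ∈ interior K) :
    ∃ t : ℝ, 1 < t ∧ t • z ∈ K := by
  have hK : K ∈ 𝓝 z := mem_interior_iff_mem_nhds.mp hz
  have hc : Continuous (fun t : ℝ => t • z) := by fun_prop
  have h0 : Filter.Tendsto (fun t : ℝ => t • z) (𝓝 1) (𝓝 z) := by
    have := hc.tendsto 1
    simpa only [one_smul] using this
  have h1 : ∀ᶠ t : ℝ in 𝓝 1, t • z ∈ K := h0 hK
  obtain ⟨ε, hε, hball⟩ := Metric.eventually_nhds_iff.mp h1
  refine ⟨1 + ε / 2, by linarith, hball ?_⟩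
  rw [Real.dist_eq]
  have : (1 : ℝ) + ε / 2 - 1 = ε / 2 := by ring
  rw [this, abs_of_pos (by positivity)]; linarith only [hε]

theorem body_isBounded {g : (ι → ℝ) → ℝ} (hnn : ∀ x, 0 ≤ g x)
    (hb : Bornology.IsBounded {x | g x ≤ 1}) (J : Finset ι) : Bornology.IsBounded (body g J) := by
  obtain ⟨M, hM⟩ := isBounded_iff_forall_norm_le.mp hb
  refine isBounded_iff_forall_norm_le.mpr ⟨max M 1, fun u hu => ?_⟩
  have h0 : (0 : ℝ) ≤ max M 1 := le_max_of_le_right zero_le_one
  rw [pi_norm_le_iff_of_nonneg h0]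
  intro i
  have hs : 0 ≤ ∑ i ∈ Jᶜ, u i := Finset.sum_nonneg fun i _ => hu.1 i
  by_cases hi : i ∈ J
  · have h1 : g (res J u) ≤ 1 := by have := hu.2; linarith
    have h2 := hM _ h1
    have h3 := norm_le_pi_norm (res J u) i
    have h4 : res J u i = u i := by simp [res, hi]
    rw [h4] at h3
    exact (h3.trans h2).trans (le_max_left _ _)
  · have h1 := hnn (res J u)
    have h2 : u i ≤ ∑ i ∈ Jᶜ, u i :=
      Finset.single_le_sum (f := u) (fun i _ => hu.1 i) (Finset.mem_compl.mpr hi)
    have h3 := hu.2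
    rw [Real.norm_eq_abs, abs_of_nonneg (hu.1 i)]
    exact le_max_of_le_right (by linarith only [h1, h2, h3])

theorem body_volume_pos {g : (ι → ℝ) → ℝ} (hg : Sublin g) (J : Finset ι) :
    0 < volume (body g J) := by
  set U : Set (ι → ℝ) := {x | (∀ i, 0 < x i) ∧ g (res J x) + ∑ i ∈ Jᶜ, x i < 1} with hU
  have hUo : IsOpen U := by
    have h1 : IsOpen {x : ι → ℝ | ∀ i, 0 < x i} := by
      have : {x : ι → ℝ | ∀ i, 0 < x i} = ⋂ i, {x : ι → ℝ | 0 < x i} := by
        ext x; simp only [mem_ofPred_eq, mem_iInter]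
      rw [this]
      exact isOpen_iInter_of_finite fun i => isOpen_lt continuous_const (continuous_apply i)
    have h2 : IsOpen {x : ι → ℝ | g (res J x) + ∑ i ∈ Jᶜ, x i < 1} :=
      isOpen_lt ((hg.cont.comp (res_continuous J)).add
        (continuous_finsetSum _ fun i _ => continuous_apply i)) continuous_const
    exact h1.inter h2
  have hUn : U.Nonempty := by
    set a : ℝ := |g (res J (fun _ => 1))| + (Jᶜ.card : ℝ) + 1 with ha
    have hapos : 0 < a := by (clear * -; positivity)
    refine ⟨fun _ => a⁻¹, fun i => by (clear * -; positivity), ?_⟩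
    have h1 : res J (fun _ => a⁻¹) = a⁻¹ • res J (fun _ : ι => (1 : ℝ)) := by
      ext i; by_cases hi : i ∈ J <;> simp [res, hi]
    rw [h1, hg.smul_eq _ (by (clear * -; positivity))]
    simp only [Finset.sum_const, nsmul_eq_mul]
    have h2 : g (res J (fun _ => 1)) ≤ |g (res J (fun _ => 1))| := le_abs_self _
    have h3 : a⁻¹ * g (res J fun x => 1) + (Jᶜ.card : ℝ) * a⁻¹ ≤ a⁻¹ * (a - 1) := by
      rw [mul_comm (Jᶜ.card : ℝ), ← mul_add]
      gcongr
      rw [ha]; linarith only [h2]
    have h4 : a⁻¹ * (a - 1) < 1 := by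
      rw [mul_sub, inv_mul_cancel₀ hapos.ne']
      have : 0 < a⁻¹ := by (clear * -; positivity)
      linarith only [this]
    linarith only [h4, h3]
  exact (hUo.measure_pos volume hUn).trans_le
    (measure_mono fun x hx => ⟨fun i => (hx.1 i).le, hx.2.le⟩)

theorem cone_lemma_real {g : (ι → ℝ) → ℝ} (hg : Sublin g)
    (hfin : ∀ J, volume (body g J) ≠ ∞) {J : Finset ι} {w : ι → ℝ}
    (hw : ∀ i, 0 ≤ w i) (hwJ : ∀ i, i ∉ J → w i = 0) (hgw : g w ≤ 1) :
    ∑ i ∈ J, w i * (volume (body g (J.erase i))).toReal ≤ (volume (body g J)).toReal := by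
  have h := cone_lemma hg hw hwJ hgw
  have h2 := ENNReal.toReal_mono (hfin J) h
  rw [ENNReal.toReal_sum (fun i _ => ENNReal.mul_ne_top ENNReal.ofReal_ne_top (hfin _))] at h2
  refine le_trans (le_of_eq ?_) h2
  refine Finset.sum_congr rfl fun i _ => ?_
  rw [ENNReal.toReal_mul, ENNReal.toReal_ofReal (hw i)]

theorem polarP_convex (K : Set (ι → ℝ)) (z : ι → ℝ) : Convex ℝ (polarP K z) := by
  intro y hy y' hy' a b ha hb hab x hx
  have h1 := hy x hx
  have h2 := hy' x hx
  calc ∑ i, (x i - z i) * (a • y + b • y') i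
      = a * ∑ i, (x i - z i) * y i + b * ∑ i, (x i - z i) * y' i := by
        rw [Finset.mul_sum, Finset.mul_sum, ← Finset.sum_add_distrib]
        refine Finset.sum_congr rfl fun i _ => ?_
        simp only [Pi.add_apply, Pi.smul_apply, smul_eq_mul]; ring
    _ ≤ a * 1 + b * 1 := by (clear * - h1 ha h2 hb; gcongr)
    _ = 1 := by linarith only [hab]

theorem polarP_isClosed (K : Set (ι → ℝ)) (z : ι → ℝ) : IsClosed (polarP K z) := by
  have : polarP K z = ⋂ x ∈ K, {y | ∑ i, (x i - z i) * y i ≤ 1} := by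
    ext y; simp only [polarP, mem_ofPred_eq, mem_iInter]
  rw [this]
  refine isClosed_biInter fun x _ => isClosed_le ?_ continuous_const
  fun_prop

theorem polarP_mem_nhds {K : Set (ι → ℝ)} (hK : Bornology.IsBounded K) (z : ι → ℝ) :
    polarP K z ∈ 𝓝 0 := by
  obtain ⟨M, hM⟩ := isBounded_iff_forall_norm_le.mp hK
  set a : ℝ := (Fintype.card ι : ℝ) * (|M| + ‖z‖) + 1 with ha
  have hapos : 0 < a := by (clear * -; positivity)
  refine Filter.mem_of_superset (Metric.ball_mem_nhds 0 (inv_pos.mpr hapos)) fun y hy x hx => ?_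
  rw [mem_ball_zero_iff] at hy
  have hx' := hM x hx
  calc ∑ i, (x i - z i) * y i ≤ ∑ i : ι, (|M| + ‖z‖) * a⁻¹ := by
        refine Finset.sum_le_sum fun i _ => ?_
        have h1 : |x i - z i| ≤ |M| + ‖z‖ := by
          have e1 := norm_le_pi_norm x i
          have e2 := norm_le_pi_norm z i
          rw [Real.norm_eq_abs] at e1 e2
          calc |x i - z i| ≤ |x i| + |z i| := abs_sub _ _
            _ ≤ _ := by have := le_abs_self M; linarith only [hx', e1, e2, this]
        have h2 : |y i| ≤ a⁻¹ := by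
          have e1 := norm_le_pi_norm y i
          rw [Real.norm_eq_abs] at e1
          linarith only [hy, e1]
        calc (x i - z i) * y i ≤ |(x i - z i) * y i| := le_abs_self _
          _ = |x i - z i| * |y i| := abs_mul _ _
          _ ≤ _ := by (clear * - h1 h2; gcongr)
    _ = (Fintype.card ι : ℝ) * (|M| + ‖z‖) * a⁻¹ := by
        rw [Finset.sum_const, Finset.card_univ, nsmul_eq_mul]; ring
    _ ≤ a * a⁻¹ := by
        gcongr; rw [ha]; linarith only []
    _ = 1 := mul_inv_cancel₀ hapos.ne'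

theorem polarP_isBounded {K : Set (ι → ℝ)} {z : ι → ℝ} (hz : z ∈ interior K) :
    Bornology.IsBounded (polarP K z) := by
  have hK : K ∈ 𝓝 z := mem_interior_iff_mem_nhds.mp hz
  obtain ⟨ε, hε, hball⟩ := Metric.mem_nhds_iff.mp hK
  refine isBounded_iff_forall_norm_le.mpr ⟨(ε / 2)⁻¹, fun y hy => ?_⟩
  rw [pi_norm_le_iff_of_nonneg (by positivity)]
  intro i
  have key : ∀ s : ℝ, |s| = ε / 2 → s * y i ≤ 1 := by
    intro s hs
    have hmem : z + Pi.single i s ∈ K := by
      apply hball
      rw [mem_ball_iff_norm, add_sub_cancel_left, Pi.norm_single, Real.norm_eq_abs, hs]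
      linarith only [hε]
    have := hy _ hmem
    simpa only [ge_iff_le, Pi.add_apply, Pi.single_apply, add_sub_cancel_left, ite_mul, zero_mul,     Finset.sum_ite_eq', Finset.mem_univ, ↓reduceIte] using this
  rw [Real.norm_eq_abs, abs_le]
  have h1 := key (ε / 2) (abs_of_pos (by positivity))
  have h2 := key (-(ε / 2)) (by rw [abs_neg]; exact abs_of_pos (by positivity))
  have e : (0 : ℝ) < ε / 2 := by positivity
  constructor
  · rw [neg_le, inv_eq_one_div, le_div_iff₀ e]; linarith only [h2]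
  · rw [inv_eq_one_div, le_div_iff₀ e]; linarith only [h1]

end Vale.Agent.P248
end
end
end

section

section

section

/-! Polytopes in `ℝ³` with a vertex and a facet description. -/

set_option linter.unusedSectionVars false

open MeasureTheory Set
open scoped ENNReal Topology Matrix

namespace Vale.Agent.P248

abbrev V3 := Fin 3 → ℝ

/-- The Mahler inequality of dimension three at every interior point. -/
def Good (K : Set V3) : Prop :=
  ∀ z ∈ interior K, ENNReal.ofReal (64 / 9) ≤ volume K * volume (polarP K z)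

/-- `conv p` is cut out by the half-spaces `⟨q j, x⟩ ≤ 1`. -/
def Pres {ι κ : Type} (p : ι → V3) (q : κ → V3) : Prop :=
  convexHull ℝ (range p) = {x | ∀ j, q j ⬝ᵥ x ≤ 1}

/-- No point and no half-space can be dropped. -/
structure Irred {ι κ : Type} (p : ι → V3) (q : κ → V3) : Prop where
  pt : ∀ i, ¬ Pres (fun i' : {i' : ι // i' ≠ i} => p i'.1) q
  hs : ∀ j, ¬ Pres p (fun j' : {j' : κ // j' ≠ j} => q j'.1)

/-- Number of incidences. -/
noncomputable def inc {ι κ : Type} [Fintype ι] [Fintype κ] (p : ι → V3) (q : κ → V3) : ℕ :=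
  Nat.card {ij : ι × κ // q ij.2 ⬝ᵥ p ij.1 = 1}

end Vale.Agent.P248
end
end
end

section

section

section

/-! Basic facts on double presentations. -/

set_option linter.unusedSectionVars false

open MeasureTheory Set
open scoped ENNReal Topology Matrix

namespace Vale.Agent.P248

theorem exists_dot (f : V3 →ₗ[ℝ] ℝ) : ∃ x0 : V3, ∀ a, f a = x0 ⬝ᵥ a := by
  refine ⟨fun i => f (Pi.single i 1), fun a => ?_⟩
  have h1 : a = ∑ i, a i • (Pi.single i (1 : ℝ) : V3) := by
    ext j
    simp only [Finset.sum_apply, Pi.smul_apply, Pi.single_apply, smul_eq_mul, mul_ite, mul_one, mul_zero, Finset.sum_ite_eq, Finset.mem_univ, ↓reduceIte]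
  conv_lhs => rw [h1]
  rw [map_sum]
  simp only [dotProduct]
  refine Finset.sum_congr rfl fun i _ => ?_
  rw [map_smul, smul_eq_mul, mul_comm]

section

variable {ι : Type}

/-- Points of `conv p` satisfy all inequalities that the `p i` satisfy. -/
theorem hull_le {p : ι → V3} {y : V3} {c : ℝ} (h : ∀ i, p i ⬝ᵥ y ≤ c) {x : V3}
    (hx : x ∈ convexHull ℝ (range p)) : x ⬝ᵥ y ≤ c := by
  have h1 : convexHull ℝ (range p) ⊆ {x | x ⬝ᵥ y ≤ c} := by
    refine convexHull_min ?_ ?_
    · rintro _ ⟨i, rfl⟩; exact h i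
    · intro u hu v hv s t hs ht hst
      simp only [mem_ofPred_eq] at hu hv ⊢
      rw [add_dotProduct, smul_dotProduct, smul_dotProduct, smul_eq_mul, smul_eq_mul]
      calc s * (u ⬝ᵥ y) + t * (v ⬝ᵥ y) ≤ s * c + t * c := by (clear * - hu hs hv ht; gcongr)
        _ = c := by rw [← add_mul, hst, one_mul]
  exact h1 hx

theorem hull_le' {p : ι → V3} {y : V3} {c : ℝ} (h : ∀ i, y ⬝ᵥ p i ≤ c) {x : V3}
    (hx : x ∈ convexHull ℝ (range p)) : y ⬝ᵥ x ≤ c := by
  rw [dotProduct_comm]
  exact hull_le (fun i => by rw [dotProduct_comm]; exact h i) hx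

/-- Explicit convex combinations. -/
theorem mem_hull_iff [Fintype ι] {p : ι → V3} {x : V3} : x ∈ convexHull ℝ (range p) ↔
    ∃ w : ι → ℝ, (∀ i, 0 ≤ w i) ∧ ∑ i, w i = 1 ∧ ∑ i, w i • p i = x := by
  classical
  constructor
  · intro hx
    have h1 : convexHull ℝ (range p) ⊆
        {x | ∃ w : ι → ℝ, (∀ i, 0 ≤ w i) ∧ ∑ i, w i = 1 ∧ ∑ i, w i • p i = x} := by
      refine convexHull_min ?_ ?_
      · rintro _ ⟨i, rfl⟩
        refine ⟨Pi.single i 1, fun j => ?_, by simp only [Finset.sum_pi_single', Finset.mem_univ, ↓reduceIte], ?_⟩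
        · by_cases h : j = i
          · subst h; simp only [Pi.single_eq_same, zero_le_one]
          · simp [h]
        · rw [Finset.sum_eq_single i]
          · simp
          · intro j _ hj; simp [hj]
          · simp only [Finset.mem_univ, not_true_eq_false, Pi.single_eq_same, one_smul, IsEmpty.forall_iff]
      · rintro _ ⟨w, hw0, hw1, rfl⟩ _ ⟨v, hv0, hv1, rfl⟩ s t hs ht hst
        refine ⟨fun i => s * w i + t * v i, fun i => ?_, ?_, ?_⟩
        · have := hw0 i; have := hv0 i; (clear p x hx hw1 hv1 hst; positivity)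
        · rw [Finset.sum_add_distrib, ← Finset.mul_sum, ← Finset.mul_sum, hw1, hv1]; linarith only [hst]
        · rw [Finset.smul_sum, Finset.smul_sum, ← Finset.sum_add_distrib]
          refine Finset.sum_congr rfl fun i _ => ?_
          rw [add_smul, mul_smul, mul_smul]
    exact h1 hx
  · rintro ⟨w, hw0, hw1, rfl⟩
    exact (convex_convexHull ℝ _).sum_mem (fun i _ => hw0 i) hw1
      fun i _ => subset_convexHull ℝ _ ⟨i, rfl⟩

theorem isCompact_hull [Finite ι] (p : ι → V3) : IsCompact (convexHull ℝ (range p)) :=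
  (finite_range p).isCompact_convexHull (𝕜 := ℝ)

theorem hull_translate (p : ι → V3) (z : V3) :
    convexHull ℝ (range fun i => p i - z) = (fun x => x - z) '' (convexHull ℝ (range p)) := by
  have h1 : (range fun i => p i - z) = (AffineEquiv.constVAdd ℝ V3 (-z)) '' (range p) := by
    rw [← range_comp]
    congr 1
    ext i : 1
    simp [sub_eq_neg_add]
  have h2 : (fun x : V3 => x - z) = (AffineEquiv.constVAdd ℝ V3 (-z)) := by
    ext x : 1
    simp [sub_eq_neg_add]
  rw [h1, h2]
  exact ((AffineEquiv.constVAdd ℝ V3 (-z)).toAffineMap.image_convexHull (range p)).symm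

theorem mem_hull_translate {p : ι → V3} {z x : V3} :
    x ∈ convexHull ℝ (range fun i => p i - z) ↔ x + z ∈ convexHull ℝ (range p) := by
  rw [hull_translate]
  constructor
  · rintro ⟨y, hy, rfl⟩; simpa using hy
  · intro h; exact ⟨x + z, h, by simp⟩

end

variable {ι κ : Type}

theorem Pres.le {p : ι → V3} {q : κ → V3} (h : Pres p q) (i : ι) (j : κ) : q j ⬝ᵥ p i ≤ 1 := by
  have h1 : p i ∈ convexHull ℝ (range p) := subset_convexHull ℝ _ ⟨i, rfl⟩
  rw [h] at h1
  exact h1 j

theorem Pres.mem_iff {p : ι → V3} {q : κ → V3} (h : Pres p q) {x : V3} :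
    x ∈ convexHull ℝ (range p) ↔ ∀ j, q j ⬝ᵥ x ≤ 1 := by
  rw [h]; rfl

theorem Pres.exists_pos [Finite ι] {p : ι → V3} {q : κ → V3} (h : Pres p q) {e : V3} (he : e ≠ 0) :
    ∃ j, 0 < q j ⬝ᵥ e := by
  by_contra hcon
  push Not at hcon
  obtain ⟨M, hM⟩ := isBounded_iff_forall_norm_le.mp (isCompact_hull p).isBounded
  have h1 : ∀ t : ℝ, 0 ≤ t → t • e ∈ convexHull ℝ (range p) := by
    intro t ht
    rw [h.mem_iff]
    intro j
    rw [dotProduct_smul, smul_eq_mul]
    have := mul_nonneg ht (neg_nonneg.mpr (hcon j))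
    linarith
  have h2 := hM _ (h1 ((|M| + 1) / ‖e‖) (by positivity))
  rw [norm_smul, Real.norm_eq_abs, abs_of_nonneg (by positivity),
    div_mul_cancel₀ _ (norm_ne_zero_iff.mpr he)] at h2
  have := le_abs_self M
  linarith

theorem Pres.dual [Finite ι] [Finite κ] {p : ι → V3} {q : κ → V3} (h : Pres p q) : Pres q p := by
  apply Subset.antisymm
  · intro y hy i
    rw [dotProduct_comm]
    exact hull_le (fun j => h.le i j) hy
  · intro y hy
    by_contra hcon
    obtain ⟨f, u, hf1, hf2⟩ := geometric_hahn_banach_closed_point (convex_convexHull ℝ (range q))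
      (isCompact_hull q).isClosed hcon
    obtain ⟨x0, hx0⟩ := exists_dot (f : V3 →ₗ[ℝ] ℝ)
    have hfx : ∀ a, f a = x0 ⬝ᵥ a := hx0
    have hq : ∀ j, q j ⬝ᵥ x0 < u := by
      intro j
      rw [dotProduct_comm, ← hfx]
      exact hf1 _ (subset_convexHull ℝ _ ⟨j, rfl⟩)
    rw [hfx] at hf2
    have hu : 0 < u := by
      by_cases hx : x0 = 0
      · obtain ⟨j, hj⟩ := h.exists_pos (e := fun _ => 1) (fun hh => by
          have := congrFun hh 0; simp at this)
        have := hq j
        rw [hx] at this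
        simpa using this
      · obtain ⟨j, hj⟩ := h.exists_pos hx
        exact hj.trans (hq j)
    have h1 : u⁻¹ • x0 ∈ convexHull ℝ (range p) := by
      rw [h.mem_iff]
      intro j
      rw [dotProduct_smul, smul_eq_mul, inv_mul_le_iff₀ hu]
      have := hq j
      linarith
    have h2 := hull_le (y := y) (c := 1) hy h1
    rw [smul_dotProduct, smul_eq_mul, inv_mul_le_iff₀ hu] at h2
    linarith

theorem Irred.dual [Finite ι] [Finite κ] {p : ι → V3} {q : κ → V3} (hi : Irred p q) :
    Irred q p where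
  pt := fun j hj => hi.hs j hj.dual
  hs := fun i h' => hi.pt i h'.dual

theorem Pres.zero_mem_interior [Finite κ] {p : ι → V3} {q : κ → V3} (h : Pres p q) :
    (0 : V3) ∈ interior (convexHull ℝ (range p)) := by
  have : Fintype κ := Fintype.ofFinite κ
  rw [mem_interior]
  refine ⟨⋂ j, {x | q j ⬝ᵥ x < 1}, ?_, ?_, ?_⟩
  · intro x hx
    rw [h.mem_iff]
    intro j
    exact (mem_iInter.mp hx j).le
  · refine isOpen_iInter_of_finite fun j => ?_
    refine isOpen_lt ?_ continuous_const
    unfold dotProduct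
    fun_prop
  · simp only [mem_iInter, mem_ofPred_eq, dotProduct_zero, zero_lt_one, implies_true]

theorem Pres.polar [Finite ι] [Finite κ] {p : ι → V3} {q : κ → V3} (h : Pres p q) :
    polarP (convexHull ℝ (range p)) 0 = convexHull ℝ (range q) := by
  rw [h.dual]
  ext y
  constructor
  · intro hy i
    have := hy (p i) (subset_convexHull ℝ _ ⟨i, rfl⟩)
    simpa only [dotProduct, ge_iff_le, Pi.zero_apply, sub_zero] using this
  · intro hy x hx
    have := hull_le (y := y) (c := 1) hy hx
    simpa only [Pi.zero_apply, sub_zero, ge_iff_le, dotProduct] using this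

theorem Pres.lt_one [Finite ι] {p : ι → V3} {q : κ → V3} (h : Pres p q) {z : V3}
    (hz : z ∈ interior (convexHull ℝ (range p))) (j : κ) : q j ⬝ᵥ z < 1 := by
  obtain ⟨t, ht, htz⟩ := exists_smul_mem hz
  rw [h.mem_iff] at htz
  have h1 := htz j
  rw [dotProduct_smul, smul_eq_mul] at h1
  by_contra hcon
  push Not at hcon
  linarith only [mul_nonneg (le_of_lt (sub_pos.2 ht)) (sub_nonneg.2 hcon), hcon, h1, ht]

/-- Change of the center. -/
theorem Pres.recenter [Finite ι] {p : ι → V3} {q : κ → V3} (h : Pres p q) {z : V3}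
    (hz : z ∈ interior (convexHull ℝ (range p))) :
    Pres (fun i => p i - z) (fun j => (1 - q j ⬝ᵥ z)⁻¹ • q j) := by
  apply Set.ext
  intro x
  rw [mem_hull_translate, h.mem_iff]
  refine forall_congr' fun j => ?_
  have h1 : 0 < 1 - q j ⬝ᵥ z := by have := h.lt_one hz j; linarith
  rw [smul_dotProduct, smul_eq_mul, inv_mul_le_iff₀ h1, dotProduct_add]
  constructor <;> intro h2 <;> linarith

theorem inc_recenter [Finite ι] [Finite κ] {p : ι → V3} {q : κ → V3} [Fintype ι] [Fintype κ]
    (h : Pres p q) {z : V3}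
    (hz : z ∈ interior (convexHull ℝ (range p))) :
    inc (fun i => p i - z) (fun j => (1 - q j ⬝ᵥ z)⁻¹ • q j) = inc p q := by
  unfold inc
  congr 1
  have : ∀ ij : ι × κ, ((1 - q ij.2 ⬝ᵥ z)⁻¹ • q ij.2) ⬝ᵥ (p ij.1 - z) = 1 ↔
      q ij.2 ⬝ᵥ p ij.1 = 1 := by
    intro ij
    have h1 : 0 < 1 - q ij.2 ⬝ᵥ z := by have := h.lt_one hz ij.2; linarith
    rw [smul_dotProduct, smul_eq_mul, inv_mul_eq_iff_eq_mul₀ h1.ne', dotProduct_sub]
    constructor <;> intro h2 <;> linarith only [h2]
  simp only [this]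

theorem inc_dual [Fintype ι] [Fintype κ] {p : ι → V3} {q : κ → V3} : inc q p = inc p q := by
  unfold inc
  refine Nat.card_congr ((Equiv.prodComm κ ι).subtypeEquiv fun ij => ?_)
  simp [dotProduct_comm]

theorem Irred.not_mem [Finite ι] {p : ι → V3} {q : κ → V3} (h : Pres p q) (hi : Irred p q)
    (i : ι) : p i ∉ convexHull ℝ (range fun i' : {i' : ι // i' ≠ i} => p i'.1) := by
  intro hmem
  apply hi.pt i
  unfold Pres
  rw [← h]
  apply Subset.antisymm
  · apply convexHull_mono
    rintro _ ⟨i', rfl⟩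
    exact ⟨i'.1, rfl⟩
  · refine convexHull_min ?_ (convex_convexHull ℝ _)
    rintro _ ⟨i', rfl⟩
    by_cases hii : i' = i
    · rw [hii]; exact hmem
    · exact subset_convexHull ℝ _ ⟨⟨i', hii⟩, rfl⟩

theorem Irred.injective_p [Finite ι] {p : ι → V3} {q : κ → V3} (hi : Irred p q) (h : Pres p q) :
    Function.Injective p := by
  intro i1 i2 h12
  by_contra hne
  apply hi.not_mem h i1
  rw [h12]
  exact subset_convexHull ℝ _ ⟨⟨i2, fun hh => hne hh.symm⟩, rfl⟩

theorem Irred.injective_q [Finite ι] [Finite κ] {p : ι → V3} {q : κ → V3} (hi : Irred p q)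
    (h : Pres p q) : Function.Injective q :=
  hi.dual.injective_p h.dual

/-- The dual statement: incident half-spaces span. Stated for points of an irredundant family. -/
theorem span_of_not_mem [Finite ι] [Finite κ] {p : ι → V3} {q : κ → V3} (h : Pres p q) (i : ι)
    (hni : p i ∉ convexHull ℝ (range fun i' : {i' : ι // i' ≠ i} => p i'.1)) :
    Submodule.span ℝ {v | ∃ j, q j = v ∧ q j ⬝ᵥ p i = 1} = ⊤ := by
  have : Fintype ι := Fintype.ofFinite ι
  have : Fintype κ := Fintype.ofFinite κ
  classical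
  by_contra hne
  obtain ⟨f, hf0, hf⟩ := Submodule.exists_le_ker_of_lt_top _ (lt_top_iff_ne_top.mpr hne)
  obtain ⟨d, hd⟩ := exists_dot f
  have hdne : d ≠ 0 := by
    intro h0
    apply hf0
    refine LinearMap.ext fun x => ?_
    rw [hd, h0]; simp
  have hdq : ∀ j, q j ⬝ᵥ p i = 1 → d ⬝ᵥ q j = 0 := by
    intro j hj
    rw [← hd]
    exact hf (Submodule.subset_span ⟨j, rfl, hj⟩)
  -- small epsilon
  obtain ⟨ε, hε, hεs⟩ : ∃ ε : ℝ, 0 < ε ∧ ∀ j, ε * |d ⬝ᵥ q j| ≤ 1 - q j ⬝ᵥ p i := by
    have h1 : ∀ j, ∃ ε : ℝ, 0 < ε ∧ ε * |d ⬝ᵥ q j| ≤ 1 - q j ⬝ᵥ p i := by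
      intro j
      by_cases hj : q j ⬝ᵥ p i = 1
      · exact ⟨1, one_pos, by rw [hdq j hj, hj]; simp⟩
      · have hlt : 0 < 1 - q j ⬝ᵥ p i := by
          have := lt_of_le_of_ne (h.le i j) hj; linarith
        refine ⟨(1 - q j ⬝ᵥ p i) / (|d ⬝ᵥ q j| + 1), by (clear * - hlt; positivity), ?_⟩
        rw [div_mul_eq_mul_div, div_le_iff₀ (by (clear * -; positivity))]
        have := abs_nonneg (d ⬝ᵥ q j)
        linarith
    choose ε hε hε2 using h1
    rcases isEmpty_or_nonempty κ with he | hne2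
    · exact ⟨1, one_pos, fun j => he.elim j⟩
    · refine ⟨Finset.univ.inf' Finset.univ_nonempty ε, ?_, fun j => ?_⟩
      · rw [Finset.lt_inf'_iff]
        intro j _; exact hε j
      · have h2 : Finset.univ.inf' Finset.univ_nonempty ε ≤ ε j :=
          Finset.inf'_le _ (Finset.mem_univ j)
        have h3 := hε2 j
        have h4 := mul_le_mul_of_nonneg_right h2 (abs_nonneg (d ⬝ᵥ q j))
        linarith only [h3, h4]
  have hyp : ∀ s : ℝ, |s| ≤ 1 → p i + (s * ε) • d ∈ convexHull ℝ (range p) := by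
    intro s hs
    rw [h.mem_iff]
    intro j
    rw [dotProduct_add, dotProduct_smul, smul_eq_mul, dotProduct_comm (q j) d]
    have h1 : s * ε * (d ⬝ᵥ q j) ≤ |s * ε * (d ⬝ᵥ q j)| := le_abs_self _
    have h2 : |s * ε * (d ⬝ᵥ q j)| = |s| * (ε * |d ⬝ᵥ q j|) := by
      rw [abs_mul, abs_mul, abs_of_pos hε]; ring
    have h3 : |s| * (ε * |d ⬝ᵥ q j|) ≤ 1 * (ε * |d ⬝ᵥ q j|) := by (clear * - hs hε; gcongr)
    have := hεs j
    linarith only [h1, h2, h3, this]
  -- separation
  obtain ⟨g, u, hg1, hg2⟩ := geometric_hahn_banach_closed_point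
    (convex_convexHull ℝ (range fun i' : {i' : ι // i' ≠ i} => p i'.1))
    (isCompact_hull _).isClosed hni
  obtain ⟨x0, hx0'⟩ := exists_dot (g : V3 →ₗ[ℝ] ℝ)
  have hx0 : ∀ a, g a = x0 ⬝ᵥ a := hx0'
  have hlt : ∀ k, k ≠ i → x0 ⬝ᵥ p k < x0 ⬝ᵥ p i := by
    intro k hk
    have := hg1 _ (subset_convexHull ℝ _ ⟨⟨k, hk⟩, rfl⟩)
    rw [hx0] at this hg2
    exact this.trans hg2
  have hle : ∀ x ∈ convexHull ℝ (range p), x0 ⬝ᵥ x ≤ x0 ⬝ᵥ p i := by
    intro x hx
    refine hull_le' (fun k => ?_) hx
    by_cases hk : k = i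
    · rw [hk]
    · exact (hlt k hk).le
  have h1 := hle _ (hyp 1 (by simp))
  have h2 := hle _ (hyp (-1) (by simp))
  rw [dotProduct_add, dotProduct_smul, smul_eq_mul] at h1 h2
  have h3 : x0 ⬝ᵥ (p i + (1 * ε) • d) = x0 ⬝ᵥ p i := by
    rw [dotProduct_add, dotProduct_smul, smul_eq_mul]
    linarith
  obtain ⟨w, hw0, hw1, hw2⟩ := mem_hull_iff.mp (hyp 1 (by simp))
  have h4 : ∑ k, w k * (x0 ⬝ᵥ p i - x0 ⬝ᵥ p k) = 0 := by
    have h5 : x0 ⬝ᵥ (∑ k, w k • p k) = ∑ k, w k * (x0 ⬝ᵥ p k) := by
      rw [dotProduct_sum]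
      refine Finset.sum_congr rfl fun k _ => ?_
      rw [dotProduct_smul, smul_eq_mul]
    rw [hw2, h3] at h5
    simp only [mul_sub, Finset.sum_sub_distrib]
    rw [← Finset.sum_mul, hw1, ← h5]; ring
  have h5 : ∀ k, w k * (x0 ⬝ᵥ p i - x0 ⬝ᵥ p k) = 0 := by
    intro k
    refine (Finset.sum_eq_zero_iff_of_nonneg fun k _ => ?_).mp h4 k (Finset.mem_univ k)
    refine mul_nonneg (hw0 k) ?_
    by_cases hk : k = i
    · rw [hk]; simp
    · have := hlt k hk; linarith only [this]
  have h6 : ∀ k, k ≠ i → w k = 0 := by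
    intro k hk
    have h7 := hlt k hk
    rcases mul_eq_zero.mp (h5 k) with h8 | h8
    · exact h8
    · exfalso; linarith only [h7, h8]
  have h7 : ∑ k, w k • p k = p i := by
    have h8 : w i = 1 := by
      rw [← hw1, Finset.sum_eq_single i]
      · intro k _ hk; exact h6 k hk
      · simp only [Finset.mem_univ, not_true_eq_false, IsEmpty.forall_iff]
    rw [Finset.sum_eq_single i]
    · rw [h8, one_smul]
    · intro k _ hk; rw [h6 k hk, zero_smul]
    · simp only [Finset.mem_univ, not_true_eq_false, smul_eq_zero, IsEmpty.forall_iff]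
  rw [hw2] at h7
  have h8 : (1 * ε) • d = 0 := by simpa only [one_mul, smul_eq_zero, add_eq_left] using h7
  rw [one_mul, smul_eq_zero] at h8
  rcases h8 with h8 | h8
  · exact hε.ne' h8
  · exact hdne h8

/-- The half-spaces incident to a point span. -/
theorem Pres.span_vertex [Finite ι] [Finite κ] {p : ι → V3} {q : κ → V3} (h : Pres p q)
    (hi : Irred p q) (i : ι) :
    Submodule.span ℝ {v | ∃ j, q j = v ∧ q j ⬝ᵥ p i = 1} = ⊤ :=
  span_of_not_mem h i (hi.not_mem h i)

/-- The points incident to a half-space span. -/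
theorem Pres.span_facet [Finite ι] [Finite κ] {p : ι → V3} {q : κ → V3} (h : Pres p q)
    (hi : Irred p q) (j : κ) :
    Submodule.span ℝ {v | ∃ i, p i = v ∧ q j ⬝ᵥ p i = 1} = ⊤ := by
  have := h.dual.span_vertex hi.dual j
  simp_rw [dotProduct_comm (p _) (q j)] at this
  exact this

end Vale.Agent.P248
end
end
end

section

section

section

/-! Normalized motions of the vertices of a polytope parallel to a direction. -/

set_option linter.unusedSectionVars false

open MeasureTheory Set
open scoped ENNReal Topology Matrix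

namespace Vale.Agent.P248

/-- A normalized admissible motion with speeds `β` in direction `e`. -/
structure Motion {ι κ : Type} (p : ι → V3) (q : κ → V3) (e : V3) (β : ι → ℝ) (a : κ → V3) :
    Prop where
  e_ne : e ≠ 0
  compat : ∀ i j, q j ⬝ᵥ p i = 1 → q j ⬝ᵥ e ≠ 0 → a j ⬝ᵥ p i = β i
  vert : ∀ j, q j ⬝ᵥ e = 0 → a j = 0
  bound : ∀ i j, |(a j ⬝ᵥ e) * (1 - q j ⬝ᵥ p i) + (q j ⬝ᵥ e) * (a j ⬝ᵥ p i - β i)| ≤
    1 - q j ⬝ᵥ p i
  nontriv : ¬ ∃ (c : ℝ) (b : V3), ∀ i, β i = c + b ⬝ᵥ p i
  new_pos : ∃ i j, q j ⬝ᵥ p i ≠ 1 ∧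
    (a j ⬝ᵥ e) * (1 - q j ⬝ᵥ p i) + (q j ⬝ᵥ e) * (a j ⬝ᵥ p i - β i) = -(1 - q j ⬝ᵥ p i)
  new_neg : ∃ i j, q j ⬝ᵥ p i ≠ 1 ∧
    (a j ⬝ᵥ e) * (1 - q j ⬝ᵥ p i) + (q j ⬝ᵥ e) * (a j ⬝ᵥ p i - β i) = (1 - q j ⬝ᵥ p i)

end Vale.Agent.P248
end
end
end

section

section

section

/-! The Euler inequality for irredundant double presentations. -/

set_option linter.unusedSectionVars false

open MeasureTheory Set
open scoped ENNReal Topology Matrix

namespace Vale.Agent.P248

variable {ι κ : Type} [Fintype ι] [Fintype κ]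

/-- Value of a generic linear functional of parameter `t`. -/
def lev (t : ℝ) (x : V3) : ℝ := t * x 0 + t ^ 2 * x 1 + x 2

theorem lev_add (t : ℝ) (x y : V3) : lev t (x + y) = lev t x + lev t y := by
  simp only [lev, Pi.add_apply]; ring

theorem lev_sub (t : ℝ) (x y : V3) : lev t (x - y) = lev t x - lev t y := by
  simp only [lev, Pi.sub_apply]; ring

theorem lev_smul (t c : ℝ) (x : V3) : lev t (c • x) = c * lev t x := by
  simp only [lev, Pi.smul_apply, smul_eq_mul]; ring

theorem dot3 (x y : V3) : x ⬝ᵥ y = x 0 * y 0 + x 1 * y 1 + x 2 * y 2 := by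
  rw [dotProduct, Fin.sum_univ_three]

theorem exists_generic {p : ι → V3} (hp : Function.Injective p) :
    ∃ t : ℝ, Function.Injective fun i => lev t (p i) := by
  classical
  let P : ι × ι → Polynomial ℝ := fun ik =>
    Polynomial.C (p ik.1 0 - p ik.2 0) * Polynomial.X +
      Polynomial.C (p ik.1 1 - p ik.2 1) * Polynomial.X ^ 2 +
      Polynomial.C (p ik.1 2 - p ik.2 2)
  have hP : ∀ (ik : ι × ι) (t : ℝ), (P ik).eval t = lev t (p ik.1) - lev t (p ik.2) := by
    intro ik t
    simp only [P, Polynomial.eval_add, Polynomial.eval_mul, Polynomial.eval_C, Polynomial.eval_X,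
      Polynomial.eval_pow, lev]
    ring
  have hne : ∀ ik ∈ (Finset.univ : Finset ι).offDiag, P ik ≠ 0 := by
    rintro ⟨i, k⟩ hik h0
    rw [Finset.mem_offDiag] at hik
    apply hik.2.2
    apply hp
    have h1 : ∀ t : ℝ, lev t (p i) - lev t (p k) = 0 := by
      intro t
      have := hP (i, k) t
      rw [h0, Polynomial.eval_zero] at this
      exact this.symm
    have e0 := h1 0
    have e1 := h1 1
    have e2 := h1 (-1)
    simp only [lev] at e0 e1 e2
    funext m
    fin_cases m
    · change p i 0 = p k 0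
      linarith only [e1, e2]
    · change p i 1 = p k 1
      linarith
    · change p i 2 = p k 2
      linarith only [e0]
  have hprod : ∏ ik ∈ (Finset.univ : Finset ι).offDiag, P ik ≠ 0 :=
    Finset.prod_ne_zero_iff.mpr hne
  obtain ⟨t, ht⟩ : ∃ t : ℝ, (∏ ik ∈ (Finset.univ : Finset ι).offDiag, P ik).eval t ≠ 0 := by
    by_contra hcon
    push Not at hcon
    apply hprod
    apply Polynomial.funext
    intro t
    rw [hcon t, Polynomial.eval_zero]
  refine ⟨t, fun i k hik => ?_⟩
  by_contra hne'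
  apply ht
  rw [Polynomial.eval_prod]
  apply Finset.prod_eq_zero (i := (i, k))
  · rw [Finset.mem_offDiag]
    exact ⟨Finset.mem_univ _, Finset.mem_univ _, hne'⟩
  · rw [hP]
    simpa only using sub_eq_zero.mpr hik

/-- Planar argument. -/
theorem plane {x0 y0 x1 y1 x2 y2 a1 b1 a2 b2 : ℝ} (h11 : a1 * x1 + b1 * y1 = 0)
    (h22 : a2 * x2 + b2 * y2 = 0) (h12 : a1 * x2 + b1 * y2 ≤ 0) (h21 : a2 * x1 + b2 * y1 ≤ 0)
    (h10 : a1 * x0 + b1 * y0 < 0) (h20 : a2 * x0 + b2 * y0 < 0)
    (hD : 0 < (x0 * y1 - y0 * x1) * (x0 * y2 - y0 * x2)) : a2 * x1 + b2 * y1 = 0 := by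
  have e1 : (x1 * y2 - y1 * x2) * (a1 * x0 + b1 * y0) =
      -((x0 * y1 - y0 * x1) * (a1 * x2 + b1 * y2)) := by
    linear_combination (x0 * y2 - y0 * x2) * h11
  have e2 : (x1 * y2 - y1 * x2) * (a2 * x0 + b2 * y0) =
      (x0 * y2 - y0 * x2) * (a2 * x1 + b2 * y1) := by
    linear_combination -(x0 * y1 - y0 * x1) * h22
  have e3 : (x1 * y2 - y1 * x2) ^ 2 * ((a1 * x0 + b1 * y0) * (a2 * x0 + b2 * y0)) =
      -(((x0 * y1 - y0 * x1) * (x0 * y2 - y0 * x2)) *
        ((a1 * x2 + b1 * y2) * (a2 * x1 + b2 * y1))) := by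
    calc _ = ((x1 * y2 - y1 * x2) * (a1 * x0 + b1 * y0)) *
        ((x1 * y2 - y1 * x2) * (a2 * x0 + b2 * y0)) := by ring
      _ = _ := by rw [e1, e2]; ring
  have h3 : 0 ≤ (a1 * x2 + b1 * y2) * (a2 * x1 + b2 * y1) := mul_nonneg_of_nonpos_of_nonpos h12 h21
  have h4 : 0 < (a1 * x0 + b1 * y0) * (a2 * x0 + b2 * y0) := mul_pos_of_neg_of_neg h10 h20
  have h5 : (x1 * y2 - y1 * x2) ^ 2 * ((a1 * x0 + b1 * y0) * (a2 * x0 + b2 * y0)) ≤ 0 := by
    rw [e3]
    have := mul_nonneg hD.le h3
    linarith only [this]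
  have h6 : (x1 * y2 - y1 * x2) ^ 2 ≤ 0 := by
    by_contra hcon
    push Not at hcon
    have := mul_pos hcon h4
    linarith only [h5, this]
  have h7 : x1 * y2 - y1 * x2 = 0 := by
    have := sq_nonneg (x1 * y2 - y1 * x2)
    exact pow_eq_zero_iff (two_ne_zero) |>.mp (le_antisymm h6 this)
  rw [h7, zero_mul] at e2
  rcases mul_eq_zero.mp e2.symm with h8 | h8
  · rw [h8, mul_zero] at hD
    exact absurd hD (lt_irrefl _)
  · exact h8

/-- A direction along the facet `j` from the vertex `i` inside its level plane. -/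
structure Dir (p : ι → V3) (q : κ → V3) (t : ℝ) (i : ι) (j : κ) (d : V3) : Prop where
  ne : d ≠ 0
  lev0 : lev t d = 0
  dot0 : q j ⬝ᵥ d = 0
  mem : p i + d ∈ convexHull ℝ (range p)

theorem Pres.leH {p : ι → V3} {q : κ → V3} (h : Pres p q) {x : V3}
    (hx : x ∈ convexHull ℝ (range p)) (j : κ) : q j ⬝ᵥ x ≤ 1 := by
  rw [h] at hx; exact hx j

theorem Pres.leI {p : ι → V3} {q : κ → V3} (h : Pres p q) (i : ι) (j : κ) : q j ⬝ᵥ p i ≤ 1 :=
  h.leH (subset_convexHull ℝ _ (mem_range_self i)) j

theorem Dir.nonpos {p : ι → V3} {q : κ → V3} {t : ℝ} {i : ι} {j : κ} {d : V3}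
    (hd : Dir p q t i j d) (h : Pres p q) {j' : κ} (hj' : q j' ⬝ᵥ p i = 1) :
    q j' ⬝ᵥ d ≤ 0 := by
  have := h.leH hd.mem j'
  rw [dotProduct_add, hj'] at this
  linarith

theorem par {x0 x1 x2 c0 c1 c2 : ℝ} (hc : ¬ (c0 = 0 ∧ c1 = 0 ∧ c2 = 0))
    (a1 : x1 * c2 - x2 * c1 = 0) (a2 : x2 * c0 - x0 * c2 = 0) (a3 : x0 * c1 - x1 * c0 = 0) :
    ∃ α : ℝ, x0 = α * c0 ∧ x1 = α * c1 ∧ x2 = α * c2 := by
  by_cases h0 : c0 = 0
  · by_cases h1 : c1 = 0
    · by_cases h2 : c2 = 0
      · exact absurd ⟨h0, h1, h2⟩ hc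
      · refine ⟨x2 / c2, ?_, ?_, ?_⟩ <;> field_simp <;> linarith
    · refine ⟨x1 / c1, ?_, ?_, ?_⟩ <;> field_simp <;> linarith
  · refine ⟨x0 / c0, ?_, ?_, ?_⟩ <;> field_simp <;> linarith

/-- Two different facets through `p i` cannot share the direction `d`. -/
theorem Dir.ne_zero {p : ι → V3} {q : κ → V3} {t : ℝ} {i : ι} {j : κ} {d : V3}
    (hd : Dir p q t i j d) (h : Pres p q) (hq : Function.Injective q)
    (ht : Function.Injective fun i => lev t (p i)) {j' : κ} (hjj : j ≠ j')
    (hj : q j ⬝ᵥ p i = 1) (hj' : q j' ⬝ᵥ p i = 1) : q j' ⬝ᵥ d ≠ 0 := by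
  intro hd0
  have hmem := hd.mem
  rw [mem_convexHull_iff_exists_fintype] at hmem
  obtain ⟨τ, _, w, z, hw0, hw1, hz, hsum⟩ := hmem
  have hface : ∀ j'' : κ, q j'' ⬝ᵥ (p i + d) = 1 → ∀ a, w a ≠ 0 → q j'' ⬝ᵥ z a = 1 := by
    intro j'' h1 a ha
    have hle : ∀ b, q j'' ⬝ᵥ z b ≤ 1 := fun b => h.leH (subset_convexHull ℝ _ (hz b)) j''
    have h2 : ∑ b, w b * (1 - q j'' ⬝ᵥ z b) = 0 := by
      have h3 : q j'' ⬝ᵥ (∑ b, w b • z b) = ∑ b, w b * (q j'' ⬝ᵥ z b) := by
        rw [dotProduct_sum]
        exact Finset.sum_congr rfl fun b _ => by rw [dotProduct_smul, smul_eq_mul]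
      rw [hsum, h1] at h3
      have h4 : ∑ b, w b * (1 - q j'' ⬝ᵥ z b) = ∑ b, w b - ∑ b, w b * (q j'' ⬝ᵥ z b) := by
        rw [← Finset.sum_sub_distrib]
        exact Finset.sum_congr rfl fun b _ => by ring
      rw [h4, hw1, ← h3, sub_self]
    have h5 := (Finset.sum_eq_zero_iff_of_nonneg fun b _ =>
      mul_nonneg (hw0 b) (sub_nonneg.mpr (hle b))).mp h2 a (Finset.mem_univ _)
    rcases mul_eq_zero.mp h5 with h6 | h6
    · exact absurd h6 ha
    · linarith only [h6]
  have f1 := hface j (by rw [dotProduct_add, hj, hd.dot0, add_zero])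
  have f2 := hface j' (by rw [dotProduct_add, hj', hd0, add_zero])
  have key : ∀ a, w a ≠ 0 → z a = p i := by
    intro a ha
    have g1 : q j ⬝ᵥ (z a - p i) = 0 := by rw [dotProduct_sub, f1 a ha, hj, sub_self]
    have g2 : q j' ⬝ᵥ (z a - p i) = 0 := by rw [dotProduct_sub, f2 a ha, hj', sub_self]
    have g3 : lev t (z a - p i) = 0 := by
      by_contra hcon
      -- the cross product of `z a - p i` and `d` is nonzero
      set u := z a - p i with hu
      have hd1 := hd.dot0
      have hd2 := hd.lev0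
      rw [dot3] at g1 g2 hd0 hd1 hj hj'
      simp only [lev] at hcon hd2
      set c0 := u 1 * d 2 - u 2 * d 1 with hc0
      set c1 := u 2 * d 0 - u 0 * d 2 with hc1
      set c2 := u 0 * d 1 - u 1 * d 0 with hc2
      have hc : ¬ (c0 = 0 ∧ c1 = 0 ∧ c2 = 0) := by
        rintro ⟨k0, k1, k2⟩
        apply hcon
        have hd' : d 0 ≠ 0 ∨ d 1 ≠ 0 ∨ d 2 ≠ 0 := by
          by_contra hall
          push Not at hall
          apply hd.ne
          funext m
          fin_cases m
          · exact hall.1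
          · exact hall.2.1
          · exact hall.2.2
        rcases hd' with hd' | hd' | hd'
        · apply mul_right_cancel₀ hd'
          rw [zero_mul]
          linear_combination (u 0) * hd2 + k1 - t ^ 2 * k2
        · apply mul_right_cancel₀ hd'
          rw [zero_mul]
          linear_combination (u 1) * hd2 + t * k2 - k0
        · apply mul_right_cancel₀ hd'
          rw [zero_mul]
          linear_combination (u 2) * hd2 - t * k1 + t ^ 2 * k0
      -- both q's are parallel to c
      have a1 : q j 1 * c2 - q j 2 * c1 = 0 := by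
        rw [hc1, hc2]; linear_combination (u 0) * hd1 - (d 0) * g1
      have a2 : q j 2 * c0 - q j 0 * c2 = 0 := by
        rw [hc0, hc2]; linear_combination (u 1) * hd1 - (d 1) * g1
      have a3 : q j 0 * c1 - q j 1 * c0 = 0 := by
        rw [hc0, hc1]; linear_combination (u 2) * hd1 - (d 2) * g1
      have b1 : q j' 1 * c2 - q j' 2 * c1 = 0 := by
        rw [hc1, hc2]; linear_combination (u 0) * hd0 - (d 0) * g2
      have b2 : q j' 2 * c0 - q j' 0 * c2 = 0 := by
        rw [hc0, hc2]; linear_combination (u 1) * hd0 - (d 1) * g2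
      have b3 : q j' 0 * c1 - q j' 1 * c0 = 0 := by
        rw [hc0, hc1]; linear_combination (u 2) * hd0 - (d 2) * g2
      obtain ⟨α, e0, e1, e2⟩ := par hc a1 a2 a3
      obtain ⟨α', e0', e1', e2'⟩ := par hc b1 b2 b3
      have s1 : α * (c0 * p i 0 + c1 * p i 1 + c2 * p i 2) = 1 := by
        rw [e0, e1, e2] at hj; linarith only [hj]
      have s2 : α' * (c0 * p i 0 + c1 * p i 1 + c2 * p i 2) = 1 := by
        rw [e0', e1', e2'] at hj'; linarith only [hj']
      have s3 : α = α' := by
        have h0 : c0 * p i 0 + c1 * p i 1 + c2 * p i 2 ≠ 0 := by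
          intro h0; rw [h0, mul_zero] at s1; exact zero_ne_one s1
        exact mul_right_cancel₀ h0 (s1.trans s2.symm)
      apply hjj
      apply hq
      funext m
      fin_cases m
      · change q j 0 = q j' 0
        rw [e0, e0', s3]
      · change q j 1 = q j' 1
        rw [e1, e1', s3]
      · change q j 2 = q j' 2
        rw [e2, e2', s3]
    obtain ⟨m, hm⟩ := hz a
    rw [lev_sub, ← hm] at g3
    have : m = i := ht (sub_eq_zero.mp g3)
    rw [← hm, this]
  have hfin : p i + d = p i := by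
    rw [← hsum]
    have : ∀ a, w a • z a = w a • p i := by
      intro a
      by_cases ha : w a = 0
      · rw [ha, zero_smul, zero_smul]
      · rw [key a ha]
    rw [Finset.sum_congr rfl fun a _ => this a, ← Finset.sum_smul, hw1, one_smul]
  exact hd.ne (by simpa using hfin)

/-- Three different facets with directions at `p i` are impossible. -/
theorem three_dirs {p : ι → V3} {q : κ → V3} {t : ℝ} {i : ι} {j1 j2 j3 : κ} {d0 d1 d2 d3 : V3}
    (h : Pres p q) (hq : Function.Injective q) (ht : Function.Injective fun i => lev t (p i))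
    (h12 : j1 ≠ j2) (h13 : j1 ≠ j3) (h23 : j2 ≠ j3)
    (hj1 : q j1 ⬝ᵥ p i = 1) (hj2 : q j2 ⬝ᵥ p i = 1) (hj3 : q j3 ⬝ᵥ p i = 1)
    (hd1 : Dir p q t i j1 d1) (hd2 : Dir p q t i j2 d2) (hd3 : Dir p q t i j3 d3)
    (hl0 : lev t d0 = 0) (h01 : q j1 ⬝ᵥ d0 < 0) (h02 : q j2 ⬝ᵥ d0 < 0) (h03 : q j3 ⬝ᵥ d0 < 0) :
    False := by
  have red : ∀ (x d : V3), lev t d = 0 →
      x ⬝ᵥ d = (x 0 - t * x 2) * d 0 + (x 1 - t ^ 2 * x 2) * d 1 := by
    intro x d hd
    rw [dot3]
    simp only [lev] at hd
    linear_combination (x 2) * hd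
  have two : ∀ {j j' : κ} {d d' : V3}, j ≠ j' → q j ⬝ᵥ p i = 1 → q j' ⬝ᵥ p i = 1 →
      Dir p q t i j d → Dir p q t i j' d' → q j ⬝ᵥ d0 < 0 → q j' ⬝ᵥ d0 < 0 →
      ¬ 0 < (d0 0 * d 1 - d0 1 * d 0) * (d0 0 * d' 1 - d0 1 * d' 0) := by
    intro j j' d d' hjj hj hj' hd hd' hn hn' hpos
    have e1 := hd.dot0
    have e2 := hd'.dot0
    have e3 := hd'.nonpos h hj
    have e4 := hd.nonpos h hj'
    have e5 := hd.ne_zero h hq ht hjj hj hj'
    rw [red _ _ hd.lev0] at e1 e4 e5
    rw [red _ _ hd'.lev0] at e2 e3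
    rw [red _ _ hl0] at hn hn'
    exact e5 (plane e1 e2 e3 e4 hn hn' hpos)
  have nz : ∀ {j : κ} {d : V3}, Dir p q t i j d → q j ⬝ᵥ d0 < 0 →
      d0 0 * d 1 - d0 1 * d 0 ≠ 0 := by
    intro j d hd hn h0
    have e1 := hd.dot0
    rw [red _ _ hd.lev0] at e1
    rw [red _ _ hl0] at hn
    have hdd : d 0 ≠ 0 ∨ d 1 ≠ 0 := by
      by_contra hall
      push Not at hall
      apply hd.ne
      have h2 := hd.lev0
      simp only [lev] at h2
      rw [hall.1, hall.2] at h2
      funext m
      fin_cases m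
      · exact hall.1
      · exact hall.2
      · change d 2 = 0
        linarith only [h2]
    have hn' := hn.ne
    apply hn'
    rcases hdd with hdd | hdd
    · apply mul_right_cancel₀ hdd
      rw [zero_mul]
      linear_combination (d0 0) * e1 - (q j 1 - t ^ 2 * q j 2) * h0
    · apply mul_right_cancel₀ hdd
      rw [zero_mul]
      linear_combination (d0 1) * e1 + (q j 0 - t * q j 2) * h0
  have n1 := nz hd1 h01
  have n2 := nz hd2 h02
  have n3 := nz hd3 h03
  have t12 := two h12 hj1 hj2 hd1 hd2 h01 h02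
  have t13 := two h13 hj1 hj3 hd1 hd3 h01 h03
  have t23 := two h23 hj2 hj3 hd2 hd3 h02 h03
  rcases lt_or_gt_of_ne n1 with s1 | s1 <;> rcases lt_or_gt_of_ne n2 with s2 | s2 <;>
    rcases lt_or_gt_of_ne n3 with s3 | s3
  · exact t12 (mul_pos_of_neg_of_neg s1 s2)
  · exact t12 (mul_pos_of_neg_of_neg s1 s2)
  · exact t13 (mul_pos_of_neg_of_neg s1 s3)
  · exact t23 (mul_pos s2 s3)
  · exact t23 (mul_pos_of_neg_of_neg s2 s3)
  · exact t13 (mul_pos s1 s3)
  · exact t12 (mul_pos s1 s2)
  · exact t12 (mul_pos s1 s2)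

/-- `i` is neither the highest nor the lowest vertex of the facet `j`. -/
def Mid (p : ι → V3) (q : κ → V3) (t : ℝ) (i : ι) (j : κ) : Prop :=
  q j ⬝ᵥ p i = 1 ∧ (∃ a, q j ⬝ᵥ p a = 1 ∧ lev t (p a) < lev t (p i)) ∧
    ∃ b, q j ⬝ᵥ p b = 1 ∧ lev t (p i) < lev t (p b)

theorem Pres.not_mem {p : ι → V3} {q : κ → V3} (h : Pres p q) (hi : Irred p q) (i : ι) :
    p i ∉ convexHull ℝ (range fun i' : {i' : ι // i' ≠ i} => p i'.1) := by
  intro hmem
  apply hi.pt i
  change convexHull ℝ (range fun i' : {i' : ι // i' ≠ i} => p i'.1) = _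
  rw [← h]
  apply Subset.antisymm
  · apply convexHull_mono
    rintro _ ⟨i', rfl⟩
    exact ⟨i'.1, rfl⟩
  · apply convexHull_min _ (convex_convexHull ℝ _)
    rintro _ ⟨i', rfl⟩
    by_cases hii : i' = i
    · rw [hii]; exact hmem
    · exact subset_convexHull ℝ _ ⟨⟨i', hii⟩, rfl⟩

theorem Mid.dir {p : ι → V3} {q : κ → V3} {t : ℝ} {i : ι} {j : κ} (hm : Mid p q t i j)
    (h : Pres p q) (hi : Irred p q) : ∃ d, Dir p q t i j d := by
  obtain ⟨h1, ⟨a, ha, hla⟩, b, hb, hlb⟩ := hm
  set la := lev t (p a) with hla'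
  set li := lev t (p i) with hli'
  set lb := lev t (p b) with hlb'
  have hpos : 0 < lb - la := by linarith only [hla, hlb]
  set s := (li - la) / (lb - la) with hs
  have hs0 : 0 ≤ s := div_nonneg (by linarith only [hla]) hpos.le
  have hs1 : 0 ≤ 1 - s := by
    rw [hs, sub_nonneg, div_le_one hpos]; linarith only [hlb]
  have hss : s * (lb - la) = li - la := div_mul_cancel₀ _ hpos.ne'
  have hx : (1 - s) • p a + s • p b ∈ convexHull ℝ (range p) :=
    convex_convexHull ℝ _ (subset_convexHull ℝ _ (mem_range_self a))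
      (subset_convexHull ℝ _ (mem_range_self b)) hs1 hs0 (by ring)
  refine ⟨(1 - s) • p a + s • p b - p i, ?_, ?_, ?_, ?_⟩
  · intro h0
    have h0' : (1 - s) • p a + s • p b = p i := sub_eq_zero.mp h0
    apply h.not_mem hi i
    rw [← h0']
    have hai : a ≠ i := by rintro rfl; exact lt_irrefl _ hla
    have hbi : b ≠ i := by rintro rfl; exact lt_irrefl _ hlb
    have hA : p a ∈ convexHull ℝ (range fun i' : {i' : ι // i' ≠ i} => p i'.1) :=
      subset_convexHull ℝ _ ⟨⟨a, hai⟩, rfl⟩
    have hB : p b ∈ convexHull ℝ (range fun i' : {i' : ι // i' ≠ i} => p i'.1) :=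
      subset_convexHull ℝ _ ⟨⟨b, hbi⟩, rfl⟩
    exact convex_convexHull ℝ _ hA hB hs1 hs0 (by ring)
  · rw [lev_sub, lev_add, lev_smul, lev_smul, ← hla', ← hlb', ← hli']
    linarith only [hss]
  · rw [dotProduct_sub, dotProduct_add, dotProduct_smul, dotProduct_smul, ha, hb, h1,
      smul_eq_mul, smul_eq_mul]
    ring
  · rw [add_sub_cancel]; exact hx

theorem Mid.inner {p : ι → V3} {q : κ → V3} {t : ℝ} {i : ι} {j : κ} (hm : Mid p q t i j)
    (h : Pres p q) :
    ∃ d, lev t d = 0 ∧ ∀ j', q j' ⬝ᵥ p i = 1 → q j' ⬝ᵥ d < 0 := by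
  obtain ⟨h1, ⟨a, ha, hla⟩, b, hb, hlb⟩ := hm
  have key : ∃ (c : ι) (s : ℝ), 0 ≤ s ∧ s < 1 ∧ s * lev t (p c) = lev t (p i) := by
    rcases le_or_gt 0 (lev t (p i)) with h0 | h0
    · have hb0 : 0 < lev t (p b) := by linarith
      refine ⟨b, lev t (p i) / lev t (p b), div_nonneg h0 hb0.le, ?_, div_mul_cancel₀ _ hb0.ne'⟩
      rwa [div_lt_one hb0]
    · have ha0 : lev t (p a) < 0 := by linarith
      refine ⟨a, lev t (p i) / lev t (p a), div_nonneg_of_nonpos h0.le ha0.le, ?_,
        div_mul_cancel₀ _ ha0.ne⟩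
      rw [div_lt_one_of_neg ha0]
      exact hla
  obtain ⟨c, s, hs0, hs1, hs⟩ := key
  refine ⟨s • p c - p i, ?_, ?_⟩
  · rw [lev_sub, lev_smul, hs, sub_self]
  · intro j' hj'
    rw [dotProduct_sub, dotProduct_smul, hj', smul_eq_mul]
    have := h.leI c j'
    nlinarith only [hs1, hs0, this]

open Classical in
theorem card_mid_le {p : ι → V3} {q : κ → V3} {t : ℝ} (h : Pres p q) (hi : Irred p q)
    (hq : Function.Injective q) (ht : Function.Injective fun i => lev t (p i)) (i : ι) :
    (Finset.univ.filter fun j : κ => Mid p q t i j).card ≤ 2 := by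
  by_contra hcon
  push Not at hcon
  obtain ⟨j1, m1, j2, m2, j3, m3, h12, h13, h23⟩ := Finset.two_lt_card.mp hcon
  rw [Finset.mem_filter] at m1 m2 m3
  obtain ⟨d1, hd1⟩ := m1.2.dir h hi
  obtain ⟨d2, hd2⟩ := m2.2.dir h hi
  obtain ⟨d3, hd3⟩ := m3.2.dir h hi
  obtain ⟨d0, hl0, hd0⟩ := m1.2.inner h
  exact three_dirs h hq ht h12 h13 h23 m1.2.1 m2.2.1 m3.2.1 hd1 hd2 hd3 hl0
    (hd0 _ m1.2.1) (hd0 _ m2.2.1) (hd0 _ m3.2.1)

theorem exists_two {p : ι → V3} {q : κ → V3} {j : κ}
    (hs : Submodule.span ℝ {v | ∃ i, p i = v ∧ q j ⬝ᵥ p i = 1} = ⊤) :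
    ∃ a b, q j ⬝ᵥ p a = 1 ∧ q j ⬝ᵥ p b = 1 ∧ a ≠ b := by
  by_contra hcon
  push Not at hcon
  have hsub : ∃ v0 : V3, {v | ∃ i, p i = v ∧ q j ⬝ᵥ p i = 1} ⊆ {v0} := by
    by_cases hne : ∃ a, q j ⬝ᵥ p a = 1
    · obtain ⟨a, ha⟩ := hne
      refine ⟨p a, ?_⟩
      rintro v ⟨b, rfl, hb⟩
      rw [hcon a b ha hb]
      exact mem_singleton _
    · push Not at hne
      refine ⟨0, ?_⟩
      rintro v ⟨b, rfl, hb⟩
      exact absurd hb (hne b)
  obtain ⟨v0, hv0⟩ := hsub
  have h1 : (⊤ : Submodule ℝ V3) ≤ Submodule.span ℝ {v0} := by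
    rw [← hs]; exact Submodule.span_mono hv0
  have h2 : Module.finrank ℝ (⊤ : Submodule ℝ V3) ≤ Module.finrank ℝ (Submodule.span ℝ {v0}) :=
    Submodule.finrank_mono h1
  have h3 : Module.finrank ℝ (Submodule.span ℝ ({v0} : Set V3)) ≤ 1 := by
    have := finrank_span_le_card (R := ℝ) ({v0} : Set V3)
    simpa only [ge_iff_le, toFinset_singleton, Finset.card_singleton] using this
  rw [finrank_top, Module.finrank_fin_fun] at h2
  omega

theorem euler_ineq_of {p : ι → V3} {q : κ → V3} (h : Pres p q) (hi : Irred p q)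
    (hp : Function.Injective p) (hq : Function.Injective q)
    (hs : ∀ j, Submodule.span ℝ {v | ∃ i, p i = v ∧ q j ⬝ᵥ p i = 1} = ⊤) :
    inc p q + 4 ≤ 2 * Fintype.card ι + 2 * Fintype.card κ := by
  classical
  obtain ⟨t, ht⟩ := exists_generic hp
  -- there is a facet
  have hκ : Nonempty κ := by
    by_contra hκ
    rw [not_nonempty_iff] at hκ
    have h1 : convexHull ℝ (range p) = univ := by
      rw [h]; ext x; simp
    have h2 : Bornology.IsBounded (convexHull ℝ (range p)) :=
      (isBounded_convexHull.mpr (finite_range p).isBounded)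
    rw [h1] at h2
    exact NormedSpace.unbounded_univ ℝ V3 h2
  obtain ⟨j0⟩ := hκ
  obtain ⟨a0, b0, -, -, hab0⟩ := exists_two (hs j0)
  have hι : (Finset.univ : Finset ι).Nonempty := ⟨a0, Finset.mem_univ _⟩
  obtain ⟨top, -, htop⟩ := Finset.exists_max_image Finset.univ (fun i => lev t (p i)) hι
  obtain ⟨bot, -, hbot⟩ := Finset.exists_min_image Finset.univ (fun i => lev t (p i)) hι
  have htb : top ≠ bot := by
    intro heq
    apply hab0
    apply ht
    have h1 := htop a0 (Finset.mem_univ _)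
    have h2 := htop b0 (Finset.mem_univ _)
    have h3 := hbot a0 (Finset.mem_univ _)
    have h4 := hbot b0 (Finset.mem_univ _)
    rw [heq] at h1 h2
    change lev t (p a0) = lev t (p b0)
    linarith only [h2, h3, h1, h4]
  -- number of vertices of a facet
  have hV : ∀ j : κ, (Finset.univ.filter fun i : ι => q j ⬝ᵥ p i = 1).card ≤
      2 + (Finset.univ.filter fun i : ι => Mid p q t i j).card := by
    intro j
    obtain ⟨a, b, ha, hb, -⟩ := exists_two (hs j)
    have hne : (Finset.univ.filter fun i : ι => q j ⬝ᵥ p i = 1).Nonempty :=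
      ⟨a, by rw [Finset.mem_filter]; exact ⟨Finset.mem_univ _, ha⟩⟩
    obtain ⟨u, hu, hu'⟩ := Finset.exists_max_image _ (fun i => lev t (p i)) hne
    obtain ⟨l, hl, hl'⟩ := Finset.exists_min_image _ (fun i => lev t (p i)) hne
    have hsub : (Finset.univ.filter fun i : ι => q j ⬝ᵥ p i = 1) ⊆
        {u, l} ∪ (Finset.univ.filter fun i : ι => Mid p q t i j) := by
      intro i hi'
      rw [Finset.mem_union, Finset.mem_insert, Finset.mem_singleton]
      by_cases hiu : i = u
      · exact Or.inl (Or.inl hiu)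
      by_cases hil : i = l
      · exact Or.inl (Or.inr hil)
      right
      rw [Finset.mem_filter] at hi' hu hl ⊢
      refine ⟨Finset.mem_univ _, hi'.2, ⟨l, hl.2, ?_⟩, u, hu.2, ?_⟩
      · refine lt_of_le_of_ne (hl' i (by rw [Finset.mem_filter]; exact hi')) fun heq => hil ?_
        exact (ht heq).symm
      · refine lt_of_le_of_ne (hu' i (by rw [Finset.mem_filter]; exact hi')) fun heq => hiu ?_
        exact ht heq
    calc _ ≤ _ := Finset.card_le_card hsub
      _ ≤ _ := Finset.card_union_le _ _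
      _ ≤ _ := Nat.add_le_add_right Finset.card_le_two _
  -- double counting
  have hinc : inc p q = ∑ j : κ, (Finset.univ.filter fun i : ι => q j ⬝ᵥ p i = 1).card := by
    rw [inc, Nat.card_eq_fintype_card, Fintype.card_subtype]
    rw [Finset.card_filter, Fintype.sum_prod_type_right]
    exact Finset.sum_congr rfl fun j _ => (Finset.card_filter _ _).symm
  have hswap : ∑ j : κ, (Finset.univ.filter fun i : ι => Mid p q t i j).card =
      ∑ i : ι, (Finset.univ.filter fun j : κ => Mid p q t i j).card := by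
    simp only [Finset.card_filter]
    exact Finset.sum_comm
  have hzero : ∀ i, (i = top ∨ i = bot) →
      (Finset.univ.filter fun j : κ => Mid p q t i j).card = 0 := by
    intro i hi'
    rw [Finset.card_eq_zero, Finset.filter_eq_empty_iff]
    rintro j - ⟨-, ⟨a, -, ha⟩, b, -, hb⟩
    rcases hi' with rfl | rfl
    · exact absurd hb (not_lt.mpr (htop b (Finset.mem_univ _)))
    · exact absurd ha (not_lt.mpr (hbot a (Finset.mem_univ _)))
  have hM : ∑ i : ι, (Finset.univ.filter fun j : κ => Mid p q t i j).card + 4 ≤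
      2 * Fintype.card ι := by
    have h1 : ∑ i : ι, (Finset.univ.filter fun j : κ => Mid p q t i j).card ≤
        ∑ i : ι, (if i = top ∨ i = bot then 0 else 2) := by
      apply Finset.sum_le_sum
      intro i _
      split_ifs with hc
      · rw [hzero i hc]
      · exact card_mid_le h hi hq ht i
    have h2 : ∑ i : ι, (if i = top ∨ i = bot then 0 else 2) + 4 = 2 * Fintype.card ι := by
      have h3 : ∑ i : ι, (if i = top ∨ i = bot then 2 else 0) = 4 := by
        rw [← Finset.sum_filter, Finset.sum_const]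
        have : (Finset.univ.filter fun i : ι => i = top ∨ i = bot) = {top, bot} := by
          ext i; simp only [Finset.mem_filter, Finset.mem_univ, true_and, Finset.mem_insert, Finset.mem_singleton]
        rw [this, Finset.card_pair htb]
        rfl
      have h4 : ∑ i : ι, (if i = top ∨ i = bot then 0 else 2) +
          ∑ i : ι, (if i = top ∨ i = bot then 2 else 0) = ∑ _i : ι, 2 := by
        rw [← Finset.sum_add_distrib]
        apply Finset.sum_congr rfl
        intro i _
        split_ifs <;> rfl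
      rw [h3, Finset.sum_const, Finset.card_univ, smul_eq_mul] at h4
      omega
    omega
  have hsum : ∑ j : κ, (Finset.univ.filter fun i : ι => q j ⬝ᵥ p i = 1).card ≤
      ∑ j : κ, (2 + (Finset.univ.filter fun i : ι => Mid p q t i j).card) :=
    Finset.sum_le_sum fun j _ => hV j
  rw [Finset.sum_add_distrib, Finset.sum_const, Finset.card_univ, smul_eq_mul, hswap] at hsum
  omega

end Vale.Agent.P248
end
end
end

section

section

section

/-! Deformation of a polytope along a motion. -/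

set_option linter.unusedSectionVars false

open MeasureTheory Set
open scoped ENNReal Topology Matrix

namespace Vale.Agent.P248

variable {ι κ : Type} [Fintype ι] [Fintype κ]

/-- membership in the convex hull of a finite family -/
theorem df_mem_hull {p : ι → V3} {x : V3} : x ∈ convexHull ℝ (range p) ↔
    ∃ w : ι → ℝ, (∀ i, 0 ≤ w i) ∧ ∑ i, w i = 1 ∧ ∑ i, w i • p i = x := by
  classical
  set L : (ι → ℝ) →ₗ[ℝ] V3 := Fintype.linearCombination ℝ p with hL
  have h1 : range p = L '' range (fun i j : ι => if i = j then (1 : ℝ) else 0) := by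
    rw [← range_comp]
    congr 1
    ext1 i
    simp only [hL, Function.comp_apply, Fintype.linearCombination_apply, ite_smul, one_smul, zero_smul, Finset.sum_ite_eq, Finset.mem_univ, ↓reduceIte]
  rw [h1, ← LinearMap.image_convexHull, convexHull_basis_eq_stdSimplex]
  constructor
  · rintro ⟨w, ⟨hw0, hw1⟩, rfl⟩
    exact ⟨w, hw0, hw1, by simp only [hL, Fintype.linearCombination_apply]⟩
  · rintro ⟨w, hw0, hw1, hx⟩
    exact ⟨w, ⟨hw0, hw1⟩, by rw [← hx]; simp [hL, Fintype.linearCombination_apply]⟩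

theorem df_isCompact_hull (p : ι → V3) : IsCompact (convexHull ℝ (range p)) :=
  (finite_range p).isCompact_convexHull (𝕜 := ℝ)

/-- the half-spaces of the deformed polytope for `t = 1` -/
def dfH (q : κ → V3) (e : V3) (a : κ → V3) (t : ℝ) : Set V3 :=
  {y | ∀ j, (1 + t * (a j ⬝ᵥ e)) * (q j ⬝ᵥ y) - t * (q j ⬝ᵥ e) * (a j ⬝ᵥ y) ≤
    1 + t * (a j ⬝ᵥ e)}

theorem dfH_convex (q : κ → V3) (e : V3) (a : κ → V3) (t : ℝ) : Convex ℝ (dfH q e a t) := by
  intro x hx y hy u v hu hv huv j
  have h1 := hx j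
  have h2 := hy j
  rw [dotProduct_add, dotProduct_add, dotProduct_smul, dotProduct_smul, dotProduct_smul,
    dotProduct_smul]
  simp only [smul_eq_mul]
  have h3 := mul_le_mul_of_nonneg_left h1 hu
  have h4 := mul_le_mul_of_nonneg_left h2 hv
  have h5 : (1 + t * (a j ⬝ᵥ e)) = u * (1 + t * (a j ⬝ᵥ e)) + v * (1 + t * (a j ⬝ᵥ e)) := by
    rw [← add_mul, huv, one_mul]
  linarith only [h5, h4, h3]

/-- slack computation -/
theorem df_slack (p : V3) (q e a : V3) (b t : ℝ) :
    (1 + t * (a ⬝ᵥ e)) * (q ⬝ᵥ (p + (t * b) • e)) - t * (q ⬝ᵥ e) * (a ⬝ᵥ (p + (t * b) • e)) =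
      1 + t * (a ⬝ᵥ e) - ((1 - q ⬝ᵥ p) +
        t * ((a ⬝ᵥ e) * (1 - q ⬝ᵥ p) + (q ⬝ᵥ e) * (a ⬝ᵥ p - b))) := by
  rw [dotProduct_add, dotProduct_add, dotProduct_smul, dotProduct_smul]
  simp only [smul_eq_mul]
  ring

theorem df_sub {p : ι → V3} {q : κ → V3} {e : V3} {β : ι → ℝ} {a : κ → V3}
    (hm : Motion p q e β a) {t : ℝ} (ht : |t| ≤ 1) :
    convexHull ℝ (range fun i => p i + (t * β i) • e) ⊆ dfH q e a t := by
  apply convexHull_min _ (dfH_convex _ _ _ _)
  rintro y ⟨i, rfl⟩ j
  simp only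
  rw [df_slack]
  have h1 := hm.bound i j
  set D := (a j ⬝ᵥ e) * (1 - q j ⬝ᵥ p i) + (q j ⬝ᵥ e) * (a j ⬝ᵥ p i - β i) with hD
  have h2 : |t * D| ≤ 1 - q j ⬝ᵥ p i := by
    rw [abs_mul]
    calc |t| * |D| ≤ 1 * |D| := mul_le_mul_of_nonneg_right ht (abs_nonneg _)
      _ ≤ _ := by rw [one_mul]; exact h1
  have h3 := neg_abs_le (t * D)
  linarith

/-- addition of the inequalities for `t = 1` and `t = -1` -/
theorem df_add {p : ι → V3} {q : κ → V3} (h : Pres p q) {e : V3} {a : κ → V3} {x : V3} {r : ℝ}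
    (h1 : x + r • e ∈ dfH q e a 1) (h2 : x - r • e ∈ dfH q e a (-1)) :
    x ∈ convexHull ℝ (range p) := by
  rw [h]
  intro j
  have h3 := h1 j
  have h4 := h2 j
  rw [dotProduct_add, dotProduct_add, dotProduct_smul, dotProduct_smul] at h3
  rw [dotProduct_sub, dotProduct_sub, dotProduct_smul, dotProduct_smul] at h4
  simp only [smul_eq_mul] at h3 h4
  linarith

/-- points of `K` lift to both deformed polytopes -/
theorem df_lift {p : ι → V3} (e : V3) (β : ι → ℝ) {x : V3} (hx : x ∈ convexHull ℝ (range p)) :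
    ∃ r : ℝ, x + r • e ∈ convexHull ℝ (range fun i => p i + (1 * β i) • e) ∧
      x - r • e ∈ convexHull ℝ (range fun i => p i + (-1 * β i) • e) := by
  obtain ⟨w, hw0, hw1, rfl⟩ := df_mem_hull.mp hx
  refine ⟨∑ i, w i * β i, ?_, ?_⟩
  · rw [df_mem_hull]
    refine ⟨w, hw0, hw1, ?_⟩
    rw [Finset.sum_smul, ← Finset.sum_add_distrib]
    apply Finset.sum_congr rfl
    intro i _
    rw [smul_add, smul_smul, one_mul]
  · rw [df_mem_hull]
    refine ⟨w, hw0, hw1, ?_⟩
    rw [Finset.sum_smul, ← Finset.sum_sub_distrib]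
    apply Finset.sum_congr rfl
    intro i _
    rw [smul_add, smul_smul, sub_eq_add_neg, ← neg_smul]
    congr 2
    ring

/-- points of the deformed polytope project to `K` -/
theorem df_proj {p : ι → V3} (e : V3) (β : ι → ℝ) {t : ℝ} {y : V3}
    (hy : y ∈ convexHull ℝ (range fun i => p i + (t * β i) • e)) :
    ∃ r : ℝ, y + r • e ∈ convexHull ℝ (range p) := by
  obtain ⟨w, hw0, hw1, rfl⟩ := df_mem_hull.mp hy
  refine ⟨-∑ i, w i * (t * β i), ?_⟩
  rw [df_mem_hull]
  refine ⟨w, hw0, hw1, ?_⟩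
  rw [neg_smul, Finset.sum_smul, ← sub_eq_add_neg, ← Finset.sum_sub_distrib]
  apply Finset.sum_congr rfl
  intro i _
  rw [smul_add, smul_smul]
  abel

theorem Motion.comb {p : ι → V3} {q : κ → V3} (h : Pres p q)
    (_hspan : ∀ j, Submodule.span ℝ {v | ∃ i, p i = v ∧ q j ⬝ᵥ p i = 1} = ⊤)
    {e : V3} {β : ι → ℝ} {a : κ → V3}
    (hm : Motion p q e β a) (x : V3) : x ∈ convexHull ℝ (range p) ↔
      ∃ r : ℝ, x + r • e ∈ convexHull ℝ (range fun i => p i + (1 * β i) • e) ∧
        x - r • e ∈ convexHull ℝ (range fun i => p i + (-1 * β i) • e) := by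
  constructor
  · exact df_lift e β
  · rintro ⟨r, h1, h2⟩
    exact df_add h (df_sub hm (by simp) h1) (df_sub hm (by simp) h2)

theorem Motion.neg {p : ι → V3} {q : κ → V3} {e : V3} {β : ι → ℝ} {a : κ → V3}
    (hm : Motion p q e β a) : Motion p q e (fun i => -β i) (fun j => -a j) where
  e_ne := hm.e_ne
  compat := fun i j h1 h2 => by rw [neg_dotProduct, hm.compat i j h1 h2]
  vert := fun j h1 => by rw [hm.vert j h1, neg_zero]
  bound := fun i j => by
    have h1 := hm.bound i j
    rw [neg_dotProduct, neg_dotProduct]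
    rw [← abs_neg] at h1
    convert h1 using 2
    ring
  nontriv := by
    rintro ⟨c, b, hb⟩
    apply hm.nontriv
    refine ⟨-c, -b, fun i => ?_⟩
    have := hb i
    rw [neg_dotProduct]
    linarith
  new_pos := by
    obtain ⟨i, j, h1, h2⟩ := hm.new_neg
    refine ⟨i, j, h1, ?_⟩
    rw [neg_dotProduct, neg_dotProduct]
    linarith only [h2]
  new_neg := by
    obtain ⟨i, j, h1, h2⟩ := hm.new_pos
    refine ⟨i, j, h1, ?_⟩
    rw [neg_dotProduct, neg_dotProduct]
    linarith

theorem df_ee {e : V3} (he : e ≠ 0) : 0 < e ⬝ᵥ e := by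
  have h0 : 0 ≤ e ⬝ᵥ e := Finset.sum_nonneg fun i _ => mul_self_nonneg _
  rcases h0.lt_or_eq with h | h
  · exact h
  · exact absurd (dotProduct_self_eq_zero.mp h.symm) he

/-- every linear functional is a dot product -/
theorem df_functional (f : V3 →ₗ[ℝ] ℝ) : ∃ m : V3, ∀ x, f x = m ⬝ᵥ x := by
  classical
  refine ⟨fun i => f (Pi.single i 1), fun x => ?_⟩
  conv_lhs => rw [← LinearMap.sum_single_apply (φ := fun _ : Fin 3 => ℝ) x]
  rw [map_sum]
  unfold dotProduct
  apply Finset.sum_congr rfl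
  intro i _
  have : (Pi.single i (x i) : V3) = x i • (Pi.single i (1 : ℝ) : V3) := by
    rw [← Pi.single_smul, smul_eq_mul, mul_one]
  rw [this, map_smul, smul_eq_mul, mul_comm]

/-- a family whose hull has empty interior lies in a plane -/
theorem df_plane {p : ι → V3} (h : ¬ (interior (convexHull ℝ (range p))).Nonempty) :
    ∃ m : V3, m ≠ 0 ∧ ∃ c : ℝ, ∀ i, m ⬝ᵥ p i = c := by
  rw [interior_convexHull_nonempty_iff_affineSpan_eq_top] at h
  rcases isEmpty_or_nonempty ι with hι | ⟨⟨i0⟩⟩
  · exact ⟨fun _ => 1, fun h => by simpa using congrFun h 0, 0, fun i => (hι.false i).elim⟩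
  · have hne : (range p).Nonempty := ⟨p i0, mem_range_self _⟩
    have hdir : (affineSpan ℝ (range p)).direction ≠ ⊤ := by
      intro hd
      apply h
      exact (AffineSubspace.direction_eq_top_iff_of_nonempty
        ((affineSpan_nonempty ℝ).mpr hne)).mp hd
    obtain ⟨f, hf0, hf⟩ := Submodule.exists_le_ker_of_lt_top _ (lt_top_iff_ne_top.mpr hdir)
    obtain ⟨m, hm⟩ := df_functional f
    refine ⟨m, ?_, m ⬝ᵥ p i0, fun i => ?_⟩
    · intro h0
      apply hf0
      refine LinearMap.ext fun x => ?_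
      rw [hm, h0]; simp
    · have h1 : p i - p i0 ∈ (affineSpan ℝ (range p)).direction :=
        AffineSubspace.vsub_mem_direction
          (subset_affineSpan ℝ _ (mem_range_self i)) (subset_affineSpan ℝ _ (mem_range_self i0))
      have h2 := hf h1
      rw [LinearMap.mem_ker, hm, dotProduct_sub] at h2
      linarith only [h2]

/-- the deformed polytope has interior points -/
theorem df_interior {p : ι → V3} {q : κ → V3} {e : V3} {β : ι → ℝ} {a : κ → V3}
    (hm : Motion p q e β a) (h0 : (interior (convexHull ℝ (range p))).Nonempty) :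
    (interior (convexHull ℝ (range fun i => p i + (1 * β i) • e))).Nonempty := by
  by_contra hcon
  obtain ⟨m, hm0, c, hc⟩ := df_plane hcon
  by_cases hme : m ⬝ᵥ e = 0
  · -- then `K` lies in a plane
    have h1 : ∀ i, m ⬝ᵥ p i = c := by
      intro i
      have := hc i
      rw [dotProduct_add, dotProduct_smul, hme] at this
      simpa using this
    have h2 : convexHull ℝ (range p) ⊆ {x | m ⬝ᵥ x = c} := by
      apply convexHull_min
      · rintro x ⟨i, rfl⟩; exact h1 i
      · intro x hx y hy u v _ _ huv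
        simp only [mem_ofPred_eq] at hx hy ⊢
        rw [dotProduct_add, dotProduct_smul, dotProduct_smul, hx, hy]
        simp only [smul_eq_mul]
        rw [← add_mul, huv, one_mul]
    obtain ⟨x, hx⟩ := h0
    have h3 : ∀ᶠ s : ℝ in 𝓝 0, x + s • m ∈ convexHull ℝ (range p) := by
      have hcont : Continuous fun s : ℝ => x + s • m := by fun_prop
      have : Filter.Tendsto (fun s : ℝ => x + s • m) (𝓝 0) (𝓝 x) := by
        have := hcont.tendsto 0
        simpa only [zero_smul, add_zero] using this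
      exact this (mem_interior_iff_mem_nhds.mp hx)
    obtain ⟨s, hs1, hs2⟩ := ((h3.filter_mono nhdsWithin_le_nhds).and
      (self_mem_nhdsWithin (s := Ioi (0 : ℝ)))).exists
    have h4 := h2 hs1
    have h5 := h2 (interior_subset hx)
    simp only [mem_ofPred_eq] at h4 h5
    rw [dotProduct_add, h5, dotProduct_smul, smul_eq_mul] at h4
    have h6 : 0 < s * (m ⬝ᵥ m) := mul_pos hs2 (df_ee hm0)
    linarith only [h4, h6]
  · apply hm.nontriv
    refine ⟨c / (m ⬝ᵥ e), -(m ⬝ᵥ e)⁻¹ • m, fun i => ?_⟩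
    have := hc i
    rw [dotProduct_add, dotProduct_smul, smul_eq_mul, one_mul] at this
    rw [smul_dotProduct, smul_eq_mul]
    field_simp
    linarith

/-- points of `H` whose line meets `K` belong to the deformed polytope -/
theorem df_B {p : ι → V3} {q : κ → V3} (h : Pres p q) {e : V3} {β : ι → ℝ} {a : κ → V3}
    (hm : Motion p q e β a) {y : V3} (hy : y ∈ dfH q e a 1)
    (hline : ∃ r : ℝ, y + r • e ∈ convexHull ℝ (range p)) :
    y ∈ convexHull ℝ (range fun i => p i + (1 * β i) • e) := by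
  have hee := df_ee hm.e_ne
  set K := convexHull ℝ (range p) with hK
  have hKc : IsCompact K := df_isCompact_hull p
  -- the compact set of parameters
  set R : Set ℝ := {r | y + r • e ∈ K} with hR
  have hRc : IsCompact R := by
    have hclosed : IsClosed R := hKc.isClosed.preimage (by fun_prop)
    -- bounded: image of `K` under `x ↦ e⬝(x-y)/(e⬝e)`
    have hcont : Continuous fun x : V3 => e ⬝ᵥ (x - y) / (e ⬝ᵥ e) := by
      unfold dotProduct
      fun_prop
    have himg : IsCompact ((fun x : V3 => e ⬝ᵥ (x - y) / (e ⬝ᵥ e)) '' K) := hKc.image hcont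
    refine himg.of_isClosed_subset hclosed ?_
    intro r hr
    refine ⟨y + r • e, hr, ?_⟩
    simp only [add_sub_cancel_left]
    rw [dotProduct_smul, smul_eq_mul, mul_div_assoc, div_self hee.ne', mul_one]
  have hRne : R.Nonempty := hline
  obtain ⟨r1, hr1, hmax⟩ := hRc.exists_isGreatest hRne
  obtain ⟨r0, hr0, hmin⟩ := hRc.exists_isLeast hRne
  have hupper : ∀ r ∈ R, r ≤ r1 := fun r hr => hmax hr
  have hlower : ∀ r ∈ R, r0 ≤ r := fun r hr => hmin hr
  obtain ⟨s1, h11, h12⟩ := df_lift e β hr1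
  obtain ⟨s0, h01, h02⟩ := df_lift e β hr0
  -- `y` is not above the lift of the top point
  have htop : 0 ≤ r1 + s1 := by
    by_contra hneg
    push Not at hneg
    -- midpoint of `y` and the lower lift of the top point
    have hx : y + ((r1 - s1) / 2) • e ∈ K := by
      apply df_add h (r := -((r1 - s1) / 2)) (a := a)
      · have : y + ((r1 - s1) / 2) • e + (-((r1 - s1) / 2)) • e = y := by
          rw [add_assoc, ← add_smul]; simp
        rw [this]; exact hy
      · have : y + ((r1 - s1) / 2) • e - (-((r1 - s1) / 2)) • e = y + r1 • e - s1 • e := by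
          rw [neg_smul, sub_neg_eq_add, add_assoc, ← add_smul, add_sub_assoc, ← sub_smul]
          congr 2; ring
        rw [this]
        exact df_sub hm (by simp) h12
    have := hupper _ hx
    linarith only [hneg, this]
  have hbot : r0 + s0 ≤ 0 := by
    by_contra hneg
    push Not at hneg
    have hx : y + ((r0 - s0) / 2) • e ∈ K := by
      apply df_add h (r := -((r0 - s0) / 2)) (a := a)
      · have : y + ((r0 - s0) / 2) • e + (-((r0 - s0) / 2)) • e = y := by
          rw [add_assoc, ← add_smul]; simp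
        rw [this]; exact hy
      · have : y + ((r0 - s0) / 2) • e - (-((r0 - s0) / 2)) • e = y + r0 • e - s0 • e := by
          rw [neg_smul, sub_neg_eq_add, add_assoc, ← add_smul, add_sub_assoc, ← sub_smul]
          congr 2; ring
        rw [this]
        exact df_sub hm (by simp) h02
    have := hlower _ hx
    linarith only [hneg, this]
  -- `y` is between the two lifts
  have e1 : y + r1 • e + s1 • e = y + (r1 + s1) • e := by rw [add_assoc, ← add_smul]
  have e0 : y + r0 • e + s0 • e = y + (r0 + s0) • e := by rw [add_assoc, ← add_smul]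
  rw [e1] at h11
  rw [e0] at h01
  rcases (sub_nonneg.mpr (hbot.trans htop)).lt_or_eq with hlt | heq
  · have hcv := convex_convexHull ℝ (range fun i => p i + (1 * β i) • e)
    have := hcv h11 h01 (a := -(r0 + s0) / ((r1 + s1) - (r0 + s0)))
      (b := (r1 + s1) / ((r1 + s1) - (r0 + s0)))
      (div_nonneg (by linarith only [hbot]) hlt.le) (div_nonneg htop hlt.le) (by field_simp; ring)
    convert this using 1
    rw [smul_add, smul_add, smul_smul, smul_smul]
    have e4 : -(r0 + s0) / (r1 + s1 - (r0 + s0)) + (r1 + s1) / (r1 + s1 - (r0 + s0)) = 1 := by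
      field_simp; ring
    have e5 : -(r0 + s0) / (r1 + s1 - (r0 + s0)) * (r1 + s1) +
            (r1 + s1) / (r1 + s1 - (r0 + s0)) * (r0 + s0) = 0 := by
      ring
    set u := -(r0 + s0) / (r1 + s1 - (r0 + s0)) with hu
    set v := (r1 + s1) / (r1 + s1 - (r0 + s0)) with hv
    have e3 : u • y + (u * (r1 + s1)) • e + (v • y + (v * (r0 + s0)) • e)
        = (u + v) • y + (u * (r1 + s1) + v * (r0 + s0)) • e := by
      rw [add_smul, add_smul]; abel
    rw [e3]
    rw [e4, e5]; simp
  · have : r1 + s1 = 0 := by linarith only [htop, hbot, heq]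
    rw [this] at h11
    simpa using h11

theorem df_zero_interior {p : ι → V3} {q : κ → V3} (h : Pres p q) :
    (interior (convexHull ℝ (range p))).Nonempty := by
  refine ⟨0, ?_⟩
  rw [mem_interior_iff_mem_nhds, h]
  have h1 : ∀ᶠ x : V3 in 𝓝 0, ∀ j, q j ⬝ᵥ x < 1 := by
    rw [Filter.eventually_all]
    intro j
    have hc : Continuous fun x : V3 => q j ⬝ᵥ x := by unfold dotProduct; fun_prop
    have : Filter.Tendsto (fun x : V3 => q j ⬝ᵥ x) (𝓝 0) (𝓝 0) := by
      have := hc.tendsto 0
      simpa only [dotProduct_zero] using this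
    exact this.eventually_lt_const one_pos
  filter_upwards [h1] with x hx j
  exact (hx j).le

theorem df_D {p : ι → V3} {q : κ → V3} (h : Pres p q) {e : V3} {β : ι → ℝ} {a : κ → V3}
    (hm : Motion p q e β a) :
    dfH q e a 1 ⊆ convexHull ℝ (range fun i => p i + (1 * β i) • e) := by
  intro y hy
  by_contra hyc
  have hmiss : ∀ r : ℝ, y + r • e ∉ convexHull ℝ (range p) :=
    fun r hr => hyc (df_B h hm hy ⟨r, hr⟩)
  have hsub1 := df_sub hm (t := 1) (by simp)
  obtain ⟨x1, hx1⟩ := df_interior hm (df_zero_interior h)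
  set w : ℝ → V3 := fun θ => x1 + θ • (y - x1) with hw
  have hwcont : Continuous w := by fun_prop
  set K := convexHull ℝ (range p) with hK
  have hKc : IsCompact K := df_isCompact_hull p
  -- the parameters whose line meets `K`
  set T : Set ℝ := {θ | θ ∈ Icc (0 : ℝ) 1 ∧ ∃ r : ℝ, w θ + r • e ∈ K} with hT
  have hTc : IsCompact T := by
    have hclosed : IsClosed {z : V3 × ℝ | z.1 - w z.2 ∈ Submodule.span ℝ {e}} :=
      (Submodule.closed_of_finiteDimensional (Submodule.span ℝ {e})).preimage (by fun_prop)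
    have hprod : IsCompact ((K ×ˢ Icc (0 : ℝ) 1) ∩ {z : V3 × ℝ | z.1 - w z.2 ∈ Submodule.span ℝ {e}}) :=
      (hKc.prod isCompact_Icc).inter_right hclosed
    have himg := hprod.image continuous_snd
    convert himg using 1
    ext θ
    constructor
    · rintro ⟨hθ, r, hr⟩
      refine ⟨(w θ + r • e, θ), ⟨⟨hr, hθ⟩, ?_⟩, rfl⟩
      simp only [mem_ofPred_eq, add_sub_cancel_left]
      exact Submodule.smul_mem _ _ (Submodule.mem_span_singleton_self e)
    · rintro ⟨⟨x, θ'⟩, ⟨⟨hx, hθ⟩, hsp⟩, rfl⟩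
      obtain ⟨r, hr⟩ := Submodule.mem_span_singleton.mp hsp
      refine ⟨hθ, r, ?_⟩
      have : w θ' + r • e = x := by
        simp only at hr
        rw [hr]; abel
      simp only
      rw [this]; exact hx
  have hT0 : (0 : ℝ) ∈ T := by
    refine ⟨⟨le_rfl, zero_le_one⟩, ?_⟩
    obtain ⟨r, hr⟩ := df_proj e β (interior_subset hx1)
    exact ⟨r, by simpa [hw] using hr⟩
  obtain ⟨θ, ⟨⟨hθ0, hθ1⟩, r, hr⟩, hmax⟩ := hTc.exists_isGreatest ⟨0, hT0⟩
  have hθlt : θ < 1 := by
    rcases hθ1.lt_or_eq with h1 | h1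
    · exact h1
    · exfalso
      apply hmiss r
      have : w θ = y := by rw [hw, h1]; simp
      rw [← this]; exact hr
  have hx1H : x1 ∈ interior (dfH q e a 1) := interior_mono hsub1 hx1
  have hwint : w θ ∈ interior (dfH q e a 1) := by
    have h1 := (dfH_convex q e a 1).combo_interior_self_mem_interior hx1H hy
      (a := 1 - θ) (b := θ) (by linarith only [hθlt]) hθ0 (by ring)
    have h2 : (1 - θ) • x1 + θ • y = w θ := by
      simp only [hw]
      rw [sub_smul, one_smul, smul_sub]; abel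
    rw [← h2]; exact h1
  have hwH : ∀ θ' ∈ Icc (0 : ℝ) 1, w θ' ∈ dfH q e a 1 := by
    intro θ' hθ'
    have h1 := (dfH_convex q e a 1) (interior_subset hx1H) hy
      (by linarith only [hθ'.2] : (0 : ℝ) ≤ 1 - θ') hθ'.1 (by ring)
    have h2 : (1 - θ') • x1 + θ' • y = w θ' := by
      simp only [hw]
      rw [sub_smul, one_smul, smul_sub]; abel
    rw [← h2]; exact h1
  -- a segment in direction `e`
  obtain ⟨δ, hδ, hδ1, hδ2⟩ : ∃ δ : ℝ, 0 < δ ∧ w θ + δ • e ∈ dfH q e a 1 ∧
      w θ + (-δ) • e ∈ dfH q e a 1 := by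
    have hc1 : Filter.Tendsto (fun s : ℝ => w θ + s • e) (𝓝 0) (𝓝 (w θ)) := by
      have := (by fun_prop : Continuous fun s : ℝ => w θ + s • e).tendsto 0
      simpa only [zero_smul, add_zero] using this
    have hc2 : Filter.Tendsto (fun s : ℝ => w θ + (-s) • e) (𝓝 0) (𝓝 (w θ)) := by
      have := (by fun_prop : Continuous fun s : ℝ => w θ + (-s) • e).tendsto 0
      simpa only [neg_smul, neg_zero, zero_smul, add_zero] using this
    have hn := mem_interior_iff_mem_nhds.mp hwint
    have h1 := (hc1 hn)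
    have h2 := (hc2 hn)
    obtain ⟨s, ⟨hs1, hs2⟩, hs3⟩ := (((Filter.mem_of_superset (Filter.inter_mem h1 h2)
      (fun _ h => h) : _ ∈ 𝓝 (0 : ℝ)) |> fun hmem => (mem_nhdsWithin_of_mem_nhds hmem :
        _ ∈ 𝓝[>] (0 : ℝ))) |> fun hmem => Filter.inter_mem hmem self_mem_nhdsWithin) |>
        fun hmem => Filter.nonempty_of_mem hmem
    exact ⟨s, hs3, hs1, hs2⟩
  obtain ⟨s, -, hs⟩ := df_lift e β hr
  have hsH := df_sub hm (t := -1) (by simp) hs
  set c := r - s with hc
  have hu : w θ + c • e ∈ dfH q e a (-1) := by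
    have : w θ + r • e - s • e = w θ + c • e := by
      rw [hc, sub_smul]; abel
    rw [← this]; exact hsH
  have hplus : w θ + ((c + δ) / 2) • e ∈ K := by
    apply df_add h (r := (δ - c) / 2) (a := a)
    · have : w θ + ((c + δ) / 2) • e + ((δ - c) / 2) • e = w θ + δ • e := by
        rw [add_assoc, ← add_smul]; congr 2; ring
      rw [this]; exact hδ1
    · have : w θ + ((c + δ) / 2) • e - ((δ - c) / 2) • e = w θ + c • e := by
        rw [add_sub_assoc, ← sub_smul]; congr 2; ring
      rw [this]; exact hu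
  have hminus : w θ + ((c - δ) / 2) • e ∈ K := by
    apply df_add h (r := (-δ - c) / 2) (a := a)
    · have : w θ + ((c - δ) / 2) • e + ((-δ - c) / 2) • e = w θ + (-δ) • e := by
        rw [add_assoc, ← add_smul]; congr 2; ring
      rw [this]; exact hδ2
    · have : w θ + ((c - δ) / 2) • e - ((-δ - c) / 2) • e = w θ + c • e := by
        rw [add_sub_assoc, ← sub_smul]; congr 2; ring
      rw [this]; exact hu
  rw [hK, h] at hplus hminus
  set b := w θ + (c / 2) • e with hb
  have hev : ∀ᶠ k : ℝ in 𝓝[>] 0, ∀ j, q j ⬝ᵥ (b + k • (y - x1)) ≤ 1 := by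
    rw [Filter.eventually_all]
    intro j
    by_cases hj : q j ⬝ᵥ e = 0
    · have haj := hm.vert j hj
      have hlt : ∀ᶠ k : ℝ in 𝓝[>] 0, k < 1 - θ :=
        (eventually_lt_nhds (by linarith only [hθlt])).filter_mono nhdsWithin_le_nhds
      filter_upwards [hlt, self_mem_nhdsWithin] with k hk1 hk0
      have hk0' : 0 < k := hk0
      have h1 := hwH (θ + k) ⟨by linarith only [hθ0, hk0'], by linarith only [hk1]⟩ j
      rw [haj] at h1
      simp only [zero_dotProduct, mul_zero, add_zero, one_mul, sub_zero] at h1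
      have h2 : b + k • (y - x1) = w (θ + k) + (c / 2) • e := by
        simp only [hb, hw]
        rw [add_smul]; abel
      rw [h2, dotProduct_add, dotProduct_smul, hj, smul_zero, add_zero]
      exact h1
    · have hstrict : q j ⬝ᵥ b < 1 := by
        have h1 := hplus j
        have h2 := hminus j
        rw [dotProduct_add, dotProduct_smul, smul_eq_mul] at h1 h2
        rw [hb, dotProduct_add, dotProduct_smul, smul_eq_mul]
        rcases lt_or_gt_of_ne hj with h3 | h3
        · linarith only [mul_pos (sub_pos.2 hδ) (sub_pos.2 h3), h2]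
        · linarith only [mul_pos (sub_pos.2 hδ) (sub_pos.2 h3), h1]
      have hcont : Continuous fun k : ℝ => q j ⬝ᵥ (b + k • (y - x1)) := by
        unfold dotProduct
        fun_prop
      have ht : Filter.Tendsto (fun k : ℝ => q j ⬝ᵥ (b + k • (y - x1))) (𝓝 0) (𝓝 (q j ⬝ᵥ b)) := by
        have := hcont.tendsto 0
        simpa only [dotProduct_add, dotProduct_smul, dotProduct_sub, smul_eq_mul, zero_smul, add_zero] using this
      have := (ht.eventually_lt_const hstrict).filter_mono
        (nhdsWithin_le_nhds (s := Ioi (0 : ℝ)))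
      filter_upwards [this] with k hk
      exact hk.le
  have hlt : ∀ᶠ k : ℝ in 𝓝[>] 0, k < 1 - θ :=
    (eventually_lt_nhds (by linarith only [hθlt])).filter_mono nhdsWithin_le_nhds
  obtain ⟨k, ⟨hk1, hk2⟩, hk0⟩ := ((hev.and hlt).and self_mem_nhdsWithin).exists
  have hk0' : 0 < k := hk0
  have hmem : θ + k ∈ T := by
    refine ⟨⟨by linarith only [hθ0, hk0], by linarith only [hk2]⟩, c / 2, ?_⟩
    have h2 : w (θ + k) + (c / 2) • e = b + k • (y - x1) := by
      simp only [hb, hw]
      rw [add_smul]; abel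
    rw [h2, hK, h]
    exact hk1
  have := hmax hmem
  linarith only [hk0, this]

/-- the normal vector of the `j`-th half-space at time `1` -/
def dfn (q : κ → V3) (e : V3) (a : κ → V3) (j : κ) : V3 :=
  (1 + a j ⬝ᵥ e) • q j - (q j ⬝ᵥ e) • a j

theorem dfn_dot (q : κ → V3) (e : V3) (a : κ → V3) (j : κ) (y : V3) :
    dfn q e a j ⬝ᵥ y = (1 + a j ⬝ᵥ e) * (q j ⬝ᵥ y) - (q j ⬝ᵥ e) * (a j ⬝ᵥ y) := by
  unfold dfn
  rw [sub_dotProduct, smul_dotProduct, smul_dotProduct]
  simp only [smul_eq_mul]

theorem df_mem_H {q : κ → V3} {e : V3} {a : κ → V3} {y : V3} :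
    y ∈ dfH q e a 1 ↔ ∀ j, dfn q e a j ⬝ᵥ y ≤ 1 + a j ⬝ᵥ e := by
  unfold dfH
  simp only [mem_ofPred_eq, dfn_dot, one_mul]

theorem dfn_slack (p : V3) (q : κ → V3) (e : V3) (a : κ → V3) (j : κ) (b : ℝ) :
    dfn q e a j ⬝ᵥ (p + (1 * b) • e) = 1 + a j ⬝ᵥ e - ((1 - q j ⬝ᵥ p) +
        ((a j ⬝ᵥ e) * (1 - q j ⬝ᵥ p) + (q j ⬝ᵥ e) * (a j ⬝ᵥ p - b))) := by
  have h := df_slack p (q j) e (a j) b 1
  rw [dfn_dot]
  linarith

/-- the case `t = 1` -/
theorem df_deform_one {p : ι → V3} {q : κ → V3} (h : Pres p q)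
    (hspan : ∀ j, Submodule.span ℝ {v | ∃ i, p i = v ∧ q j ⬝ᵥ p i = 1} = ⊤)
    {e : V3} {β : ι → ℝ} {a : κ → V3} (hm : Motion p q e β a) :
    ∃ z : V3, ∃ q' : κ → V3, Pres (fun i => p i + (1 * β i) • e - z) q' ∧ inc p q <
      inc (fun i => p i + (1 * β i) • e - z) q' := by
  have heq : convexHull ℝ (range fun i => p i + (1 * β i) • e) = dfH q e a 1 :=
    Subset.antisymm (df_sub hm (by simp)) (df_D h hm)
  obtain ⟨z, hz⟩ := df_interior hm (df_zero_interior h)
  -- each facet has an incident vertex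
  have hinc : ∀ j, ∃ i, q j ⬝ᵥ p i = 1 := by
    intro j
    by_contra hcon
    push Not at hcon
    have hempty : {v | ∃ i, p i = v ∧ q j ⬝ᵥ p i = 1} = (∅ : Set V3) := by
      ext v
      simp only [mem_ofPred_eq, mem_empty_iff_false, iff_false]
      rintro ⟨i, _, hi⟩
      exact hcon i hi
    have h1 := hspan j
    rw [hempty, Submodule.span_empty] at h1
    exact bot_ne_top h1
  have hzero : ∀ i j, q j ⬝ᵥ p i = 1 → (a j ⬝ᵥ e) * (1 - q j ⬝ᵥ p i) +
      (q j ⬝ᵥ e) * (a j ⬝ᵥ p i - β i) = 0 := by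
    intro i j hij
    by_cases he : q j ⬝ᵥ e = 0
    · rw [he, hij]; ring
    · rw [hm.compat i j hij he, hij]; ring
  have hn0 : ∀ j, dfn q e a j ≠ 0 := by
    intro j hj
    obtain ⟨i, hi⟩ := hinc j
    have h1 := dfn_slack (p i) q e a j (β i)
    rw [hzero i j hi, hi, hj, zero_dotProduct] at h1
    have h2 : 1 + a j ⬝ᵥ e = 0 := by linarith only [h1]
    have h3 : dfn q e a j = -((q j ⬝ᵥ e) • a j) := by
      unfold dfn
      rw [h2, zero_smul, zero_sub]
    rw [h3, neg_eq_zero, smul_eq_zero] at hj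
    have h4 : a j = 0 := by
      rcases hj with h5 | h5
      · exact hm.vert j h5
      · exact h5
    rw [h4, zero_dotProduct] at h2
    norm_num at h2
  have hpos : ∀ j, 0 < 1 + a j ⬝ᵥ e - dfn q e a j ⬝ᵥ z := by
    intro j
    have hc1 : Filter.Tendsto (fun s : ℝ => z + s • dfn q e a j) (𝓝 0) (𝓝 z) := by
      have := (by fun_prop : Continuous fun s : ℝ => z + s • dfn q e a j).tendsto 0
      simpa only [zero_smul, add_zero] using this
    have h1 : ∀ᶠ s : ℝ in 𝓝[>] 0, z + s • dfn q e a j ∈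
        convexHull ℝ (range fun i => p i + (1 * β i) • e) :=
      (hc1 (mem_interior_iff_mem_nhds.mp hz)) |> fun hmem => mem_nhdsWithin_of_mem_nhds hmem
    obtain ⟨s, hs1, hs2⟩ := (h1.and self_mem_nhdsWithin).exists
    rw [heq, df_mem_H] at hs1
    have h2 := hs1 j
    rw [dotProduct_add, dotProduct_smul, smul_eq_mul] at h2
    have h3 : 0 < s * (dfn q e a j ⬝ᵥ dfn q e a j) := mul_pos hs2 (df_ee (hn0 j))
    linarith only [h2, h3]
  set q' : κ → V3 := fun j => (1 + a j ⬝ᵥ e - dfn q e a j ⬝ᵥ z)⁻¹ • dfn q e a j with hq'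
  have hq'dot : ∀ j x, q' j ⬝ᵥ x = (dfn q e a j ⬝ᵥ x) / (1 + a j ⬝ᵥ e - dfn q e a j ⬝ᵥ z) := by
    intro j x
    rw [hq']
    simp only
    rw [smul_dotProduct, smul_eq_mul, div_eq_inv_mul]
  have hinc' : ∀ i j, q' j ⬝ᵥ (p i + (1 * β i) • e - z) = 1 ↔
      (1 - q j ⬝ᵥ p i) + ((a j ⬝ᵥ e) * (1 - q j ⬝ᵥ p i) + (q j ⬝ᵥ e) * (a j ⬝ᵥ p i - β i)) = 0 := by
    intro i j
    rw [hq'dot, div_eq_one_iff_eq (hpos j).ne', dotProduct_sub, dfn_slack]
    constructor
    · intro h1; linarith only [h1]
    · intro h1; linarith only [h1]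
  refine ⟨z, q', ?_, ?_⟩
  · -- presentation
    have himg : range (fun i => p i + (1 * β i) • e - z) =
        (fun x => -z + x) '' range (fun i => p i + (1 * β i) • e) := by
      rw [← range_comp]
      congr 1
      ext1 i
      simp only [Function.comp_apply]
      rw [sub_eq_neg_add]
    unfold Pres
    rw [himg]
    have h1 : convexHull ℝ ((fun x => -z + x) '' range (fun i => p i + (1 * β i) • e)) =
        (fun x => -z + x) '' convexHull ℝ (range (fun i => p i + (1 * β i) • e)) := by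
      have := (AffineEquiv.constVAdd ℝ V3 (-z)).toAffineMap.image_convexHull
        (range (fun i => p i + (1 * β i) • e))
      exact this.symm
    rw [h1, heq]
    ext x
    constructor
    · rintro ⟨y, hy, rfl⟩ j
      rw [df_mem_H] at hy
      have h2 := hy j
      rw [hq'dot, div_le_one (hpos j), dotProduct_add, dotProduct_neg]
      linarith only [h2]
    · intro hx
      refine ⟨x + z, ?_, by simp⟩
      rw [df_mem_H]
      intro j
      have h2 := hx j
      rw [hq'dot, div_le_one (hpos j)] at h2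
      rw [dotProduct_add]
      linarith only [h2]
  · -- more incidences
    set S1 : Set (ι × κ) := {ij | q ij.2 ⬝ᵥ p ij.1 = 1} with hS1
    set S2 : Set (ι × κ) := {ij | q' ij.2 ⬝ᵥ (p ij.1 + (1 * β ij.1) • e - z) = 1} with hS2
    have hlt : S1.ncard < S2.ncard := by
      apply Set.ncard_lt_ncard _ (Set.toFinite _)
      refine ⟨?_, ?_⟩
      · rintro ⟨i, j⟩ hij
        change q j ⬝ᵥ p i = 1 at hij
        change q' j ⬝ᵥ (p i + (1 * β i) • e - z) = 1
        rw [hinc', hzero i j hij, hij]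
        ring
      · intro hsub
        obtain ⟨i, j, h1, h2⟩ := hm.new_pos
        have h3 : (i, j) ∈ S2 := by
          change q' j ⬝ᵥ (p i + (1 * β i) • e - z) = 1
          rw [hinc', h2]
          ring
        exact h1 (hsub h3)
    exact hlt

theorem Motion.deform {p : ι → V3} {q : κ → V3} (h : Pres p q)
    (hspan : ∀ j, Submodule.span ℝ {v | ∃ i, p i = v ∧ q j ⬝ᵥ p i = 1} = ⊤)
    {e : V3} {β : ι → ℝ} {a : κ → V3}
    (hm : Motion p q e β a) {t : ℝ} (ht : t = 1 ∨ t = -1) :
    ∃ z : V3, ∃ q' : κ → V3, Pres (fun i => p i + (t * β i) • e - z) q' ∧ inc p q <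
      inc (fun i => p i + (t * β i) • e - z) q' := by
  rcases ht with rfl | rfl
  · exact df_deform_one h hspan hm
  · have := df_deform_one h hspan hm.neg
    simpa only [one_mul, neg_mul] using this

end Vale.Agent.P248
end
end
end

section

section

section

/-! Polytopes have presentations; approximation of convex bodies by polytopes. -/

set_option linter.unusedSectionVars false

open MeasureTheory Set
open scoped ENNReal Topology Matrix Pointwise

namespace Vale.Agent.P248

variable {ι κ : Type} [Fintype ι] [Fintype κ]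

namespace Approx

/-- The polar of a finite family. -/
def polF (p : ι → V3) : Set V3 := {y | ∀ i, p i ⬝ᵥ y ≤ 1}

theorem isClosed_polF (p : ι → V3) : IsClosed (polF p) := by
  have h : polF p = ⋂ i, {y | p i ⬝ᵥ y ≤ 1} := by
    ext y
    simp only [polF, mem_ofPred_eq, mem_iInter]
  rw [h]
  refine isClosed_iInter fun i => isClosed_le ?_ continuous_const
  unfold dotProduct
  fun_prop

theorem convex_polF (p : ι → V3) : Convex ℝ (polF p) := by
  intro x hx y hy a b ha hb hab i
  rw [dotProduct_add, dotProduct_smul, dotProduct_smul, smul_eq_mul, smul_eq_mul]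
  have h1 := hx i
  have h2 := hy i
  linarith only [mul_eq_zero_of_left (sub_eq_zero.2 hab) (a + b - (1)), mul_nonneg (sub_nonneg.2 hb) (sub_nonneg.2 h2), mul_eq_zero_of_left (sub_eq_zero.2 hab) (b - (0)), mul_nonneg (sub_nonneg.2 ha) (sub_nonneg.2 h1), mul_eq_zero_of_left (sub_eq_zero.2 hab) (a - (0))]

theorem dot_le_of_mem_hull {p : ι → V3} {y : V3} {c : ℝ} (hy : ∀ i, p i ⬝ᵥ y ≤ c) {x : V3}
    (hx : x ∈ convexHull ℝ (range p)) : x ⬝ᵥ y ≤ c := by
  have hc : Convex ℝ {x : V3 | x ⬝ᵥ y ≤ c} := by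
    intro x hx z hz a b ha hb hab
    change (a • x + b • z) ⬝ᵥ y ≤ c
    rw [add_dotProduct, smul_dotProduct, smul_dotProduct, smul_eq_mul, smul_eq_mul]
    have h1 : x ⬝ᵥ y ≤ c := hx
    have h2 : z ⬝ᵥ y ≤ c := hz
    calc a * x ⬝ᵥ y + b * z ⬝ᵥ y ≤ a * c + b * c := by (clear * - h1 ha h2 hb; gcongr)
      _ = c := by rw [← add_mul, hab, one_mul]
  have hsub : convexHull ℝ (range p) ⊆ {x : V3 | x ⬝ᵥ y ≤ c} :=
    convexHull_min (by rintro _ ⟨i, rfl⟩; exact hy i) hc
  exact hsub hx

theorem isBounded_polF {p : ι → V3} (h0 : (0 : V3) ∈ interior (convexHull ℝ (range p))) :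
    Bornology.IsBounded (polF p) := by
  obtain ⟨r, hr, hball⟩ := Metric.isOpen_iff.1 isOpen_interior 0 h0
  have hball' : Metric.ball (0 : V3) r ⊆ convexHull ℝ (range p) := hball.trans interior_subset
  refine isBounded_iff_forall_norm_le.mpr ⟨2 / r, fun y hy => ?_⟩
  rw [pi_norm_le_iff_of_nonneg (by positivity)]
  intro k
  have hmem : ∀ t : ℝ, |t| < r → (Pi.single k t : V3) ∈ convexHull ℝ (range p) := by
    intro t ht
    apply hball'
    rw [mem_ball_zero_iff, Pi.norm_single]
    exact ht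
  have h1 : ∀ t : ℝ, |t| < r → t * y k ≤ 1 := by
    intro t ht
    have := dot_le_of_mem_hull (c := 1) hy (hmem t ht)
    rwa [single_dotProduct] at this
  rw [Real.norm_eq_abs, le_div_iff₀ hr]
  have h2 := h1 (r / 2) (by rw [abs_of_pos (by positivity)]; linarith)
  have h3 := h1 (-(r / 2)) (by rw [abs_neg, abs_of_pos (by positivity)]; linarith only [hr])
  rcases abs_cases (y k) with ⟨h4, _⟩ | ⟨h4, _⟩ <;> rw [h4] <;> linarith only [h2, h3]

theorem isCompact_polF {p : ι → V3} (h0 : (0 : V3) ∈ interior (convexHull ℝ (range p))) :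
    IsCompact (polF p) :=
  Metric.isCompact_of_isClosed_isBounded (isClosed_polF p) (isBounded_polF h0)

/-- An extreme point of `polF p` is determined by its set of active constraints. -/
theorem extreme_eq {p : ι → V3} {y z : V3} (hy : y ∈ (polF p).extremePoints ℝ)
    (h : ∀ i, p i ⬝ᵥ y = 1 ↔ p i ⬝ᵥ z = 1) : y = z := by
  by_contra hne
  have hyC : y ∈ polF p := hy.1
  -- small motions along `z - y` stay in the polar
  have hex : ∀ i, ∃ δ : ℝ, 0 < δ ∧ ∀ t : ℝ, |t| ≤ δ → p i ⬝ᵥ (y + t • (z - y)) ≤ 1 := by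
    intro i
    by_cases hi : p i ⬝ᵥ y = 1
    · refine ⟨1, one_pos, fun t _ => ?_⟩
      rw [dotProduct_add, dotProduct_smul, dotProduct_sub, hi, (h i).1 hi, sub_self, smul_zero,
        add_zero]
    · have hlt : p i ⬝ᵥ y < 1 := lt_of_le_of_ne (hyC i) hi
      refine ⟨(1 - p i ⬝ᵥ y) / (|p i ⬝ᵥ (z - y)| + 1), by
        have := abs_nonneg (p i ⬝ᵥ (z - y))
        have h2 : 0 < 1 - p i ⬝ᵥ y := by linarith
        (clear * - hlt; positivity), fun t ht => ?_⟩
      rw [dotProduct_add, dotProduct_smul, smul_eq_mul]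
      have h3 : 0 < |p i ⬝ᵥ (z - y)| + 1 := by positivity
      rw [le_div_iff₀ h3] at ht
      have h4 : t * p i ⬝ᵥ (z - y) ≤ |t| * |p i ⬝ᵥ (z - y)| := by
        rw [← abs_mul]
        exact le_abs_self _
      have h5 := abs_nonneg t
      linarith
  choose δ hδ hδt using hex
  have hmin : ∃ ε : ℝ, 0 < ε ∧ ∀ i, ε ≤ δ i := by
    have hfin : (Finset.univ : Finset ι).Nonempty ∨ IsEmpty ι := by
      rcases isEmpty_or_nonempty ι with hI | hI
      · exact Or.inr hI
      · exact Or.inl Finset.univ_nonempty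
    rcases hfin with hN | hE
    · refine ⟨Finset.univ.inf' hN δ, ?_, fun i => Finset.inf'_le _ (Finset.mem_univ i)⟩
      rw [Finset.lt_inf'_iff]
      exact fun i _ => hδ i
    · exact ⟨1, one_pos, fun i => hE.elim i⟩
  obtain ⟨ε, hε, hεδ⟩ := hmin
  have h1 : y + ε • (z - y) ∈ polF p := fun i => hδt i ε (by
    rw [abs_of_pos hε]; exact hεδ i)
  have h2 : y + (-ε) • (z - y) ∈ polF p := fun i => hδt i (-ε) (by
    rw [abs_neg, abs_of_pos hε]; exact hεδ i)
  have h3 : y ∈ openSegment ℝ (y + ε • (z - y)) (y + (-ε) • (z - y)) := by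
    refine ⟨1 / 2, 1 / 2, by norm_num, by norm_num, by norm_num, ?_⟩
    rw [neg_smul, ← smul_add, add_add_add_comm, add_neg_cancel, add_zero, ← two_smul ℝ y,
      smul_smul]
    norm_num
  have h4 := (mem_extremePoints.1 hy).2 _ h1 _ h2 h3
  have h5 : ε • (z - y) = 0 := by
    exact add_eq_left.1 h4.1
  rcases smul_eq_zero.1 h5 with h6 | h6
  · exact hε.ne' h6
  · exact hne (sub_eq_zero.1 h6).symm

theorem finite_extreme (p : ι → V3) : ((polF p).extremePoints ℝ).Finite := by
  classical
  have hinj : Set.InjOn (fun y : V3 => {i : ι | p i ⬝ᵥ y = 1}) ((polF p).extremePoints ℝ) := by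
    intro y hy z _ h
    refine extreme_eq hy (fun i => ?_)
    have := Set.ext_iff.1 h i
    exact this
  exact Set.Finite.of_injOn (t := Set.univ) (fun _ _ => Set.mem_univ _) hinj
    (Set.finite_univ)

theorem polF_eq_hull {p : ι → V3} (h0 : (0 : V3) ∈ interior (convexHull ℝ (range p))) :
    polF p = convexHull ℝ ((polF p).extremePoints ℝ) := by
  have h1 := closure_convexHull_extremePoints (isCompact_polF h0) (convex_polF p)
  have h2 : IsClosed (convexHull ℝ ((polF p).extremePoints ℝ)) :=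
    ((finite_extreme p).isCompact_convexHull (𝕜 := ℝ)).isClosed
  rw [h2.closure_eq] at h1
  exact h1.symm

/-- A linear functional on `V3` is a dot product. -/
theorem exists_dot (f : V3 →L[ℝ] ℝ) : ∃ y : V3, ∀ x, f x = x ⬝ᵥ y := by
  refine ⟨fun k => f (Pi.single k 1), fun x => ?_⟩
  have h := LinearMap.pi_apply_eq_sum_univ (f : V3 →ₗ[ℝ] ℝ) x
  rw [dotProduct]
  refine h.trans (Finset.sum_congr rfl fun k _ => ?_)
  have hk : (fun j : Fin 3 => if k = j then (1 : ℝ) else 0) = Pi.single k 1 := by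
    ext j
    by_cases hj : k = j
    · subst hj
      simp
    · rw [if_neg hj, Pi.single_eq_of_ne (Ne.symm hj)]
  rw [smul_eq_mul, hk]
  rfl

/-- The bipolar theorem. -/
theorem mem_hull_of_bipolar {p : ι → V3} (h0 : (0 : V3) ∈ interior (convexHull ℝ (range p)))
    {x : V3} (hx : ∀ y ∈ polF p, x ⬝ᵥ y ≤ 1) : x ∈ convexHull ℝ (range p) := by
  by_contra hcon
  have hclosed : IsClosed (convexHull ℝ (range p)) :=
    ((finite_range p).isCompact_convexHull (𝕜 := ℝ)).isClosed
  obtain ⟨f, u, hf, hu⟩ := geometric_hahn_banach_closed_point (convex_convexHull ℝ _) hclosed hcon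
  obtain ⟨y, hy⟩ := exists_dot f
  have hu0 : 0 < u := by
    have := hf 0 (interior_subset h0)
    rwa [map_zero] at this
  have h1 : u⁻¹ • y ∈ polF p := by
    intro i
    have := hf (p i) (subset_convexHull ℝ _ (mem_range_self i))
    rw [hy] at this
    rw [dotProduct_smul, smul_eq_mul, inv_mul_le_iff₀ hu0, mul_one]
    exact this.le
  have h2 := hx _ h1
  rw [dotProduct_smul, smul_eq_mul, inv_mul_le_iff₀ hu0, mul_one, ← hy] at h2
  exact absurd h2 (not_le.2 hu)

end Approx

open Approx

theorem exists_pres {p : ι → V3} (h0 : (0 : V3) ∈ interior (convexHull ℝ (range p))) :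
    ∃ (κ : Type) (_ : Fintype κ) (q : κ → V3), Pres p q := by
  classical
  have : Fintype ((polF p).extremePoints ℝ) := (finite_extreme p).fintype
  refine ⟨(polF p).extremePoints ℝ, this, Subtype.val, ?_⟩
  refine Set.Subset.antisymm ?_ ?_
  · intro x hx j
    have hj : (j : V3) ∈ polF p := j.2.1
    rw [dotProduct_comm]
    exact dot_le_of_mem_hull hj hx
  · intro x hx
    refine mem_hull_of_bipolar h0 (fun y hy => ?_)
    rw [polF_eq_hull h0] at hy
    have hr : (polF p).extremePoints ℝ =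
        range (Subtype.val : (polF p).extremePoints ℝ → V3) := by
      rw [Subtype.range_coe]
    rw [hr] at hy
    rw [dotProduct_comm]
    exact dot_le_of_mem_hull (p := (Subtype.val : (polF p).extremePoints ℝ → V3)) hx hy

theorem approx {K : Set V3} (hK : IsCompact K) (hc : Convex ℝ K) {z : V3} (hz : z ∈ interior K)
    {ε : ℝ} (hε : 0 < ε) (hε1 : ε < 1) : ∃ (ι : Type) (_ : Fintype ι) (p : ι → V3),
      convexHull ℝ (range p) ⊆ K ∧ z ∈ interior (convexHull ℝ (range p)) ∧
      ∀ x ∈ K, z + (1 - ε) • (x - z) ∈ convexHull ℝ (range p) := by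
  classical
  have hcont : Continuous (fun x : V3 => z + (1 - ε) • (x - z)) := by fun_prop
  have hC : IsCompact ((fun x : V3 => z + (1 - ε) • (x - z)) '' K) := hK.image hcont
  have hsub : ∀ c ∈ (fun x : V3 => z + (1 - ε) • (x - z)) '' K, c ∈ interior K := by
    rintro _ ⟨x, hx, rfl⟩
    have h1 := hc.combo_interior_self_mem_interior hz hx hε (by linarith : 0 ≤ 1 - ε)
      (by ring)
    have h2 : z + (1 - ε) • (x - z) = ε • z + (1 - ε) • x := by
      rw [smul_sub, sub_smul, sub_smul, one_smul, one_smul]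
      abel
    change z + (1 - ε) • (x - z) ∈ interior K
    rwa [h2]
  have hex : ∀ c : V3, ∃ b : Fin (Module.finrank ℝ V3 + 1) → V3, c ∈ interior K →
      c ∈ interior (convexHull ℝ (range b)) ∧ convexHull ℝ (range b) ⊆ K := by
    intro c
    by_cases hcK : c ∈ interior K
    · obtain ⟨b, hb1, hb2⟩ :=
        exists_mem_interior_convexHull_affineBasis (mem_interior_iff_mem_nhds.1 hcK)
      exact ⟨b, fun _ => ⟨hb1, hb2⟩⟩
    · exact ⟨fun _ => 0, fun h => absurd h hcK⟩
  choose b hb using hex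
  obtain ⟨t, ht, hcov⟩ := hC.elim_nhds_subcover (fun c => interior (convexHull ℝ (range (b c))))
    (fun c hcC => isOpen_interior.mem_nhds (hb c (hsub c hcC)).1)
  refine ⟨t × Fin (Module.finrank ℝ V3 + 1), inferInstance, fun c => b c.1 c.2, ?_, ?_, ?_⟩
  · refine convexHull_min ?_ hc
    rintro _ ⟨⟨c, k⟩, rfl⟩
    exact (hb c (hsub c (ht c c.2))).2 (subset_convexHull ℝ _ (mem_range_self k))
  · have hzC : z ∈ (fun x : V3 => z + (1 - ε) • (x - z)) '' K :=
      ⟨z, interior_subset hz, by simp⟩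
    obtain ⟨c, hct, hzc⟩ := Set.mem_iUnion₂.1 (hcov hzC)
    refine interior_mono (convexHull_mono ?_) hzc
    rintro _ ⟨k, rfl⟩
    exact ⟨(⟨c, hct⟩, k), rfl⟩
  · intro x hx
    obtain ⟨c, hct, hzc⟩ := Set.mem_iUnion₂.1 (hcov ⟨x, hx, rfl⟩)
    refine convexHull_mono ?_ (interior_subset hzc)
    rintro _ ⟨k, rfl⟩
    exact ⟨(⟨c, hct⟩, k), rfl⟩

/-- The volume of the polar body of a polytope that contains a homothetic copy of `K`. -/
theorem volume_polarP_le {K Q : Set V3} {z : V3} {r : ℝ} (hr : 0 < r)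
    (h : ∀ x ∈ K, z + r • (x - z) ∈ Q) :
    ENNReal.ofReal (r ^ 3) * volume (polarP Q z) ≤ volume (polarP K z) := by
  have h1 : r • polarP Q z ⊆ polarP K z := by
    rintro _ ⟨y, hy, rfl⟩ x hx
    have h2 := hy _ (h x hx)
    refine le_trans (le_of_eq ?_) h2
    refine Finset.sum_congr rfl fun i _ => ?_
    simp only [Pi.add_apply, Pi.smul_apply, Pi.sub_apply, smul_eq_mul]
    ring
  have h3 := measure_mono (μ := (volume : Measure V3)) h1
  rw [Measure.addHaar_smul] at h3
  have h4 : Module.finrank ℝ V3 = 3 := by simp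
  rwa [h4, abs_of_pos (by positivity)] at h3

theorem good_of_approx
    (hpoly : ∀ (ι : Type) [Fintype ι] (p : ι → V3),
      (interior (convexHull ℝ (range p))).Nonempty → Good (convexHull ℝ (range p)))
    {K : Set V3} (hK : IsCompact K) (hc : Convex ℝ K) : Good K := by
  intro z hz
  have key : ∀ ε : ℝ, 0 < ε → ε < 1 →
      ENNReal.ofReal ((1 - ε) ^ 3 * (64 / 9)) ≤ volume K * volume (polarP K z) := by
    intro ε hε hε1
    obtain ⟨ι, _, p, h1, h2, h3⟩ := approx hK hc hz hε hε1
    have hg := hpoly ι p ⟨z, h2⟩ z h2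
    have hr : 0 < 1 - ε := by linarith only [hε1]
    calc ENNReal.ofReal ((1 - ε) ^ 3 * (64 / 9))
        = ENNReal.ofReal ((1 - ε) ^ 3) * ENNReal.ofReal (64 / 9) :=
          ENNReal.ofReal_mul (by positivity)
      _ ≤ ENNReal.ofReal ((1 - ε) ^ 3) *
          (volume (convexHull ℝ (range p)) * volume (polarP (convexHull ℝ (range p)) z)) := by
          (clear * - hg; gcongr)
      _ = volume (convexHull ℝ (range p)) * (ENNReal.ofReal ((1 - ε) ^ 3) *
          volume (polarP (convexHull ℝ (range p)) z)) := by ring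
      _ ≤ volume K * volume (polarP K z) := by
          gcongr
          exact volume_polarP_le hr h3
  have hcont : Continuous (fun ε : ℝ => ENNReal.ofReal ((1 - ε) ^ 3 * (64 / 9))) :=
    ENNReal.continuous_ofReal.comp (by fun_prop)
  have hlim : Filter.Tendsto (fun ε : ℝ => ENNReal.ofReal ((1 - ε) ^ 3 * (64 / 9))) (𝓝[>] 0)
      (𝓝 (ENNReal.ofReal (64 / 9))) := by
    have h := (hcont.tendsto 0).mono_left (nhdsWithin_le_nhds (s := Set.Ioi (0 : ℝ)))
    simpa only [sub_zero, one_pow, one_mul] using h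
  refine le_of_tendsto hlim ?_
  filter_upwards [Ioo_mem_nhdsGT (zero_lt_one' ℝ)] with ε hε
  exact key ε hε.1 hε.2

end Vale.Agent.P248
end
end
end

section

section

section

/-! The Mahler inequality with a general constant; inscribed simplices. -/

set_option linter.unusedSectionVars false

open MeasureTheory Set
open scoped ENNReal Topology Matrix

namespace Vale.Agent.P248

/-- The inequality `vol K * vol (K - z)° ≥ c` at every interior point. -/
def GoodC (c : ℝ) (K : Set V3) : Prop :=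
  ∀ z ∈ interior K, ENNReal.ofReal c ≤ volume K * volume (polarP K z)

theorem good_iff_goodC {K : Set V3} : Good K ↔ GoodC (64 / 9) K := Iff.rfl

theorem GoodC.mono {c c' : ℝ} {K : Set V3} (h : c' ≤ c) (hK : GoodC c K) : GoodC c' K :=
  fun z hz => (ENNReal.ofReal_le_ofReal h).trans (hK z hz)

/-- Volume of the simplex with vertices `x 0, x 1, x 2, x 3`. -/
noncomputable def simpVol (x : Fin 4 → V3) : ℝ :=
  |Matrix.det (Matrix.of fun i : Fin 3 => x i.succ - x 0)| / 6

/-- A simplex of maximal volume inscribed in `K`. -/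
structure IsMaxSimplex (K : Set V3) (x : Fin 4 → V3) : Prop where
  mem : ∀ i, x i ∈ K
  max : ∀ y : Fin 4 → V3, (∀ i, y i ∈ K) → simpVol y ≤ simpVol x

end Vale.Agent.P248
end
end
end

section

section

section

/-! Definitions for the equality case. -/

set_option linter.unusedSectionVars false

open MeasureTheory Set
open scoped ENNReal Topology Matrix

namespace Vale.Agent.P248

/-- Barycentric coordinates of the standard simplex. -/
noncomputable def lam (i : Fin 4) (x : V3) : ℝ :=
  Fin.cases (motive := fun _ => ℝ) (1 - ∑ k, x k) (fun k => x k) i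

/-- Maximal volume of an inscribed simplex. -/
noncomputable def mval (K : Set V3) : ℝ := sSup (simpVol '' {x | ∀ i, x i ∈ K})

/-- Relative volume excess over the largest inscribed simplex. -/
noncomputable def defect (K : Set V3) : ℝ := (volume K).toReal / mval K - 1

noncomputable def a0 : ℝ := 1 / 2000000
noncomputable def da : ℝ := a0 / 1000
noncomputable def c1 : ℝ := 64 / 9 * (1 + da / 10)

/-- `G_j(c)`. -/
noncomputable def Gj (K : Set V3) (j : Fin 4) (c : V3) : ℝ :=
  sSup ((fun x => -∑ k, c k * lam (j.succAbove k) x) '' K)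

noncomputable def Phi (K : Set V3) : ℝ≥0∞ :=
  ∑ j, ∫⁻ c in {c : V3 | ∀ k, 0 ≤ c k}, ENNReal.ofReal (Gj K j c * Real.exp (-∑ k, c k))

/-- local excess at vertex `j` over facet `k` -/
noncomputable def eta (K : Set V3) (r : ℝ) (j k : Fin 4) : ℝ :=
  sSup ((fun x => -lam k x) '' (K ∩ {x | 1 - r ≤ lam j x}))


theorem lam_zero (x : V3) : lam 0 x = 1 - ∑ k, x k := rfl

theorem lam_succ (k : Fin 3) (x : V3) : lam k.succ x = x k := rfl

theorem sum_lam (x : V3) : ∑ i, lam i x = 1 := by
  rw [Fin.sum_univ_succ]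
  simp only [lam_zero, lam_succ]
  ring

end Vale.Agent.P248
end
end
end

section

section

section

/-! Existence of a nontrivial normalized motion of an irredundant polytope with at least five
vertices and at least as many facets as vertices. -/

set_option linter.unusedSectionVars false

open MeasureTheory Set
open scoped ENNReal Topology Matrix

namespace Vale.Agent.P248

variable {ι κ : Type} [Fintype ι] [Fintype κ]

/-- The normalization step: from a non-affine admissible speed to a normalized motion. -/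
theorem motion_normalize {p : ι → V3} {q : κ → V3} (h : Pres p q) {e : V3} (he : e ≠ 0)
    {j0 : κ} (hj0 : q j0 ⬝ᵥ e ≠ 0) {β : ι → ℝ} {a : κ → V3}
    (hc : ∀ i j, q j ⬝ᵥ p i = 1 → q j ⬝ᵥ e ≠ 0 → a j ⬝ᵥ p i = β i)
    (hn : ¬ ∃ (c : ℝ) (b : V3), ∀ i, β i = c + b ⬝ᵥ p i) :
    ∃ β' a', Motion p q e β' a' := by
  classical
  -- slacks are nonnegative
  have hs : ∀ i j, 0 ≤ 1 - q j ⬝ᵥ p i := by
    intro i j
    have : p i ∈ {x | ∀ j, q j ⬝ᵥ x ≤ 1} := by
      rw [← h]; exact subset_convexHull ℝ _ ⟨i, rfl⟩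
    have := this j
    linarith
  set s : ι → κ → ℝ := fun i j => 1 - q j ⬝ᵥ p i with hsdef
  set D : ι → κ → ℝ := fun i j =>
    (a j ⬝ᵥ e) * (1 - q j ⬝ᵥ p i) + (q j ⬝ᵥ e) * (a j ⬝ᵥ p i - β i) with hDdef
  -- the set of relevant pairs
  set P : Finset (ι × κ) := Finset.univ.filter
    (fun ij : ι × κ => q ij.2 ⬝ᵥ e ≠ 0 ∧ q ij.2 ⬝ᵥ p ij.1 ≠ 1) with hP
  -- key: the ratio is not constant
  have key : ∀ c : ℝ, ∃ ij ∈ P, D ij.1 ij.2 ≠ c * s ij.1 ij.2 := by
    intro c
    by_contra hcon
    push Not at hcon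
    apply hn
    have hall : ∀ i, D i j0 = c * s i j0 := by
      intro i
      by_cases hi : q j0 ⬝ᵥ p i = 1
      · simp only [hDdef, hsdef, hc i j0 hi hj0, hi]
        ring
      · exact hcon (i, j0) (by simp only [hP, ne_eq, Finset.mem_filter, Finset.mem_univ, hj0, not_false_eq_true, hi, and_self])
    -- solve for beta
    refine ⟨(a j0 ⬝ᵥ e - c) / (q j0 ⬝ᵥ e),
      a j0 - ((a j0 ⬝ᵥ e - c) / (q j0 ⬝ᵥ e)) • q j0, fun i => ?_⟩
    have h1 := hall i
    simp only [hDdef, hsdef] at h1
    rw [sub_dotProduct, smul_dotProduct, smul_eq_mul]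
    field_simp
    linarith only [h1]
  have hPne : P.Nonempty := by
    obtain ⟨ij, hij, -⟩ := key 0
    exact ⟨ij, hij⟩
  have hspos : ∀ ij ∈ P, 0 < s ij.1 ij.2 := by
    intro ij hij
    have h2 : q ij.2 ⬝ᵥ p ij.1 ≠ 1 := (Finset.mem_filter.1 hij).2.2
    have h3 := hs ij.1 ij.2
    rcases h3.lt_or_eq with h4 | h4
    · exact h4
    · exact absurd (by linarith) h2
  set ρ : ι × κ → ℝ := fun ij => D ij.1 ij.2 / s ij.1 ij.2 with hρ
  obtain ⟨u, hu, humin⟩ := P.exists_min_image ρ hPne
  obtain ⟨v, hv, hvmax⟩ := P.exists_max_image ρ hPne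
  have huv : ρ u < ρ v := by
    rcases (humin v hv).lt_or_eq with h4 | h4
    · exact h4
    · exfalso
      obtain ⟨w, hw, hw2⟩ := key (ρ u)
      apply hw2
      have h5 := humin w hw
      have h6 := hvmax w hw
      have h7 : ρ w = ρ u := by linarith only [h5, h4, h6]
      rw [← h7, hρ]
      simp only
      rw [div_mul_cancel₀ _ (hspos w hw).ne']
  -- the new data
  set γ : ℝ := -(ρ u + ρ v) / 2 with hγ
  set lam : ℝ := 2 / (ρ v - ρ u) with hlam
  have hlampos : 0 < lam := by
    rw [hlam]; apply div_pos two_pos; linarith only [huv]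
  have hee : e ⬝ᵥ e ≠ 0 := by
    intro h0
    exact he (dotProduct_self_eq_zero.1 h0)
  set σ : V3 := (e ⬝ᵥ e)⁻¹ • e with hσ
  have hσe : σ ⬝ᵥ e = 1 := by
    rw [hσ, smul_dotProduct, smul_eq_mul, inv_mul_cancel₀ hee]
  set β' : ι → ℝ := fun i => lam * (β i + γ * (σ ⬝ᵥ p i)) with hβ'
  set a' : κ → V3 := fun j => if q j ⬝ᵥ e = 0 then 0 else lam • (a j + γ • σ) with ha'
  have ha'v : ∀ j, q j ⬝ᵥ e = 0 → a' j = 0 := fun j hj => by simp [ha', hj]
  have ha'n : ∀ j, q j ⬝ᵥ e ≠ 0 → a' j = lam • (a j + γ • σ) := fun j hj => by simp [ha', hj]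
  have hD' : ∀ i j, q j ⬝ᵥ e ≠ 0 →
      (a' j ⬝ᵥ e) * (1 - q j ⬝ᵥ p i) + (q j ⬝ᵥ e) * (a' j ⬝ᵥ p i - β' i) =
        lam * (D i j + γ * s i j) := by
    intro i j hj
    rw [ha'n j hj]
    simp only [hβ', hDdef, hsdef, smul_dotProduct, add_dotProduct, smul_eq_mul, hσe]
    ring
  have hbd : ∀ ij ∈ P, |lam * (D ij.1 ij.2 + γ * s ij.1 ij.2)| ≤ s ij.1 ij.2 := by
    intro ij hij
    have hsp := hspos ij hij
    have h1 : D ij.1 ij.2 = ρ ij * s ij.1 ij.2 := by
      rw [hρ]; simp only; rw [div_mul_cancel₀ _ hsp.ne']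
    have h2 := humin ij hij
    have h3 := hvmax ij hij
    have h4 : lam * (D ij.1 ij.2 + γ * s ij.1 ij.2) = (lam * (ρ ij + γ)) * s ij.1 ij.2 := by
      rw [h1]; ring
    have hdpos : 0 < ρ v - ρ u := by linarith only [huv]
    have h5 : |lam * (ρ ij + γ)| ≤ 1 := by
      rw [abs_le, hlam, hγ]
      constructor
      · rw [div_mul_eq_mul_div, le_div_iff₀ hdpos]; linarith only [h2]
      · rw [div_mul_eq_mul_div, div_le_iff₀ hdpos]; linarith only [h3]
    rw [h4, abs_mul, abs_of_pos hsp]
    calc |lam * (ρ ij + γ)| * s ij.1 ij.2 ≤ 1 * s ij.1 ij.2 :=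
          mul_le_mul_of_nonneg_right h5 hsp.le
      _ = s ij.1 ij.2 := one_mul _
  refine ⟨β', a', he, ?_, ha'v, ?_, ?_, ?_, ?_⟩
  · -- compat
    intro i j h1 h2
    rw [ha'n j h2]
    simp only [hβ', smul_dotProduct, add_dotProduct, smul_eq_mul, hc i j h1 h2]
  · -- bound
    intro i j
    by_cases hj : q j ⬝ᵥ e = 0
    · rw [ha'v j hj, hj]
      simpa only [zero_dotProduct, zero_mul, zero_sub, mul_neg, neg_zero, add_zero, abs_zero, sub_nonneg] using     hs i j
    · rw [hD' i j hj]
      by_cases hi : q j ⬝ᵥ p i = 1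
      · have hD0 : D i j = 0 := by
          simp only [hDdef, hc i j hi hj, hi]; ring
        have hs0 : s i j = 0 := by simp only [hsdef, hi]; ring
        rw [hD0, hs0]
        simp [hi]
      · exact hbd (i, j) (by simp only [hP, ne_eq, Finset.mem_filter, Finset.mem_univ, hj, not_false_eq_true, hi, and_self])
  · -- nontriv
    rintro ⟨c, b, hcb⟩
    apply hn
    refine ⟨c / lam, lam⁻¹ • b - γ • σ, fun i => ?_⟩
    have h1 := hcb i
    simp only [hβ'] at h1
    rw [sub_dotProduct, smul_dotProduct, smul_dotProduct, smul_eq_mul, smul_eq_mul]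
    field_simp
    linarith only [h1]
  · refine ⟨u.1, u.2, (Finset.mem_filter.1 hu).2.2, ?_⟩
    rw [hD' u.1 u.2 (Finset.mem_filter.1 hu).2.1]
    have hsp := hspos u hu
    have h1 : D u.1 u.2 = ρ u * s u.1 u.2 := by
      rw [hρ]; simp only; rw [div_mul_cancel₀ _ hsp.ne']
    have hdpos : ρ v - ρ u ≠ 0 := by
      have : 0 < ρ v - ρ u := by linarith only [huv]
      exact this.ne'
    rw [h1, hlam, hγ]
    show 2 / (ρ v - ρ u) * (ρ u * s u.1 u.2 + -(ρ u + ρ v) / 2 * s u.1 u.2) = - s u.1 u.2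
    field_simp
    ring
  · refine ⟨v.1, v.2, (Finset.mem_filter.1 hv).2.2, ?_⟩
    rw [hD' v.1 v.2 (Finset.mem_filter.1 hv).2.1]
    have hsp := hspos v hv
    have h1 : D v.1 v.2 = ρ v * s v.1 v.2 := by
      rw [hρ]; simp only; rw [div_mul_cancel₀ _ hsp.ne']
    have hdpos : ρ v - ρ u ≠ 0 := by
      have : 0 < ρ v - ρ u := by linarith only [huv]
      exact this.ne'
    rw [h1, hlam, hγ]
    show 2 / (ρ v - ρ u) * (ρ v * s v.1 v.2 + -(ρ u + ρ v) / 2 * s v.1 v.2) = s v.1 v.2
    field_simp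
    ring

/-- Number of points on the face `j`. -/
noncomputable def nV (p : ι → V3) (q : κ → V3) (j : κ) : ℕ := by
  classical exact (Finset.univ.filter (fun i => q j ⬝ᵥ p i = 1)).card

theorem inc_eq_sum (p : ι → V3) (q : κ → V3) : inc p q = ∑ j, nV p q j := by
  classical
  unfold inc nV
  rw [Nat.card_eq_fintype_card, Fintype.card_subtype, Finset.card_filter,
    ← Finset.univ_product_univ, Finset.sum_product_right]
  refine Finset.sum_congr rfl fun j _ => ?_
  rw [Finset.card_filter]

theorem three_le_nV {p : ι → V3} {q : κ → V3} {j : κ}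
    (hspan : Submodule.span ℝ {v | ∃ i, p i = v ∧ q j ⬝ᵥ p i = 1} = ⊤) : 3 ≤ nV p q j := by
  classical
  have h1 : {v | ∃ i, p i = v ∧ q j ⬝ᵥ p i = 1} =
      ((Finset.univ.filter (fun i => q j ⬝ᵥ p i = 1)).image p : Set V3) := by
    ext v
    simp only [Set.mem_ofPred_eq, Finset.coe_image, Finset.coe_filter, Finset.mem_univ, true_and,
      mem_image]
    constructor
    · rintro ⟨i, hi, hi2⟩; exact ⟨i, hi2, hi⟩
    · rintro ⟨i, hi, hi2⟩; exact ⟨i, hi2, hi⟩
  rw [h1] at hspan
  have h2 := finrank_span_finset_le_card (R := ℝ)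
    ((Finset.univ.filter (fun i => q j ⬝ᵥ p i = 1)).image p)
  rw [Set.finrank, hspan, finrank_top, Module.finrank_fin_fun] at h2
  unfold nV
  exact h2.trans Finset.card_image_le

/-- some `q j` is not orthogonal to a given direction -/
theorem exists_nonvert {p : ι → V3} {q : κ → V3} (h : Pres p q) {e : V3} (he : e ≠ 0) :
    ∃ j, q j ⬝ᵥ e ≠ 0 := by
  by_contra hcon
  push Not at hcon
  have hcpt : IsCompact (convexHull ℝ (range p)) := (finite_range p).isCompact_convexHull (𝕜 := ℝ)
  obtain ⟨C, hC⟩ := hcpt.isBounded.exists_norm_le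
  have hen : 0 < ‖e‖ := norm_pos_iff.2 he
  have hmem : ((|C| + 1) / ‖e‖) • e ∈ convexHull ℝ (range p) := by
    rw [h]
    intro j
    rw [dotProduct_smul, hcon j, smul_zero]
    exact zero_le_one
  have h1 := hC _ hmem
  rw [norm_smul, Real.norm_eq_abs, abs_of_pos (by (clear * - he; (clear * - he; positivity))), div_mul_cancel₀ _ hen.ne'] at h1
  have := le_abs_self C
  linarith only [h1, this]

/-- rank-nullity: a non-affine solution exists as soon as the count allows -/
theorem exists_nonaffine {p : ι → V3} {q : κ → V3} 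
    (hspan : ∀ j, Submodule.span ℝ {v | ∃ i, p i = v ∧ q j ⬝ᵥ p i = 1} = ⊤) (e : V3)
    (hcount : (∑ j : {j : κ // q j ⬝ᵥ e ≠ 0}, nV p q j.1) + 5 ≤
      Fintype.card ι + 3 * Nat.card {j : κ // q j ⬝ᵥ e ≠ 0}) :
    ∃ (β : ι → ℝ) (a : κ → V3), (∀ i j, q j ⬝ᵥ p i = 1 → q j ⬝ᵥ e ≠ 0 → a j ⬝ᵥ p i = β i) ∧
      ((∃ j, q j ⬝ᵥ e ≠ 0) → ¬ ∃ (c : ℝ) (b : V3), ∀ i, β i = c + b ⬝ᵥ p i) := by
  classical
  set κ' := {j : κ // q j ⬝ᵥ e ≠ 0} with hκ'
  set I' := {x : ι × κ' // q x.2.1 ⬝ᵥ p x.1 = 1} with hI'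
  let L : ((ι → ℝ) × (κ' → V3)) →ₗ[ℝ] (I' → ℝ) :=
    { toFun := fun x y => x.2 y.1.2 ⬝ᵥ p y.1.1 - x.1 y.1.1
      map_add' := by
        intro x y
        ext z
        simp only [Prod.snd_add, Prod.fst_add, Pi.add_apply, add_dotProduct]
        ring
      map_smul' := by
        intro c x
        ext z
        simp only [Prod.smul_snd, Prod.smul_fst, Pi.smul_apply, smul_dotProduct, smul_eq_mul,
          RingHom.id_apply]
        ring }
  let A : (ℝ × V3) →ₗ[ℝ] ((ι → ℝ) × (κ' → V3)) :=
    { toFun := fun x => (fun i => x.1 + x.2 ⬝ᵥ p i, fun j => x.1 • q j.1 + x.2)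
      map_add' := by
        intro x y
        refine Prod.ext ?_ ?_
        · ext i
          simp only [Prod.snd_add, Prod.fst_add, Pi.add_apply, add_dotProduct]
          ring
        · ext j k
          simp only [Prod.snd_add, Prod.fst_add, Pi.add_apply, Pi.smul_apply, smul_eq_mul]
          ring
      map_smul' := by
        intro c x
        refine Prod.ext ?_ ?_
        · ext i
          simp only [Prod.smul_snd, Prod.smul_fst, Pi.smul_apply, smul_dotProduct, smul_eq_mul,
            RingHom.id_apply]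
          ring
        · ext j k
          simp only [Prod.smul_snd, Prod.smul_fst, Pi.add_apply, Pi.smul_apply, smul_eq_mul,
            RingHom.id_apply]
          ring }
  have hI'card : Fintype.card I' = ∑ j : κ', nV p q j.1 := by
    rw [Fintype.card_subtype, Finset.card_filter, ← Finset.univ_product_univ,
      Finset.sum_product_right]
    refine Finset.sum_congr rfl fun j _ => ?_
    unfold nV
    rw [Finset.card_filter]
  have hnot : ¬ (LinearMap.ker L ≤ LinearMap.range A) := by
    intro hle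
    have h1 := LinearMap.finrank_range_add_finrank_ker L
    have h2 : Module.finrank ℝ (LinearMap.range L) ≤ Fintype.card I' := by
      refine (Submodule.finrank_le _).trans ?_
      rw [Module.finrank_fintype_fun_eq_card]
    have h3 : Module.finrank ℝ (LinearMap.ker L) ≤ 4 := by
      refine (Submodule.finrank_mono hle).trans ?_
      refine (LinearMap.finrank_range_le A).trans ?_
      rw [Module.finrank_prod, Module.finrank_self, Module.finrank_fin_fun]
    have h4 : Module.finrank ℝ ((ι → ℝ) × (κ' → V3)) = Fintype.card ι + 3 * Fintype.card κ' := by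
      rw [Module.finrank_prod, Module.finrank_fintype_fun_eq_card, Module.finrank_pi_fintype]
      simp only [Module.finrank_fintype_fun_eq_card, Fintype.card_fin, Finset.sum_const, Finset.card_univ, smul_eq_mul, mul_comm, Nat.add_left_cancel_iff]
    have h5 : Fintype.card I' + 5 ≤ Fintype.card ι + 3 * Fintype.card κ' := by
      rw [hI'card, ← Nat.card_eq_fintype_card (α := κ')]
      exact hcount
    rw [h4] at h1
    omega
  obtain ⟨x, hx, hxA⟩ := SetLike.not_le_iff_exists.1 hnot
  refine ⟨x.1, fun j => if hj : q j ⬝ᵥ e ≠ 0 then x.2 ⟨j, hj⟩ else 0, ?_, ?_⟩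
  · intro i j h1 h2
    have h3 : L x = 0 := hx
    have h4 := congrFun h3 ⟨(i, ⟨j, h2⟩), h1⟩
    simp only [h2, ne_eq, not_false_eq_true, dite_true]
    have h5 : x.2 ⟨j, h2⟩ ⬝ᵥ p i - x.1 i = 0 := h4
    linarith only [h5]
  · rintro - ⟨c, b, hcb⟩
    apply hxA
    refine ⟨(c, b), ?_⟩
    refine Prod.ext ?_ ?_
    · ext i
      exact (hcb i).symm
    · ext1 j
      show c • q j.1 + b = x.2 j
      have h3 : L x = 0 := hx
      have hv : ∀ v ∈ {v | ∃ i, p i = v ∧ q j.1 ⬝ᵥ p i = 1}, (c • q j.1 + b - x.2 j) ⬝ᵥ v = 0 := by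
        rintro v ⟨i, rfl, hi⟩
        have h4 := congrFun h3 ⟨(i, j), hi⟩
        have h5 : x.2 j ⬝ᵥ p i - x.1 i = 0 := h4
        rw [sub_dotProduct, add_dotProduct, smul_dotProduct, hi, smul_eq_mul, mul_one]
        have := hcb i
        linarith only [h5, this]
      have hall : ∀ v : V3, (c • q j.1 + b - x.2 j) ⬝ᵥ v = 0 := by
        intro v
        have hvm : v ∈ Submodule.span ℝ {v | ∃ i, p i = v ∧ q j.1 ⬝ᵥ p i = 1} := by
          rw [hspan j.1]; trivial
        induction hvm using Submodule.span_induction with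
        | mem v hv' => exact hv v hv'
        | zero => exact dotProduct_zero _
        | add v w _ _ h1 h2 => rw [dotProduct_add, h1, h2, add_zero]
        | smul r v _ h1 => rw [dotProduct_smul, h1, smul_zero]
      have := dotProduct_self_eq_zero.1 (hall (c • q j.1 + b - x.2 j))
      exact sub_eq_zero.1 this

theorem exists_perp (w : V3) : ∃ e : V3, e ≠ 0 ∧ w ⬝ᵥ e = 0 := by
  by_cases h0 : w 0 = 0
  · refine ⟨![1, 0, 0], ?_, ?_⟩
    · intro h
      have := congrFun h 0
      simp at this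
    · simp [dotProduct, Fin.sum_univ_three, h0]
  · refine ⟨![-w 1, w 0, 0], ?_, ?_⟩
    · intro h
      have := congrFun h 1
      simp at this
      exact h0 this
    · simp only [dotProduct, Fin.isValue, Fin.sum_univ_three, Matrix.cons_val_zero, mul_neg, Matrix.cons_val_one, Matrix.cons_val, mul_zero, add_zero]
      ring

/-- The existence of a normalized motion, from the Euler inequality and the spanning property. -/
theorem exists_motion_of {p : ι → V3} {q : κ → V3} (h : Pres p q)
    (hspan : ∀ j, Submodule.span ℝ {v | ∃ i, p i = v ∧ q j ⬝ᵥ p i = 1} = ⊤)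
    (hEuler : inc p q + 4 ≤ 2 * Fintype.card ι + 2 * Fintype.card κ)
    (h1 : Fintype.card ι ≤ Fintype.card κ) (h2 : 5 ≤ Fintype.card ι) :
    ∃ e β a, Motion p q e β a := by
  classical
  -- counting for a given direction
  have hcnt : ∀ e : V3, (∑ j : {j : κ // q j ⬝ᵥ e ≠ 0}, nV p q j.1) +
      ∑ j : {j : κ // ¬ q j ⬝ᵥ e ≠ 0}, nV p q j.1 = inc p q := by
    intro e
    rw [inc_eq_sum]
    exact Fintype.sum_subtype_add_sum_subtype (fun j => q j ⬝ᵥ e ≠ 0) (fun j => nV p q j)
  have hcard : ∀ e : V3, Fintype.card {j : κ // q j ⬝ᵥ e ≠ 0} +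
      Fintype.card {j : κ // ¬ q j ⬝ᵥ e ≠ 0} = Fintype.card κ := by
    intro e
    exact Fintype.card_subtype_compl (fun j => q j ⬝ᵥ e ≠ 0) ▸ by
      have := Fintype.card_subtype_le (fun j : κ => q j ⬝ᵥ e ≠ 0)
      omega
  have h3 : ∀ j, 3 ≤ nV p q j := fun j => three_le_nV (hspan j)
  have hvert : ∀ e : V3, 3 * Fintype.card {j : κ // ¬ q j ⬝ᵥ e ≠ 0} ≤
      ∑ j : {j : κ // ¬ q j ⬝ᵥ e ≠ 0}, nV p q j.1 := by
    intro e
    calc 3 * Fintype.card {j : κ // ¬ q j ⬝ᵥ e ≠ 0}
        = ∑ j : {j : κ // ¬ q j ⬝ᵥ e ≠ 0}, 3 := by simp only [ne_eq, Decidable.not_not, Finset.sum_const, Finset.card_univ, smul_eq_mul, mul_comm]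
      _ ≤ _ := Finset.sum_le_sum fun j _ => h3 j.1
  have main : ∃ e : V3, e ≠ 0 ∧ (∑ j : {j : κ // q j ⬝ᵥ e ≠ 0}, nV p q j.1) + 5 ≤
      Fintype.card ι + 3 * Nat.card {j : κ // q j ⬝ᵥ e ≠ 0} := by
    rcases h1.lt_or_eq with hlt | heq
    · refine ⟨![1, 0, 0], fun hh => by have := congrFun hh 0; simp at this, ?_⟩
      have a1 := hcnt ![1, 0, 0]
      have a2 := hcard ![1, 0, 0]
      have a3 := hvert ![1, 0, 0]
      rw [Nat.card_eq_fintype_card]
      omega
    · by_cases hex : ∃ j0, 4 ≤ nV p q j0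
      · obtain ⟨j0, hj0⟩ := hex
        obtain ⟨e, he, hje⟩ := exists_perp (q j0)
        refine ⟨e, he, ?_⟩
        have a1 := hcnt e
        have a2 := hcard e
        have a3 : 3 * Fintype.card {j : κ // ¬ q j ⬝ᵥ e ≠ 0} + 1 ≤
            ∑ j : {j : κ // ¬ q j ⬝ᵥ e ≠ 0}, nV p q j.1 := by
          calc 3 * Fintype.card {j : κ // ¬ q j ⬝ᵥ e ≠ 0} + 1
              = (∑ j : {j : κ // ¬ q j ⬝ᵥ e ≠ 0}, 3) + 1 := by simp only [ne_eq, Decidable.not_not, Finset.sum_const, Finset.card_univ, smul_eq_mul, mul_comm, Nat.add_left_cancel_iff]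
            _ ≤ _ := by
                apply Nat.succ_le_of_lt
                exact Finset.sum_lt_sum (fun j _ => h3 j.1)
                  ⟨⟨j0, by simp [hje]⟩, Finset.mem_univ _, by
                    show 3 < nV p q j0
                    omega⟩
        rw [Nat.card_eq_fintype_card]
        omega
      · push Not at hex
        refine ⟨![1, 0, 0], fun hh => by have := congrFun hh 0; simp at this, ?_⟩
        have a4 : ∑ j : {j : κ // q j ⬝ᵥ (![1, 0, 0] : V3) ≠ 0}, nV p q j.1 ≤
            3 * Fintype.card {j : κ // q j ⬝ᵥ (![1, 0, 0] : V3) ≠ 0} := by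
          calc ∑ j : {j : κ // q j ⬝ᵥ (![1, 0, 0] : V3) ≠ 0}, nV p q j.1
              ≤ ∑ j : {j : κ // q j ⬝ᵥ (![1, 0, 0] : V3) ≠ 0}, 3 :=
                Finset.sum_le_sum fun j _ => by have := hex j.1; omega
            _ = _ := by simp only [ne_eq, Finset.sum_const, Finset.card_univ, Matrix.dotProduct_cons, mul_one, mul_zero, Matrix.dotProduct_of_isEmpty, add_zero, Fintype.card_subtype_compl, smul_eq_mul, mul_comm]
        rw [Nat.card_eq_fintype_card]
        omega
  obtain ⟨e, he, hc⟩ := main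
  obtain ⟨j0, hj0⟩ := exists_nonvert h he
  obtain ⟨β, a, hcomp, hn⟩ := exists_nonaffine hspan e hc
  obtain ⟨β', a', hm⟩ := motion_normalize h he hj0 hcomp (hn ⟨j0, hj0⟩)
  exact ⟨e, β', a', hm⟩

end Vale.Agent.P248
end
end
end

section

section

section

/-! Affine invariance of the Mahler inequality, and the fiber-sum theorem in a general direction
from the one in a coordinate direction. -/

open MeasureTheory Set
open scoped ENNReal Topology Matrix

namespace Vale.Agent.P248

section Linear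

variable {n : ℕ}

theorem polarP_mulVec (M : Matrix (Fin n) (Fin n) ℝ) (hM : M.det ≠ 0) (K : Set (Fin n → ℝ))
    (u : Fin n → ℝ) :
    polarP K (M *ᵥ u) = (fun y => Mᵀ *ᵥ y) ⁻¹' (polarP ((fun x => M *ᵥ x) ⁻¹' K) u) := by
  have key : ∀ (x y : Fin n → ℝ), ∑ i, ((M *ᵥ x) i - (M *ᵥ u) i) * y i =
      ∑ i, (x i - u i) * (Mᵀ *ᵥ y) i := by
    intro x y
    change (M *ᵥ x - M *ᵥ u) ⬝ᵥ y = (x - u) ⬝ᵥ (Mᵀ *ᵥ y)
    rw [← Matrix.mulVec_sub, Matrix.mulVec_transpose, dotProduct_comm (M *ᵥ (x - u)) y,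
      Matrix.dotProduct_mulVec, dotProduct_comm]
  have hunit : IsUnit M := (Matrix.isUnit_iff_isUnit_det M).2 (isUnit_iff_ne_zero.2 hM)
  ext y
  constructor
  · intro hy x hx
    rw [← key]
    exact hy _ hx
  · intro hy x hx
    obtain ⟨x', rfl⟩ := (Matrix.mulVec_surjective_iff_isUnit.2 hunit) x
    rw [key]
    exact hy x' hx

theorem volume_mulVec_preimage (M : Matrix (Fin n) (Fin n) ℝ) (hM : M.det ≠ 0)
    (K : Set (Fin n → ℝ)) :
    volume ((fun x => M *ᵥ x) ⁻¹' K) = ENNReal.ofReal |(M.det)⁻¹| * volume K := by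
  have hdet : LinearMap.det (Matrix.toLin' M) ≠ 0 := by
    rw [LinearMap.det_toLin']; exact hM
  have := Measure.addHaar_preimage_linearMap volume hdet K
  rw [LinearMap.det_toLin'] at this
  exact this

/-- Linear invariance of the volume product at a point. -/
theorem volume_mul_mulVec (M : Matrix (Fin n) (Fin n) ℝ) (hM : M.det ≠ 0)
    (K : Set (Fin n → ℝ)) (u : Fin n → ℝ) :
    volume K * volume (polarP K (M *ᵥ u)) =
      volume ((fun x => M *ᵥ x) ⁻¹' K) * volume (polarP ((fun x => M *ᵥ x) ⁻¹' K) u) := by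
  have hM' : (Mᵀ).det ≠ 0 := by rw [Matrix.det_transpose]; exact hM
  rw [polarP_mulVec M hM, volume_mulVec_preimage _ hM', volume_mulVec_preimage M hM,
    Matrix.det_transpose]
  ring

/-- Linear invariance of the volume product at a point, for linear equivalences. -/
theorem volume_mul_equiv (A : (Fin n → ℝ) ≃L[ℝ] (Fin n → ℝ)) (K : Set (Fin n → ℝ))
    (u : Fin n → ℝ) :
    volume K * volume (polarP K (A u)) = volume (A ⁻¹' K) * volume (polarP (A ⁻¹' K) u) := by
  have hA : ∀ x, A x = LinearMap.toMatrix' (A : (Fin n → ℝ) →ₗ[ℝ] (Fin n → ℝ)) *ᵥ x := by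
    intro x
    rw [LinearMap.toMatrix'_mulVec]
    rfl
  have hdet : (LinearMap.toMatrix' (A : (Fin n → ℝ) →ₗ[ℝ] (Fin n → ℝ))).det ≠ 0 := by
    rw [LinearMap.det_toMatrix']
    exact (LinearEquiv.isUnit_det' A.toLinearEquiv).ne_zero
  have hfun : (A : (Fin n → ℝ) → (Fin n → ℝ)) =
      fun x => LinearMap.toMatrix' (A : (Fin n → ℝ) →ₗ[ℝ] (Fin n → ℝ)) *ᵥ x := funext hA
  rw [hfun]
  exact volume_mul_mulVec _ hdet K u

end Linear

theorem volume_polarP_translate {n : ℕ} (K : Set (Fin n → ℝ)) (z w : Fin n → ℝ) :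
    volume ((fun x => x - z) '' K) * volume (polarP ((fun x => x - z) '' K) (w - z)) =
      volume K * volume (polarP K w) := by
  have h1 : volume ((fun x => x - z) '' K) = volume K := by
    have : (fun x : Fin n → ℝ => x - z) '' K = (fun x => x + z) ⁻¹' K := by
      ext x
      constructor
      · rintro ⟨y, hy, rfl⟩
        simpa using hy
      · intro hx
        exact ⟨x + z, hx, by simp⟩
    rw [this, measure_preimage_add_right]
  have h2 : polarP ((fun x => x - z) '' K) (w - z) = polarP K w := by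
    ext y
    simp only [polarP, Pi.sub_apply, forall_mem_image, sub_sub_sub_cancel_right, mem_ofPred_eq]
  rw [h1, h2]

theorem Good.translate {K : Set V3} (z : V3) (h : Good ((fun x => x - z) '' K)) : Good K := by
  intro w hw
  rw [← volume_polarP_translate K z w]
  apply h
  have h1 : interior ((Homeomorph.subRight z) '' K) = (Homeomorph.subRight z) '' interior K :=
    ((Homeomorph.subRight z).image_interior K).symm
  have h2 : w - z ∈ (Homeomorph.subRight z) '' interior K := ⟨w, hw, rfl⟩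
  rw [← h1] at h2
  exact h2

theorem good_preimage_iff (A : V3 ≃L[ℝ] V3) (K : Set V3) : Good (A ⁻¹' K) ↔ Good K := by
  have hint : interior (A ⁻¹' K) = A ⁻¹' interior K := (A.toHomeomorph.preimage_interior K).symm
  constructor
  · intro h w hw
    obtain ⟨u, rfl⟩ := A.surjective w
    rw [volume_mul_equiv]
    apply h
    rw [hint]
    exact hw
  · intro h u hu
    rw [hint] at hu
    rw [← volume_mul_equiv]
    exact h _ hu

theorem good_image_iff (A : V3 ≃L[ℝ] V3) (K : Set V3) : Good (A '' K) ↔ Good K := by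
  rw [← good_preimage_iff A (A '' K), preimage_image_eq K A.injective]

/-- The fiber-sum theorem in a general direction, from the one in a coordinate direction. -/
theorem fiber_sum_of_coord (i : Fin 3)
    (hcoord : ∀ K K1 K2 : Set V3, IsCompact K → Convex ℝ K → (interior K).Nonempty →
      IsCompact K1 → Convex ℝ K1 → (interior K1).Nonempty →
      IsCompact K2 → Convex ℝ K2 → (interior K2).Nonempty →
      (∀ x, x ∈ K ↔ ∃ r : ℝ, x + r • (Pi.single i 1 : V3) ∈ K1 ∧
        x - r • (Pi.single i 1 : V3) ∈ K2) →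
      (∀ x ∈ K1, ∃ r : ℝ, x + r • (Pi.single i 1 : V3) ∈ K2) →
      (∀ x ∈ K2, ∃ r : ℝ, x + r • (Pi.single i 1 : V3) ∈ K1) →
      Good K1 → Good K2 → Good K)
    {K K1 K2 : Set V3} {e : V3} (he : e ≠ 0)
    (hK : IsCompact K) (hc : Convex ℝ K) (hi : (interior K).Nonempty)
    (hK1 : IsCompact K1) (hc1 : Convex ℝ K1) (hi1 : (interior K1).Nonempty)
    (hK2 : IsCompact K2) (hc2 : Convex ℝ K2) (hi2 : (interior K2).Nonempty)
    (h : ∀ x, x ∈ K ↔ ∃ r : ℝ, x + r • e ∈ K1 ∧ x - r • e ∈ K2)
    (hp1 : ∀ x ∈ K1, ∃ r : ℝ, x + r • e ∈ K2) (hp2 : ∀ x ∈ K2, ∃ r : ℝ, x + r • e ∈ K1)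
    (h1 : Good K1) (h2 : Good K2) : Good K := by
  have hs : (Pi.single i 1 : V3) ≠ 0 := by simp
  obtain ⟨A, hA⟩ := SeparatingDual.exists_continuousLinearEquiv_apply_eq (R := ℝ) hs he
  have hcpt : ∀ L : Set V3, IsCompact L → IsCompact (A ⁻¹' L) := fun L hL =>
    A.toHomeomorph.isCompact_preimage.2 hL
  have hcvx : ∀ L : Set V3, Convex ℝ L → Convex ℝ (A ⁻¹' L) := fun L hL =>
    hL.linear_preimage (A : V3 →ₗ[ℝ] V3)
  have hint : ∀ L : Set V3, (interior L).Nonempty → (interior (A ⁻¹' L)).Nonempty := by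
    intro L hL
    have hint : interior (A ⁻¹' L) = A ⁻¹' interior L :=
      (A.toHomeomorph.preimage_interior L).symm
    rw [hint]
    exact hL.preimage A.surjective
  have hadd : ∀ (x : V3) (r : ℝ), A (x + r • (Pi.single i 1 : V3)) = A x + r • e := by
    intro x r
    rw [map_add, map_smul, hA]
  have hsub : ∀ (x : V3) (r : ℝ), A (x - r • (Pi.single i 1 : V3)) = A x - r • e := by
    intro x r
    rw [map_sub, map_smul, hA]
  rw [← good_preimage_iff A] at h1 h2 ⊢
  refine hcoord _ _ _ (hcpt K hK) (hcvx K hc) (hint K hi) (hcpt K1 hK1) (hcvx K1 hc1)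
    (hint K1 hi1) (hcpt K2 hK2) (hcvx K2 hc2) (hint K2 hi2) ?_ ?_ ?_ h1 h2
  · intro x
    simp only [mem_preimage, hadd, hsub]
    exact h (A x)
  · intro x hx
    obtain ⟨r, hr⟩ := hp1 (A x) hx
    exact ⟨r, by rw [mem_preimage, hadd]; exact hr⟩
  · intro x hx
    obtain ⟨r, hr⟩ := hp2 (A x) hx
    exact ⟨r, by rw [mem_preimage, hadd]; exact hr⟩

end Vale.Agent.P248
end
end
end

section

section

section

/-! Approximation by polytopes, with a general constant. -/

set_option linter.unusedSectionVars false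

open MeasureTheory Set
open scoped ENNReal Topology Matrix Pointwise

namespace Vale.Agent.P248

/-- The volume of a set that contains a homothetic copy of `K`. -/
theorem volume_le_of_homothety {K Q : Set V3} {z : V3} {r : ℝ} (hr : 0 < r)
    (h : ∀ x ∈ K, z + r • (x - z) ∈ Q) :
    ENNReal.ofReal (r ^ 3) * volume K ≤ volume Q := by
  have h1 : (fun x : V3 => x + (z - r • z)) '' (r • K) ⊆ Q := by
    rintro _ ⟨_, ⟨x, hx, rfl⟩, rfl⟩
    have h2 := h x hx
    have h3 : z + r • (x - z) = r • x + (z - r • z) := by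
      rw [smul_sub]; abel
    rw [h3] at h2
    exact h2
  have h3 := measure_mono (μ := (volume : Measure V3)) h1
  have h5 : (fun x : V3 => x + (z - r • z)) '' (r • K) =
      (fun x : V3 => x + -(z - r • z)) ⁻¹' (r • K) := by
    ext y
    simp only [mem_image, mem_preimage]
    constructor
    · rintro ⟨x, hx, rfl⟩
      rwa [add_neg_cancel_right]
    · intro hy
      exact ⟨_, hy, by abel⟩
  rw [h5, measure_preimage_add_right, Measure.addHaar_smul] at h3
  have h4 : Module.finrank ℝ V3 = 3 := by simp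
  rwa [h4, abs_of_pos (by positivity)] at h3

theorem goodC_of_approx {c : ℝ} {K : Set V3} (hK : IsCompact K) (hc : Convex ℝ K) {ε0 : ℝ}
    (hε0 : 0 < ε0) (hpoly : ∀ (ι : Type) [Fintype ι] (p : ι → V3),
    (interior (convexHull ℝ (range p))).Nonempty → convexHull ℝ (range p) ⊆ K →
    (1 - ε0) * (volume K).toReal ≤ (volume (convexHull ℝ (range p))).toReal →
    GoodC c (convexHull ℝ (range p))) : GoodC c K := by
  intro z hz
  have key : ∀ ε : ℝ, 0 < ε → ε < 1 → ε ≤ ε0 / 3 →
      ENNReal.ofReal ((1 - ε) ^ 3 * c) ≤ volume K * volume (polarP K z) := by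
    intro ε hε hε1 hε2
    obtain ⟨ι, _, p, h1, h2, h3⟩ := approx hK hc hz hε hε1
    have hr : 0 < 1 - ε := by linarith only [hε1]
    have hvol : (1 - ε0) * (volume K).toReal ≤ (volume (convexHull ℝ (range p))).toReal := by
      have h4 := volume_le_of_homothety hr h3
      have h5 : volume (convexHull ℝ (range p)) ≠ ∞ :=
        (lt_of_le_of_lt (measure_mono h1) hK.measure_lt_top).ne
      have h6 := ENNReal.toReal_mono h5 h4
      rw [ENNReal.toReal_mul, ENNReal.toReal_ofReal (by (clear * - hε1; positivity))] at h6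
      refine le_trans (mul_le_mul_of_nonneg_right ?_ ENNReal.toReal_nonneg) h6
      nlinarith only [hε2, hr, mul_nonneg hε.le (mul_nonneg hε.le hr.le)]
    have hg := hpoly ι p ⟨z, h2⟩ h1 hvol z h2
    calc ENNReal.ofReal ((1 - ε) ^ 3 * c)
        = ENNReal.ofReal ((1 - ε) ^ 3) * ENNReal.ofReal c :=
          ENNReal.ofReal_mul (by positivity)
      _ ≤ ENNReal.ofReal ((1 - ε) ^ 3) *
          (volume (convexHull ℝ (range p)) * volume (polarP (convexHull ℝ (range p)) z)) := by
          (clear * - hg; gcongr)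
      _ = volume (convexHull ℝ (range p)) * (ENNReal.ofReal ((1 - ε) ^ 3) *
          volume (polarP (convexHull ℝ (range p)) z)) := by ring
      _ ≤ volume K * volume (polarP K z) := by
          gcongr
          exact volume_polarP_le hr h3
  have hcont : Continuous (fun ε : ℝ => ENNReal.ofReal ((1 - ε) ^ 3 * c)) :=
    ENNReal.continuous_ofReal.comp (by fun_prop)
  have hlim : Filter.Tendsto (fun ε : ℝ => ENNReal.ofReal ((1 - ε) ^ 3 * c)) (𝓝[>] 0)
      (𝓝 (ENNReal.ofReal c)) := by
    have h := (hcont.tendsto 0).mono_left (nhdsWithin_le_nhds (s := Set.Ioi (0 : ℝ)))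
    simpa only [sub_zero, one_pow, one_mul] using h
  refine le_of_tendsto hlim ?_
  have hm : 0 < min 1 (ε0 / 3) := lt_min one_pos (by positivity)
  filter_upwards [Ioo_mem_nhdsGT hm] with ε hε
  have h1 := lt_min_iff.1 hε.2
  exact key ε hε.1 h1.1 h1.2.le

end Vale.Agent.P248
end
end
end

section

section

section

/-! Ball's one-dimensional inequality (the case `p = 1`) on the half-line. -/

open MeasureTheory Set Filter Topology

namespace Vale.Agent.P248

/-- The algebraic core of the transport proof. -/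
theorem ball_core {a b A B μ : ℝ} (ha : 0 < a) (hb : 0 < b) (hA : 0 < A) (hB : 0 < B)
    (h0 : 0 < μ) (h1 : μ < 1) :
    a * B / (A + B) ≤
      a ^ μ * b ^ (1 - μ) * (μ ^ 2 + (1 - μ) ^ 2 * (a / A / (b / B))) := by
  have hν : 0 < 1 - μ := by linarith
  -- first weighted mean inequality
  have e1 : (μ * A / a) ^ μ * ((1 - μ) * B / b) ^ (1 - μ) ≤
      μ * (μ * A / a) + (1 - μ) * ((1 - μ) * B / b) :=
    Real.geom_mean_le_arith_mean2_weighted h0.le hν.le (by positivity) (by positivity) (by ring)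
  -- second one
  have e2 : (1 / (μ * A)) ^ μ * (1 / ((1 - μ) * B)) ^ (1 - μ) ≤
      μ * (1 / (μ * A)) + (1 - μ) * (1 / ((1 - μ) * B)) :=
    Real.geom_mean_le_arith_mean2_weighted h0.le hν.le (by positivity) (by positivity) (by ring)
  have e3 : μ * (1 / (μ * A)) + (1 - μ) * (1 / ((1 - μ) * B)) = (A + B) / (A * B) := by
    field_simp
    ring
  rw [e3, Real.div_rpow (by norm_num) (by positivity), Real.div_rpow (by norm_num) (by positivity),
    Real.one_rpow, Real.one_rpow] at e2
  set P := (μ * A) ^ μ with hP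
  set Q := ((1 - μ) * B) ^ (1 - μ) with hQ
  have hP0 : 0 < P := by positivity
  have hQ0 : 0 < Q := by positivity
  have e4 : A * B / (A + B) ≤ P * Q := by
    have h2 : 1 / P * (1 / Q) = 1 / (P * Q) := by (clear * - hQ0 hP0; field_simp)
    rw [h2, div_le_div_iff₀ (by positivity) (by positivity)] at e2
    rw [div_le_iff₀ (by positivity)]
    linarith only [e2]
  rw [Real.div_rpow (by positivity) ha.le, Real.div_rpow (by positivity) hb.le] at e1
  set p := a ^ μ with hp
  set q := b ^ (1 - μ) with hq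
  have hp0 : 0 < p := by positivity
  have hq0 : 0 < q := by positivity
  have e5 : P * Q ≤ p * q * (μ * (μ * A / a) + (1 - μ) * ((1 - μ) * B / b)) := by
    have h3 : p * q * (P / p * (Q / q)) = P * Q := by (clear * - hp0 hq0 hQ0 hP0; field_simp)
    rw [← h3]
    exact mul_le_mul_of_nonneg_left e1 (by positivity)
  have e6 : p * q * (μ ^ 2 + (1 - μ) ^ 2 * (a / A / (b / B))) =
      a / A * (p * q * (μ * (μ * A / a) + (1 - μ) * ((1 - μ) * B / b))) := by
    (clear * - hb hA ha h0 hν hB hq0 hp0; field_simp)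
  rw [e6]
  calc a * B / (A + B) = a / A * (A * B / (A + B)) := by (clear * - hA hB ha; field_simp)
    _ ≤ a / A * (P * Q) := mul_le_mul_of_nonneg_left e4 (by positivity)
    _ ≤ _ := mul_le_mul_of_nonneg_left e5 (by positivity)

/-- The distribution function of a positive integrable continuous density. -/
theorem ball_cdf {f : ℝ → ℝ} (hc : ContinuousOn f (Ioi 0)) (hp : ∀ s, 0 < s → 0 < f s)
    (hi : IntegrableOn f (Ioi 0)) :
    ∃ G : ℝ → ℝ, (∀ x, 0 < x → HasDerivAt G (f x) x) ∧ StrictMonoOn G (Ioi 0) ∧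
      G '' (Ioi 0) = Ioo 0 (∫ s in Ioi 0, f s) := by
  have hii : ∀ x : ℝ, 0 ≤ x → IntervalIntegrable f volume 0 x := fun x hx =>
    (intervalIntegrable_iff_integrableOn_Ioc_of_le hx).2 (hi.mono_set Ioc_subset_Ioi_self)
  have hd : ∀ x, 0 < x → HasDerivAt (fun x => ∫ s in (0 : ℝ)..x, f s) (f x) x := by
    intro x hx
    refine intervalIntegral.integral_hasDerivAt_right (hii x hx.le) ?_
      (hc.continuousAt (Ioi_mem_nhds hx))
    exact ContinuousOn.stronglyMeasurableAtFilter isOpen_Ioi hc x hx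
  have hmono : StrictMonoOn (fun x => ∫ s in (0 : ℝ)..x, f s) (Ioi 0) := by
    intro x hx y hy hxy
    have hx' : (0 : ℝ) < x := hx
    have hy' : (0 : ℝ) < y := hy
    have h1 : (∫ s in (0 : ℝ)..y, f s) - ∫ s in (0 : ℝ)..x, f s = ∫ s in x..y, f s :=
      intervalIntegral.integral_interval_sub_left (hii y hy'.le) (hii x hx'.le)
    have h2 : 0 < ∫ s in x..y, f s := by
      refine intervalIntegral.intervalIntegral_pos_of_pos_on ?_ ?_ hxy
      · exact (hii x hx'.le).symm.trans (hii y hy'.le)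
      · intro s hs
        exact hp s (hx'.trans hs.1)
    simp only
    linarith
  have hcont : ContinuousOn (fun x => ∫ s in (0 : ℝ)..x, f s) (Ioi 0) := fun x hx =>
    (hd x hx).continuousAt.continuousWithinAt
  have hlim1 : Tendsto (fun x => ∫ s in (0 : ℝ)..x, f s) atTop (𝓝 (∫ s in Ioi 0, f s)) :=
    intervalIntegral_tendsto_integral_Ioi 0 hi tendsto_id
  have hlim0 : Tendsto (fun x => ∫ s in (0 : ℝ)..x, f s) (𝓝[>] 0) (𝓝 0) := by
    have h1 : ContinuousOn (fun x => ∫ s in (0 : ℝ)..x, f s) (uIcc 0 1) :=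
      intervalIntegral.continuousOn_primitive_interval' (hii 1 zero_le_one) left_mem_uIcc
    rw [uIcc_of_le zero_le_one] at h1
    have h2 := (h1 0 ⟨le_rfl, zero_le_one⟩).tendsto
    simp only [intervalIntegral.integral_same] at h2
    refine h2.mono_left ?_
    rw [← nhdsWithin_Ioo_eq_nhdsGT (zero_lt_one (α := ℝ))]
    exact nhdsWithin_mono _ Ioo_subset_Icc_self
  have hpos : ∀ x, 0 < x → 0 < ∫ s in (0 : ℝ)..x, f s := by
    intro x hx
    refine intervalIntegral.intervalIntegral_pos_of_pos_on (hii x hx.le) ?_ hx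
    intro s hs
    exact hp s hs.1
  refine ⟨fun x => ∫ s in (0 : ℝ)..x, f s, hd, hmono, ?_⟩
  ext u
  constructor
  · rintro ⟨x, hx, rfl⟩
    refine ⟨hpos x hx, ?_⟩
    have hx' : (0 : ℝ) < x := hx
    have h1 : (∫ s in (0 : ℝ)..x, f s) < ∫ s in (0 : ℝ)..(x + 1), f s :=
      hmono hx (by simp only [mem_Ioi]; linarith) (by linarith)
    refine lt_of_lt_of_le h1 ?_
    refine ge_of_tendsto hlim1 ?_
    filter_upwards [eventually_ge_atTop (x + 1)] with y hy
    rcases eq_or_lt_of_le hy with h | h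
    · rw [h]
    · exact (hmono (by simp only [mem_Ioi]; linarith) (by simp only [mem_Ioi]; linarith) h).le
  · rintro ⟨hu0, hu1⟩
    obtain ⟨a, ha, ha0⟩ : ∃ a, (∫ s in (0 : ℝ)..a, f s) < u ∧ 0 < a :=
      ((hlim0.eventually_lt_const hu0).and self_mem_nhdsWithin).exists
    obtain ⟨b, hb, hab⟩ : ∃ b, u < (∫ s in (0 : ℝ)..b, f s) ∧ a < b :=
      ((hlim1.eventually_const_lt hu1).and (eventually_gt_atTop a)).exists
    have hsub : Icc a b ⊆ Ioi 0 := fun x hx => lt_of_lt_of_le ha0 hx.1
    have := intermediate_value_Icc hab.le (hcont.mono hsub)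
    obtain ⟨x, hx, hxu⟩ := this ⟨ha.le, hb.le⟩
    exact ⟨x, hsub hx, hxu⟩

/-- The transport map between two positive densities on the half-line. -/
theorem ball_transport {f1 f2 : ℝ → ℝ} (hc1 : ContinuousOn f1 (Ioi 0))
    (hc2 : ContinuousOn f2 (Ioi 0)) (hp1 : ∀ s, 0 < s → 0 < f1 s) (hp2 : ∀ s, 0 < s → 0 < f2 s)
    (hi1 : IntegrableOn f1 (Ioi 0)) (hi2 : IntegrableOn f2 (Ioi 0))
    (hA : 0 < ∫ s in Ioi 0, f1 s) (hB : 0 < ∫ s in Ioi 0, f2 s) :
    ∃ T : ℝ → ℝ, (∀ x, 0 < x → 0 < T x) ∧
      ∀ x, 0 < x → HasDerivAt T (f1 x / (∫ s in Ioi 0, f1 s) / (f2 (T x) / ∫ s in Ioi 0, f2 s)) x := by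
  set A := ∫ s in Ioi 0, f1 s with hAdef
  set B := ∫ s in Ioi 0, f2 s with hBdef
  obtain ⟨G1, hd1, hm1, hI1⟩ := ball_cdf hc1 hp1 hi1
  obtain ⟨G2, hd2, hm2, hI2⟩ := ball_cdf hc2 hp2 hi2
  have hex : ∀ u : ℝ, ∃ y : ℝ, u ∈ Ioo 0 B → 0 < y ∧ G2 y = u := by
    intro u
    by_cases hu : u ∈ Ioo 0 B
    · rw [← hI2] at hu
      obtain ⟨y, hy, hyu⟩ := hu
      exact ⟨y, fun _ => ⟨hy, hyu⟩⟩
    · exact ⟨0, fun h => absurd h hu⟩
  choose g hg using hex
  have hginv : ∀ y, 0 < y → g (G2 y) = y := by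
    intro y hy
    have h1 : G2 y ∈ Ioo 0 B := by rw [← hI2]; exact ⟨y, hy, rfl⟩
    exact hm2.injOn (hg _ h1).1 hy (hg _ h1).2
  have hgmono : MonotoneOn g (Ioo 0 B) := by
    intro u hu w hw huw
    by_contra hlt
    push Not at hlt
    have := hm2 (hg w hw).1 (hg u hu).1 hlt
    rw [(hg w hw).2, (hg u hu).2] at this
    linarith only [huw, this]
  have hgim : g '' (Ioo 0 B) = Ioi 0 := by
    ext y
    constructor
    · rintro ⟨u, hu, rfl⟩
      exact (hg u hu).1
    · intro hy
      exact ⟨G2 y, by rw [← hI2]; exact ⟨y, hy, rfl⟩, hginv y hy⟩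
  have hgcont : ∀ u ∈ Ioo 0 B, ContinuousAt g u := by
    intro u hu
    refine continuousAt_of_monotoneOn_of_image_mem_nhds hgmono (isOpen_Ioo.mem_nhds hu) ?_
    rw [hgim]
    exact Ioi_mem_nhds (hg u hu).1
  have hgd : ∀ u ∈ Ioo 0 B, HasDerivAt g (f2 (g u))⁻¹ u := by
    intro u hu
    refine HasDerivAt.of_local_left_inverse (hgcont u hu) (hd2 _ (hg u hu).1)
      (hp2 _ (hg u hu).1).ne' ?_
    filter_upwards [isOpen_Ioo.mem_nhds hu] with w hw
    exact (hg w hw).2
  have hmem : ∀ x, 0 < x → B / A * G1 x ∈ Ioo 0 B := by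
    intro x hx
    have h1 : G1 x ∈ Ioo 0 A := by rw [← hI1]; exact ⟨x, hx, rfl⟩
    refine ⟨by have := h1.1; (clear * - hB hA this; positivity), ?_⟩
    calc B / A * G1 x < B / A * A := by
          apply mul_lt_mul_of_pos_left h1.2; (clear * - hB hA; positivity)
      _ = B := by (clear * - hA hB; field_simp)
  refine ⟨fun x => g (B / A * G1 x), fun x hx => (hg _ (hmem x hx)).1, ?_⟩
  intro x hx
  have h1 : HasDerivAt (fun x => B / A * G1 x) (B / A * f1 x) x := (hd1 x hx).const_mul _
  have h2 := (hgd _ (hmem x hx)).comp x h1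
  refine h2.congr_deriv ?_
  have h3 : 0 < f2 (g (B / A * G1 x)) := hp2 _ (hg _ (hmem x hx)).1
  (clear * - hA hB; field_simp)

theorem ball_lemma {f f1 f2 : ℝ → ℝ} (hf : Measurable f) (hc1 : ContinuousOn f1 (Set.Ioi 0))
    (hc2 : ContinuousOn f2 (Set.Ioi 0)) (hp1 : ∀ s, 0 < s → 0 < f1 s)
    (hp2 : ∀ s, 0 < s → 0 < f2 s) (hi1 : MeasureTheory.IntegrableOn f1 (Set.Ioi 0))
    (hi2 : MeasureTheory.IntegrableOn f2 (Set.Ioi 0))
    (h : ∀ s1 s2, 0 < s1 → 0 < s2 →
      f1 s1 ^ (s2 / (s1 + s2)) * f2 s2 ^ (s1 / (s1 + s2)) ≤ f (2 * s1 * s2 / (s1 + s2))) :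
    ENNReal.ofReal (2 * (∫ s in Set.Ioi 0, f1 s) * (∫ s in Set.Ioi 0, f2 s) /
      ((∫ s in Set.Ioi 0, f1 s) + ∫ s in Set.Ioi 0, f2 s)) ≤
      ∫⁻ s in Set.Ioi 0, ENNReal.ofReal (f s) := by
  have hpos : ∀ {g : ℝ → ℝ}, (∀ s, 0 < s → 0 < g s) → IntegrableOn g (Ioi 0) →
      0 < ∫ s in Ioi 0, g s := by
    intro g hg hig
    rw [setIntegral_pos_iff_support_of_nonneg_ae]
    · have : Function.support g ∩ Ioi 0 = Ioi 0 := by
        ext s
        constructor
        · exact fun hs => hs.2
        · exact fun hs => ⟨(hg s hs).ne', hs⟩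
      rw [this]
      simp
    · filter_upwards [ae_restrict_mem measurableSet_Ioi] with s hs
      exact (hg s hs).le
    · exact hig
  have hA := hpos hp1 hi1
  have hB := hpos hp2 hi2
  obtain ⟨T, hT, hdT⟩ := ball_transport hc1 hc2 hp1 hp2 hi1 hi2 hA hB
  set A := ∫ s in Ioi 0, f1 s with hAdef
  set B := ∫ s in Ioi 0, f2 s with hBdef
  set T' : ℝ → ℝ := fun x => f1 x / A / (f2 (T x) / B) with hT'
  have hT'pos : ∀ x, 0 < x → 0 < T' x := by
    intro x hx
    have := hp1 x hx
    have := hp2 _ (hT x hx)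
    simp only [hT']
    (clear f hf hc1 hc2 hi1 hi2 h hpos hAdef hdT hBdef T' hT'; positivity)
  set S : ℝ → ℝ := fun x => 2 * x * T x / (x + T x) with hS
  set S' : ℝ → ℝ := fun x => 2 * ((T x / (x + T x)) ^ 2 + (1 - T x / (x + T x)) ^ 2 * T' x)
    with hS'
  have hSd : ∀ x, 0 < x → HasDerivAt S (S' x) x := by
    intro x hx
    have hTx := hT x hx
    have h1 : HasDerivAt (fun x => 2 * x * T x) (2 * T x + 2 * x * T' x) x := by
      have := ((hasDerivAt_id x).const_mul 2).mul (hdT x hx)
      refine HasDerivAt.congr_deriv this ?_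
      simp only [mul_one, id_eq, hT']
    have h2 : HasDerivAt (fun x => x + T x) (1 + T' x) x := (hasDerivAt_id x).add (hdT x hx)
    have h3 := h1.div h2 (by (clear * - hx hTx; positivity))
    refine h3.congr_deriv ?_
    simp only [hS']
    have h4 : x + T x ≠ 0 := by (clear * - hx hTx; positivity)
    field_simp
    ring
  have hS'pos : ∀ x, 0 < x → 0 < S' x := by
    intro x hx
    have hTx := hT x hx
    have := hT'pos x hx
    simp only [hS']
    (clear * - hTx hx this; positivity)
  have hSmono : StrictMonoOn S (Ioi 0) := by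
    refine strictMonoOn_of_deriv_pos (convex_Ioi 0)
      (fun x hx => (hSd x hx).continuousAt.continuousWithinAt) ?_
    intro x hx
    rw [interior_Ioi] at hx
    rw [(hSd x hx).deriv]
    exact hS'pos x hx
  have hSim : S '' (Ioi 0) ⊆ Ioi 0 := by
    rintro _ ⟨x, hx, rfl⟩
    have hx' : (0 : ℝ) < x := hx
    have := hT x hx
    simp only [hS, mem_Ioi]
    (clear * - hx' this; positivity)
  have hmain := lintegral_image_eq_lintegral_abs_deriv_mul measurableSet_Ioi
    (fun x (hx : x ∈ Ioi (0 : ℝ)) => (hSd x hx).hasDerivWithinAt) hSmono.injOn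
    (fun s => ENNReal.ofReal (f s))
  calc ENNReal.ofReal (2 * A * B / (A + B))
      = ∫⁻ x in Ioi 0, ENNReal.ofReal (2 * (f1 x * B / (A + B))) := by
        rw [← ofReal_integral_eq_lintegral_ofReal]
        · congr 1
          have : (fun x => 2 * (f1 x * B / (A + B))) = fun x => (2 * B / (A + B)) * f1 x := by
            ext x; ring
          rw [this, integral_const_mul, ← hAdef]
          ring
        · have : (fun x => 2 * (f1 x * B / (A + B))) = fun x => (2 * B / (A + B)) * f1 x := by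
            ext x; ring
          rw [this]
          exact hi1.const_mul _
        · filter_upwards [ae_restrict_mem measurableSet_Ioi] with x hx
          have := hp1 x hx
          simp only [Pi.zero_apply]
          (clear * - this hB hA; positivity)
    _ ≤ ∫⁻ x in Ioi 0, ENNReal.ofReal |S' x| * ENNReal.ofReal (f (S x)) := by
        refine setLIntegral_mono' measurableSet_Ioi ?_
        intro x hx
        have hx' : (0 : ℝ) < x := hx
        have hTx := hT x hx
        rw [abs_of_pos (hS'pos x hx), ← ENNReal.ofReal_mul (hS'pos x hx).le]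
        apply ENNReal.ofReal_le_ofReal
        have hμ0 : 0 < T x / (x + T x) := by (clear * - hTx hx'; positivity)
        have hμ1 : T x / (x + T x) < 1 := by rw [div_lt_one (by (clear * - hx' hTx; positivity))]; linarith only [hx']
        have hμ2 : x / (x + T x) = 1 - T x / (x + T x) := by field_simp; ring
        have h1 := h x (T x) hx' hTx
        rw [hμ2] at h1
        have h2 := ball_core (hp1 x hx) (hp2 _ hTx) hA hB hμ0 hμ1
        have h3 : 0 ≤ (T x / (x + T x)) ^ 2 + (1 - T x / (x + T x)) ^ 2 * T' x := by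
          have := hT'pos x hx
          (clear * - hTx hx' hμ1 this; positivity)
        calc 2 * (f1 x * B / (A + B))
            ≤ 2 * (f1 x ^ (T x / (x + T x)) * f2 (T x) ^ (1 - T x / (x + T x)) *
              ((T x / (x + T x)) ^ 2 + (1 - T x / (x + T x)) ^ 2 * T' x)) := by
              exact mul_le_mul_of_nonneg_left h2 (by norm_num)
          _ ≤ 2 * (f (2 * x * T x / (x + T x)) *
              ((T x / (x + T x)) ^ 2 + (1 - T x / (x + T x)) ^ 2 * T' x)) := by
              have := mul_le_mul_of_nonneg_right h1 h3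
              linarith only [this]
          _ = S' x * f (S x) := by simp only [hS', hS]; ring
    _ = ∫⁻ s in S '' (Ioi 0), ENNReal.ofReal (f s) := hmain.symm
    _ ≤ ∫⁻ s in Ioi 0, ENNReal.ofReal (f s) := lintegral_mono_set hSim

end Vale.Agent.P248
end
end
end

section

section

section

set_option linter.unusedSectionVars false

open MeasureTheory Set Filter
open scoped ENNReal Topology Pointwise

namespace Vale.Agent.P248

variable {ι : Type*} [Fintype ι] [DecidableEq ι]

/-- Strict polar. -/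
def sPolar (K : Set (ι → ℝ)) (z : ι → ℝ) : Set (ι → ℝ) :=
  {y | ∃ c < 1, ∀ x ∈ K, ∑ i, (x i - z i) * y i ≤ c}

theorem interior_polarP_subset (K : Set (ι → ℝ)) (z : ι → ℝ) :
    interior (polarP K z) ⊆ sPolar K z := by
  intro y hy
  obtain ⟨t, ht, hty⟩ := exists_smul_mem hy
  have ht0 : 0 < t := by linarith
  refine ⟨t⁻¹, inv_lt_one_of_one_lt₀ ht, fun x hx => ?_⟩
  have h := hty x hx
  have h2 : ∑ i, (x i - z i) * (t • y) i = t * ∑ i, (x i - z i) * y i := by
    rw [Finset.mul_sum]
    refine Finset.sum_congr rfl fun i _ => ?_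
    simp only [Pi.smul_apply, smul_eq_mul]; ring
  rw [h2] at h
  rw [← one_div, le_div_iff₀ ht0]; linarith

theorem volume_interior_polarP (K : Set (ι → ℝ)) (z : ι → ℝ) :
    volume (interior (polarP K z)) = volume (polarP K z) := by
  refine le_antisymm (measure_mono interior_subset) ?_
  have h1 : volume (frontier (polarP K z)) = 0 := (polarP_convex K z).addHaar_frontier volume
  calc volume (polarP K z) ≤ volume (interior (polarP K z) ∪ frontier (polarP K z)) := by
        refine measure_mono ?_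
        rw [← closure_eq_interior_union_frontier]
        exact subset_closure
    _ ≤ volume (interior (polarP K z)) + volume (frontier (polarP K z)) := measure_union_le _ _
    _ = volume (interior (polarP K z)) := by rw [h1, add_zero]

theorem polarP_le_liminf {K : Set (ι → ℝ)} {z : ι → ℝ} {u : ℕ → ι → ℝ}
    (hu : Tendsto u atTop (𝓝 z)) :
    volume (polarP K z) ≤ liminf (fun k => volume (polarP K (u k))) atTop := by
  have h1 : ∀ k, volume (polarP K (u k)) = ∫⁻ y, (polarP K (u k)).indicator 1 y := by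
    intro k
    rw [lintegral_indicator_one (polarP_isClosed K (u k)).measurableSet]
  simp_rw [h1]
  refine le_trans ?_ (lintegral_liminf_le fun k =>
    measurable_one.indicator (polarP_isClosed K (u k)).measurableSet)
  calc volume (polarP K z) = ∫⁻ y in interior (polarP K z), 1 := by
        rw [setLIntegral_one, volume_interior_polarP]
    _ ≤ ∫⁻ y in interior (polarP K z),
          liminf (fun k => (polarP K (u k)).indicator 1 y) atTop := by
        refine setLIntegral_mono' isOpen_interior.measurableSet ?_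
        intro y hy
        obtain ⟨c, hc, hyc⟩ := interior_polarP_subset K z hy
        refine le_liminf_of_le (by isBoundedDefault) ?_
        have hcont : Tendsto (fun k => ∑ i, (z i - u k i) * y i) atTop (𝓝 0) := by
          have : Tendsto (fun k => ∑ i, (z i - u k i) * y i) atTop
              (𝓝 (∑ i, (z i - z i) * y i)) := by
            refine tendsto_finsetSum _ fun i _ => ?_
            exact (tendsto_const_nhds.sub ((tendsto_pi_nhds.mp hu) i)).mul_const _
          simpa only [sub_self, zero_mul, Finset.sum_const_zero] using this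
        have hev := hcont.eventually_lt_const (show (0 : ℝ) < 1 - c by linarith)
        filter_upwards [hev] with k hk
        rw [indicator_of_mem]
        · rfl
        · intro x hx
          have h2 := hyc x hx
          have h3 : ∑ i, (x i - u k i) * y i = ∑ i, (x i - z i) * y i +
              ∑ i, (z i - u k i) * y i := by
            rw [← Finset.sum_add_distrib]
            exact Finset.sum_congr rfl fun i _ => by ring
          rw [h3]; linarith
    _ ≤ _ := setLIntegral_le_lintegral _ _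

theorem volume_polarP_top {K : Set (ι → ℝ)} (hKb : Bornology.IsBounded K) (hK : Convex ℝ K)
    (hKi : (interior K).Nonempty) {z : ι → ℝ} (hz : z ∉ interior K) :
    volume (polarP K z) = ∞ := by
  obtain ⟨f, hf⟩ := geometric_hahn_banach_open_point hK.interior isOpen_interior hz
  have hf2 : ∀ x ∈ K, f x ≤ f z := by
    intro x hx
    have hx' : x ∈ closure (interior K) := by
      rw [hK.closure_interior_eq_closure_of_nonempty_interior hKi]
      exact subset_closure hx
    exact closure_minimal (t := {x | f x ≤ f z}) (fun a ha => (hf a ha).le)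
      (isClosed_le f.continuous continuous_const) hx'
  set y0 : ι → ℝ := fun i => f (Pi.single i 1) with hy0
  have hfy : ∀ x, f x = ∑ i, x i * y0 i := by
    intro x
    have h1 : x = ∑ i, x i • (Pi.single i (1 : ℝ) : ι → ℝ) := by
      ext j
      simp only [Finset.sum_apply, Pi.smul_apply, Pi.single_apply, smul_eq_mul, mul_ite, mul_one, mul_zero, Finset.sum_ite_eq, Finset.mem_univ, ↓reduceIte]
    conv_lhs => rw [h1]
    rw [map_sum]
    refine Finset.sum_congr rfl fun i _ => ?_
    rw [map_smul, smul_eq_mul]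
  have hy0ne : y0 ≠ 0 := by
    intro h
    obtain ⟨a, ha⟩ := hKi
    have h1 := hf a ha
    rw [hfy, hfy, h] at h1
    simp only [Pi.zero_apply, mul_zero, Finset.sum_const_zero, lt_self_iff_false] at h1
  -- ball inside
  obtain ⟨r, hr, hball⟩ := Metric.mem_nhds_iff.mp (polarP_mem_nhds hKb z)
  set V : ℕ → Set (ι → ℝ) := fun k => Metric.ball (((k : ℝ) * (r / ‖y0‖)) • y0) (r / 2) with hV
  have hVsub : ∀ k, V k ⊆ polarP K z := by
    intro k y hy x hx
    set y' := y - ((k : ℝ) * (r / ‖y0‖)) • y0 with hy'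
    have h1 : (2 : ℝ) • y' ∈ polarP K z := by
      apply hball
      rw [mem_ball_zero_iff, norm_smul]
      rw [hV, mem_ball_iff_norm] at hy
      rw [Real.norm_eq_abs, abs_of_pos (by norm_num : (0 : ℝ) < 2)]
      linarith only [hy]
    have h2 := h1 x hx
    have h3 := hf2 x hx
    rw [hfy, hfy] at h3
    have h4 : ∑ i, (x i - z i) * y i = (1 / 2) * ∑ i, (x i - z i) * ((2 : ℝ) • y') i +
        ((k : ℝ) * (r / ‖y0‖)) * (∑ i, x i * y0 i - ∑ i, z i * y0 i) := by
      rw [← Finset.sum_sub_distrib, Finset.mul_sum, Finset.mul_sum, ← Finset.sum_add_distrib]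
      refine Finset.sum_congr rfl fun i _ => ?_
      simp only [hy', Pi.smul_apply, Pi.sub_apply, smul_eq_mul]
      ring
    rw [h4]
    have h5 : ((k : ℝ) * (r / ‖y0‖)) * (∑ i, x i * y0 i - ∑ i, z i * y0 i) ≤ 0 :=
      mul_nonpos_of_nonneg_of_nonpos (by (clear * - hr hy0ne; positivity)) (by linarith only [h3])
    linarith only [h2, h5]
  have hdisj : Pairwise (Function.onFun Disjoint V) := by
    intro k l hkl
    apply Metric.ball_disjoint_ball
    rw [dist_eq_norm, ← sub_smul, norm_smul]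
    have h1 : (k : ℝ) * (r / ‖y0‖) - l * (r / ‖y0‖) = ((k : ℝ) - l) * (r / ‖y0‖) := by ring
    rw [h1, norm_mul, norm_div, norm_norm, mul_assoc, div_mul_cancel₀ _ (norm_ne_zero_iff.mpr hy0ne),
      Real.norm_eq_abs, Real.norm_eq_abs, abs_of_pos hr]
    have h2 : (1 : ℝ) ≤ |(k : ℝ) - l| := by
      have h3 : (1 : ℤ) ≤ |(k : ℤ) - l| := by
        apply Int.one_le_abs
        intro h
        apply hkl
        omega
      have h4 : ((|(k : ℤ) - l| : ℤ) : ℝ) = |(k : ℝ) - l| := by push_cast; rfl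
      rw [← h4]
      exact_mod_cast h3
    linarith only [mul_nonneg (le_of_lt (sub_pos.2 hr)) (sub_nonneg.2 h2)]
  have h1 : volume (⋃ k, V k) = ∞ := by
    rw [measure_iUnion hdisj (fun k => Metric.isOpen_ball.measurableSet)]
    have : ∀ k, volume (V k) = volume (Metric.ball (0 : ι → ℝ) (r / 2)) := by
      intro k
      exact Measure.addHaar_ball_center volume _ _
    simp_rw [this]
    exact ENNReal.tsum_const_eq_top_of_ne_zero
      (Metric.isOpen_ball.measure_pos volume ⟨0, Metric.mem_ball_self (by (clear * - hr; positivity))⟩).ne'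
  exact top_unique (h1 ▸ measure_mono (iUnion_subset hVsub))

/-- The Santaló point exists. -/
theorem exists_santalo {K : Set (ι → ℝ)} (hKc : IsCompact K) (hK : Convex ℝ K)
    (hKi : (interior K).Nonempty) :
    ∃ z ∈ interior K, ∀ w ∈ interior K, volume (polarP K z) ≤ volume (polarP K w) := by
  set S : Set ℝ≥0∞ := (fun z => volume (polarP K z)) '' interior K with hS
  have hSne : S.Nonempty := hKi.image _
  obtain ⟨m, _, hm, hmem⟩ := exists_seq_tendsto_sInf hSne (OrderBot.bddBelow S)
  choose u hu hum using hmem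
  obtain ⟨z, hzK, φ, hφ, hlim⟩ := hKc.tendsto_subseq (fun k => interior_subset (hu k))
  have h1 := polarP_le_liminf (K := K) hlim
  have h2 : liminf (fun k => volume (polarP K ((u ∘ φ) k))) atTop = sInf S := by
    have : (fun k => volume (polarP K ((u ∘ φ) k))) = fun k => m (φ k) := by
      ext k; exact hum (φ k)
    rw [this]
    exact (hm.comp hφ.tendsto_atTop).liminf_eq
  rw [h2] at h1
  have hz : z ∈ interior K := by
    by_contra hz
    rw [volume_polarP_top hKc.isBounded hK hKi hz] at h1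
    obtain ⟨w, hw⟩ := hKi
    have h3 : sInf S ≤ volume (polarP K w) := sInf_le ⟨w, hw, rfl⟩
    have h4 : volume (polarP K w) < ∞ := (polarP_isBounded hw).measure_lt_top
    exact absurd (h1.trans h3) (not_le.mpr h4)
  refine ⟨z, hz, fun w hw => ?_⟩
  exact h1.trans (sInf_le ⟨w, hw, rfl⟩)

end Vale.Agent.P248
end
end
end

section

section

section

open Finset

namespace Vale.Agent.P248

variable {n : ℕ}

/-- Double counting of pairs (set, element). -/
theorem sum_erase (c : ℕ → ℝ) (F : Finset (Fin n) → ℝ) :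
    ∑ J : Finset (Fin n), ∑ i ∈ J, c J.card * F (J.erase i) =
      ∑ J : Finset (Fin n), ((n : ℝ) - J.card) * c (J.card + 1) * F J := by
  have h1 : ∑ J : Finset (Fin n), ∑ i ∈ J, c J.card * F (J.erase i) =
      ∑ i : Fin n, ∑ J ∈ (univ : Finset (Finset (Fin n))).filter (fun J => i ∈ J),
        c J.card * F (J.erase i) := by
    rw [Finset.sum_comm' (s' := fun i => (univ : Finset (Finset (Fin n))).filter (fun J => i ∈ J))
      (t' := univ)]
    intro x y
    simp only [mem_univ, true_and, mem_filter, and_true]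
  have h2 : ∑ J : Finset (Fin n), ((n : ℝ) - J.card) * c (J.card + 1) * F J =
      ∑ J : Finset (Fin n), ∑ i ∈ Jᶜ, c (J.card + 1) * F J := by
    refine Finset.sum_congr rfl fun J _ => ?_
    rw [Finset.sum_const, Finset.card_compl, nsmul_eq_mul, Fintype.card_fin,
      Nat.cast_sub (by simpa only [Fintype.card_fin] using Finset.card_le_univ J)]
    ring
  have h3 : ∑ J : Finset (Fin n), ∑ i ∈ Jᶜ, c (J.card + 1) * F J =
      ∑ i : Fin n, ∑ J ∈ (univ : Finset (Finset (Fin n))).filter (fun J => i ∉ J),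
        c (J.card + 1) * F J := by
    rw [Finset.sum_comm' (s' := fun i => (univ : Finset (Finset (Fin n))).filter (fun J => i ∉ J))
      (t' := univ)]
    intro x y
    simp only [mem_univ, mem_compl, true_and, mem_filter, and_true]
  rw [h1, h2, h3]
  refine Finset.sum_congr rfl fun i _ => ?_
  refine Finset.sum_bij' (fun J _ => J.erase i) (fun J _ => insert i J) ?_ ?_ ?_ ?_ ?_
  · intro J hJ
    simp
  · intro J hJ
    simp
  · intro J hJ
    simp only [mem_filter, mem_univ, true_and] at hJ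
    exact Finset.insert_erase hJ
  · intro J hJ
    simp only [mem_filter, mem_univ, true_and] at hJ
    exact Finset.erase_insert hJ
  · intro J hJ
    simp only [mem_filter, mem_univ, true_and] at hJ
    rw [Finset.card_erase_of_mem hJ]
    have : 1 ≤ J.card := Finset.card_pos.mpr ⟨i, hJ⟩
    congr 2
    omega

/-- Averages of logarithms are at most the logarithm of the average. -/
theorem sum_log_le {ι : Type*} (s : Finset ι) (hs : s.Nonempty) (u : ι → ℝ)
    (hu : ∀ i ∈ s, 0 < u i) (M : ℝ) (hM : ∑ i ∈ s, u i = s.card * M) :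
    ∑ i ∈ s, Real.log (u i) ≤ s.card * Real.log M := by
  have hc : (0 : ℝ) < s.card := by exact_mod_cast Finset.card_pos.mpr hs
  have hpos : 0 < ∑ i ∈ s, u i := Finset.sum_pos hu hs
  have hM0 : 0 < M := by
    rw [hM] at hpos
    exact (mul_pos_iff_of_pos_left hc).mp hpos
  have key : ∀ i ∈ s, Real.log (u i) ≤ Real.log M + (u i / M - 1) := by
    intro i hi
    have h1 := Real.log_le_sub_one_of_pos (div_pos (hu i hi) hM0)
    rw [Real.log_div (hu i hi).ne' hM0.ne'] at h1
    linarith only [h1]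
  calc ∑ i ∈ s, Real.log (u i) ≤ ∑ i ∈ s, (Real.log M + (u i / M - 1)) :=
        Finset.sum_le_sum key
    _ = s.card * Real.log M := by
        rw [Finset.sum_add_distrib, Finset.sum_sub_distrib, ← Finset.sum_div, hM]
        simp only [sum_const, nsmul_eq_mul, mul_one, add_eq_left]
        field_simp
        ring

theorem sum_inv_choose (n : ℕ) :
    ∑ J : Finset (Fin n), (1 : ℝ) / (n.choose J.card) = n + 1 := by
  have h := Finset.sum_powerset_apply_card (fun m => (1 : ℝ) / (n.choose m))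
    (x := (univ : Finset (Fin n)))
  rw [Finset.powerset_univ] at h
  rw [h, Finset.card_univ, Fintype.card_fin]
  have : ∀ m ∈ range (n + 1), (n.choose m) • ((1 : ℝ) / (n.choose m)) = 1 := by
    intro m hm
    have hm' : m ≤ n := by simpa [Nat.lt_succ_iff] using hm
    have : (0 : ℝ) < n.choose m := by exact_mod_cast Nat.choose_pos hm'
    rw [nsmul_eq_mul]
    field_simp
  rw [Finset.sum_congr rfl this]
  simp only [sum_const, card_range, nsmul_eq_mul, Nat.cast_add, Nat.cast_one, mul_one]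

/-- The key logarithmic inequality at one set. -/
theorem slack_nonneg {j N : ℝ} (hj : 0 < j) (hjN : j < N) {t sΦ sB Φ B C : ℝ}
    (hC : 0 < C) (ht0 : 0 < t) (ht1 : t < 1)
    (h1 : sΦ / j + Real.log (((N - j) / N) / t) ≤ Φ)
    (h2 : sB / j ≤ B + Real.log ((1 - t) / (j / N))) :
    0 ≤ (N - j) / C * Φ - (N - j) / (C * j) * sΦ + (j / C * B - 1 / C * sB) := by
  have hN : 0 < N := hj.trans hjN
  have e1 : -Real.log (((N - j) / N) / t) ≤ t / ((N - j) / N) - 1 := by
    rw [← Real.log_inv, inv_div]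
    exact Real.log_le_sub_one_of_pos (by have : 0 < N - j := by linarith only [hjN]
                                         positivity)
  have e2 : Real.log ((1 - t) / (j / N)) ≤ (1 - t) / (j / N) - 1 :=
    Real.log_le_sub_one_of_pos (by have : 0 < 1 - t := by linarith only [ht1]
                                   positivity)
  have hNj : 0 < N - j := by linarith only [hjN]
  have a1 : 1 - t * N / (N - j) ≤ Φ - sΦ / j := by
    have : t / ((N - j) / N) = t * N / (N - j) := by (clear * - hNj hN ht0; field_simp)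
    rw [this] at e1
    linarith only [h1, e1]
  have a2 : 1 - (1 - t) * N / j ≤ B - sB / j := by
    have : (1 - t) / (j / N) = (1 - t) * N / j := by field_simp
    rw [this] at e2
    linarith only [e2, h2]
  have b1 : (N - j) - t * N ≤ (N - j) * (Φ - sΦ / j) := by
    calc (N - j) - t * N = (N - j) * (1 - t * N / (N - j)) := by (clear * - hNj; field_simp)
      _ ≤ _ := by (clear * - a1 hjN; gcongr)
  have b2 : j - (1 - t) * N ≤ j * (B - sB / j) := by
    calc j - (1 - t) * N = j * (1 - (1 - t) * N / j) := by (clear * - hj; field_simp)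
      _ ≤ _ := by (clear * - a2 hj; gcongr)
  have : 0 ≤ ((N - j) * (Φ - sΦ / j) + j * (B - sB / j)) / C := by
    apply div_nonneg _ hC.le
    linarith only [b1, b2]
  calc 0 ≤ _ := this
    _ = _ := by (clear * - hj hC; field_simp)

/-- The flag inequality. -/
theorem flag_inequality (n : ℕ) (b E : Finset (Fin n) → ℝ) (hb0 : b ∅ = 1) (hE0 : E ∅ = 1)
    (hb : ∀ J, 0 < b J) (hE : ∀ J, 0 < E J)
    (hc : ∀ J : Finset (Fin n), J.Nonempty → ∑ i ∈ J, b (J.erase i) < b J)
    (hrec : ∀ J : Finset (Fin n), J.Nonempty → ∑ i ∈ J, b (J.erase i) * E (J.erase i) ≤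
      (b J - ∑ i ∈ J, b (J.erase i)) * E J) :
    ((n : ℝ) + 1) ^ (n + 1) ≤ b univ * ∑ J, E J ∧
    (b univ * ∑ J, E J = ((n : ℝ) + 1) ^ (n + 1) →
      b univ = ((n : ℝ) + 1) ^ n ∧ ∀ i : Fin n, (n : ℝ) + 1 ≤ b {i}) := by
  set N : ℝ := (n : ℝ) + 1 with hN
  have hN0 : 0 < N := by positivity
  have hCpos : ∀ J : Finset (Fin n), (0 : ℝ) < n.choose J.card := fun J => by
    exact_mod_cast Nat.choose_pos (by simpa only [Fintype.card_fin] using Finset.card_le_univ J)
  set Bt : Finset (Fin n) → ℝ := fun J => Real.log (b J / N ^ J.card) with hBt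
  set F : Finset (Fin n) → ℝ := fun J => b J * E J * n.choose J.card / N ^ J.card with hF
  have hFpos : ∀ J, 0 < F J := fun J => by
    have := hb J; have := hE J; have := hCpos J
    simp only [hF]; (clear hb0 hE0 hc hrec hN hN0 Bt hBt F hF; positivity)
  set X : Finset (Fin n) → ℝ := fun J => n.choose J.card * b univ * E J / N ^ n with hX
  have hXpos : ∀ J, 0 < X J := fun J => by
    have := hb univ; have := hE J; have := hCpos J
    simp only [hX]; (clear hb0 hE0 hc hrec hN hN0 Bt hBt F hF hFpos X hX; positivity)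
  have hlogX : ∀ J, Real.log (X J) = Real.log (F J) - Bt J + Bt univ := by
    intro J
    have h1 := hb J; have h2 := hE J; have h3 := hCpos J; have h4 := hb univ
    simp only [hX, hF, hBt]
    rw [← Real.log_div (by (clear * - h1 h2 h3; positivity)) (by (clear * - h1; positivity)), ← Real.log_mul (by (clear * - h1 h2 h3; positivity)) (by (clear * - h4; positivity))]
    congr 1
    rw [Finset.card_univ, Fintype.card_fin]
    (clear * - h1 hN0 h2 h4 h3; field_simp)
  -- choose identities
  have hch : ∀ J : Finset (Fin n), J ≠ univ →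
      ((n.choose (J.card + 1) : ℕ) : ℝ) * (J.card + 1) = n.choose J.card * ((n : ℝ) - J.card) := by
    intro J _
    have hle : J.card ≤ n := by simpa only [Fintype.card_fin] using Finset.card_le_univ J
    have := Nat.choose_succ_right_eq n J.card
    have h2 : ((n.choose (J.card + 1) * (J.card + 1) : ℕ) : ℝ) =
        ((n.choose J.card * (n - J.card) : ℕ) : ℝ) := by exact_mod_cast this
    push_cast [Nat.cast_sub hle] at h2
    exact h2
  have hlt : ∀ J : Finset (Fin n), J ≠ univ → (J.card : ℝ) < n := by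
    intro J hJ
    have : J.card < Fintype.card (Fin n) := by
      rw [Finset.card_lt_iff_ne_univ]; exact hJ
    rw [Fintype.card_fin] at this
    exact_mod_cast this
  -- slack
  set slack : Finset (Fin n) → ℝ := fun J =>
    (N - J.card) / n.choose J.card * Real.log (F J)
      - (∑ i ∈ J, (N - J.card) / (n.choose J.card * J.card) * Real.log (F (J.erase i)))
      + (J.card / n.choose J.card * Bt J - ∑ i ∈ J, 1 / (n.choose J.card : ℝ) * Bt (J.erase i))
    with hslack
  have hslack0 : ∀ J, 0 ≤ slack J := by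
    intro J
    rcases J.eq_empty_or_nonempty with rfl | hJ
    · simp only [hslack, hF, hBt, one_div, card_empty, CharP.cast_eq_zero, sub_zero, Nat.choose_zero_right, Nat.cast_one, div_one, hb0, hE0, mul_one, pow_zero, ne_eq, one_ne_zero, not_false_eq_true, div_self, Real.log_one, mul_zero, div_zero, notMem_empty, erase_eq_of_notMem, sum_const_zero, sub_self, inv_one, add_zero, Std.le_refl]
    · have hj : (0 : ℝ) < J.card := by exact_mod_cast Finset.card_pos.mpr hJ
      have hj1 : 1 ≤ J.card := Finset.card_pos.mpr hJ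
      have hle : J.card ≤ n := by simpa only [Fintype.card_fin] using Finset.card_le_univ J
      have hjN : (J.card : ℝ) < N := by
        have : (J.card : ℝ) ≤ n := by exact_mod_cast hle
        linarith only [this]
      set t : ℝ := 1 - (∑ i ∈ J, b (J.erase i)) / b J with ht
      have hsum : 0 < ∑ i ∈ J, b (J.erase i) := Finset.sum_pos (fun i _ => hb _) hJ
      have ht0 : 0 < t := by
        have := (div_lt_one (hb J)).mpr (hc J hJ)
        rw [ht]; linarith only [this]
      have ht1 : t < 1 := by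
        have := div_pos hsum (hb J)
        rw [ht]; linarith only [this]
      have htb : t * b J = b J - ∑ i ∈ J, b (J.erase i) := by
        rw [ht]; have := (hb J).ne'; (clear * - this; field_simp)
      simp only [hslack]
      rw [← Finset.mul_sum, ← Finset.mul_sum]
      have hcardE : ∀ i ∈ J, (J.erase i).card = J.card - 1 := fun i hi =>
        Finset.card_erase_of_mem hi
      have hCr : (n.choose (J.card) : ℝ) * J.card = n.choose (J.card - 1) * (N - J.card) := by
        obtain ⟨m, hm⟩ := Nat.exists_eq_add_of_le hj1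
        have h1 := Nat.choose_succ_right_eq n m
        have hmn : m ≤ n := by omega
        have h2 : ((n.choose (m + 1) * (m + 1) : ℕ) : ℝ) = ((n.choose m * (n - m) : ℕ) : ℝ) := by
          exact_mod_cast h1
        push_cast [Nat.cast_sub hmn] at h2
        rw [hm, add_comm 1 m, Nat.add_sub_cancel]
        push_cast
        rw [h2, hN]
        ring
      refine slack_nonneg (t := t) hj hjN (hCpos J) ht0 ht1 ?_ ?_
      · -- the log inequality for F
        have h1 := sum_log_le J hJ (fun i => F (J.erase i)) (fun i _ => hFpos _)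
          ((∑ i ∈ J, F (J.erase i)) / J.card) (by (clear * - hJ; field_simp))
        have hSpos : 0 < ∑ i ∈ J, F (J.erase i) := Finset.sum_pos (fun i _ => hFpos _) hJ
        have h2 : (∑ i ∈ J, Real.log (F (J.erase i))) / J.card ≤
            Real.log ((∑ i ∈ J, F (J.erase i)) / J.card) := by
          rw [div_le_iff₀ hj]; linarith only [h1]
        have h3 : (∑ i ∈ J, F (J.erase i)) / J.card * ((N - J.card) / N / t) ≤ F J := by
          have e1 : ∑ i ∈ J, F (J.erase i) =
              (n.choose (J.card - 1) / N ^ (J.card - 1)) * ∑ i ∈ J, b (J.erase i) * E (J.erase i) := by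
            rw [Finset.mul_sum]
            refine Finset.sum_congr rfl fun i hi => ?_
            simp only [hF]
            rw [hcardE i hi]
            ring
          have e2 := hrec J hJ
          rw [← htb] at e2
          have hch1 : (0 : ℝ) < n.choose (J.card - 1) := by
            exact_mod_cast Nat.choose_pos (by omega)
          have hNj : 0 < N - J.card := by linarith only [hjN]
          have e3 : ∑ i ∈ J, F (J.erase i) ≤
              (n.choose (J.card - 1) / N ^ (J.card - 1)) * (t * b J * E J) := by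
            rw [e1]; (clear * - e2 hch1; gcongr)
          calc (∑ i ∈ J, F (J.erase i)) / J.card * ((N - J.card) / N / t)
              ≤ ((n.choose (J.card - 1) / N ^ (J.card - 1)) * (t * b J * E J)) / J.card
                * ((N - J.card) / N / t) := by (clear * - e3 hJ hjN ht0; gcongr)
            _ = F J := by
              simp only [hF]
              obtain ⟨m, hm⟩ := Nat.exists_eq_add_of_le hj1
              have : N ^ J.card = N ^ (J.card - 1) * N := by
                rw [hm, add_comm 1 m, Nat.add_sub_cancel, pow_succ]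
              rw [this]
              have hCr' : (n.choose (J.card) : ℝ) = n.choose (J.card - 1) * (N - J.card) / J.card := by
                rw [← hCr]; (clear * - hJ; field_simp)
              rw [hCr']
              (clear * - ht0 hNj hN0 hJ hch1; field_simp)
        have hNj : 0 < N - J.card := by linarith only [hjN]
        have h4 := Real.log_le_log (by (clear * - hSpos hJ hjN ht0; (clear * - hSpos hJ hjN ht0; positivity))) h3
        rw [Real.log_mul (by (clear * - hSpos hJ; positivity)) (by (clear * - hjN ht0; positivity))] at h4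
        linarith only [h4, h2]
      · have hu : ∀ i ∈ J, 0 < b (J.erase i) / N ^ (J.erase i).card := fun i _ => by
          have := hb (J.erase i); (clear * - this; positivity)
        have h1 := sum_log_le J hJ (fun i => b (J.erase i) / N ^ (J.erase i).card) hu
          ((∑ i ∈ J, b (J.erase i) / N ^ (J.erase i).card) / J.card) (by (clear * - hJ; field_simp))
        have h2 : (∑ i ∈ J, Bt (J.erase i)) / J.card ≤
            Real.log ((∑ i ∈ J, b (J.erase i) / N ^ (J.erase i).card) / J.card) := by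
          rw [div_le_iff₀ hj]
          simp only [hBt]
          linarith only [h1]
        have h3 : (∑ i ∈ J, b (J.erase i) / N ^ (J.erase i).card) / J.card =
            b J / N ^ J.card * ((1 - t) / (J.card / N)) := by
          have e1 : ∑ i ∈ J, b (J.erase i) / N ^ (J.erase i).card =
              (∑ i ∈ J, b (J.erase i)) / N ^ (J.card - 1) := by
            rw [Finset.sum_div]
            refine Finset.sum_congr rfl fun i hi => ?_
            rw [hcardE i hi]
          have e2 : ∑ i ∈ J, b (J.erase i) = (1 - t) * b J := by linarith only [htb]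
          rw [e1, e2]
          obtain ⟨m, hm⟩ := Nat.exists_eq_add_of_le hj1
          have : N ^ J.card = N ^ (J.card - 1) * N := by
            rw [hm, add_comm 1 m, Nat.add_sub_cancel, pow_succ]
          rw [this]
          clear e1 e2
          (clear * - hN0 hJ; field_simp)
        rw [h3] at h2
        have h5 : 0 < 1 - t := by linarith only [ht1]
        have h6 := hb J
        rw [Real.log_mul (by (clear * - h6; positivity)) (by (clear * - ht1 hJ; positivity))] at h2
        simpa only [hBt, ge_iff_le] using h2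
  have hsum_slack : ∑ J, slack J = ∑ J, 1 / (n.choose J.card : ℝ) * Real.log (X J) := by
    simp only [hslack]
    rw [Finset.sum_add_distrib, Finset.sum_sub_distrib, Finset.sum_sub_distrib]
    have e1 := sum_erase (fun m => (N - m) / (n.choose m * m)) (fun J => Real.log (F J))
    have e2 := sum_erase (fun m => 1 / (n.choose m : ℝ)) Bt
    rw [e1, e2]
    have e3 : ∀ J : Finset (Fin n), ((n : ℝ) - J.card) * ((N - (J.card + 1 : ℕ)) /
        (n.choose (J.card + 1) * (J.card + 1 : ℕ))) * Real.log (F J) =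
        (n - J.card) / n.choose J.card * Real.log (F J) := by
      intro J
      by_cases hJ : J = univ
      · subst hJ; simp only [card_univ, Fintype.card_fin, sub_self, Nat.cast_add, Nat.cast_one, Nat.choose_succ_self, CharP.cast_eq_zero, zero_mul, div_zero, mul_zero, Nat.choose_self, div_one]
      · have h1 := hch J hJ
        have h2 := hlt J hJ
        have h3 := hCpos J
        have h4 : (0 : ℝ) < n - J.card := by linarith only [h2]
        push_cast
        rw [h1, hN]
        congr 1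
        field_simp
        ring
    have e4 : ∀ J : Finset (Fin n), ((n : ℝ) - J.card) * (1 / (n.choose (J.card + 1) : ℝ)) * Bt J =
        (J.card + 1) / n.choose J.card * Bt J - if J = univ then N * Bt J else 0 := by
      intro J
      by_cases hJ : J = univ
      · subst hJ; simp only [card_univ, Fintype.card_fin, sub_self, Nat.choose_succ_self, CharP.cast_eq_zero, div_zero, mul_zero, zero_mul, Nat.choose_self, Nat.cast_one, div_one, ↓reduceIte, hN]
      · have h1 := hch J hJ
        have h2 := hlt J hJ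
        have h3 := hCpos J
        have h4 : (0 : ℝ) < n - J.card := by linarith only [h2]
        rw [if_neg hJ, sub_zero]
        congr 1
        have h5 : (n.choose (J.card + 1) : ℝ) = n.choose J.card * ((n : ℝ) - J.card) / (J.card + 1) := by
          rw [← h1]; (clear * -; field_simp)
        rw [h5]
        (clear * - h4 h3; field_simp)
    rw [Finset.sum_congr rfl (fun J _ => e3 J), Finset.sum_congr rfl (fun J _ => e4 J)]
    rw [Finset.sum_sub_distrib, Finset.sum_ite_eq' univ univ (fun J => N * Bt J)]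
    simp only [mem_univ, if_true]
    have e5 : N * Bt univ = ∑ J : Finset (Fin n), 1 / (n.choose J.card : ℝ) * Bt univ := by
      rw [← Finset.sum_mul, sum_inv_choose]
    rw [e5, ← Finset.sum_sub_distrib, ← Finset.sum_sub_distrib, ← Finset.sum_sub_distrib,
      ← Finset.sum_add_distrib]
    refine Finset.sum_congr rfl fun J _ => ?_
    rw [hlogX J]
    have h3 := hCpos J
    field_simp
    rw [hN]
    ring
  have hlog_nonneg : 0 ≤ ∑ J, 1 / (n.choose J.card : ℝ) * Real.log (X J) := by
    rw [← hsum_slack]; exact Finset.sum_nonneg fun J _ => hslack0 J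
  have hS : b univ * ∑ J, E J = N ^ n * ∑ J, 1 / (n.choose J.card : ℝ) * X J := by
    rw [Finset.mul_sum, Finset.mul_sum]
    refine Finset.sum_congr rfl fun J _ => ?_
    have h3 := hCpos J
    simp only [hX]
    (clear * - hN0 h3; field_simp)
  have hS2 : ∑ J, 1 / (n.choose J.card : ℝ) * X J =
      N + ∑ J, 1 / (n.choose J.card : ℝ) * (X J - 1 - Real.log (X J)) +
        ∑ J, 1 / (n.choose J.card : ℝ) * Real.log (X J) := by
    have := sum_inv_choose n
    rw [hN, ← this, ← Finset.sum_add_distrib, ← Finset.sum_add_distrib]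
    refine Finset.sum_congr rfl fun J _ => ?_
    ring
  have hterm : ∀ J, 0 ≤ 1 / (n.choose J.card : ℝ) * (X J - 1 - Real.log (X J)) := by
    intro J
    have h3 := hCpos J
    have h4 := Real.log_le_sub_one_of_pos (hXpos J)
    have : 0 ≤ X J - 1 - Real.log (X J) := by linarith only [h4]
    (clear * - h3 h4; positivity)
  have hgap : 0 ≤ ∑ J, 1 / (n.choose J.card : ℝ) * (X J - 1 - Real.log (X J)) :=
    Finset.sum_nonneg fun J _ => hterm J
  refine ⟨?_, ?_⟩
  · rw [hS, pow_succ]
    gcongr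
    rw [hS2]
    linarith only [hgap, hlog_nonneg]
  · intro heq
    rw [hS, pow_succ] at heq
    have h1 : ∑ J, 1 / (n.choose J.card : ℝ) * X J = N := mul_left_cancel₀ (by (clear * -; positivity)) heq
    have h2 : ∑ J, 1 / (n.choose J.card : ℝ) * (X J - 1 - Real.log (X J)) = 0 := by linarith only [hgap, hlog_nonneg, hS2, h1]
    have h3 : ∀ J, X J = 1 := by
      intro J
      have := (Finset.sum_eq_zero_iff_of_nonneg (fun J _ => hterm J)).mp h2 J (mem_univ J)
      have hC := hCpos J
      have h4 : X J - 1 - Real.log (X J) = 0 := by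
        rcases mul_eq_zero.mp this with h | h
        · exfalso; have : 0 < 1 / (n.choose J.card : ℝ) := by (clear * - hC; positivity)
          linarith only [h, this]
        · exact h
      by_contra hne
      have := Real.log_lt_sub_one_of_pos (hXpos J) hne
      linarith only [h4, this]
    have h4 : b univ = N ^ n := by
      have := h3 ∅
      simp only [hX, Finset.card_empty, Nat.choose_zero_right, hE0] at this
      field_simp at this
      simpa only [Nat.cast_one, one_mul] using this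
    refine ⟨h4, fun i => ?_⟩
    have hn : (0 : ℝ) < n := by
      have : 0 < n := i.pos
      exact_mod_cast this
    have h5 := h3 {i}
    simp only [hX, Finset.card_singleton, Nat.choose_one_right, h4] at h5
    have h6 : E {i} = 1 / n := by
      field_simp at h5
      field_simp
      linarith only [h5]
    have h7 := hrec {i} (Finset.singleton_nonempty i)
    simp only [Finset.sum_singleton, Finset.erase_singleton, hb0, hE0, h6] at h7
    have h8 : (n : ℝ) ≤ b {i} - 1 := by
      have := mul_le_mul_of_nonneg_right h7 hn.le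
      field_simp at this
      linarith only [this]
    linarith only [h8]

end Vale.Agent.P248
end
end
end

section

section

section

open MeasureTheory Set
open scoped ENNReal Topology

namespace Vale.Agent.P248

/-- Midpoint log-concavity and monotonicity give submultiplicativity. -/
theorem submul_of_mid {a : ℝ → ℝ} (hpos : ∀ s, 0 ≤ s → 0 < a s)
    (hanti : ∀ s t, 0 ≤ s → s ≤ t → a t ≤ a s)
    (hmid : ∀ s t, 0 ≤ s → 0 ≤ t → a s * a t ≤ a ((s + t) / 2) ^ 2)
    {r s : ℝ} (hr : 0 ≤ r) (hs : 0 ≤ s) : a 0 * a (r + s) ≤ a r * a s := by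
  set T := r + s with hT
  have hT0 : 0 ≤ T := by positivity
  set g : ℝ → ℝ := fun t => Real.log (a t) + Real.log (a (T - t)) with hg
  set S : Set ℝ := (fun t => g 0 - g t) '' Icc 0 T with hS
  have hlb : ∀ t ∈ Icc 0 T, 2 * Real.log (a T) ≤ g t := by
    intro t ht
    have h1 := Real.log_le_log (hpos T hT0) (hanti t T ht.1 ht.2)
    have h2 := Real.log_le_log (hpos T hT0) (hanti (T - t) T (by linarith only [ht.2]) (by linarith only [ht.1]))
    simp only [hg]; linarith
  have hbdd : BddAbove S := by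
    refine ⟨g 0 - 2 * Real.log (a T), ?_⟩
    rintro _ ⟨t, ht, rfl⟩
    have := hlb t ht
    simp only
    linarith
  have hne : S.Nonempty := ⟨g 0 - g 0, 0, ⟨le_rfl, hT0⟩, rfl⟩
  have hmid' : ∀ s t, 0 ≤ s → 0 ≤ t →
      Real.log (a s) + Real.log (a t) ≤ 2 * Real.log (a ((s + t) / 2)) := by
    intro s t hs ht
    have h1 := hpos s hs
    have h2 := hpos t ht
    have h3 := hpos ((s + t) / 2) (by (clear * - hs ht; positivity))
    have h4 := Real.log_le_log (by positivity) (hmid s t hs ht)
    rw [Real.log_mul h1.ne' h2.ne', Real.log_pow] at h4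
    exact_mod_cast h4
  have hhalf : ∀ t, 0 ≤ t → 2 * t ≤ T → 2 * (g 0 - g t) ≤ sSup S := by
    intro t ht htT
    have hmem : g 0 - g (2 * t) ∈ S := ⟨2 * t, ⟨by linarith only [ht], htT⟩, rfl⟩
    have h1 := le_csSup hbdd hmem
    have h2 := hmid' 0 (2 * t) le_rfl (by linarith only [ht])
    have h3 := hmid' T (T - 2 * t) hT0 (by linarith only [htT])
    have e1 : (0 + 2 * t) / 2 = t := by ring
    have e2 : (T + (T - 2 * t)) / 2 = T - t := by ring
    rw [e1] at h2
    rw [e2] at h3
    have h4 : g 0 + g (2 * t) ≤ 2 * g t := by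
      simp only [hg, sub_zero]
      linarith only [h2, h3]
    linarith only [h1, h4]
  have hall : ∀ t ∈ Icc 0 T, 2 * (g 0 - g t) ≤ sSup S := by
    intro t ht
    rcases le_total (2 * t) T with h | h
    · exact hhalf t ht.1 h
    · have hsym : g (T - t) = g t := by
        simp only [hg]
        have : T - (T - t) = t := by ring
        rw [this]; ring
      have := hhalf (T - t) (by linarith only [ht.2]) (by linarith)
      rwa [hsym] at this
  have hsup : sSup S ≤ sSup S / 2 := by
    refine csSup_le hne ?_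
    rintro _ ⟨t, ht, rfl⟩
    have := hall t ht
    simp only
    linarith only [this]
  have hle0 : sSup S ≤ 0 := by linarith only [hsup]
  have hfin : g 0 - g r ≤ 0 := (le_csSup hbdd ⟨r, ⟨hr, by linarith only [hs]⟩, rfl⟩).trans hle0
  have hTr : T - r = s := by rw [hT]; ring
  simp only [hg, sub_zero, hTr] at hfin
  have h0 := hpos 0 le_rfl
  have h1 := hpos T hT0
  have h2 := hpos r hr
  have h3 := hpos s hs
  have : Real.log (a 0 * a T) ≤ Real.log (a r * a s) := by
    rw [Real.log_mul h0.ne' h1.ne', Real.log_mul h2.ne' h3.ne']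
    linarith only [hfin]
  exact (Real.log_le_log_iff (by (clear * - h0 h1; positivity)) (by (clear * - h2 h3; positivity))).mp this

/-- Laplace transform on the half-line. -/
noncomputable def lap (a : ℝ → ℝ) (ζ : ℝ) : ℝ≥0∞ := ∫⁻ s in Ioi (0 : ℝ), ENNReal.ofReal (Real.exp (ζ * s) * a s)

noncomputable def lapN (a : ℝ → ℝ) (ζ : ℝ) (N : ℝ) : ℝ≥0∞ :=
  ∫⁻ s in Ioc (0 : ℝ) N, ENNReal.ofReal (Real.exp (ζ * s) * a s)

theorem lap_eq_iSup (a : ℝ → ℝ) (ζ : ℝ) : lap a ζ = ⨆ N : ℕ, lapN a ζ N := by
  have h : Ioi (0 : ℝ) = ⋃ N : ℕ, Ioc (0 : ℝ) N := by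
    ext x
    simp only [mem_Ioi, mem_iUnion, mem_Ioc]
    constructor
    · intro hx
      obtain ⟨N, hN⟩ := exists_nat_ge x
      exact ⟨N, hx, hN⟩
    · rintro ⟨N, hx, _⟩; exact hx
  unfold lap lapN
  rw [h, setLIntegral_iUnion_of_directed]
  refine Monotone.directed_le fun m n hmn => ?_
  intro x hx
  exact ⟨hx.1, hx.2.trans (by exact_mod_cast hmn)⟩

theorem lapN_lt_top {a : ℝ → ℝ} (hanti : ∀ s t, 0 ≤ s → s ≤ t → a t ≤ a s) (hpos : 0 < a 0)
    (ζ N : ℝ) : lapN a ζ N < ∞ := by
  unfold lapN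
  refine setLIntegral_lt_top_of_le_nnreal (by simp only [Real.volume_Ioc, sub_zero, ne_eq, ENNReal.ofReal_ne_top, not_false_eq_true])
    ⟨(Real.exp (|ζ| * |N|) * a 0).toNNReal, fun s hs => ?_⟩
  rw [← ENNReal.ofReal_coe_nnreal]
  apply ENNReal.ofReal_le_ofReal
  rw [Real.coe_toNNReal _ (by positivity)]
  have h1 : ζ * s ≤ |ζ| * |N| := by
    calc ζ * s ≤ |ζ * s| := le_abs_self _
      _ = |ζ| * |s| := abs_mul _ _
      _ ≤ |ζ| * |N| := by
        have : |s| ≤ |N| := by
          rw [abs_of_pos hs.1, abs_of_pos (hs.1.trans_le hs.2)]; exact hs.2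
        (clear * - this; gcongr)
  have h2 := hanti 0 s le_rfl hs.1.le
  calc Real.exp (ζ * s) * a s ≤ Real.exp (ζ * s) * a 0 := by (clear * - h2; gcongr)
    _ ≤ _ := by gcongr

theorem lap_key {a : ℝ → ℝ} (ha : Measurable a) (hpos : ∀ s, 0 ≤ s → 0 < a s)
    (hsub : ∀ r s, 0 ≤ r → 0 ≤ s → a 0 * a (r + s) ≤ a r * a s) (z δ N : ℝ) (hδ : 0 ≤ δ) :
    ENNReal.ofReal (a 0) * lapN a (z + δ) N ≤ ENNReal.ofReal (a 0) * lap a z +
      ENNReal.ofReal δ * (lap a z * lapN a (z + δ) N) := by
  have ha0 : 0 < a 0 := hpos 0 le_rfl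
  set F : ℝ → ℝ≥0∞ := (Ioi (0 : ℝ)).indicator (fun t => ENNReal.ofReal (Real.exp (z * t) * a t)) with hF
  set G : ℝ → ℝ≥0∞ := (Ioc (0 : ℝ) N).indicator
    (fun t => ENNReal.ofReal (Real.exp ((z + δ) * t) * a t)) with hG
  have hFm : Measurable F := by
    refine Measurable.indicator ?_ measurableSet_Ioi
    fun_prop
  have hGm : Measurable G := by
    refine Measurable.indicator ?_ measurableSet_Ioc
    fun_prop
  have hFint : ∫⁻ t, F t = lap a z := by
    rw [hF, lintegral_indicator measurableSet_Ioi]; rfl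
  have hGint : ∫⁻ t, G t = lapN a (z + δ) N := by
    rw [hG, lintegral_indicator measurableSet_Ioc]; rfl
  -- pointwise
  have hpt : ∀ s ∈ Ioc (0 : ℝ) N, ENNReal.ofReal (a 0) *
      ENNReal.ofReal (Real.exp ((z + δ) * s) * a s) ≤
      ENNReal.ofReal (a 0) * ENNReal.ofReal (Real.exp (z * s) * a s) +
      ENNReal.ofReal δ * ∫⁻ r, F (s - r) * G r := by
    intro s hs
    have has : 0 < a s := hpos s hs.1.le
    have hint : ∫ r in (0 : ℝ)..s, δ * Real.exp (z * s + δ * r) =
        Real.exp ((z + δ) * s) - Real.exp (z * s) := by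
      have hd : ∀ r ∈ uIcc (0 : ℝ) s, HasDerivAt (fun r => Real.exp (z * s + δ * r))
          (δ * Real.exp (z * s + δ * r)) r := by
        intro r _
        have h1 : HasDerivAt (fun r : ℝ => z * s + δ * r) δ r := by
          simpa using ((hasDerivAt_id r).const_mul δ).const_add (z * s)
        exact h1.exp.congr_deriv (mul_comm _ _)
      rw [intervalIntegral.integral_eq_sub_of_hasDerivAt hd
        (Continuous.intervalIntegrable (by fun_prop) _ _)]
      congr 2
      · ring
      · ring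
    have hlint : ∫⁻ r in Ioc (0 : ℝ) s, ENNReal.ofReal (δ * Real.exp (z * s + δ * r)) =
        ENNReal.ofReal (Real.exp ((z + δ) * s) - Real.exp (z * s)) := by
      rw [← hint, intervalIntegral.integral_of_le hs.1.le,
        ofReal_integral_eq_lintegral_ofReal]
      · exact (Continuous.integrableOn_Icc (by fun_prop)).mono_set Ioc_subset_Icc_self
      · exact Filter.Eventually.of_forall fun r => by (clear * - hδ; positivity)
    have hIoo : ∫⁻ r in Ioc (0 : ℝ) s, ENNReal.ofReal (δ * Real.exp (z * s + δ * r)) =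
        ∫⁻ r in Ioo (0 : ℝ) s, ENNReal.ofReal (δ * Real.exp (z * s + δ * r)) := by
      rw [restrict_Ioo_eq_restrict_Ioc]
    have hm1 : Measurable fun r => F (s - r) * G r :=
      (hFm.comp (measurable_const.sub measurable_id)).mul hGm
    have hmain : ENNReal.ofReal (a 0) * ENNReal.ofReal (a s) *
        ENNReal.ofReal (Real.exp ((z + δ) * s) - Real.exp (z * s)) ≤
        ENNReal.ofReal δ * ∫⁻ r, F (s - r) * G r := by
      rw [← hlint, hIoo, ← lintegral_const_mul _ (by fun_prop),
        ← lintegral_const_mul _ hm1,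
        ← lintegral_indicator measurableSet_Ioo]
      refine lintegral_mono fun r => ?_
      by_cases hr : r ∈ Ioo (0 : ℝ) s
      · rw [indicator_of_mem hr]
        have h1 : s - r ∈ Ioi (0 : ℝ) := by simp only [mem_Ioi]; linarith only [hr.2]
        have h2 : r ∈ Ioc (0 : ℝ) N := ⟨hr.1, hr.2.le.trans hs.2⟩
        simp only [hF, hG]
        rw [indicator_of_mem h1, indicator_of_mem h2]
        rw [← ENNReal.ofReal_mul ha0.le, ← ENNReal.ofReal_mul (by positivity),
          ← ENNReal.ofReal_mul (by have := hpos (s - r) (le_of_lt h1); positivity),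
          ← ENNReal.ofReal_mul hδ]
        apply ENNReal.ofReal_le_ofReal
        have h3 := hsub r (s - r) hr.1.le (le_of_lt h1)
        have e1 : r + (s - r) = s := by ring
        rw [e1] at h3
        have h4 : Real.exp (z * s + δ * r) = Real.exp (z * (s - r)) * Real.exp ((z + δ) * r) := by
          rw [← Real.exp_add]; congr 1; ring
        rw [h4]
        calc a 0 * a s * (δ * (Real.exp (z * (s - r)) * Real.exp ((z + δ) * r)))
            = (δ * (Real.exp (z * (s - r)) * Real.exp ((z + δ) * r))) * (a 0 * a s) := by ring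
          _ ≤ (δ * (Real.exp (z * (s - r)) * Real.exp ((z + δ) * r))) * (a r * a (s - r)) := by
              (clear * - h3 hδ; gcongr)
          _ = _ := by ring
      · rw [indicator_of_notMem hr]
        exact zero_le
    calc ENNReal.ofReal (a 0) * ENNReal.ofReal (Real.exp ((z + δ) * s) * a s)
        = ENNReal.ofReal (a 0) * ENNReal.ofReal (Real.exp (z * s) * a s) +
          ENNReal.ofReal (a 0) * ENNReal.ofReal (a s) *
          ENNReal.ofReal (Real.exp ((z + δ) * s) - Real.exp (z * s)) := by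
          have hle : Real.exp (z * s) ≤ Real.exp ((z + δ) * s) := by
            apply Real.exp_le_exp.mpr
            have := hs.1
            linarith only [mul_nonneg hδ hs.1.le]
          have hnn : 0 ≤ Real.exp ((z + δ) * s) - Real.exp (z * s) := by linarith
          rw [← ENNReal.ofReal_mul ha0.le, ← ENNReal.ofReal_mul ha0.le, ← ENNReal.ofReal_mul ha0.le,
            ← ENNReal.ofReal_mul (by (clear * - ha0 has; positivity)), ← ENNReal.ofReal_add (by (clear * - ha0 has; positivity)) (by (clear * - ha0 has hle; positivity))]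
          congr 1; ring
      _ ≤ _ := by (clear * - hmain; gcongr)
  have hG' : Measurable fun s => ∫⁻ r, F (s - r) * G r := by
    apply Measurable.lintegral_prod_right'
      (f := fun p : ℝ × ℝ => F (p.1 - p.2) * G p.2)
    exact (hFm.comp (measurable_fst.sub measurable_snd)).mul (hGm.comp measurable_snd)
  calc ENNReal.ofReal (a 0) * lapN a (z + δ) N
      = ∫⁻ s in Ioc (0 : ℝ) N, ENNReal.ofReal (a 0) *
          ENNReal.ofReal (Real.exp ((z + δ) * s) * a s) := by
        rw [lintegral_const_mul _ (by fun_prop)]; rfl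
    _ ≤ ∫⁻ s in Ioc (0 : ℝ) N, (ENNReal.ofReal (a 0) * ENNReal.ofReal (Real.exp (z * s) * a s) +
          ENNReal.ofReal δ * ∫⁻ r, F (s - r) * G r) :=
        setLIntegral_mono (by fun_prop) hpt
    _ = (∫⁻ s in Ioc (0 : ℝ) N, ENNReal.ofReal (a 0) * ENNReal.ofReal (Real.exp (z * s) * a s)) +
          ∫⁻ s in Ioc (0 : ℝ) N, ENNReal.ofReal δ * ∫⁻ r, F (s - r) * G r := by
        rw [lintegral_add_left (by fun_prop)]
    _ ≤ ENNReal.ofReal (a 0) * lap a z + ENNReal.ofReal δ * (lap a z * lapN a (z + δ) N) := by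
        gcongr
        · rw [lintegral_const_mul _ (by fun_prop)]
          gcongr
          exact lintegral_mono_set Ioc_subset_Ioi_self
        · rw [lintegral_const_mul _ hG']
          gcongr
          calc ∫⁻ s in Ioc (0 : ℝ) N, ∫⁻ r, F (s - r) * G r
              ≤ ∫⁻ s, ∫⁻ r, F (s - r) * G r := setLIntegral_le_lintegral _ _
            _ = ∫⁻ r, ∫⁻ s, F (s - r) * G r := by
                rw [lintegral_lintegral_swap]
                exact ((hFm.comp (measurable_fst.sub measurable_snd)).mul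
                  (hGm.comp measurable_snd)).aemeasurable
            _ = ∫⁻ r, lap a z * G r := by
                refine lintegral_congr fun r => ?_
                have hm2 : Measurable fun s => F (s - r) :=
                  hFm.comp (measurable_id.sub measurable_const)
                rw [lintegral_mul_const _ hm2]
                congr 1
                rw [← hFint]
                exact lintegral_sub_right_eq_self F r
            _ = lap a z * lapN a (z + δ) N := by
                rw [lintegral_const_mul _ hGm, hGint]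

theorem lap_lower {a : ℝ → ℝ} (ha : Measurable a) (hpos : ∀ s, 0 ≤ s → 0 < a s)
    (hanti : ∀ s t, 0 ≤ s → s ≤ t → a t ≤ a s)
    (hsub : ∀ r s, 0 ≤ r → 0 ≤ s → a 0 * a (r + s) ≤ a r * a s) {z δ x : ℝ} (hδ : 0 ≤ δ)
    (hx : 0 < x) (hxl : ENNReal.ofReal x ≤ lap a (z + δ)) :
    ENNReal.ofReal (a 0 * x / (a 0 + δ * x)) ≤ lap a z := by
  have ha0 : 0 < a 0 := hpos 0 le_rfl
  by_cases htop : lap a z = ∞
  · rw [htop]; exact le_top
  set y := (lap a z).toReal with hy
  have hy0 : 0 ≤ y := ENNReal.toReal_nonneg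
  rw [← ENNReal.ofReal_toReal htop]
  apply ENNReal.ofReal_le_ofReal
  rw [← hy]
  have key : ∀ N : ℕ, a 0 * (lapN a (z + δ) N).toReal ≤ a 0 * y +
      δ * (y * (lapN a (z + δ) N).toReal) := by
    intro N
    have h1 := lap_key ha hpos hsub z δ N hδ
    have h2 := (lapN_lt_top hanti ha0 (z + δ) N).ne
    have h3 := ENNReal.toReal_mono (by finiteness) h1
    rw [ENNReal.toReal_mul, ENNReal.toReal_add (by finiteness) (by finiteness), ENNReal.toReal_mul,
      ENNReal.toReal_mul, ENNReal.toReal_mul, ENNReal.toReal_ofReal ha0.le,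
      ENNReal.toReal_ofReal hδ] at h3
    exact h3
  have hden : 0 < a 0 + δ * x := by (clear * - ha0 hδ hx; positivity)
  rw [div_le_iff₀ hden]
  by_cases hcase : a 0 - δ * y ≤ 0
  · have : a 0 * x ≤ δ * y * x := by
      have : a 0 ≤ δ * y := by linarith only [hcase]
      (clear * - this hx; gcongr)
    linarith only [mul_nonneg (le_of_lt (sub_pos.2 ha0)) (sub_nonneg.2 hy0), this]
  · push Not at hcase
    have hb : ∀ N : ℕ, lapN a (z + δ) N ≤ ENNReal.ofReal (a 0 * y / (a 0 - δ * y)) := by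
      intro N
      have h2 := (lapN_lt_top hanti ha0 (z + δ) N).ne
      rw [← ENNReal.ofReal_toReal h2]
      apply ENNReal.ofReal_le_ofReal
      rw [le_div_iff₀ hcase]
      have := key N
      linarith only [this]
    have h4 : lap a (z + δ) ≤ ENNReal.ofReal (a 0 * y / (a 0 - δ * y)) := by
      rw [lap_eq_iSup]; exact iSup_le hb
    have h5 := hxl.trans h4
    rw [ENNReal.ofReal_le_ofReal_iff (by (clear * - ha0 hcase; positivity))] at h5
    rw [le_div_iff₀ hcase] at h5
    linarith

theorem glue_alg1 {a0 q1 q2 z : ℝ} (ha : 0 < a0) (hq1 : 0 < q1) (hq2 : 0 < q2) (hz : 0 ≤ z)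
    (hz1 : z ≤ 2 * a0 / q1) :
    q1 * q2 / (q1 + q2) ≤ a0 * (q1 / 2) / (a0 + (2 * a0 / q1 - z) * (q1 / 2)) +
      a0 * (q2 / 2) / (a0 + (2 * a0 / q2 + z) * (q2 / 2)) := by
  have hd1 : 0 < 4 * a0 - z * q1 := by
    rw [le_div_iff₀ hq1] at hz1; linarith
  have hd2 : 0 < 4 * a0 + z * q2 := by positivity
  have e1 : a0 * (q1 / 2) / (a0 + (2 * a0 / q1 - z) * (q1 / 2)) = a0 * q1 / (4 * a0 - z * q1) := by
    have : a0 + (2 * a0 / q1 - z) * (q1 / 2) = (4 * a0 - z * q1) / 2 := by field_simp; ring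
    rw [this]; field_simp
  have e2 : a0 * (q2 / 2) / (a0 + (2 * a0 / q2 + z) * (q2 / 2)) = a0 * q2 / (4 * a0 + z * q2) := by
    have : a0 + (2 * a0 / q2 + z) * (q2 / 2) = (4 * a0 + z * q2) / 2 := by field_simp; ring
    rw [this]; field_simp
  rw [e1, e2, div_add_div _ _ hd1.ne' hd2.ne', div_le_div_iff₀ (by positivity) (by positivity)]
  (by_contra nlg; linarith only [nlg, mul_pos (sub_pos.2 (not_le.1 nlg)) (sub_pos.2 (not_le.1 nlg)), mul_nonneg (sq_nonneg (2 * a0 * (q1 - q2) + z * q1 * q2 : ℝ)) (le_of_lt (sub_pos.2 (not_le.1 nlg)))])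

theorem glue_alg2 {a0 q1 q2 z : ℝ} (ha : 0 < a0) (hq1 : 0 < q1) (hq2 : 0 < q2)
    (hz1 : 2 * a0 / q1 ≤ z) :
    q1 * q2 / (q1 + q2) ≤ (q1 - a0 / z) +
      a0 * (q2 / 2) / (a0 + (2 * a0 / q2 + z) * (q2 / 2)) := by
  have hz : 0 < z := lt_of_lt_of_le (by positivity) hz1
  have hzq : 2 * a0 ≤ z * q1 := by rwa [div_le_iff₀ hq1] at hz1
  have e2 : a0 * (q2 / 2) / (a0 + (2 * a0 / q2 + z) * (q2 / 2)) = a0 * q2 / (4 * a0 + z * q2) := by
    have : a0 + (2 * a0 / q2 + z) * (q2 / 2) = (4 * a0 + z * q2) / 2 := by field_simp; ring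
    rw [this]; field_simp
  rw [e2]
  have e3 : (q1 - a0 / z) + a0 * q2 / (4 * a0 + z * q2) - q1 * q2 / (q1 + q2) =
      (q1 ^ 2 * z * (4 * a0 + z * q2) - 4 * a0 ^ 2 * (q1 + q2)) /
        ((q1 + q2) * (z * (4 * a0 + z * q2))) := by
    field_simp
    ring
  have e4 : 0 ≤ q1 ^ 2 * z * (4 * a0 + z * q2) - 4 * a0 ^ 2 * (q1 + q2) := by
    have h1 : 0 ≤ a0 * q1 * (z * q1 - 2 * a0) := by
      have : 0 ≤ z * q1 - 2 * a0 := by linarith only [hzq]
      (clear * - ha hq1 hzq; positivity)
    have h2 : (2 * a0) ^ 2 ≤ (z * q1) ^ 2 := by (clear * - ha hzq; gcongr)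
    have h3 : 0 ≤ q2 * ((z * q1) ^ 2 - (2 * a0) ^ 2) := by
      have : 0 ≤ (z * q1) ^ 2 - (2 * a0) ^ 2 := by linarith only [h2]
      (clear * - hq2 h2; positivity)
    have h4 : 0 ≤ a0 ^ 2 * q1 := by positivity
    linarith
  have e5 : 0 ≤ (q1 ^ 2 * z * (4 * a0 + z * q2) - 4 * a0 ^ 2 * (q1 + q2)) /
        ((q1 + q2) * (z * (4 * a0 + z * q2))) := by (clear * - e4 hq1 hq2 hz ha; positivity)
  linarith only [e5, e3]

/-- Data of one side of the gluing lemma. -/
structure Side (a : ℝ → ℝ) : Prop where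
  meas : Measurable a
  pos : ∀ s, 0 ≤ s → 0 < a s
  anti : ∀ s t, 0 ≤ s → s ≤ t → a t ≤ a s
  sub : ∀ r s, 0 ≤ r → 0 ≤ s → a 0 * a (r + s) ≤ a r * a s

theorem Side.lower {a : ℝ → ℝ} (ha : Side a) {q z : ℝ} (hq : 0 < q)
    (h : ∀ ζ, 0 < ζ → ENNReal.ofReal q ≤ lap a ζ + ENNReal.ofReal (a 0 / ζ))
    (hz : z ≤ 2 * a 0 / q) :
    ENNReal.ofReal (a 0 * (q / 2) / (a 0 + (2 * a 0 / q - z) * (q / 2))) ≤ lap a z := by
  have ha0 := ha.pos 0 le_rfl
  have h1 := h (2 * a 0 / q) (by (clear * - ha0 hq; positivity))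
  have h2 : ENNReal.ofReal (q / 2) ≤ lap a (2 * a 0 / q) := by
    have e : a 0 / (2 * a 0 / q) = q / 2 := by field_simp
    rw [e] at h1
    have e2 : ENNReal.ofReal q = ENNReal.ofReal (q / 2) + ENNReal.ofReal (q / 2) := by
      rw [← ENNReal.ofReal_add (by positivity) (by positivity)]; congr 1; ring
    rw [e2] at h1
    exact (ENNReal.add_le_add_iff_right ENNReal.ofReal_ne_top).mp h1
  have h3 : z + (2 * a 0 / q - z) = 2 * a 0 / q := by ring
  exact lap_lower ha.meas ha.pos ha.anti ha.sub (z := z) (δ := 2 * a 0 / q - z) (by linarith only [hz])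
    (by positivity) (by rw [h3]; exact h2)

theorem lap_glue_nonneg {a b : ℝ → ℝ} (ha : Side a) (hb : Side b) (hab : a 0 = b 0) {q1 q2 : ℝ}
    (hq1 : 0 < q1) (hq2 : 0 < q2)
    (h1 : ∀ ζ, 0 < ζ → ENNReal.ofReal q1 ≤ lap a ζ + ENNReal.ofReal (a 0 / ζ))
    (h2 : ∀ ζ, 0 < ζ → ENNReal.ofReal q2 ≤ lap b ζ + ENNReal.ofReal (b 0 / ζ))
    {z : ℝ} (hz : 0 ≤ z) :
    ENNReal.ofReal (q1 * q2 / (q1 + q2)) ≤ lap a z + lap b (-z) := by
  have ha0 := ha.pos 0 le_rfl
  have hb0 := hb.pos 0 le_rfl
  have hB := hb.lower hq2 h2 (z := -z) (by have : 0 < 2 * b 0 / q2 := by (clear * - hb0 hq2; positivity)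
                                           linarith only [hz, this])
  rw [← hab, sub_neg_eq_add] at hB
  by_cases hc : z ≤ 2 * a 0 / q1
  · have hA := ha.lower hq1 h1 hc
    have hd : 0 ≤ 2 * a 0 / q1 - z := by linarith only [hc]
    calc ENNReal.ofReal (q1 * q2 / (q1 + q2))
        ≤ ENNReal.ofReal (a 0 * (q1 / 2) / (a 0 + (2 * a 0 / q1 - z) * (q1 / 2)) +
            a 0 * (q2 / 2) / (a 0 + (2 * a 0 / q2 + z) * (q2 / 2))) :=
          ENNReal.ofReal_le_ofReal (glue_alg1 ha0 hq1 hq2 hz hc)
      _ = ENNReal.ofReal (a 0 * (q1 / 2) / (a 0 + (2 * a 0 / q1 - z) * (q1 / 2))) +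
            ENNReal.ofReal (a 0 * (q2 / 2) / (a 0 + (2 * a 0 / q2 + z) * (q2 / 2))) := by
          rw [ENNReal.ofReal_add (by (clear * - ha0 hq1 hc; positivity)) (by (clear * - ha0 hq2 hz; positivity))]
      _ ≤ _ := by (clear * - hA hB; gcongr)
  · push Not at hc
    have hzpos : 0 < z := lt_of_lt_of_le (by positivity) hc.le
    have hA := h1 z hzpos
    have hq1z : 0 ≤ q1 - a 0 / z := by
      have : a 0 / z ≤ q1 / 2 := by
        rw [div_le_iff₀ hzpos]
        rw [div_lt_iff₀ hq1] at hc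
        linarith only [hc]
      linarith only [hq1, this]
    have hA' : ENNReal.ofReal (q1 - a 0 / z) ≤ lap a z := by
      rw [ENNReal.ofReal_sub _ (by (clear * - ha0 hzpos; positivity))]
      exact tsub_le_iff_right.mpr hA
    calc ENNReal.ofReal (q1 * q2 / (q1 + q2))
        ≤ ENNReal.ofReal ((q1 - a 0 / z) +
            a 0 * (q2 / 2) / (a 0 + (2 * a 0 / q2 + z) * (q2 / 2))) :=
          ENNReal.ofReal_le_ofReal (glue_alg2 ha0 hq1 hq2 hc.le)
      _ = ENNReal.ofReal (q1 - a 0 / z) +
            ENNReal.ofReal (a 0 * (q2 / 2) / (a 0 + (2 * a 0 / q2 + z) * (q2 / 2))) := by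
          rw [ENNReal.ofReal_add hq1z (by (clear * - ha0 hq2 hzpos; positivity))]
      _ ≤ _ := by (clear * - hA' hB; gcongr)

/-- The one-dimensional core of the gluing lemma. -/
theorem lap_glue {a b : ℝ → ℝ} (ha : Side a) (hb : Side b) (hab : a 0 = b 0) {q1 q2 : ℝ}
    (hq1 : 0 < q1) (hq2 : 0 < q2)
    (h1 : ∀ ζ, 0 < ζ → ENNReal.ofReal q1 ≤ lap a ζ + ENNReal.ofReal (a 0 / ζ))
    (h2 : ∀ ζ, 0 < ζ → ENNReal.ofReal q2 ≤ lap b ζ + ENNReal.ofReal (b 0 / ζ)) (z : ℝ) :
    ENNReal.ofReal (q1 * q2 / (q1 + q2)) ≤ lap a z + lap b (-z) := by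
  rcases le_total 0 z with hz | hz
  · exact lap_glue_nonneg ha hb hab hq1 hq2 h1 h2 hz
  · have := lap_glue_nonneg hb ha hab.symm hq2 hq1 h2 h1 (z := -z) (by linarith only [hz])
    rw [neg_neg, mul_comm q2, add_comm q2, add_comm (lap b (-z))] at this
    exact this

end Vale.Agent.P248
end
end
end

section

section

section

/-! Continuity of Laplace transforms in the extended sense, and the crossing argument. -/

set_option linter.unusedSectionVars false

open MeasureTheory Set Filter
open scoped ENNReal Topology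

namespace Vale.Agent.P248

theorem lap_mono {F : ℝ → ℝ} (h0 : ∀ s, 0 ≤ F s) : Monotone (lap F) := by
  intro a b hab
  refine setLIntegral_mono' measurableSet_Ioi fun s hs => ?_
  have hs' : (0 : ℝ) < s := hs
  apply ENNReal.ofReal_le_ofReal
  apply mul_le_mul_of_nonneg_right _ (h0 s)
  apply Real.exp_le_exp.mpr
  exact mul_le_mul_of_nonneg_right hab hs'.le

theorem lap_left {F : ℝ → ℝ} (hF : Measurable F) (h0 : ∀ s, 0 ≤ F s) (t : ℝ) :
    lap F t = ⨆ n : ℕ, lap F (t - 1 / ((n : ℝ) + 1)) := by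
  unfold lap
  have hmono : Monotone fun (n : ℕ) => fun s : ℝ =>
      (Ioi (0 : ℝ)).indicator (fun s => ENNReal.ofReal
        (Real.exp ((t - 1 / ((n : ℝ) + 1)) * s) * F s)) s := by
    intro n n' hn s
    by_cases hs : 0 < s
    · simp only [indicator_of_mem (show s ∈ Ioi (0 : ℝ) from hs)]
      apply ENNReal.ofReal_le_ofReal
      apply mul_le_mul_of_nonneg_right _ (h0 s)
      apply Real.exp_le_exp.mpr
      apply mul_le_mul_of_nonneg_right _ hs.le
      have h1 : (1 : ℝ) / ((n' : ℝ) + 1) ≤ 1 / ((n : ℝ) + 1) := by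
        apply one_div_le_one_div_of_le (by positivity)
        have : (n : ℝ) ≤ n' := by exact_mod_cast hn
        linarith only [this]
      linarith only [h1]
    · simp only [indicator_of_notMem (show s ∉ Ioi (0 : ℝ) from hs)]
      exact le_rfl
  rw [← lintegral_indicator measurableSet_Ioi]
  simp_rw [← lintegral_indicator (measurableSet_Ioi (a := (0 : ℝ)))]
  rw [← lintegral_iSup _ hmono]
  · refine lintegral_congr fun s => ?_
    by_cases hs : 0 < s
    · simp only [indicator_of_mem (show s ∈ Ioi (0 : ℝ) from hs)]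
      have htend : Tendsto (fun n : ℕ => ENNReal.ofReal
          (Real.exp ((t - 1 / ((n : ℝ) + 1)) * s) * F s)) atTop
          (𝓝 (ENNReal.ofReal (Real.exp (t * s) * F s))) := by
        apply ENNReal.tendsto_ofReal
        apply Tendsto.mul_const
        apply (Real.continuous_exp.tendsto _).comp
        apply Tendsto.mul_const
        have := (tendsto_const_nhds (x := t)).sub (tendsto_one_div_add_atTop_nhds_zero_nat (𝕜 := ℝ))
        simpa only [one_div, sub_zero] using this
      have hm : Monotone (fun n : ℕ => ENNReal.ofReal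
          (Real.exp ((t - 1 / ((n : ℝ) + 1)) * s) * F s)) := by
        intro n n' hn
        have := hmono hn s
        simpa only [indicator_of_mem (show s ∈ Ioi (0 : ℝ) from hs)] using this
      exact tendsto_nhds_unique htend (tendsto_atTop_iSup hm)
    · simp only [indicator_of_notMem (show s ∉ Ioi (0 : ℝ) from hs)]
      simp
  · intro n
    exact (by fun_prop : Measurable fun s : ℝ => ENNReal.ofReal
      (Real.exp ((t - 1 / ((n : ℝ) + 1)) * s) * F s)).indicator measurableSet_Ioi

/-- A Laplace transform is continuous to the extended half-line as soon as its domain of finiteness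
is open. -/
theorem lap_continuous {F : ℝ → ℝ} (hF : Measurable F) (h0 : ∀ s, 0 ≤ F s)
    (hopen : ∀ t, lap F t < ∞ → ∃ t', t < t' ∧ lap F t' < ∞) : Continuous (lap F) := by
  rw [continuous_iff_continuousAt]
  intro t
  by_cases ht : lap F t < ∞
  · obtain ⟨t', htt', ht'⟩ := hopen t ht
    have hlt : ∀ᶠ x in 𝓝 t, x < t' := isOpen_Iio.mem_nhds htt'
    refine tendsto_lintegral_filter_of_dominated_convergence
      (fun s => ENNReal.ofReal (Real.exp (t' * s) * F s)) ?_ ?_ ht'.ne ?_
    · filter_upwards with x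
      fun_prop
    · filter_upwards [hlt] with x hx
      filter_upwards [ae_restrict_mem measurableSet_Ioi] with s hs
      have hs' : (0 : ℝ) < s := hs
      apply ENNReal.ofReal_le_ofReal
      apply mul_le_mul_of_nonneg_right _ (h0 s)
      apply Real.exp_le_exp.mpr
      exact mul_le_mul_of_nonneg_right hx.le hs'.le
    · filter_upwards with s
      apply ENNReal.tendsto_ofReal
      apply Tendsto.mul_const
      apply (Real.continuous_exp.tendsto _).comp
      exact (continuous_id.mul continuous_const).tendsto t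
  · have htop : lap F t = ∞ := by
      simpa using ht
    have hmono := lap_mono h0
    unfold ContinuousAt
    rw [htop, ENNReal.tendsto_nhds_top_iff_nat]
    intro n
    have h1 : (n : ℝ≥0∞) < ⨆ k : ℕ, lap F (t - 1 / ((k : ℝ) + 1)) := by
      rw [← lap_left hF h0, htop]
      exact ENNReal.natCast_lt_top n
    obtain ⟨k, hk⟩ := lt_iSup_iff.1 h1
    have hlt : t - 1 / ((k : ℝ) + 1) < t := by
      have : (0 : ℝ) < 1 / ((k : ℝ) + 1) := by (clear * -; positivity)
      linarith only [this]
    filter_upwards [isOpen_Ioi.mem_nhds hlt] with x hx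
    exact lt_of_lt_of_le hk (hmono (le_of_lt hx))

/-- The crossing argument. -/
theorem cross {X1 X2 Y1 Y2 : ℝ → ℝ≥0∞} {XK YK : ℝ≥0∞} {q1 q2 a : ℝ} (hq1 : 0 < q1) (hq2 : 0 < q2)
    (hX1 : Continuous X1) (hX2 : Continuous X2) (t1 : ∃ t, X1 t = ∞) (t2 : ∃ t, X2 t = ∞)
    (h1 : ∀ t, ENNReal.ofReal q1 ≤ X1 t + Y1 t) (h2 : ∀ t, ENNReal.ofReal q2 ≤ X2 t + Y2 t)
    (hX : ∀ a1 a2 y1 y2 : ℝ, a1 + a2 = 2 * a → 0 < y1 → 0 < y2 → ENNReal.ofReal y1 ≤ X1 a1 →
      ENNReal.ofReal y2 ≤ X2 a2 → ENNReal.ofReal (2 * y1 * y2 / (y1 + y2)) ≤ XK)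
    (hY : ∀ a1 a2 y1 y2 : ℝ, a1 + a2 = 2 * a → 0 < y1 → 0 < y2 → ENNReal.ofReal y1 ≤ Y1 a1 →
      ENNReal.ofReal y2 ≤ Y2 a2 → ENNReal.ofReal (2 * y1 * y2 / (y1 + y2)) ≤ YK) :
    ENNReal.ofReal (2 * q1 * q2 / (q1 + q2)) ≤ XK + YK := by
  obtain ⟨b1, hb1⟩ := t1
  obtain ⟨b2, hb2⟩ := t2
  have hc1 : Continuous fun t => X1 t * ENNReal.ofReal q2 :=
    (ENNReal.continuous_mul_const ENNReal.ofReal_ne_top).comp hX1
  have hc2 : Continuous fun t => X2 (2 * a - t) * ENNReal.ofReal q1 :=
    (ENNReal.continuous_mul_const ENNReal.ofReal_ne_top).comp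
      (hX2.comp (continuous_const.sub continuous_id))
  have hq1' : ENNReal.ofReal q1 ≠ 0 := (ENNReal.ofReal_pos.2 hq1).ne'
  have hq2' : ENNReal.ofReal q2 ≠ 0 := (ENNReal.ofReal_pos.2 hq2).ne'
  obtain ⟨t, -, ht⟩ := isPreconnected_univ.intermediate_value₂ (mem_univ (2 * a - b2))
    (mem_univ b1) hc1.continuousOn hc2.continuousOn
    (by
      have e : 2 * a - (2 * a - b2) = b2 := by ring
      simp only [e, hb2, ENNReal.top_mul hq1']
      exact le_top)
    (by simp only [hb1, ENNReal.top_mul hq2']; exact le_top)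
  have hsum : t + (2 * a - t) = 2 * a := by ring
  by_cases htop : X1 t = ∞
  · have h3 : X2 (2 * a - t) = ∞ := by
      by_contra hne
      simp only [htop, ENNReal.top_mul hq2'] at ht
      exact ENNReal.mul_ne_top hne ENNReal.ofReal_ne_top ht.symm
    refine le_trans (hX t (2 * a - t) q1 q2 hsum hq1 hq2 ?_ ?_) le_self_add
    · rw [htop]; exact le_top
    · rw [h3]; exact le_top
  have htop2 : X2 (2 * a - t) ≠ ∞ := by
    intro hne
    simp only [hne, ENNReal.top_mul hq1'] at ht
    exact ENNReal.mul_ne_top htop ENNReal.ofReal_ne_top ht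
  set x1 := (X1 t).toReal with hx1
  set x2 := (X2 (2 * a - t)).toReal with hx2
  have e1 : X1 t = ENNReal.ofReal x1 := (ENNReal.ofReal_toReal htop).symm
  have e2 : X2 (2 * a - t) = ENNReal.ofReal x2 := (ENNReal.ofReal_toReal htop2).symm
  have hx1n : 0 ≤ x1 := ENNReal.toReal_nonneg
  have hx2n : 0 ≤ x2 := ENNReal.toReal_nonneg
  have hxx : x1 * q2 = x2 * q1 := by
    have h3 : (X1 t * ENNReal.ofReal q2).toReal = (X2 (2 * a - t) * ENNReal.ofReal q1).toReal := by
      rw [ht]
    rwa [ENNReal.toReal_mul, ENNReal.toReal_mul, ENNReal.toReal_ofReal hq1.le,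
      ENNReal.toReal_ofReal hq2.le] at h3
  set r := x1 / q1 with hr
  have hr0 : 0 ≤ r := by (clear * - hq1; positivity)
  have hx1r : x1 = r * q1 := by rw [hr]; (clear * - hq1; field_simp)
  have hx2r : x2 = r * q2 := by
    have : x2 = x1 * q2 / q1 := by rw [hxx]; (clear * - hq1; field_simp)
    rw [this, hr]; (clear * - hq1 hq2; field_simp)
  have hy1 : 0 < 1 - r → ENNReal.ofReal ((1 - r) * q1) ≤ Y1 t := by
    intro hpos
    have h3 := h1 t
    rw [e1, hx1r] at h3
    have h4 : ENNReal.ofReal ((1 - r) * q1) = ENNReal.ofReal q1 - ENNReal.ofReal (r * q1) := by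
      rw [← ENNReal.ofReal_sub _ (by (clear * - hq1; positivity))]
      congr 1; ring
    rw [h4]
    exact tsub_le_iff_left.2 h3
  have hy2 : 0 < 1 - r → ENNReal.ofReal ((1 - r) * q2) ≤ Y2 (2 * a - t) := by
    intro hpos
    have h3 := h2 (2 * a - t)
    rw [e2, hx2r] at h3
    have h4 : ENNReal.ofReal ((1 - r) * q2) = ENNReal.ofReal q2 - ENNReal.ofReal (r * q2) := by
      rw [← ENNReal.ofReal_sub _ (by (clear * - hq1 hq2; positivity))]
      congr 1; ring
    rw [h4]
    exact tsub_le_iff_left.2 h3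
  rcases le_or_gt 1 r with hr1 | hr1
  · refine le_trans (hX t (2 * a - t) q1 q2 hsum hq1 hq2 ?_ ?_) le_self_add
    · rw [e1, hx1r]
      exact ENNReal.ofReal_le_ofReal (le_mul_of_one_le_left hq1.le hr1)
    · rw [e2, hx2r]
      exact ENNReal.ofReal_le_ofReal (le_mul_of_one_le_left hq2.le hr1)
  · have hpos : 0 < 1 - r := by linarith only [hr1]
    have hYl := hY t (2 * a - t) ((1 - r) * q1) ((1 - r) * q2) hsum (by (clear * - hr1 hq1; positivity)) (by (clear * - hr1 hq2; positivity))
      (hy1 hpos) (hy2 hpos)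
    rcases hr0.eq_or_lt with hr00 | hrpos
    · have e3 : 2 * ((1 - r) * q1) * ((1 - r) * q2) / ((1 - r) * q1 + (1 - r) * q2) =
          2 * q1 * q2 / (q1 + q2) := by
        rw [← hr00]; simp only [sub_zero, one_mul]
      rw [e3] at hYl
      exact hYl.trans le_add_self
    · have hXl := hX t (2 * a - t) (r * q1) (r * q2) hsum (by (clear * - hrpos hq1; positivity)) (by (clear * - hrpos hq2; positivity))
        (by rw [e1, hx1r]) (by rw [e2, hx2r])
      have e3 : 2 * ((1 - r) * q1) * ((1 - r) * q2) / ((1 - r) * q1 + (1 - r) * q2) =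
          (1 - r) * (2 * q1 * q2 / (q1 + q2)) := by
        (clear * - hq1 hq2 hr1; field_simp)
      have e4 : 2 * (r * q1) * (r * q2) / (r * q1 + r * q2) =
          r * (2 * q1 * q2 / (q1 + q2)) := by
        (clear * - hq1 hq2 hrpos; field_simp)
      rw [e3] at hYl
      rw [e4] at hXl
      have e5 : 2 * q1 * q2 / (q1 + q2) = r * (2 * q1 * q2 / (q1 + q2)) +
          (1 - r) * (2 * q1 * q2 / (q1 + q2)) := by ring
      rw [e5, ENNReal.ofReal_add (by (clear * - hrpos hq1 hq2; positivity)) (by (clear * - hr1 hq1 hq2; positivity))]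
      exact add_le_add hXl hYl

end Vale.Agent.P248
end
end
end

section

section

section

set_option linter.unusedSectionVars false

open MeasureTheory Set
open scoped ENNReal Topology Pointwise

namespace Vale.Agent.P248

theorem gauge_le_iff {ι : Type*} [Fintype ι] {S : Set (ι → ℝ)} (hS : Convex ℝ S)
    (hcl : IsClosed S) (h0 : S ∈ 𝓝 0) (x : ι → ℝ) : gauge S x ≤ 1 ↔ x ∈ S := by
  rw [gauge_le_one_iff_mem_closure hS h0, hcl.closure_eq]

/-- A vector lies in its gauge times the set. -/
theorem pairing_le_gauge {ι : Type*} [Fintype ι] [DecidableEq ι] {K : Set (ι → ℝ)} {z : ι → ℝ}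
    (hK : Bornology.IsBounded K) (y : ι → ℝ) {x : ι → ℝ} (hx : x ∈ K) :
    ∑ i, (x i - z i) * y i ≤ gauge (polarP K z) y := by
  have h0 := polarP_mem_nhds hK z
  have hc := polarP_convex K z
  have hcl := polarP_isClosed K z
  have hg := gauge_sublin hc h0
  have key : ∀ r : ℝ, gauge (polarP K z) y < r → ∑ i, (x i - z i) * y i ≤ r := by
    intro r hr
    have hrpos : 0 < r := (gauge_nonneg y).trans_lt hr
    have h1 : gauge (polarP K z) (r⁻¹ • y) ≤ 1 := by
      rw [hg.smul_eq _ (by positivity)]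
      rw [inv_mul_le_iff₀ hrpos]; linarith
    have h2 := (gauge_le_iff hc hcl h0 _).mp h1 x hx
    have h3 : ∑ i, (x i - z i) * (r⁻¹ • y) i = r⁻¹ * ∑ i, (x i - z i) * y i := by
      rw [Finset.mul_sum]
      refine Finset.sum_congr rfl fun i _ => ?_
      simp only [Pi.smul_apply, smul_eq_mul]; ring
    rw [h3, inv_mul_le_iff₀ hrpos] at h2
    linarith only [h2]
  exact le_of_forall_gt fun r hr => by
    obtain ⟨s, hs1, hs2⟩ := exists_between hr
    exact (key s hs1).trans_lt hs2

theorem ab_core {n : ℕ} {K : Set (Fin n → ℝ)} (hKc : IsCompact K) (hconv : Convex ℝ K)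
    (hAB : IsAB K) {z : Fin n → ℝ} (hz : z ∈ interior K) :
    ((n : ℝ) + 1) ^ (n + 1) * (volume (stdS (Fin n))).toReal ^ 2 ≤
      (volume K).toReal * (volume (polarP K z)).toReal ∧
    ((volume K).toReal * (volume (polarP K z)).toReal =
      ((n : ℝ) + 1) ^ (n + 1) * (volume (stdS (Fin n))).toReal ^ 2 →
      (volume K).toReal = ((n : ℝ) + 1) ^ n * (∏ i, z i) * (volume (stdS (Fin n))).toReal ∧
      ∀ i, ((n : ℝ) + 1) * z i * (volume (stdS (Fin n))).toReal ≤
        (volume (body (gauge (absB K)) {i})).toReal) := by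
  have hzpos : ∀ i, 0 < z i := interior_pos hAB.nonneg hz
  have hzK : z ∈ K := interior_subset hz
  have hA1 := absB_convex hconv hAB
  have hA2 := absB_mem_nhds hAB hzK hzpos
  have hA3 := absB_isClosed hKc.isClosed
  have hA4 := absB_isBounded hKc.isBounded
  set g := gauge (absB K) with hgdef
  have hg : Sublin g := gauge_sublin hA1 hA2
  have hgle : ∀ x, g x ≤ 1 ↔ x ∈ absB K := gauge_le_iff hA1 hA3 hA2
  have hgb : Bornology.IsBounded {x | g x ≤ 1} := by
    have : {x | g x ≤ 1} = absB K := by ext x; exact hgle x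
    rw [this]; exact hA4
  set C := polarP K z with hCdef
  have hC1 := polarP_convex K z
  have hC2 := polarP_mem_nhds hKc.isBounded z
  have hC3 := polarP_isClosed K z
  have hC4 := polarP_isBounded hz
  set h := gauge C with hhdef
  have hh : Sublin h := gauge_sublin hC1 hC2
  have hhle : ∀ x, h x ≤ 1 ↔ x ∈ C := gauge_le_iff hC1 hC3 hC2
  have hhb : Bornology.IsBounded {x | h x ≤ 1} := by
    have : {x | h x ≤ 1} = C := by ext x; exact hhle x
    rw [this]; exact hC4
  have finB : ∀ J, volume (body g J) ≠ ∞ := fun J =>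
    (body_isBounded (fun x => gauge_nonneg x) hgb J).measure_lt_top.ne
  have finE : ∀ J, volume (body h J) ≠ ∞ := fun J =>
    (body_isBounded (fun x => gauge_nonneg x) hhb J).measure_lt_top.ne
  set B : Finset (Fin n) → ℝ := fun J => (volume (body g J)).toReal with hB
  set E : Finset (Fin n) → ℝ := fun J => (volume (body h J)).toReal with hE
  have posB : ∀ J, 0 < B J := fun J => ENNReal.toReal_pos (body_volume_pos hg J).ne' (finB J)
  have posE : ∀ J, 0 < E J := fun J => ENNReal.toReal_pos (body_volume_pos hh J).ne' (finE J)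
  -- Meyer inequality for K
  have hmey : ∀ J : Finset (Fin n), ∀ x ∈ K, ∑ i ∈ J, x i * B (J.erase i) ≤ B J := by
    intro J x hx
    have h1 := cone_lemma_real hg finB (J := J) (w := res J x)
      (fun i => by by_cases hi : i ∈ J <;> simp [res, hi, hAB.nonneg x hx i])
      (fun i hi => by simp [res, hi])
      ((hgle _).mpr (by
        refine hAB.down x hx _ fun i => ⟨abs_nonneg _, ?_⟩
        have := hAB.nonneg x hx i
        by_cases hi : i ∈ J <;> simp [res, hi, this, abs_of_nonneg this]))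
    refine le_trans (le_of_eq (Finset.sum_congr rfl fun i hi => ?_)) h1
    simp [res, hi, hB]
  have hc0 : ∀ J : Finset (Fin n), J.Nonempty → ∑ i ∈ J, z i * B (J.erase i) < B J := by
    intro J hJ
    obtain ⟨t, ht, htz⟩ := exists_smul_mem hz
    have h1 := hmey J _ htz
    have hS : 0 < ∑ i ∈ J, z i * B (J.erase i) :=
      Finset.sum_pos (fun i _ => mul_pos (hzpos i) (posB _)) hJ
    have h2 : ∑ i ∈ J, (t • z) i * B (J.erase i) = t * ∑ i ∈ J, z i * B (J.erase i) := by
      rw [Finset.mul_sum]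
      refine Finset.sum_congr rfl fun i _ => ?_
      simp only [Pi.smul_apply, smul_eq_mul]; ring
    rw [h2] at h1
    linarith only [mul_pos (sub_pos.2 ht) (sub_pos.2 hS), h1]
  have hrec0 : ∀ J : Finset (Fin n), J.Nonempty → ∑ i ∈ J, B (J.erase i) * E (J.erase i) ≤
      (B J - ∑ i ∈ J, z i * B (J.erase i)) * E J := by
    intro J hJ
    set c := B J - ∑ i ∈ J, z i * B (J.erase i) with hc
    have hcpos : 0 < c := by have := hc0 J hJ; rw [hc]; linarith
    set w : Fin n → ℝ := fun i => if i ∈ J then B (J.erase i) / c else 0 with hw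
    have hwC : w ∈ C := by
      intro x hx
      have h1 := hmey J x hx
      have h2 : ∑ i, (x i - z i) * w i = (∑ i ∈ J, x i * B (J.erase i) -
          ∑ i ∈ J, z i * B (J.erase i)) / c := by
        rw [← Finset.sum_sub_distrib, Finset.sum_div, ← Finset.sum_subset (Finset.subset_univ J)]
        · refine Finset.sum_congr rfl fun i hi => ?_
          simp [hw, hi]; ring
        · intro i _ hi
          simp [hw, hi]
      rw [h2, div_le_one hcpos, hc]
      linarith only [h1]
    have h1 := cone_lemma_real hh finE (J := J) (w := w)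
      (fun i => by
        by_cases hi : i ∈ J
        · simp only [hw, hi, if_true]; exact div_nonneg (posB _).le hcpos.le
        · simp [hw, hi])
      (fun i hi => by simp [hw, hi]) ((hhle w).mpr hwC)
    have h2 : ∑ i ∈ J, w i * (volume (body h (J.erase i))).toReal =
        (∑ i ∈ J, B (J.erase i) * E (J.erase i)) / c := by
      rw [Finset.sum_div]
      refine Finset.sum_congr rfl fun i hi => ?_
      simp only [hw, hi, ↓reduceIte, hE]; ring
    rw [h2, div_le_iff₀ hcpos] at h1
    simp only [hE] at h1 ⊢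
    linarith only [h1]
  -- orthants
  have horth : ∑ J, (∏ i ∈ Jᶜ, (z i)⁻¹) * E J ≤ (volume C).toReal := by
    have h1 := orthant_lemma hzpos (fun J => body h J) (fun J => body_isClosed hh J)
      (fun J x hx => hx.1) C (by
        rintro J _ ⟨u, ⟨hu0, hu1⟩, rfl⟩
        intro x hx
        have h2 : ∑ i, (x i - z i) * diagMap (sgn z J) u i =
            ∑ i, (x i - z i) * res J u i + ∑ i ∈ Jᶜ, (z i - x i) / z i * u i := by
          have e0 : ∑ i ∈ Jᶜ, (z i - x i) / z i * u i =
              ∑ i, if i ∈ J then 0 else (z i - x i) / z i * u i := by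
            rw [Finset.sum_ite, Finset.sum_const_zero, zero_add]
            refine Finset.sum_congr ?_ fun _ _ => rfl
            ext i; simp only [Finset.mem_compl, Finset.mem_filter, Finset.mem_univ, true_and]
          rw [e0]
          rw [← Finset.sum_add_distrib]
          refine Finset.sum_congr rfl fun i _ => ?_
          rw [diagMap_apply]
          have hzi := (hzpos i).ne'
          by_cases hi : i ∈ J
          · simp [sgn, res, hi]
          · simp only [sgn, hi, ↓reduceIte, neg_mul, mul_neg, res, mul_zero, zero_add]; field_simp; ring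
        have h3 := pairing_le_gauge (z := z) hKc.isBounded (res J u) hx
        have h4 : ∑ i ∈ Jᶜ, (z i - x i) / z i * u i ≤ ∑ i ∈ Jᶜ, u i := by
          refine Finset.sum_le_sum fun i _ => ?_
          have hzi := hzpos i
          have hxi := hAB.nonneg x hx i
          have : (z i - x i) / z i ≤ 1 := by
            rw [div_le_one hzi]; linarith only [hxi]
          have := mul_le_mul_of_nonneg_right this (hu0 i)
          linarith only [this]
        rw [h2]
        linarith only [hu1, h3, h4])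
    have h2 := ENNReal.toReal_mono (hC4.measure_lt_top.ne) h1
    rw [ENNReal.toReal_sum (fun J _ => ENNReal.mul_ne_top ENNReal.ofReal_ne_top (finE J))] at h2
    refine le_trans (le_of_eq ?_) h2
    refine Finset.sum_congr rfl fun J _ => ?_
    rw [ENNReal.toReal_mul, ENNReal.toReal_ofReal]
    exact Finset.prod_nonneg fun i _ => (inv_pos.mpr (hzpos i)).le
  have hBuniv : B Finset.univ = (volume K).toReal := by
    simp only [hB]
    congr 2
    ext x
    have hres : res Finset.univ x = x := by ext i; simp only [res, Finset.mem_univ, ↓reduceIte]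
    simp only [body, mem_setOf_eq, hres, Finset.compl_univ, Finset.sum_empty, add_zero]
    rw [hgle]
    constructor
    · rintro ⟨h1, h2⟩
      have : (fun i => |x i|) = x := by ext i; exact abs_of_nonneg (h1 i)
      rw [absB, mem_setOf_eq, this] at h2
      exact h2
    · intro hx
      have h1 := hAB.nonneg x hx
      refine ⟨h1, ?_⟩
      have : (fun i => |x i|) = x := by ext i; exact abs_of_nonneg (h1 i)
      rw [absB, mem_setOf_eq, this]
      exact hx
  set v : ℝ := (volume (stdS (Fin n))).toReal with hv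
  have hBe : B ∅ = v := by simp only [hB]; rw [body_empty hg]
  have hEe : E ∅ = v := by simp only [hE]; rw [body_empty hh]
  have hvpos : 0 < v := by rw [← hBe]; exact posB ∅
  have hPpos : ∀ J : Finset (Fin n), 0 < ∏ i ∈ J, z i := fun J => Finset.prod_pos fun i _ => hzpos i
  have hPer : ∀ J : Finset (Fin n), ∀ i ∈ J, ∏ k ∈ J, z k = z i * ∏ k ∈ J.erase i, z k :=
    fun J i hi => (Finset.mul_prod_erase J z hi).symm
  set b : Finset (Fin n) → ℝ := fun J => B J / (v * ∏ i ∈ J, z i) with hbdef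
  set e : Finset (Fin n) → ℝ := fun J => E J * (∏ i ∈ J, z i) / v with hedef
  have hsumb : ∀ J : Finset (Fin n), ∑ i ∈ J, b (J.erase i) =
      (∑ i ∈ J, z i * B (J.erase i)) / (v * ∏ i ∈ J, z i) := by
    intro J
    rw [Finset.sum_div]
    refine Finset.sum_congr rfl fun i hi => ?_
    have h1 := hPpos (J.erase i)
    have h2 := (hzpos i).ne'
    simp only [hbdef]
    rw [hPer J i hi]
    (clear * - h2 h1 hvpos; field_simp)
  have hfl := flag_inequality n b e (by simp [hbdef, hBe, hvpos.ne'])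
    (by simp only [hedef, hEe, Finset.prod_empty, mul_one, ne_eq, hvpos.ne', not_false_eq_true, div_self])
    (fun J => div_pos (posB J) (mul_pos hvpos (hPpos J)))
    (fun J => div_pos (mul_pos (posE J) (hPpos J)) hvpos)
    (fun J hJ => by
      rw [hsumb J]
      have := hPpos J
      have := hc0 J hJ
      simp only [hbdef]
      (clear hgdef C hCdef hC1 hC2 hC4 h hhdef hh hhle hhb finE E hE posE hrec0 horth hBuniv hv hEe hPer b hbdef e hedef hsumb; gcongr))
    (fun J hJ => by
      rw [hsumb J]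
      have h1 := hPpos J
      have h2 := hrec0 J hJ
      have e1 : ∑ i ∈ J, b (J.erase i) * e (J.erase i) =
          (∑ i ∈ J, B (J.erase i) * E (J.erase i)) / v ^ 2 := by
        rw [Finset.sum_div]
        refine Finset.sum_congr rfl fun i hi => ?_
        have h1 := hPpos (J.erase i)
        simp only [hbdef, hedef]
        (clear * - h1 hvpos; field_simp)
      have e2 : (b J - (∑ i ∈ J, z i * B (J.erase i)) / (v * ∏ i ∈ J, z i)) * e J =
          ((B J - ∑ i ∈ J, z i * B (J.erase i)) * E J) / v ^ 2 := by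
        simp only [hbdef, hedef]
        (clear * - h1 hvpos; field_simp)
      rw [e1, e2]
      (clear * - h2 hvpos; gcongr))
  have hsumE : b Finset.univ * ∑ J, e J = (volume K).toReal *
      (∑ J, (∏ i ∈ Jᶜ, (z i)⁻¹) * E J) / v ^ 2 := by
    rw [← hBuniv]
    simp only [hbdef]
    rw [Finset.mul_sum, Finset.mul_sum, Finset.sum_div]
    refine Finset.sum_congr rfl fun J _ => ?_
    simp only [hedef]
    have h1 : ∏ i, z i = (∏ i ∈ J, z i) * ∏ i ∈ Jᶜ, z i := (Finset.prod_mul_prod_compl J z).symm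
    have h2 : ∏ i ∈ Jᶜ, (z i)⁻¹ = (∏ i ∈ Jᶜ, z i)⁻¹ := Finset.prod_inv_distrib _
    have h3 := hPpos J
    have h4 := hPpos Jᶜ
    rw [h1, h2]
    (clear * - h3 h4 hvpos; field_simp)
  have hVK : 0 < (volume K).toReal := by rw [← hBuniv]; exact posB _
  have hle : b Finset.univ * ∑ J, e J ≤ (volume K).toReal * (volume C).toReal / v ^ 2 := by
    rw [hsumE]
    (clear * - horth hVK hvpos; gcongr)
  refine ⟨?_, ?_⟩
  · have := hfl.1.trans hle
    rw [le_div_iff₀ (by (clear * - hvpos; positivity))] at this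
    exact this
  · intro heq
    have h1 : (volume K).toReal * (volume C).toReal / v ^ 2 = ((n : ℝ) + 1) ^ (n + 1) := by
      rw [heq]; (clear * - hvpos; field_simp)
    have h2 : b Finset.univ * ∑ J, e J = ((n : ℝ) + 1) ^ (n + 1) :=
      le_antisymm (hle.trans h1.le) hfl.1
    obtain ⟨h3, h4⟩ := hfl.2 h2
    constructor
    · simp only [hbdef] at h3
      rw [div_eq_iff (by have := hPpos Finset.univ; (clear * - hvpos this; positivity)), hBuniv] at h3
      rw [h3]; ring
    · intro i
      have h5 := h4 i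
      simp only [hbdef, Finset.prod_singleton] at h5
      rw [le_div_iff₀ (by have := hzpos i; (clear * - hvpos this; positivity))] at h5
      simp only [hB] at h5
      linarith only [h5]

end Vale.Agent.P248
end
end
end

section

section

section

open MeasureTheory Set
open scoped ENNReal NNReal Pointwise

namespace Vale.Agent.P248.PL

/-- One-dimensional Brunn-Minkowski, compact case, midpoint form. -/
theorem bm_one_compact {K L C : Set ℝ} (hK : IsCompact K) (hL : IsCompact L)
    (nK : K.Nonempty) (nL : L.Nonempty) (h : ∀ a ∈ K, ∀ b ∈ L, (a + b) / 2 ∈ C) :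
    volume K + volume L ≤ 2 * volume C := by
  obtain ⟨a, haK, ha⟩ := hK.exists_isGreatest nK
  obtain ⟨b, hbL, hb⟩ := hL.exists_isLeast nL
  have h1 : (fun x => x + b) '' K ⊆ (2 : ℝ) • C := by
    rintro _ ⟨x, hx, rfl⟩
    refine ⟨(x + b) / 2, h x hx b hbL, ?_⟩
    simp only [smul_eq_mul]
    ring
  have h2 : (fun y => a + y) '' L ⊆ (2 : ℝ) • C := by
    rintro _ ⟨y, hy, rfl⟩
    refine ⟨(a + y) / 2, h a haK y hy, ?_⟩
    simp only [smul_eq_mul]
    ring
  have c1 : IsCompact ((fun x => x + b) '' K) := hK.image (by fun_prop)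
  have c2 : IsCompact ((fun y => a + y) '' L) := hL.image (by fun_prop)
  have hdis : AEDisjoint volume ((fun x => x + b) '' K) ((fun y => a + y) '' L) := by
    have : ((fun x => x + b) '' K) ∩ ((fun y => a + y) '' L) ⊆ {a + b} := by
      rintro _ ⟨⟨x, hx, rfl⟩, ⟨y, hy, hxy⟩⟩
      have hx' := ha hx
      have hy' := hb hy
      simp only at hxy
      simp only [mem_singleton_iff]
      linarith only [hxy, hy', hx']
    exact measure_mono_null this (by simp)
  have v1 : volume ((fun x => x + b) '' K) = volume K := by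
    simp
  have v2 : volume ((fun y => a + y) '' L) = volume L := by
    simp
  have v3 : volume ((2 : ℝ) • C) = 2 * volume C := by
    rw [Measure.addHaar_smul]
    simp
  calc volume K + volume L = volume ((fun x => x + b) '' K) + volume ((fun y => a + y) '' L) := by
        rw [v1, v2]
    _ = volume (((fun x => x + b) '' K) ∪ ((fun y => a + y) '' L)) := by
        rw [measure_union₀ c2.measurableSet.nullMeasurableSet hdis]
    _ ≤ volume ((2 : ℝ) • C) := measure_mono (union_subset h1 h2)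
    _ = 2 * volume C := v3

/-- One-dimensional Brunn-Minkowski, midpoint form. -/
theorem bm_one {A B C : Set ℝ} (hA : MeasurableSet A) (hB : MeasurableSet B)
    (nA : A.Nonempty) (nB : B.Nonempty) (h : ∀ a ∈ A, ∀ b ∈ B, (a + b) / 2 ∈ C) :
    volume A + volume B ≤ 2 * volume C := by
  have key : ∀ K L : Set ℝ, IsCompact K → IsCompact L → K ⊆ A → L ⊆ B →
      volume K + volume L ≤ 2 * volume C := by
    intro K L hK hL hKA hLB
    obtain ⟨a0, ha0⟩ := nA
    obtain ⟨b0, hb0⟩ := nB
    have hK' : IsCompact (K ∪ {a0}) := hK.union isCompact_singleton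
    have hL' : IsCompact (L ∪ {b0}) := hL.union isCompact_singleton
    have := bm_one_compact hK' hL' ⟨a0, by simp⟩ ⟨b0, by simp⟩ (C := C) (by
      intro a ha b hb
      apply h
      · rcases ha with ha | ha
        · exact hKA ha
        · rw [mem_singleton_iff.mp ha]; exact ha0
      · rcases hb with hb | hb
        · exact hLB hb
        · rw [mem_singleton_iff.mp hb]; exact hb0)
    refine le_trans (add_le_add (measure_mono subset_union_left)
      (measure_mono subset_union_left)) this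
  have key2 : ∀ K : Set ℝ, IsCompact K → K ⊆ A → volume K + volume B ≤ 2 * volume C := by
    intro K hK hKA
    have hKfin : volume K ≠ ∞ := hK.measure_lt_top.ne
    have : volume B ≤ 2 * volume C - volume K := by
      refine le_of_forall_lt fun s hs => ?_
      obtain ⟨L, hLB, hL, hsL⟩ := hB.exists_lt_isCompact hs
      refine lt_of_lt_of_le hsL ?_
      exact ENNReal.le_sub_of_add_le_left hKfin (key K L hK hL hKA hLB)
    calc volume K + volume B ≤ volume K + (2 * volume C - volume K) := by (clear * - this; gcongr)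
      _ = 2 * volume C := by
        rw [add_tsub_cancel_of_le]
        exact le_trans (by simp) (key K ∅ hK isCompact_empty hKA (empty_subset _))
  by_cases hBfin : volume B = ∞
  · have := key2 ∅ isCompact_empty (empty_subset _)
    rw [hBfin] at this
    have h3 : 2 * volume C = ∞ := by
      simpa only [measure_empty, add_top, top_le_iff] using this
    rw [h3]
    exact le_top
  · have : volume A ≤ 2 * volume C - volume B := by
      refine le_of_forall_lt fun s hs => ?_
      obtain ⟨K, hKA, hK, hsK⟩ := hA.exists_lt_isCompact hs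
      refine lt_of_lt_of_le hsK ?_
      exact ENNReal.le_sub_of_add_le_right hBfin (key2 K hK hKA)
    calc volume A + volume B ≤ (2 * volume C - volume B) + volume B := by gcongr
      _ = 2 * volume C := by
        rw [tsub_add_cancel_of_le]
        simpa only [measure_empty, zero_add] using key2 ∅ isCompact_empty (empty_subset _)

theorem four_mul_le_sq (x y : ℝ≥0∞) : 4 * (x * y) ≤ (x + y) ^ 2 := by
  by_cases hx : x = ∞
  · subst hx; simp
  by_cases hy : y = ∞
  · subst hy; simp
  lift x to ℝ≥0 using hx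
  lift y to ℝ≥0 using hy
  norm_cast
  rw [← NNReal.coe_le_coe]
  push_cast
  linarith only [sq_nonneg ((x : ℝ) - y)]

/-- Normalised one-dimensional Prekopa-Leindler. -/
theorem pl_one_normalized (f g h : ℝ → ℝ≥0∞) (hf : Measurable f) (hg : Measurable g)
    (hh : Measurable h) (hf1 : ⨆ x, f x = 1) (hg1 : ⨆ x, g x = 1)
    (hfg : ∀ x y, f x * g y ≤ h ((x + y) / 2) ^ 2) :
    (∫⁻ x, f x) + (∫⁻ x, g x) ≤ 2 * ∫⁻ x, h x := by
  have hfle : ∀ x, f x ≤ 1 := fun x => hf1 ▸ le_iSup f x
  have hgle : ∀ x, g x ≤ 1 := fun x => hg1 ▸ le_iSup g x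
  set k : ℝ → ℝ≥0∞ := fun x => min (h x) 1 with hk
  have hkm : Measurable k := hh.min measurable_const
  have hk1 : ∀ x, k x ≤ 1 := fun x => min_le_right _ _
  have hfgk : ∀ x y, f x * g y ≤ k ((x + y) / 2) ^ 2 := by
    intro x y
    have h1 : f x * g y ≤ 1 := by
      calc f x * g y ≤ 1 * 1 := mul_le_mul' (hfle x) (hgle y)
        _ = 1 := by simp
    simp only [hk]
    rcases le_total (h ((x + y) / 2)) 1 with h2 | h2
    · rw [min_eq_left h2]; exact hfg x y
    · rw [min_eq_right h2]; simpa only [one_pow, ge_iff_le] using h1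
  have hcake : ∀ u : ℝ → ℝ≥0∞, Measurable u → (∀ x, u x ≤ 1) →
      ∫⁻ x, u x = ∫⁻ t in Ioi (0 : ℝ), volume {x | t < (u x).toReal} := by
    intro u hu hu1
    rw [← lintegral_eq_lintegral_meas_lt volume (Filter.Eventually.of_forall fun x => by
      simp) hu.ennreal_toReal.aemeasurable]
    apply lintegral_congr
    intro x
    rw [ENNReal.ofReal_toReal (ne_top_of_le_ne_top ENNReal.one_ne_top (hu1 x))]
  have hkh : ∫⁻ x, k x ≤ ∫⁻ x, h x := lintegral_mono fun x => min_le_left _ _
  refine le_trans ?_ (mul_le_mul_right hkh 2)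
  rw [hcake f hf hfle, hcake g hg hgle, hcake k hkm hk1]
  have hmeas : ∀ u : ℝ → ℝ≥0∞, Measurable (fun t : ℝ => volume {x | t < (u x).toReal}) := by
    intro u
    apply Antitone.measurable
    intro s t hst
    exact measure_mono fun x hx => lt_of_le_of_lt hst hx
  rw [← lintegral_add_left (hmeas f), ← lintegral_const_mul _ (hmeas k)]
  refine setLIntegral_mono' measurableSet_Ioi ?_
  intro t ht
  have ht0 : 0 < t := ht
  rcases lt_or_ge t 1 with ht1 | ht1
  · apply bm_one
    · exact measurableSet_lt measurable_const hf.ennreal_toReal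
    · exact measurableSet_lt measurable_const hg.ennreal_toReal
    · have : ENNReal.ofReal t < ⨆ x, f x := by
        rw [hf1]
        rw [← ENNReal.ofReal_one]
        exact (ENNReal.ofReal_lt_ofReal_iff one_pos).2 ht1
      obtain ⟨x, hx⟩ := lt_iSup_iff.1 this
      refine ⟨x, ?_⟩
      exact (ENNReal.ofReal_lt_iff_lt_toReal ht0.le
        (ne_top_of_le_ne_top ENNReal.one_ne_top (hfle x))).1 hx
    · have : ENNReal.ofReal t < ⨆ x, g x := by
        rw [hg1]
        rw [← ENNReal.ofReal_one]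
        exact (ENNReal.ofReal_lt_ofReal_iff one_pos).2 ht1
      obtain ⟨x, hx⟩ := lt_iSup_iff.1 this
      refine ⟨x, ?_⟩
      exact (ENNReal.ofReal_lt_iff_lt_toReal ht0.le
        (ne_top_of_le_ne_top ENNReal.one_ne_top (hgle x))).1 hx
    · intro a ha b hb
      simp only [mem_ofPred_eq] at ha hb ⊢
      have h3 := ENNReal.toReal_mono (by
        exact ENNReal.pow_ne_top (ne_top_of_le_ne_top ENNReal.one_ne_top (hk1 _))) (hfgk a b)
      rw [ENNReal.toReal_mul, ENNReal.toReal_pow] at h3
      have h4 : t ^ 2 < (k ((a + b) / 2)).toReal ^ 2 := by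
        calc t ^ 2 = t * t := by ring
          _ < (f a).toReal * (g b).toReal := by
            exact mul_lt_mul'' ha hb ht0.le ht0.le
          _ ≤ _ := h3
      exact lt_of_pow_lt_pow_left₀ 2 ENNReal.toReal_nonneg h4
  · have e1 : {x | t < (f x).toReal} = ∅ := by
      ext x
      simp only [mem_ofPred_eq, mem_empty_iff_false, iff_false, not_lt]
      refine le_trans ?_ ht1
      have := ENNReal.toReal_mono ENNReal.one_ne_top (hfle x)
      simpa only [ge_iff_le, ENNReal.toReal_one] using this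
    have e2 : {x | t < (g x).toReal} = ∅ := by
      ext x
      simp only [mem_ofPred_eq, mem_empty_iff_false, iff_false, not_lt]
      refine le_trans ?_ ht1
      have := ENNReal.toReal_mono ENNReal.one_ne_top (hgle x)
      simpa only [ge_iff_le, ENNReal.toReal_one] using this
    rw [e1, e2]
    simp only [measure_empty, add_zero, zero_le]

theorem pl_one_bdd (f g h : ℝ → ℝ≥0∞) (hf : Measurable f) (hg : Measurable g)
    (hh : Measurable h) (hf1 : ⨆ x, f x ≠ ∞) (hg1 : ⨆ x, g x ≠ ∞)
    (hfg : ∀ x y, f x * g y ≤ h ((x + y) / 2) ^ 2) :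
    (∫⁻ x, f x) * (∫⁻ x, g x) ≤ (∫⁻ x, h x) ^ 2 := by
  by_cases hf0 : ⨆ x, f x = 0
  · have : f = fun _ => 0 := by
      funext x
      have := le_iSup f x
      rw [hf0] at this
      simpa using this
    rw [this]
    simp only [lintegral_const, measure_univ_of_isAddLeftInvariant, zero_mul, zero_le]
  by_cases hg0 : ⨆ x, g x = 0
  · have : g = fun _ => 0 := by
      funext x
      have := le_iSup g x
      rw [hg0] at this
      simpa using this
    rw [this]
    simp only [lintegral_const, measure_univ_of_isAddLeftInvariant, zero_mul, mul_zero, zero_le]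
  obtain ⟨a, ha⟩ : ∃ a : ℝ≥0, (a : ℝ≥0∞) = ⨆ x, f x := ⟨_, ENNReal.coe_toNNReal hf1⟩
  obtain ⟨b, hb⟩ : ∃ b : ℝ≥0, (b : ℝ≥0∞) = ⨆ x, g x := ⟨_, ENNReal.coe_toNNReal hg1⟩
  have ha0 : (a : ℝ≥0∞) ≠ 0 := by rw [ha]; exact hf0
  have hb0 : (b : ℝ≥0∞) ≠ 0 := by rw [hb]; exact hg0
  have ha0' : a ≠ 0 := by exact_mod_cast ha0
  have hb0' : b ≠ 0 := by exact_mod_cast hb0
  set c : ℝ≥0 := NNReal.sqrt (a * b) with hc
  have hcsq : c ^ 2 = a * b := by rw [hc]; exact NNReal.sq_sqrt _
  have hc0' : c ≠ 0 := by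
    intro h0
    rw [h0] at hcsq
    have : a * b = 0 := by rw [← hcsq]; simp
    rcases mul_eq_zero.1 this with h1 | h1
    · exact ha0' h1
    · exact hb0' h1
  have hc0 : (c : ℝ≥0∞) ≠ 0 := by exact_mod_cast hc0'
  have hcsq' : (c : ℝ≥0∞) ^ 2 = a * b := by exact_mod_cast hcsq
  have key := pl_one_normalized (fun x => (a : ℝ≥0∞)⁻¹ * f x) (fun x => (b : ℝ≥0∞)⁻¹ * g x)
    (fun x => (c : ℝ≥0∞)⁻¹ * h x) (hf.const_mul _) (hg.const_mul _) (hh.const_mul _)
    (by rw [← ENNReal.mul_iSup, ← ha]; exact ENNReal.inv_mul_cancel ha0 ENNReal.coe_ne_top)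
    (by rw [← ENNReal.mul_iSup, ← hb]; exact ENNReal.inv_mul_cancel hb0 ENNReal.coe_ne_top)
    (by
      intro x y
      have h1 : ((c : ℝ≥0∞)⁻¹) ^ 2 = (a : ℝ≥0∞)⁻¹ * (b : ℝ≥0∞)⁻¹ := by
        rw [← ENNReal.inv_pow, hcsq', ENNReal.mul_inv (Or.inl ha0) (Or.inl ENNReal.coe_ne_top)]
      calc (a : ℝ≥0∞)⁻¹ * f x * ((b : ℝ≥0∞)⁻¹ * g y)
          = ((a : ℝ≥0∞)⁻¹ * (b : ℝ≥0∞)⁻¹) * (f x * g y) := by ring
        _ ≤ ((a : ℝ≥0∞)⁻¹ * (b : ℝ≥0∞)⁻¹) * h ((x + y) / 2) ^ 2 := by
          exact mul_le_mul_right (hfg x y) _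
        _ = ((c : ℝ≥0∞)⁻¹ * h ((x + y) / 2)) ^ 2 := by
          rw [mul_pow, h1])
  rw [lintegral_const_mul _ hf, lintegral_const_mul _ hg, lintegral_const_mul _ hh] at key
  set F := ∫⁻ x, f x
  set G := ∫⁻ x, g x
  set H := ∫⁻ x, h x
  have h5 : 4 * ((a : ℝ≥0∞)⁻¹ * F * ((b : ℝ≥0∞)⁻¹ * G)) ≤ (2 * ((c : ℝ≥0∞)⁻¹ * H)) ^ 2 :=
    le_trans (four_mul_le_sq _ _) (by (clear * - key; gcongr))
  have h6 : (a * b : ℝ≥0∞) * (4 * ((a : ℝ≥0∞)⁻¹ * F * ((b : ℝ≥0∞)⁻¹ * G))) ≤
      (a * b : ℝ≥0∞) * (2 * ((c : ℝ≥0∞)⁻¹ * H)) ^ 2 := by (clear * - h5; gcongr)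
  have h7 : (a * b : ℝ≥0∞) * (4 * ((a : ℝ≥0∞)⁻¹ * F * ((b : ℝ≥0∞)⁻¹ * G))) = 4 * (F * G) := by
    calc (a * b : ℝ≥0∞) * (4 * ((a : ℝ≥0∞)⁻¹ * F * ((b : ℝ≥0∞)⁻¹ * G)))
        = 4 * ((a : ℝ≥0∞) * (a : ℝ≥0∞)⁻¹ * F * ((b : ℝ≥0∞) * (b : ℝ≥0∞)⁻¹ * G)) := by ring
      _ = 4 * (F * G) := by
        rw [ENNReal.mul_inv_cancel ha0 ENNReal.coe_ne_top,
          ENNReal.mul_inv_cancel hb0 ENNReal.coe_ne_top]
        simp
  have h8 : (a * b : ℝ≥0∞) * (2 * ((c : ℝ≥0∞)⁻¹ * H)) ^ 2 = 4 * H ^ 2 := by
    rw [← hcsq']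
    calc (c : ℝ≥0∞) ^ 2 * (2 * ((c : ℝ≥0∞)⁻¹ * H)) ^ 2
        = 2 ^ 2 * (((c : ℝ≥0∞) * (c : ℝ≥0∞)⁻¹) ^ 2 * H ^ 2) := by ring
      _ = 4 * H ^ 2 := by
        rw [ENNReal.mul_inv_cancel hc0 ENNReal.coe_ne_top]
        norm_num
  rw [h7, h8] at h6
  exact (ENNReal.mul_le_mul_iff_right (by norm_num) (by norm_num)).1 h6

theorem pl_one (f g h : ℝ → ℝ≥0∞) (hf : Measurable f) (hg : Measurable g)
    (hh : Measurable h) (hfg : ∀ x y, f x * g y ≤ h ((x + y) / 2) ^ 2) :
    (∫⁻ x, f x) * (∫⁻ x, g x) ≤ (∫⁻ x, h x) ^ 2 := by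
  have hcut : ∀ u : ℝ → ℝ≥0∞, Measurable u →
      ∫⁻ x, u x = ⨆ n : ℕ, ∫⁻ x, min (u x) n := by
    intro u hu
    rw [← lintegral_iSup (fun n => hu.min measurable_const)
      (fun m n hmn x => min_le_min_left _ (by exact_mod_cast hmn))]
    apply lintegral_congr
    intro x
    apply le_antisymm
    · by_cases hx : u x = ∞
      · rw [hx]
        simp only [top_le_iff, le_top, inf_of_le_right]
        exact ENNReal.iSup_natCast
      · obtain ⟨n, hn⟩ := ENNReal.exists_nat_gt hx
        refine le_trans ?_ (le_iSup _ n)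
        rw [min_eq_left hn.le]
    · exact iSup_le fun n => min_le_left _ _
  have hsup : ∀ (u : ℝ → ℝ≥0∞) (n : ℕ), ⨆ x, min (u x) (n : ℝ≥0∞) ≠ ∞ := by
    intro u n
    refine ne_top_of_le_ne_top (ENNReal.natCast_ne_top n) (iSup_le fun x => min_le_right _ _)
  rw [hcut f hf, hcut g hg, ENNReal.iSup_mul]
  refine iSup_le fun n => ?_
  rw [ENNReal.mul_iSup]
  refine iSup_le fun m => ?_
  refine pl_one_bdd _ _ h (hf.min measurable_const) (hg.min measurable_const) hh
    (hsup f n) (hsup g m) ?_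
  intro x y
  exact le_trans (mul_le_mul' (min_le_left _ _) (min_le_left _ _)) (hfg x y)

theorem pl_pi (n : ℕ) : ∀ (f g h : (Fin n → ℝ) → ℝ≥0∞), Measurable f → Measurable g →
    Measurable h → (∀ x y, f x * g y ≤ h (fun i => (x i + y i) / 2) ^ 2) →
    (∫⁻ x, f x) * (∫⁻ x, g x) ≤ (∫⁻ x, h x) ^ 2 := by
  induction n with
  | zero =>
    intro f g h hf hg hh hfg
    have hv : (volume : Measure (Fin 0 → ℝ)) univ = 1 := by
      simp only [volume_pi, Measure.pi_empty_univ]
    rw [lintegral_unique, lintegral_unique, lintegral_unique, hv]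
    simp only [mul_one]
    have hall : ∀ z w : Fin 0 → ℝ, z = w := fun z w => funext fun i => i.elim0
    obtain ⟨o, ho⟩ : ∃ o : Fin 0 → ℝ, ∀ z, z = o := ⟨fun _ => 0, fun z => hall z _⟩
    have h1 := hfg o o
    rw [ho fun i => (o i + o i) / 2] at h1
    have hgen : ∀ z : Fin 0 → ℝ, f z * g z ≤ h z ^ 2 := by
      intro z
      rw [ho z]
      exact h1
    exact hgen _
  | succ n ih =>
    intro f g h hf hg hh hfg
    set e := MeasurableEquiv.piFinSuccAbove (fun _ : Fin (n + 1) => ℝ) 0 with he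
    have hvp : MeasurePreserving e volume volume :=
      volume_preserving_piFinSuccAbove (fun _ : Fin (n + 1) => ℝ) 0
    have hsplit : ∀ u : (Fin (n + 1) → ℝ) → ℝ≥0∞, Measurable u →
        ∫⁻ x, u x = ∫⁻ a : ℝ, ∫⁻ x : Fin n → ℝ, u (e.symm (a, x)) := by
      intro u hu
      rw [← hvp.symm.lintegral_comp hu]
      exact lintegral_prod _ (hu.comp e.symm.measurable).aemeasurable
    have hmid : ∀ (a b : ℝ) (x y : Fin n → ℝ),
        (fun i => (e.symm (a, x) i + e.symm (b, y) i) / 2) =
          e.symm ((a + b) / 2, fun i => (x i + y i) / 2) := by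
      intro a b x y
      have hes : ∀ (c : ℝ) (z : Fin n → ℝ),
          e.symm (c, z) = (Fin.cons c z : Fin (n + 1) → ℝ) := by
        intro c z
        have h1 : e.symm (c, z) = (0 : Fin (n + 1)).insertNth (α := fun _ => ℝ) c z := rfl
        rw [h1]
        exact Fin.insertNth_zero' c z
      rw [hes, hes, hes]
      funext i
      refine Fin.cases ?_ (fun j => ?_) i
      · simp only [Fin.cons_zero]
      · simp only [Fin.cons_succ]
    have hm2 : ∀ u : (Fin (n + 1) → ℝ) → ℝ≥0∞, Measurable u →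
        Measurable fun a : ℝ => ∫⁻ x : Fin n → ℝ, u (e.symm (a, x)) := by
      intro u hu
      exact (hu.comp e.symm.measurable).lintegral_prod_right'
    rw [hsplit f hf, hsplit g hg, hsplit h hh]
    apply pl_one _ _ _ (hm2 f hf) (hm2 g hg) (hm2 h hh)
    intro a b
    have hsec : ∀ (u : (Fin (n + 1) → ℝ) → ℝ≥0∞) (c : ℝ), Measurable u →
        Measurable fun x : Fin n → ℝ => u (e.symm (c, x)) := by
      intro u c hu
      exact hu.comp (e.symm.measurable.comp measurable_prodMk_left)
    apply ih _ _ _ (hsec f a hf) (hsec g b hg) (hsec h _ hh)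
    intro x y
    have := hfg (e.symm (a, x)) (e.symm (b, y))
    rwa [hmid] at this

/-- Prekopa-Leindler inequality on Euclidean space (midpoint form). -/
theorem prekopa_leindler {d : ℕ} (f g h : EuclideanSpace ℝ (Fin d) → ℝ≥0∞)
    (hf : Measurable f) (hg : Measurable g) (hh : Measurable h)
    (hfg : ∀ x y, f x * g y ≤ h ((2 : ℝ)⁻¹ • (x + y)) ^ 2) :
    (∫⁻ x, f x) * (∫⁻ x, g x) ≤ (∫⁻ x, h x) ^ 2 := by
  have hvp := PiLp.volume_preserving_toLp (Fin d)
  have htr : ∀ u : EuclideanSpace ℝ (Fin d) → ℝ≥0∞, Measurable u →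
      ∫⁻ x, u x = ∫⁻ x : Fin d → ℝ, u (WithLp.toLp 2 x) := by
    intro u hu
    rw [← hvp.lintegral_comp hu]
  have hm : ∀ u : EuclideanSpace ℝ (Fin d) → ℝ≥0∞, Measurable u →
      Measurable fun x : Fin d → ℝ => u (WithLp.toLp 2 x) := by
    intro u hu
    exact hu.comp hvp.measurable
  rw [htr f hf, htr g hg, htr h hh]
  apply pl_pi d _ _ _ (hm f hf) (hm g hg) (hm h hh)
  intro x y
  have := hfg (WithLp.toLp 2 x) (WithLp.toLp 2 y)
  convert this using 4
  ext i
  simp only [smul_add, PiLp.add_apply, PiLp.smul_apply, smul_eq_mul]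
  ring

end Vale.Agent.P248.PL
end
end
end

section

section

section

open MeasureTheory Set
open scoped ENNReal NNReal Pointwise

namespace Vale.Agent.P248.PL

/-- One-dimensional Brunn-Minkowski inequality with weights. -/
theorem bmw_one {μ ν : ℝ} (hμ : 0 < μ) (hν : 0 < ν) {A B C : Set ℝ}
    (hA : MeasurableSet A) (hB : MeasurableSet B)
    (nA : A.Nonempty) (nB : B.Nonempty) (h : ∀ a ∈ A, ∀ b ∈ B, μ * a + ν * b ∈ C) :
    ENNReal.ofReal μ * volume A + ENNReal.ofReal ν * volume B ≤ volume C := by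
  have e1 : ∀ (r : ℝ), 0 < r → ∀ S : Set ℝ,
      volume ((2 * r) • S) = 2 * (ENNReal.ofReal r * volume S) := by
    intro r hr S
    rw [Measure.addHaar_smul]
    simp only [Module.finrank_self, pow_one]
    rw [abs_of_pos (by positivity), ENNReal.ofReal_mul (by norm_num), mul_assoc]
    simp
  have hm : ∀ (r : ℝ), 0 < r → ∀ S : Set ℝ, MeasurableSet S → MeasurableSet ((2 * r) • S) := by
    intro r hr S hS
    exact hS.const_smul_of_ne_zero (by positivity)
  have key := bm_one (C := C) (hm μ hμ A hA) (hm ν hν B hB)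
    (nA.smul_set) (nB.smul_set) (by
      rintro _ ⟨a, ha, rfl⟩ _ ⟨b, hb, rfl⟩
      have := h a ha b hb
      have e : ((2 * μ) • a + (2 * ν) • b) / 2 = μ * a + ν * b := by
        simp only [smul_eq_mul]; ring
      rw [e]; exact this)
  rw [e1 μ hμ, e1 ν hν, ← mul_add] at key
  exact (ENNReal.mul_le_mul_iff_right (by norm_num) (by norm_num)).1 key

/-- Normalised one-dimensional Prekopa-Leindler inequality with weights. -/
theorem plw_one_normalized {μ ν : ℝ} (hμ : 0 < μ) (hν : 0 < ν) (h1 : μ + ν = 1)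
    (f g h : ℝ → ℝ≥0∞) (hf : Measurable f) (hg : Measurable g)
    (hh : Measurable h) (hf1 : ⨆ x, f x = 1) (hg1 : ⨆ x, g x = 1)
    (H : ∀ x y, f x ^ μ * g y ^ ν ≤ h (μ * x + ν * y)) :
    ENNReal.ofReal μ * (∫⁻ x, f x) + ENNReal.ofReal ν * (∫⁻ x, g x) ≤ ∫⁻ x, h x := by
  have hfle : ∀ x, f x ≤ 1 := fun x => hf1 ▸ le_iSup f x
  have hgle : ∀ x, g x ≤ 1 := fun x => hg1 ▸ le_iSup g x
  set k : ℝ → ℝ≥0∞ := fun x => min (h x) 1 with hk
  have hkm : Measurable k := hh.min measurable_const
  have hk1 : ∀ x, k x ≤ 1 := fun x => min_le_right _ _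
  have hfgk : ∀ x y, f x ^ μ * g y ^ ν ≤ k (μ * x + ν * y) := by
    intro x y
    have h2 : f x ^ μ * g y ^ ν ≤ 1 := by
      calc f x ^ μ * g y ^ ν ≤ 1 ^ μ * 1 ^ ν :=
            mul_le_mul' (ENNReal.rpow_le_rpow (hfle x) hμ.le)
              (ENNReal.rpow_le_rpow (hgle y) hν.le)
        _ = 1 := by simp
    exact le_min (H x y) h2
  have hcake : ∀ u : ℝ → ℝ≥0∞, Measurable u → (∀ x, u x ≤ 1) →
      ∫⁻ x, u x = ∫⁻ t in Ioi (0 : ℝ), volume {x | t < (u x).toReal} := by
    intro u hu hu1
    rw [← lintegral_eq_lintegral_meas_lt volume (Filter.Eventually.of_forall fun x => by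
      simp) hu.ennreal_toReal.aemeasurable]
    apply lintegral_congr
    intro x
    rw [ENNReal.ofReal_toReal (ne_top_of_le_ne_top ENNReal.one_ne_top (hu1 x))]
  have hkh : ∫⁻ x, k x ≤ ∫⁻ x, h x := lintegral_mono fun x => min_le_left _ _
  refine le_trans ?_ hkh
  rw [hcake f hf hfle, hcake g hg hgle, hcake k hkm hk1]
  have hmeas : ∀ u : ℝ → ℝ≥0∞, Measurable (fun t : ℝ => volume {x | t < (u x).toReal}) := by
    intro u
    apply Antitone.measurable
    intro s t hst
    exact measure_mono fun x hx => lt_of_le_of_lt hst hx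
  rw [← lintegral_const_mul _ (hmeas f), ← lintegral_const_mul _ (hmeas g),
    ← lintegral_add_left ((hmeas f).const_mul _)]
  refine setLIntegral_mono' measurableSet_Ioi ?_
  intro t ht
  have ht0 : 0 < t := ht
  rcases lt_or_ge t 1 with ht1 | ht1
  · apply bmw_one hμ hν
    · exact measurableSet_lt measurable_const hf.ennreal_toReal
    · exact measurableSet_lt measurable_const hg.ennreal_toReal
    · have : ENNReal.ofReal t < ⨆ x, f x := by
        rw [hf1]
        rw [← ENNReal.ofReal_one]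
        exact (ENNReal.ofReal_lt_ofReal_iff one_pos).2 ht1
      obtain ⟨x, hx⟩ := lt_iSup_iff.1 this
      refine ⟨x, ?_⟩
      exact (ENNReal.ofReal_lt_iff_lt_toReal ht0.le
        (ne_top_of_le_ne_top ENNReal.one_ne_top (hfle x))).1 hx
    · have : ENNReal.ofReal t < ⨆ x, g x := by
        rw [hg1]
        rw [← ENNReal.ofReal_one]
        exact (ENNReal.ofReal_lt_ofReal_iff one_pos).2 ht1
      obtain ⟨x, hx⟩ := lt_iSup_iff.1 this
      refine ⟨x, ?_⟩
      exact (ENNReal.ofReal_lt_iff_lt_toReal ht0.le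
        (ne_top_of_le_ne_top ENNReal.one_ne_top (hgle x))).1 hx
    · intro a ha b hb
      simp only [mem_ofPred_eq] at ha hb ⊢
      have h3 := ENNReal.toReal_mono
        (ne_top_of_le_ne_top ENNReal.one_ne_top (hk1 _)) (hfgk a b)
      rw [ENNReal.toReal_mul, ← ENNReal.toReal_rpow, ← ENNReal.toReal_rpow] at h3
      calc t = t ^ μ * t ^ ν := by rw [← Real.rpow_add ht0, h1, Real.rpow_one]
        _ < (f a).toReal ^ μ * (g b).toReal ^ ν := by
          exact mul_lt_mul'' (Real.rpow_lt_rpow ht0.le ha hμ) (Real.rpow_lt_rpow ht0.le hb hν)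
            (Real.rpow_nonneg ht0.le _) (Real.rpow_nonneg ht0.le _)
        _ ≤ _ := h3
  · have e1 : {x | t < (f x).toReal} = ∅ := by
      ext x
      simp only [mem_ofPred_eq, mem_empty_iff_false, iff_false, not_lt]
      refine le_trans ?_ ht1
      have := ENNReal.toReal_mono ENNReal.one_ne_top (hfle x)
      simpa only [ge_iff_le, ENNReal.toReal_one] using this
    have e2 : {x | t < (g x).toReal} = ∅ := by
      ext x
      simp only [mem_ofPred_eq, mem_empty_iff_false, iff_false, not_lt]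
      refine le_trans ?_ ht1
      have := ENNReal.toReal_mono ENNReal.one_ne_top (hgle x)
      simpa only [ge_iff_le, ENNReal.toReal_one] using this
    rw [e1, e2]
    simp

theorem amgm_weighted {μ ν : ℝ} (hμ : 0 < μ) (hν : 0 < ν) (h1 : μ + ν = 1) (x y : ℝ≥0∞) :
    x ^ μ * y ^ ν ≤ ENNReal.ofReal μ * x + ENNReal.ofReal ν * y := by
  have hμ' : ENNReal.ofReal μ ≠ 0 := by simpa only [ne_eq, ENNReal.ofReal_eq_zero, not_le] using hμ
  have hν' : ENNReal.ofReal ν ≠ 0 := by simpa using hν
  by_cases hx : x = ∞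
  · subst hx
    rw [ENNReal.mul_top hμ']
    simp only [top_add, le_top]
  by_cases hy : y = ∞
  · subst hy
    rw [ENNReal.mul_top hν']
    simp only [add_top, le_top]
  lift x to ℝ≥0 using hx
  lift y to ℝ≥0 using hy
  have h2 := NNReal.geom_mean_le_arith_mean2_weighted (Real.toNNReal μ) (Real.toNNReal ν) x y (by
    rw [← Real.toNNReal_add hμ.le hν.le, h1]; simp)
  rw [Real.coe_toNNReal _ hμ.le, Real.coe_toNNReal _ hν.le] at h2
  rw [← ENNReal.coe_rpow_of_nonneg _ hμ.le, ← ENNReal.coe_rpow_of_nonneg _ hν.le]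
  unfold ENNReal.ofReal
  exact_mod_cast h2

theorem plw_one_bdd {μ ν : ℝ} (hμ : 0 < μ) (hν : 0 < ν) (h1 : μ + ν = 1)
    (f g h : ℝ → ℝ≥0∞) (hf : Measurable f) (hg : Measurable g)
    (hh : Measurable h) (hf1 : ⨆ x, f x ≠ ∞) (hg1 : ⨆ x, g x ≠ ∞)
    (H : ∀ x y, f x ^ μ * g y ^ ν ≤ h (μ * x + ν * y)) :
    (∫⁻ x, f x) ^ μ * (∫⁻ x, g x) ^ ν ≤ ∫⁻ x, h x := by
  by_cases hf0 : ⨆ x, f x = 0
  · have : f = fun _ => 0 := by
      funext x
      have := le_iSup f x
      rw [hf0] at this
      simpa using this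
    rw [this]
    simp only [lintegral_const, measure_univ_of_isAddLeftInvariant, zero_mul, hμ, ENNReal.zero_rpow_of_pos, zero_le]
  by_cases hg0 : ⨆ x, g x = 0
  · have : g = fun _ => 0 := by
      funext x
      have := le_iSup g x
      rw [hg0] at this
      simpa using this
    rw [this]
    simp [hν]
  set a : ℝ≥0∞ := ⨆ x, f x with ha
  set b : ℝ≥0∞ := ⨆ x, g x with hb
  have haμ0 : a ^ μ ≠ 0 := by
    rw [Ne, ENNReal.rpow_eq_zero_iff_of_pos hμ]; exact hf0
  have hbν0 : b ^ ν ≠ 0 := by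
    rw [Ne, ENNReal.rpow_eq_zero_iff_of_pos hν]; exact hg0
  have haμt : a ^ μ ≠ ∞ := ENNReal.rpow_ne_top_of_nonneg hμ.le hf1
  have hbνt : b ^ ν ≠ ∞ := ENNReal.rpow_ne_top_of_nonneg hν.le hg1
  set c : ℝ≥0∞ := a ^ μ * b ^ ν with hc
  have hc0 : c ≠ 0 := mul_ne_zero haμ0 hbν0
  have hct : c ≠ ∞ := ENNReal.mul_ne_top haμt hbνt
  have hinv : (a⁻¹) ^ μ * (b⁻¹) ^ ν = c⁻¹ := by
    rw [ENNReal.inv_rpow, ENNReal.inv_rpow, hc, ENNReal.mul_inv (Or.inl haμ0) (Or.inl haμt)]
  have key := plw_one_normalized hμ hν h1 (fun x => a⁻¹ * f x) (fun x => b⁻¹ * g x)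
    (fun x => c⁻¹ * h x) (hf.const_mul _) (hg.const_mul _) (hh.const_mul _)
    (by rw [← ENNReal.mul_iSup, ← ha]; exact ENNReal.inv_mul_cancel hf0 hf1)
    (by rw [← ENNReal.mul_iSup, ← hb]; exact ENNReal.inv_mul_cancel hg0 hg1)
    (by
      intro x y
      calc (a⁻¹ * f x) ^ μ * (b⁻¹ * g y) ^ ν
          = ((a⁻¹) ^ μ * (b⁻¹) ^ ν) * (f x ^ μ * g y ^ ν) := by
            rw [ENNReal.mul_rpow_of_nonneg _ _ hμ.le, ENNReal.mul_rpow_of_nonneg _ _ hν.le]
            ring
        _ ≤ c⁻¹ * h (μ * x + ν * y) := by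
            rw [hinv]
            exact mul_le_mul_right (H x y) _)
  rw [lintegral_const_mul _ hf, lintegral_const_mul _ hg, lintegral_const_mul _ hh] at key
  have h5 := le_trans (amgm_weighted hμ hν h1 _ _) key
  rw [ENNReal.mul_rpow_of_nonneg _ _ hμ.le, ENNReal.mul_rpow_of_nonneg _ _ hν.le] at h5
  have h6 : (a⁻¹) ^ μ * (∫⁻ x, f x) ^ μ * ((b⁻¹) ^ ν * (∫⁻ x, g x) ^ ν)
      = c⁻¹ * ((∫⁻ x, f x) ^ μ * (∫⁻ x, g x) ^ ν) := by
    rw [← hinv]; ring
  rw [h6] at h5
  exact (ENNReal.mul_le_mul_iff_right (ENNReal.inv_ne_zero.2 hct) (ENNReal.inv_ne_top.2 hc0)).1 h5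

theorem plw_one {μ ν : ℝ} (hμ : 0 < μ) (hν : 0 < ν) (h1 : μ + ν = 1)
    (f g h : ℝ → ℝ≥0∞) (hf : Measurable f) (hg : Measurable g)
    (hh : Measurable h) (H : ∀ x y, f x ^ μ * g y ^ ν ≤ h (μ * x + ν * y)) :
    (∫⁻ x, f x) ^ μ * (∫⁻ x, g x) ^ ν ≤ ∫⁻ x, h x := by
  have hcut : ∀ u : ℝ → ℝ≥0∞, Measurable u →
      ∫⁻ x, u x = ⨆ n : ℕ, ∫⁻ x, min (u x) n := by
    intro u hu
    rw [← lintegral_iSup (fun n => hu.min measurable_const)
      (fun m n hmn x => min_le_min_left _ (by exact_mod_cast hmn))]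
    apply lintegral_congr
    intro x
    apply le_antisymm
    · by_cases hx : u x = ∞
      · rw [hx]
        simp only [top_le_iff, le_top, inf_of_le_right]
        exact ENNReal.iSup_natCast
      · obtain ⟨n, hn⟩ := ENNReal.exists_nat_gt hx
        refine le_trans ?_ (le_iSup _ n)
        rw [min_eq_left hn.le]
    · exact iSup_le fun n => min_le_left _ _
  have hsup : ∀ (u : ℝ → ℝ≥0∞) (n : ℕ), ⨆ x, min (u x) (n : ℝ≥0∞) ≠ ∞ := by
    intro u n
    refine ne_top_of_le_ne_top (ENNReal.natCast_ne_top n) (iSup_le fun x => min_le_right _ _)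
  have hpow : ∀ (r : ℝ), 0 < r → ∀ v : ℕ → ℝ≥0∞, (⨆ n, v n) ^ r = ⨆ n, v n ^ r := by
    intro r hr v
    exact (ENNReal.orderIsoRpow r hr).map_iSup v
  rw [hcut f hf, hcut g hg, hpow μ hμ, hpow ν hν, ENNReal.iSup_mul]
  refine iSup_le fun n => ?_
  rw [ENNReal.mul_iSup]
  refine iSup_le fun m => ?_
  refine plw_one_bdd hμ hν h1 _ _ h (hf.min measurable_const) (hg.min measurable_const) hh
    (hsup f n) (hsup g m) ?_
  intro x y
  exact le_trans (mul_le_mul' (ENNReal.rpow_le_rpow (min_le_left _ _) hμ.le)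
    (ENNReal.rpow_le_rpow (min_le_left _ _) hν.le)) (H x y)

/-- The Prekopa-Leindler inequality with weights. -/
theorem plw_pi (n : ℕ) {μ ν : ℝ} (hμ : 0 < μ) (hν : 0 < ν) (h1 : μ + ν = 1)
    (f g h : (Fin n → ℝ) → ℝ≥0∞) (hf : Measurable f) (hg : Measurable g) (hh : Measurable h)
    (H : ∀ x y, f x ^ μ * g y ^ ν ≤ h (fun i => μ * x i + ν * y i)) :
    (∫⁻ x, f x) ^ μ * (∫⁻ x, g x) ^ ν ≤ ∫⁻ x, h x := by
  induction n with
  | zero =>
    have hv : (volume : Measure (Fin 0 → ℝ)) univ = 1 := by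
      simp only [volume_pi, Measure.pi_empty_univ]
    rw [lintegral_unique, lintegral_unique, lintegral_unique, hv]
    simp only [mul_one]
    have hall : ∀ z w : Fin 0 → ℝ, z = w := fun z w => funext fun i => i.elim0
    have h2 : ∀ z : Fin 0 → ℝ, f z ^ μ * g z ^ ν ≤ h z := by
      intro z
      have h3 := H z z
      rwa [hall (fun i => μ * z i + ν * z i) z] at h3
    exact h2 _
  | succ n ih =>
    set e := MeasurableEquiv.piFinSuccAbove (fun _ : Fin (n + 1) => ℝ) 0 with he
    have hvp : MeasurePreserving e volume volume :=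
      volume_preserving_piFinSuccAbove (fun _ : Fin (n + 1) => ℝ) 0
    have hsplit : ∀ u : (Fin (n + 1) → ℝ) → ℝ≥0∞, Measurable u →
        ∫⁻ x, u x = ∫⁻ a : ℝ, ∫⁻ x : Fin n → ℝ, u (e.symm (a, x)) := by
      intro u hu
      rw [← hvp.symm.lintegral_comp hu]
      exact lintegral_prod _ (hu.comp e.symm.measurable).aemeasurable
    have hmid : ∀ (a b : ℝ) (x y : Fin n → ℝ),
        (fun i => μ * e.symm (a, x) i + ν * e.symm (b, y) i) =
          e.symm (μ * a + ν * b, fun i => μ * x i + ν * y i) := by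
      intro a b x y
      have hes : ∀ (c : ℝ) (z : Fin n → ℝ),
          e.symm (c, z) = (Fin.cons c z : Fin (n + 1) → ℝ) := by
        intro c z
        have h1 : e.symm (c, z) = (0 : Fin (n + 1)).insertNth (α := fun _ => ℝ) c z := rfl
        rw [h1]
        exact Fin.insertNth_zero' c z
      rw [hes, hes, hes]
      funext i
      refine Fin.cases ?_ (fun j => ?_) i
      · simp only [Fin.cons_zero]
      · simp only [Fin.cons_succ]
    have hm2 : ∀ u : (Fin (n + 1) → ℝ) → ℝ≥0∞, Measurable u →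
        Measurable fun a : ℝ => ∫⁻ x : Fin n → ℝ, u (e.symm (a, x)) := by
      intro u hu
      exact (hu.comp e.symm.measurable).lintegral_prod_right'
    rw [hsplit f hf, hsplit g hg, hsplit h hh]
    apply plw_one hμ hν h1 _ _ _ (hm2 f hf) (hm2 g hg) (hm2 h hh)
    intro a b
    have hsec : ∀ (u : (Fin (n + 1) → ℝ) → ℝ≥0∞) (c : ℝ), Measurable u →
        Measurable fun x : Fin n → ℝ => u (e.symm (c, x)) := by
      intro u c hu
      exact hu.comp (e.symm.measurable.comp measurable_prodMk_left)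
    apply ih _ _ _ (hsec f a hf) (hsec g b hg) (hsec h _ hh)
    intro x y
    have := H (e.symm (a, x)) (e.symm (b, y))
    rwa [hmid] at this

end Vale.Agent.P248.PL
end
end
end

section

section

section

set_option linter.unusedSectionVars false

open MeasureTheory Set
open scoped ENNReal Topology Pointwise

namespace Vale.Agent.P248

variable {ι : Type*} [Fintype ι] [DecidableEq ι]

/-- The simplex with vertices `0` and `a i • e i`. -/
def simpA (a : ι → ℝ) : Set (ι → ℝ) := {x | (∀ i, 0 ≤ x i) ∧ ∑ i, x i / a i ≤ 1}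

theorem simpA_eq_preimage {a : ι → ℝ} (ha : ∀ i, 0 < a i) :
    simpA a = diagMap (fun i => (a i)⁻¹) ⁻¹' stdS ι := by
  ext x
  simp only [simpA, stdS, mem_ofPred_eq, mem_preimage, diagMap_apply]
  constructor
  · rintro ⟨h1, h2⟩
    refine ⟨fun i => mul_nonneg (inv_pos.mpr (ha i)).le (h1 i), ?_⟩
    convert h2 using 2 with i
    rw [div_eq_inv_mul]
  · rintro ⟨h1, h2⟩
    refine ⟨fun i => ?_, ?_⟩
    · have := h1 i
      exact (mul_nonneg_iff_of_pos_left (inv_pos.mpr (ha i))).mp this
    · convert h2 using 2 with i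
      rw [div_eq_inv_mul]

theorem volume_simpA {a : ι → ℝ} (ha : ∀ i, 0 < a i) :
    volume (simpA a) = ENNReal.ofReal (∏ i, a i) * volume (stdS ι) := by
  have hdet : LinearMap.det (diagMap fun i => (a i)⁻¹) ≠ 0 := by
    rw [diagMap_det]
    exact Finset.prod_ne_zero_iff.mpr fun i _ => (inv_pos.mpr (ha i)).ne'
  rw [simpA_eq_preimage ha, Measure.addHaar_preimage_linearMap volume hdet, diagMap_det]
  congr 2
  rw [Finset.prod_inv_distrib, inv_inv, abs_of_pos (Finset.prod_pos fun i _ => ha i)]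

theorem simpA_isClosed {a : ι → ℝ} (ha : ∀ i, 0 < a i) : IsClosed (simpA a) := by
  rw [simpA_eq_preimage ha]
  exact stdS_isClosed.preimage (LinearMap.continuous_of_finiteDimensional _)

theorem volume_stdS_le :
    volume (stdS ι) ≤ ENNReal.ofReal (1 / (Fintype.card ι).factorial) := by
  set n := Fintype.card ι with hn
  have horth := orthant_lemma (z := fun _ : ι => (1 : ℝ)) (fun _ => one_pos) (fun _ => stdS ι)
    (fun _ => stdS_isClosed) (fun _ x hx => hx.1) {x : ι → ℝ | ∑ i, |x i| ≤ 1} (by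
      rintro J _ ⟨u, ⟨hu0, hu1⟩, rfl⟩
      simp only [mem_ofPred_eq, diagMap_apply]
      refine le_trans (le_of_eq (Finset.sum_congr rfl fun i _ => ?_)) hu1
      by_cases h : i ∈ J <;> simp [sgn, h, abs_of_nonneg (hu0 i)])
  rcases isEmpty_or_nonempty ι with he | hne
  · have h0 : n = 0 := by rw [hn]; exact Fintype.card_eq_zero
    have h2 : volume (univ : Set (ι → ℝ)) = 1 := by
      rw [volume_pi, Measure.pi_univ, Finset.univ_eq_empty, Finset.prod_empty]
    rw [h0]
    simpa only [Nat.factorial_zero, Nat.cast_one, ne_eq, one_ne_zero, not_false_eq_true, div_self,     ENNReal.ofReal_one, ge_iff_le] using (measure_mono (subset_univ (stdS ι))).trans h2.le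
  have h1 := MeasureTheory.volume_sum_rpow_le ι (le_refl (1 : ℝ)) 1
  have h2 : {x : ι → ℝ | (∑ i, |x i| ^ (1 : ℝ)) ^ (1 / (1 : ℝ)) ≤ 1} = {x : ι → ℝ | ∑ i, |x i| ≤ 1} := by
    ext x; simp only [Real.rpow_one, ne_eq, one_ne_zero, not_false_eq_true, div_self, mem_ofPred_eq]
  rw [h2] at h1
  rw [h1] at horth
  simp only [inv_one, Finset.prod_const_one, ENNReal.ofReal_one, one_mul, Finset.sum_const,
    Finset.card_univ, Fintype.card_finset, nsmul_eq_mul] at horth
  have h4 : (2 * Real.Gamma (1 / 1 + 1)) ^ Fintype.card ι /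
      Real.Gamma (Fintype.card ι / 1 + 1) = 2 ^ n * (1 / (n.factorial : ℝ)) := by
    have e1 : (1 : ℝ) / 1 + 1 = 2 := by norm_num
    rw [e1, Real.Gamma_two, div_one, ← hn, Real.Gamma_nat_eq_factorial]
    ring
  rw [h4, one_pow, one_mul, ENNReal.ofReal_mul (by positivity)] at horth
  have h5 : ENNReal.ofReal ((2 : ℝ) ^ n) = 2 ^ n := by
    rw [ENNReal.ofReal_pow (by norm_num)]; norm_num
  rw [h5] at horth
  have h6 : ((2 ^ Fintype.card ι : ℕ) : ℝ≥0∞) = 2 ^ n := by rw [← hn]; push_cast; rfl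
  rw [h6] at horth
  exact (ENNReal.mul_le_mul_iff_right (by positivity) (by finiteness)).mp horth

theorem volume_stdS_eq :
    volume (stdS ι) = ENNReal.ofReal (1 / (Fintype.card ι).factorial) :=
  le_antisymm volume_stdS_le volume_stdS_ge

theorem convex_comb_mem {K : Set (ι → ℝ)} (hK : Convex ℝ K) (h0 : (0 : ι → ℝ) ∈ K)
    {w : ι → ℝ} {p : ι → ι → ℝ} (hw : ∀ i, 0 ≤ w i) (hp : ∀ i, p i ∈ K) (hs : ∑ i, w i ≤ 1) :
    ∑ i, w i • p i ∈ K := by
  have h := hK.sum_mem (t := (Finset.univ : Finset (Option ι)))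
    (w := fun o => o.elim (1 - ∑ i, w i) w) (z := fun o => o.elim 0 p)
    (by
      intro o _
      cases o with
      | none => simp only [Option.elim_none]; linarith only [hs]
      | some i => exact hw i)
    (by rw [Fintype.sum_option]; simp only [Option.elim_none, Option.elim_some, sub_add_cancel])
    (by
      intro o _
      cases o with
      | none => exact h0
      | some i => exact hp i)
  rw [Fintype.sum_option] at h
  simpa only [Option.elim_none, smul_zero, Option.elim_some, zero_add] using h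

/-- Two nested closed convex bodies of the same volume coincide. -/
theorem eq_of_subset_of_volume_eq {S K : Set (ι → ℝ)} (hS : IsClosed S) (hK : Convex ℝ K)
    (hKi : (interior K).Nonempty) (hKc : IsClosed K) (hsub : S ⊆ K) (hvol : volume S = volume K)
    (hfin : volume S ≠ ∞) : S = K := by
  refine Subset.antisymm hsub ?_
  have h1 : volume (K \ S) = 0 := by
    rw [measure_sdiff hsub hS.measurableSet.nullMeasurableSet hfin, hvol, tsub_self]
  have h2 : interior K \ S = ∅ := by
    have ho : IsOpen (interior K \ S) := isOpen_interior.sdiff hS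
    have h0 : volume (interior K \ S) = 0 :=
      measure_mono_null (sdiff_subset_sdiff_left interior_subset) h1
    exact (ho.measure_eq_zero_iff volume).mp h0
  have h3 : interior K ⊆ S := sdiff_eq_empty.mp h2
  have h4 := closure_mono h3
  rw [hK.closure_interior_eq_closure_of_nonempty_interior hKi, hKc.closure_eq, hS.closure_eq] at h4
  exact h4

/-- Equality in the anti-blocking case. -/
theorem ab_eq {n : ℕ} {K : Set (Fin n → ℝ)} (hKc : IsCompact K) (hconv : Convex ℝ K)
    (hAB : IsAB K) {z : Fin n → ℝ} (hz : z ∈ interior K)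
    (heq : (volume K).toReal * (volume (polarP K z)).toReal =
      ((n : ℝ) + 1) ^ (n + 1) * (volume (stdS (Fin n))).toReal ^ 2) :
    K = simpA (fun i => ((n : ℝ) + 1) * z i) := by
  obtain ⟨h1, h2⟩ := (ab_core hKc hconv hAB hz).2 heq
  have hzpos : ∀ i, 0 < z i := interior_pos hAB.nonneg hz
  have hzK : z ∈ K := interior_subset hz
  have hA1 := absB_convex hconv hAB
  have hA2 := absB_mem_nhds hAB hzK hzpos
  have hA3 := absB_isClosed hKc.isClosed
  have hA4 := absB_isBounded hKc.isBounded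
  set g := gauge (absB K) with hgdef
  have hg : Sublin g := gauge_sublin hA1 hA2
  have hgle : ∀ x, g x ≤ 1 ↔ x ∈ absB K := gauge_le_iff hA1 hA3 hA2
  have hgpos : ∀ x, x ≠ 0 → 0 < g x := by
    intro x hx
    exact (gauge_pos (absorbent_nhds_zero hA2) (NormedSpace.isVonNBounded_iff ℝ |>.mpr hA4)).mpr hx
  set v := (volume (stdS (Fin n))).toReal with hv
  have hvpos : 0 < v := by
    rw [hv, ← body_empty hg]
    refine ENNReal.toReal_pos (body_volume_pos hg ∅).ne' ?_
    refine (body_isBounded (fun x => gauge_nonneg x) ?_ ∅).measure_lt_top.ne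
    have : {x | g x ≤ 1} = absB K := by ext x; exact hgle x
    rw [this]; exact hA4
  -- the vertices
  have hvert : ∀ i, (Pi.single i (((n : ℝ) + 1) * z i) : Fin n → ℝ) ∈ K := by
    intro i
    set gi := g (Pi.single i (1 : ℝ)) with hgi
    have hgipos : 0 < gi := hgpos _ (by simp)
    have hbody : body g {i} = simpA (Function.update (fun _ => (1 : ℝ)) i gi⁻¹) := by
      ext u
      simp only [body, simpA, mem_ofPred_eq]
      have hres : res {i} u = u i • (Pi.single i (1 : ℝ) : Fin n → ℝ) := by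
        ext j
        by_cases hj : j = i
        · subst hj; simp [res]
        · simp [res, hj]
      constructor
      · rintro ⟨hu0, hu1⟩
        refine ⟨hu0, ?_⟩
        rw [hres, hg.smul_eq _ (hu0 i)] at hu1
        rw [← Finset.add_sum_erase _ _ (Finset.mem_univ i)]
        refine le_trans (le_of_eq ?_) hu1
        congr 1
        · simp [hgi]
        · have : ({i} : Finset (Fin n))ᶜ = Finset.univ.erase i := by ext j; simp only [Finset.mem_compl, Finset.mem_singleton, Finset.mem_erase, ne_eq, Finset.mem_univ, and_true]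
          rw [this]
          refine Finset.sum_congr rfl fun j hj => ?_
          simp [Finset.ne_of_mem_erase hj]
      · rintro ⟨hu0, hu1⟩
        refine ⟨hu0, ?_⟩
        rw [hres, hg.smul_eq _ (hu0 i)]
        rw [← Finset.add_sum_erase _ _ (Finset.mem_univ i)] at hu1
        refine le_trans (le_of_eq ?_) hu1
        congr 1
        · simp [hgi]
        · have : ({i} : Finset (Fin n))ᶜ = Finset.univ.erase i := by ext j; simp only [Finset.mem_compl, Finset.mem_singleton, Finset.mem_erase, ne_eq, Finset.mem_univ, and_true]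
          rw [this]
          refine Finset.sum_congr rfl fun j hj => ?_
          simp [Finset.ne_of_mem_erase hj]
    have hvol : (volume (body g {i})).toReal = gi⁻¹ * v := by
      rw [hbody, volume_simpA]
      · rw [ENNReal.toReal_mul, ENNReal.toReal_ofReal]
        · congr 1
          rw [Finset.prod_update_of_mem (Finset.mem_univ i)]
          simp only [Finset.prod_const_one, mul_one]
        · refine Finset.prod_nonneg fun j _ => ?_
          by_cases hj : j = i
          · subst hj; simp only [Function.update_self, inv_nonneg, hgipos.le]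
          · simp [hj]
      · intro j
        by_cases hj : j = i
        · subst hj; simp [hgipos]
        · simp [hj]
    have h3 := h2 i
    rw [hvol] at h3
    have h4 : ((n : ℝ) + 1) * z i ≤ gi⁻¹ := le_of_mul_le_mul_right h3 hvpos
    have hzi := hzpos i
    have h5 : g (Pi.single i (((n : ℝ) + 1) * z i)) ≤ 1 := by
      have : (Pi.single i (((n : ℝ) + 1) * z i) : Fin n → ℝ) =
          (((n : ℝ) + 1) * z i) • (Pi.single i (1 : ℝ) : Fin n → ℝ) := by
        ext j
        by_cases hj : j = i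
        · subst hj; simp
        · simp [hj]
      rw [this, hg.smul_eq _ (by (clear * - hzi; positivity)), ← hgi]
      calc ((n : ℝ) + 1) * z i * gi ≤ gi⁻¹ * gi := by (clear * - h4 hgipos; gcongr)
        _ = 1 := inv_mul_cancel₀ hgipos.ne'
    have h6 := (hgle _).mp h5
    have h7 : (fun j => |(Pi.single i (((n : ℝ) + 1) * z i) : Fin n → ℝ) j|) =
        Pi.single i (((n : ℝ) + 1) * z i) := by
      ext j
      by_cases hj : j = i
      · subst hj
        simp only [Pi.single_eq_same]
        exact abs_of_nonneg (by (clear * - hzi; positivity))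
      · simp [hj]
    rw [absB, mem_ofPred_eq, h7] at h6
    exact h6
  have h0K : (0 : Fin n → ℝ) ∈ K := hAB.down z hzK 0 fun i => ⟨le_rfl, (hzpos i).le⟩
  set a : Fin n → ℝ := fun i => ((n : ℝ) + 1) * z i with ha
  have hapos : ∀ i, 0 < a i := fun i => by have := hzpos i; (clear * - this; positivity)
  have hsub : simpA a ⊆ K := by
    rintro x ⟨hx0, hx1⟩
    have h3 : x = ∑ i, (x i / a i) • (Pi.single i (a i) : Fin n → ℝ) := by
      ext j
      simp only [Finset.sum_apply, Pi.smul_apply, smul_eq_mul]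
      rw [Finset.sum_eq_single j]
      · simp only [Pi.single_eq_same]
        have := (hapos j).ne'
        (clear * - this; field_simp)
      · intro i _ hij
        simp only [Pi.single_eq_of_ne (Ne.symm hij), mul_zero]
      · simp only [Finset.mem_univ, not_true_eq_false, Pi.single_eq_same, mul_eq_zero, div_eq_zero_iff, or_self_right, IsEmpty.forall_iff]
    rw [h3]
    exact convex_comb_mem hconv h0K (fun i => div_nonneg (hx0 i) (hapos i).le) hvert hx1
  have hKfin : volume K ≠ ∞ := hKc.measure_lt_top.ne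
  have hvfin : volume (stdS (Fin n)) ≠ ∞ := by
    intro h
    rw [hv, h] at hvpos
    simp at hvpos
  have hvolS : volume (simpA a) = volume K := by
    rw [volume_simpA hapos, ← ENNReal.ofReal_toReal hKfin, h1, ← ENNReal.ofReal_toReal hvfin,
      ← ENNReal.ofReal_mul (Finset.prod_nonneg fun i _ => (hapos i).le)]
    congr 1
    rw [← hv, ha]
    simp only
    rw [Finset.prod_mul_distrib]
    simp only [Finset.prod_const, Finset.card_univ, Fintype.card_fin]
  exact (eq_of_subset_of_volume_eq (simpA_isClosed hapos) hconv ⟨z, hz⟩ hKc.isClosed hsub hvolS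
    (by rw [hvolS]; exact hKfin)).symm

end Vale.Agent.P248
end
end
end

section

section

section

open MeasureTheory Set
open scoped ENNReal Topology

namespace Vale.Agent.P248

variable {n : ℕ}

/-- The affine frame map. -/
noncomputable def frame (p : EuclideanSpace ℝ (Fin n))
    (b : Module.Basis (Fin n) ℝ (EuclideanSpace ℝ (Fin n))) (u : Fin n → ℝ) :
    EuclideanSpace ℝ (Fin n) := p + b.equivFun.symm u

/-- The pairing map. -/
noncomputable def coframe (b : Module.Basis (Fin n) ℝ (EuclideanSpace ℝ (Fin n)))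
    (y : EuclideanSpace ℝ (Fin n)) : Fin n → ℝ := fun i => inner ℝ y (b i)

/-- The matrix of the frame: its columns are the basis vectors. -/
noncomputable def fmat (b : Module.Basis (Fin n) ℝ (EuclideanSpace ℝ (Fin n))) :
    Matrix (Fin n) (Fin n) ℝ := fun i j => (b j) i

theorem frame_homeo (p : EuclideanSpace ℝ (Fin n))
    (b : Module.Basis (Fin n) ℝ (EuclideanSpace ℝ (Fin n))) :
    ∃ h : (Fin n → ℝ) ≃ₜ EuclideanSpace ℝ (Fin n), ∀ u, h u = frame p b u := by
  refine ⟨(b.equivFun.symm.toContinuousLinearEquiv.toHomeomorph).trans (Homeomorph.addLeft p), ?_⟩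
  intro u
  rfl

theorem polarAt_frame (p : EuclideanSpace ℝ (Fin n))
    (b : Module.Basis (Fin n) ℝ (EuclideanSpace ℝ (Fin n))) (K : Set (EuclideanSpace ℝ (Fin n)))
    (u : Fin n → ℝ) :
    polarAt K (frame p b u) = coframe b ⁻¹' (polarP (frame p b ⁻¹' K) u) := by
  have key : ∀ (y : EuclideanSpace ℝ (Fin n)) (x' : Fin n → ℝ),
      inner ℝ y (frame p b x' - frame p b u) = ∑ i, (x' i - u i) * coframe b y i := by
    intro y x'
    have h1 : frame p b x' - frame p b u = ∑ i, (x' i - u i) • b i := by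
      unfold frame
      rw [add_sub_add_left_eq_sub, ← map_sub, Module.Basis.equivFun_symm_apply]
      rfl
    rw [h1, inner_sum]
    refine Finset.sum_congr rfl fun i _ => ?_
    rw [inner_smul_right]
    rfl
  ext y
  constructor
  · intro hy x' hx'
    have h2 := hy (frame p b x') hx'
    rw [key] at h2
    exact h2
  · intro hy x hx
    obtain ⟨h, hh⟩ := frame_homeo p b
    obtain ⟨x', rfl⟩ := h.surjective x
    rw [hh] at hx ⊢
    rw [key]
    exact hy x' hx

theorem ofLp_frame (p : EuclideanSpace ℝ (Fin n))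
    (b : Module.Basis (Fin n) ℝ (EuclideanSpace ℝ (Fin n))) (u : Fin n → ℝ) :
    WithLp.ofLp (frame p b u) = WithLp.ofLp p + (fmat b).mulVec u := by
  unfold frame
  ext i
  rw [Module.Basis.equivFun_symm_apply]
  simp only [WithLp.ofLp_add, WithLp.ofLp_sum, WithLp.ofLp_smul, Pi.add_apply, Finset.sum_apply,
    Pi.smul_apply, smul_eq_mul, Matrix.mulVec, dotProduct, fmat]
  congr 1
  exact Finset.sum_congr rfl fun j _ => mul_comm _ _

theorem coframe_eq (b : Module.Basis (Fin n) ℝ (EuclideanSpace ℝ (Fin n)))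
    (y : EuclideanSpace ℝ (Fin n)) :
    coframe b y = (fmat b).transpose.mulVec (WithLp.ofLp y) := by
  ext i
  simp only [coframe, Matrix.mulVec, dotProduct, fmat, Matrix.transpose_apply]
  rw [PiLp.inner_apply]
  refine Finset.sum_congr rfl fun j _ => ?_
  simp

theorem fmat_det_ne (b : Module.Basis (Fin n) ℝ (EuclideanSpace ℝ (Fin n))) :
    (fmat b).det ≠ 0 := by
  intro h
  obtain ⟨v, hv, hv2⟩ := Matrix.exists_mulVec_eq_zero_iff.mpr h
  have h1 : frame 0 b v = 0 := by
    have := ofLp_frame 0 b v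
    rw [hv2] at this
    simp only [WithLp.ofLp_zero, add_zero] at this
    exact (WithLp.ofLp_injective 2) this
  unfold frame at h1
  rw [zero_add] at h1
  exact hv ((LinearEquiv.map_eq_zero_iff _).mp h1)

theorem volume_frame_preimage (p : EuclideanSpace ℝ (Fin n))
    (b : Module.Basis (Fin n) ℝ (EuclideanSpace ℝ (Fin n))) (K : Set (EuclideanSpace ℝ (Fin n))) :
    volume (frame p b ⁻¹' K) = ENNReal.ofReal |((fmat b).det)⁻¹| * volume K := by
  have h1 : frame p b ⁻¹' K = (Matrix.toLin' (fmat b)) ⁻¹'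
      ((fun v => WithLp.ofLp p + v) ⁻¹' ((WithLp.toLp 2) ⁻¹' K)) := by
    ext u
    simp only [mem_preimage, Matrix.toLin'_apply, ← ofLp_frame]
  have hdet : LinearMap.det (Matrix.toLin' (fmat b)) ≠ 0 := by
    rw [LinearMap.det_toLin']; exact fmat_det_ne b
  rw [h1, Measure.addHaar_preimage_linearMap volume hdet, LinearMap.det_toLin',
    measure_preimage_add]
  congr 1
  exact (EuclideanSpace.volume_preserving_symm_measurableEquiv_toLp
    (Fin n)).symm.measure_preimage_equiv K

theorem volume_coframe_preimage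
    (b : Module.Basis (Fin n) ℝ (EuclideanSpace ℝ (Fin n))) (L : Set (Fin n → ℝ)) :
    volume (coframe b ⁻¹' L) = ENNReal.ofReal |((fmat b).det)⁻¹| * volume L := by
  have h1 : coframe b ⁻¹' L = WithLp.ofLp ⁻¹'
      ((Matrix.toLin' (fmat b).transpose) ⁻¹' L) := by
    ext u
    simp only [mem_preimage, Matrix.toLin'_apply, coframe_eq]
  have hdet : LinearMap.det (Matrix.toLin' (fmat b).transpose) ≠ 0 := by
    rw [LinearMap.det_toLin', Matrix.det_transpose]; exact fmat_det_ne b
  rw [h1]
  rw [show volume (WithLp.ofLp ⁻¹' ((Matrix.toLin' (fmat b).transpose) ⁻¹' L) :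
      Set (EuclideanSpace ℝ (Fin n))) = volume ((Matrix.toLin' (fmat b).transpose) ⁻¹' L) from
    (EuclideanSpace.volume_preserving_symm_measurableEquiv_toLp
      (Fin n)).measure_preimage_equiv _]
  rw [Measure.addHaar_preimage_linearMap volume hdet, LinearMap.det_toLin', Matrix.det_transpose]

/-- The volume product is computed in coordinates. -/
theorem volume_mul_frame (p : EuclideanSpace ℝ (Fin n))
    (b : Module.Basis (Fin n) ℝ (EuclideanSpace ℝ (Fin n))) (K : Set (EuclideanSpace ℝ (Fin n)))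
    (u : Fin n → ℝ) :
    volume K * volume (polarAt K (frame p b u)) =
      volume (frame p b ⁻¹' K) * volume (polarP (frame p b ⁻¹' K) u) := by
  rw [polarAt_frame, volume_coframe_preimage, volume_frame_preimage]
  ring

theorem frame_preimage_isCompact (p : EuclideanSpace ℝ (Fin n))
    (b : Module.Basis (Fin n) ℝ (EuclideanSpace ℝ (Fin n))) {K : Set (EuclideanSpace ℝ (Fin n))}
    (hK : IsCompact K) : IsCompact (frame p b ⁻¹' K) := by
  obtain ⟨h, hh⟩ := frame_homeo p b
  have : frame p b = h := funext fun u => (hh u).symm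
  rw [this]
  exact h.isCompact_preimage.mpr hK

theorem frame_preimage_interior (p : EuclideanSpace ℝ (Fin n))
    (b : Module.Basis (Fin n) ℝ (EuclideanSpace ℝ (Fin n))) (K : Set (EuclideanSpace ℝ (Fin n))) :
    interior (frame p b ⁻¹' K) = frame p b ⁻¹' (interior K) := by
  obtain ⟨h, hh⟩ := frame_homeo p b
  have : frame p b = h := funext fun u => (hh u).symm
  rw [this]
  exact (h.preimage_interior K).symm

theorem frame_affine (p : EuclideanSpace ℝ (Fin n))
    (b : Module.Basis (Fin n) ℝ (EuclideanSpace ℝ (Fin n))) (u v : Fin n → ℝ) {s t : ℝ}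
    (hst : s + t = 1) :
    frame p b (s • u + t • v) = s • frame p b u + t • frame p b v := by
  unfold frame
  rw [map_add, map_smul, map_smul, smul_add, smul_add]
  have : p = s • p + t • p := by rw [← add_smul, hst, one_smul]
  nth_rewrite 1 [this]
  abel

theorem frame_preimage_convex (p : EuclideanSpace ℝ (Fin n))
    (b : Module.Basis (Fin n) ℝ (EuclideanSpace ℝ (Fin n))) {K : Set (EuclideanSpace ℝ (Fin n))}
    (hK : Convex ℝ K) : Convex ℝ (frame p b ⁻¹' K) := by
  intro u hu v hv s t hs ht hst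
  rw [mem_preimage, frame_affine p b u v hst]
  exact hK hu hv hs ht hst

theorem frame_update (p : EuclideanSpace ℝ (Fin n))
    (b : Module.Basis (Fin n) ℝ (EuclideanSpace ℝ (Fin n))) (u : Fin n → ℝ) (i : Fin n) :
    frame p b (Function.update u i 0) =
      frame p b u - b.repr (frame p b u - p) i • b i := by
  unfold frame
  have h1 : b.repr (p + b.equivFun.symm u - p) i = u i := by
    rw [add_sub_cancel_left]
    have := b.equivFun.apply_symm_apply u
    exact congrFun this i
  rw [h1]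
  have h2 : Function.update u i 0 = u - u i • (Pi.single i (1 : ℝ) : Fin n → ℝ) := by
    ext j
    by_cases hj : j = i
    · subst hj; simp
    · simp [hj]
  rw [h2, map_sub, map_smul]
  have h3 : b.equivFun.symm (Pi.single i (1 : ℝ)) = b i := by
    rw [Module.Basis.equivFun_symm_apply]
    rw [Finset.sum_eq_single i]
    · simp
    · intro j _ hj; simp [hj]
    · simp only [Finset.mem_univ, not_true_eq_false, Pi.single_eq_same, one_smul, IsEmpty.forall_iff]
  rw [h3]
  abel

theorem frame_lab {p : EuclideanSpace ℝ (Fin n)}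
    {b : Module.Basis (Fin n) ℝ (EuclideanSpace ℝ (Fin n))} {K : Set (EuclideanSpace ℝ (Fin n))}
    (h : ∀ x ∈ K, ∀ i, x - b.repr (x - p) i • b i ∈ K) :
    ∀ u ∈ frame p b ⁻¹' K, ∀ i, Function.update u i 0 ∈ frame p b ⁻¹' K := by
  intro u hu i
  rw [mem_preimage, frame_update]
  exact h _ hu i

/-- The volume product, in coordinates. -/
theorem volumeProduct_frame (p : EuclideanSpace ℝ (Fin n))
    (b : Module.Basis (Fin n) ℝ (EuclideanSpace ℝ (Fin n))) (K : Set (EuclideanSpace ℝ (Fin n))) :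
    volumeProduct K = ⨅ u ∈ interior (frame p b ⁻¹' K),
      volume (frame p b ⁻¹' K) * volume (polarP (frame p b ⁻¹' K) u) := by
  unfold volumeProduct
  rw [frame_preimage_interior]
  apply le_antisymm
  · refine le_iInf₂ fun u hu => ?_
    rw [← volume_mul_frame]
    exact iInf₂_le (frame p b u) hu
  · refine le_iInf₂ fun z hz => ?_
    obtain ⟨h, hh⟩ := frame_homeo p b
    obtain ⟨u, rfl⟩ := h.surjective z
    rw [hh] at hz ⊢
    rw [volume_mul_frame]
    exact iInf₂_le u hz

end Vale.Agent.P248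
end
end
end

section

section

section

/-! Ball's one-dimensional inequality without integrability hypotheses. -/

open MeasureTheory Set Filter Topology

namespace Vale.Agent.P248

/-- Integrable minorants of a continuous positive function with almost the same integral. -/
theorem ball_trunc {f : ℝ → ℝ} (hc : ContinuousOn f (Ioi 0)) (hp : ∀ s, 0 < s → 0 < f s)
    {y θ : ℝ} (hy : 0 < y) (hθ1 : θ < 1)
    (hyf : ENNReal.ofReal y ≤ ∫⁻ s in Ioi 0, ENNReal.ofReal (f s)) :
    ∃ g : ℝ → ℝ, ContinuousOn g (Ioi 0) ∧ (∀ s, 0 < s → 0 < g s) ∧ (∀ s, g s ≤ f s) ∧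
      IntegrableOn g (Ioi 0) ∧ θ * y ≤ ∫ s in Ioi 0, g s := by
  set g : ℕ → ℝ → ℝ := fun n s => min (f s) (((n : ℝ) + 1) * Real.exp (-s)) with hg
  have hgc : ∀ n, ContinuousOn (g n) (Ioi 0) := by
    intro n
    have h1 : ContinuousOn (fun s : ℝ => ((n : ℝ) + 1) * Real.exp (-s)) (Ioi 0) := by fun_prop
    exact ContinuousOn.inf hc h1
  have hgp : ∀ n s, 0 < s → 0 < g n s := by
    intro n s hs
    exact lt_min (hp s hs) (by positivity)
  have hgi : ∀ n, IntegrableOn (g n) (Ioi 0) := by
    intro n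
    have h1 : IntegrableOn (fun s : ℝ => ((n : ℝ) + 1) * Real.exp (-s)) (Ioi 0) :=
      (integrableOn_exp_neg_Ioi 0).const_mul _
    refine Integrable.mono' h1 ((hgc n).aestronglyMeasurable measurableSet_Ioi) ?_
    filter_upwards [ae_restrict_mem measurableSet_Ioi] with s hs
    rw [Real.norm_of_nonneg (hgp n s hs).le]
    exact min_le_right _ _
  have hlim : Tendsto (fun n => ∫⁻ s in Ioi 0, ENNReal.ofReal (g n s)) atTop
      (𝓝 (∫⁻ s in Ioi 0, ENNReal.ofReal (f s))) := by
    refine lintegral_tendsto_of_tendsto_of_monotone ?_ ?_ ?_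
    · intro n
      exact ((hgc n).aemeasurable measurableSet_Ioi).ennreal_ofReal
    · refine Eventually.of_forall fun s => ?_
      intro n m hnm
      refine ENNReal.ofReal_le_ofReal (min_le_min le_rfl ?_)
      have : (n : ℝ) ≤ m := by exact_mod_cast hnm
      (clear * - this; gcongr)
    · refine Eventually.of_forall fun s => ?_
      refine tendsto_const_nhds.congr' ?_
      obtain ⟨N, hN⟩ := exists_nat_ge (f s / Real.exp (-s))
      filter_upwards [eventually_ge_atTop N] with n hn
      congr 1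
      have h1 : (N : ℝ) ≤ n := by exact_mod_cast hn
      rw [div_le_iff₀ (Real.exp_pos _)] at hN
      refine (min_eq_left (hN.trans ?_)).symm
      refine mul_le_mul_of_nonneg_right ?_ (Real.exp_pos _).le
      linarith only [h1]
  have hlt : ENNReal.ofReal (θ * y) < ∫⁻ s in Ioi 0, ENNReal.ofReal (f s) := by
    refine lt_of_lt_of_le ?_ hyf
    rw [ENNReal.ofReal_lt_ofReal_iff hy]
    linarith [mul_pos (sub_pos.2 hy) (sub_pos.2 hθ1)]
  obtain ⟨n, hn⟩ := (hlim.eventually (lt_mem_nhds hlt)).exists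
  refine ⟨g n, hgc n, hgp n, fun s => min_le_left _ _, hgi n, ?_⟩
  rw [← ofReal_integral_eq_lintegral_ofReal (hgi n) ?_] at hn
  · exact (ENNReal.ofReal_lt_ofReal_iff'.1 hn).1.le
  · filter_upwards [ae_restrict_mem measurableSet_Ioi] with s hs
    exact (hgp n s hs).le

/-- The harmonic mean is monotone. -/
theorem harm_mono {a b A B : ℝ} (ha : 0 < a) (hb : 0 < b) (hA : a ≤ A) (hB : b ≤ B) :
    2 * a * b / (a + b) ≤ 2 * A * B / (A + B) := by
  have hA0 : 0 < A := ha.trans_le hA
  have hB0 : 0 < B := hb.trans_le hB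
  rw [div_le_div_iff₀ (by positivity) (by positivity)]
  have e1 : a * (b * B) ≤ A * (b * B) := mul_le_mul_of_nonneg_right hA (by positivity)
  have e2 : b * (a * A) ≤ B * (a * A) := mul_le_mul_of_nonneg_right hB (by positivity)
  linarith

theorem ball_ext {f f1 f2 : ℝ → ℝ} (hf : Measurable f) (hc1 : ContinuousOn f1 (Set.Ioi 0))
    (hc2 : ContinuousOn f2 (Set.Ioi 0)) (hp1 : ∀ s, 0 < s → 0 < f1 s)
    (hp2 : ∀ s, 0 < s → 0 < f2 s)
    (h : ∀ s1 s2, 0 < s1 → 0 < s2 →
      f1 s1 ^ (s2 / (s1 + s2)) * f2 s2 ^ (s1 / (s1 + s2)) ≤ f (2 * s1 * s2 / (s1 + s2)))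
    {y1 y2 : ℝ} (h1 : 0 < y1) (h2 : 0 < y2)
    (hy1 : ENNReal.ofReal y1 ≤ ∫⁻ s in Set.Ioi 0, ENNReal.ofReal (f1 s))
    (hy2 : ENNReal.ofReal y2 ≤ ∫⁻ s in Set.Ioi 0, ENNReal.ofReal (f2 s)) :
    ENNReal.ofReal (2 * y1 * y2 / (y1 + y2)) ≤ ∫⁻ s in Set.Ioi 0, ENNReal.ofReal (f s) := by
  have key : ∀ θ : ℝ, θ ∈ Ioo (0 : ℝ) 1 →
      ENNReal.ofReal (θ * (2 * y1 * y2 / (y1 + y2))) ≤
        ∫⁻ s in Set.Ioi 0, ENNReal.ofReal (f s) := by
    rintro θ ⟨hθ0, hθ1⟩
    obtain ⟨g1, gc1, gp1, gle1, gi1, gy1⟩ := ball_trunc hc1 hp1 h1 hθ1 hy1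
    obtain ⟨g2, gc2, gp2, gle2, gi2, gy2⟩ := ball_trunc hc2 hp2 h2 hθ1 hy2
    have hg : ∀ s1 s2, 0 < s1 → 0 < s2 →
        g1 s1 ^ (s2 / (s1 + s2)) * g2 s2 ^ (s1 / (s1 + s2)) ≤ f (2 * s1 * s2 / (s1 + s2)) := by
      intro s1 s2 hs1 hs2
      refine le_trans ?_ (h s1 s2 hs1 hs2)
      refine mul_le_mul ?_ ?_ (Real.rpow_nonneg (gp2 s2 hs2).le _)
        (Real.rpow_nonneg (hp1 s1 hs1).le _)
      · exact Real.rpow_le_rpow (gp1 s1 hs1).le (gle1 s1) (by (clear * - hs2 hs1; positivity))
      · exact Real.rpow_le_rpow (gp2 s2 hs2).le (gle2 s2) (by (clear * - hs1 hs2; positivity))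
    refine le_trans (ENNReal.ofReal_le_ofReal ?_)
      (ball_lemma hf gc1 gc2 gp1 gp2 gi1 gi2 hg)
    have e : θ * (2 * y1 * y2 / (y1 + y2)) =
        2 * (θ * y1) * (θ * y2) / (θ * y1 + θ * y2) := by
      (clear * - h1 h2 hθ0; field_simp)
    rw [e]
    exact harm_mono (by positivity) (by positivity) gy1 gy2
  have hlim : Tendsto (fun θ : ℝ => ENNReal.ofReal (θ * (2 * y1 * y2 / (y1 + y2)))) (𝓝[<] 1)
      (𝓝 (ENNReal.ofReal (1 * (2 * y1 * y2 / (y1 + y2))))) := by
    refine ENNReal.tendsto_ofReal ?_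
    refine Tendsto.mul_const _ ?_
    exact tendsto_id.mono_left nhdsWithin_le_nhds
  rw [one_mul] at hlim
  refine le_of_tendsto hlim ?_
  filter_upwards [Ioo_mem_nhdsLT (zero_lt_one (α := ℝ))] with θ hθ
  exact key θ hθ

end Vale.Agent.P248
end
end
end

section

section

section

set_option linter.unusedSectionVars false

open MeasureTheory Set
open scoped ENNReal Topology Pointwise

namespace Vale.Agent.P248

variable {ι : Type*} [Fintype ι] [DecidableEq ι]

/-- Support function relative to a base point. -/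
noncomputable def hs (K : Set (ι → ℝ)) (z y : ι → ℝ) : ℝ :=
  sSup ((fun x => ∑ i, (x i - z i) * y i) '' K)

theorem hs_bddAbove {K : Set (ι → ℝ)} (hK : IsCompact K) (z y : ι → ℝ) :
    BddAbove ((fun x => ∑ i, (x i - z i) * y i) '' K) :=
  (hK.image (by (clear * -; fun_prop))).bddAbove

theorem le_hs {K : Set (ι → ℝ)} (hK : IsCompact K) (z y : ι → ℝ) {x : ι → ℝ} (hx : x ∈ K) :
    ∑ i, (x i - z i) * y i ≤ hs K z y :=
  le_csSup (hs_bddAbove hK z y) ⟨x, hx, rfl⟩

theorem hs_le {K : Set (ι → ℝ)} (hn : K.Nonempty) {z y : ι → ℝ} {c : ℝ}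
    (h : ∀ x ∈ K, ∑ i, (x i - z i) * y i ≤ c) : hs K z y ≤ c := by
  refine csSup_le (hn.image _) ?_
  rintro _ ⟨x, hx, rfl⟩
  exact h x hx

theorem hs_nonneg {K : Set (ι → ℝ)} (hK : IsCompact K) {z : ι → ℝ} (hz : z ∈ K) (y : ι → ℝ) :
    0 ≤ hs K z y := by
  have := le_hs hK z y hz
  simpa only [ge_iff_le, sub_self, zero_mul, Finset.sum_const_zero] using this

theorem hs_smul {K : Set (ι → ℝ)} (hK : IsCompact K) (hn : K.Nonempty) (z y : ι → ℝ) {r : ℝ}
    (hr : 0 ≤ r) : hs K z (r • y) = r * hs K z y := by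
  have e : ∀ x : ι → ℝ, ∑ i, (x i - z i) * (r • y) i = r * ∑ i, (x i - z i) * y i := by
    intro x
    rw [Finset.mul_sum]
    refine Finset.sum_congr rfl fun i _ => ?_
    simp only [Pi.smul_apply, smul_eq_mul]; ring
  apply le_antisymm
  · refine hs_le hn fun x hx => ?_
    rw [e]
    exact mul_le_mul_of_nonneg_left (le_hs hK z y hx) hr
  · obtain ⟨x, hx, hmax⟩ := hK.exists_isMaxOn hn
      (f := fun x => ∑ i, (x i - z i) * y i)
      (Continuous.continuousOn (by (clear * -; fun_prop)))
    have h1 : hs K z y ≤ ∑ i, (x i - z i) * y i := hs_le hn fun x' hx' => hmax hx'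
    calc r * hs K z y ≤ r * ∑ i, (x i - z i) * y i := mul_le_mul_of_nonneg_left h1 hr
      _ = ∑ i, (x i - z i) * (r • y) i := (e x).symm
      _ ≤ _ := le_hs hK z _ hx

theorem hs_add_le {K : Set (ι → ℝ)} (hK : IsCompact K) (hn : K.Nonempty) (z y y' : ι → ℝ) :
    hs K z (y + y') ≤ hs K z y + hs K z y' := by
  refine hs_le hn fun x hx => ?_
  have e : ∑ i, (x i - z i) * (y + y') i = ∑ i, (x i - z i) * y i + ∑ i, (x i - z i) * y' i := by
    rw [← Finset.sum_add_distrib]
    refine Finset.sum_congr rfl fun i _ => ?_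
    simp only [Pi.add_apply]; ring
  rw [e]
  exact add_le_add (le_hs hK z y hx) (le_hs hK z y' hx)

theorem hs_shift {K : Set (ι → ℝ)} (hK : IsCompact K) (hn : K.Nonempty) (z z' y : ι → ℝ) :
    hs K z y = hs K z' y + ∑ i, (z' i - z i) * y i := by
  have e : ∀ x : ι → ℝ, ∑ i, (x i - z i) * y i = ∑ i, (x i - z' i) * y i +
      ∑ i, (z' i - z i) * y i := by
    intro x
    rw [← Finset.sum_add_distrib]
    refine Finset.sum_congr rfl fun i _ => ?_
    ring
  apply le_antisymm
  · refine hs_le hn fun x hx => ?_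
    rw [e]
    exact add_le_add_left (le_hs hK z' y hx) _
  · have : hs K z' y ≤ hs K z y - ∑ i, (z' i - z i) * y i := by
      refine hs_le hn fun x hx => ?_
      have h1 := le_hs hK z y hx
      rw [e] at h1
      linarith only [h1]
    linarith only [this]

theorem hs_continuous {K : Set (ι → ℝ)} (hK : IsCompact K) (hn : K.Nonempty) (z : ι → ℝ) :
    Continuous (hs K z) := by
  obtain ⟨M, hM⟩ := isBounded_iff_forall_norm_le.mp hK.isBounded
  set L : ℝ := (Fintype.card ι : ℝ) * (|M| + ‖z‖) with hL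
  have hL0 : 0 ≤ L := by (clear * -; positivity)
  have hbound : ∀ y, hs K z y ≤ L * ‖y‖ := by
    intro y
    refine hs_le hn fun x hx => ?_
    have hx' := hM x hx
    calc ∑ i, (x i - z i) * y i ≤ ∑ i : ι, (|M| + ‖z‖) * ‖y‖ := by
          refine Finset.sum_le_sum fun i _ => ?_
          have h1 : |x i - z i| ≤ |M| + ‖z‖ := by
            have e1 := norm_le_pi_norm x i
            have e2 := norm_le_pi_norm z i
            rw [Real.norm_eq_abs] at e1 e2
            calc |x i - z i| ≤ |x i| + |z i| := abs_sub _ _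
              _ ≤ _ := by have := le_abs_self M; linarith only [hx', e1, e2, this]
          have h2 : |y i| ≤ ‖y‖ := by
            have e1 := norm_le_pi_norm y i
            rwa [Real.norm_eq_abs] at e1
          calc (x i - z i) * y i ≤ |(x i - z i) * y i| := le_abs_self _
            _ = |x i - z i| * |y i| := abs_mul _ _
            _ ≤ _ := by (clear * - h1 h2; gcongr)
      _ = L * ‖y‖ := by
          rw [Finset.sum_const, Finset.card_univ, nsmul_eq_mul]; ring
  have hlip : LipschitzWith L.toNNReal (hs K z) := by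
    refine LipschitzWith.of_le_add_mul _ fun y y' => ?_
    rw [Real.coe_toNNReal _ hL0, dist_eq_norm]
    have h1 := hs_add_le hK hn z y' (y - y')
    rw [add_sub_cancel] at h1
    exact h1.trans (add_le_add_right (hbound _) _)
  exact hlip.continuous

theorem polarP_eq {K : Set (ι → ℝ)} (hK : IsCompact K) (hn : K.Nonempty) (z : ι → ℝ) :
    polarP K z = {y | hs K z y ≤ 1} := by
  ext y
  exact ⟨fun h => hs_le hn h, fun h x hx => (le_hs hK z y hx).trans h⟩

/-- The exponential functional. -/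
noncomputable def EF (K : Set (ι → ℝ)) (z : ι → ℝ) : ℝ≥0∞ :=
  ∫⁻ y, ENNReal.ofReal (Real.exp (-(hs K z y)))

theorem lintegral_exp_Ici (c : ℝ) :
    ∫⁻ t in Ici c, ENNReal.ofReal (Real.exp (-t)) = ENNReal.ofReal (Real.exp (-c)) := by
  rw [setLIntegral_congr Ioi_ae_eq_Ici.symm, ← integral_exp_neg_Ioi c,
    ofReal_integral_eq_lintegral_ofReal (integrableOn_exp_neg_Ioi c)]
  exact Filter.Eventually.of_forall fun t => (Real.exp_pos _).le

theorem lintegral_gamma (n : ℕ) :
    ∫⁻ t in Ioi (0 : ℝ), ENNReal.ofReal (Real.exp (-t) * t ^ n) = n.factorial := by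
  have h1 : ∀ t ∈ Ioi (0 : ℝ), Real.exp (-t) * t ^ n = Real.exp (-t) * t ^ (((n : ℝ) + 1) - 1) := by
    intro t _
    rw [add_sub_cancel_right, Real.rpow_natCast]
  have h2 : IntegrableOn (fun t : ℝ => Real.exp (-t) * t ^ n) (Ioi 0) := by
    have := Real.GammaIntegral_convergent (s := (n : ℝ) + 1) (by (clear * -; positivity))
    exact this.congr_fun (fun t ht => (h1 t ht).symm) measurableSet_Ioi
  rw [← ofReal_integral_eq_lintegral_ofReal h2]
  · have h3 : ∫ t in Ioi (0 : ℝ), Real.exp (-t) * t ^ n = n.factorial := by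
      rw [setIntegral_congr_fun measurableSet_Ioi h1, ← Real.Gamma_eq_integral (by positivity),
        Real.Gamma_nat_eq_factorial]
    rw [h3]; simp
  · refine (ae_restrict_mem measurableSet_Ioi).mono fun t ht => ?_
    have : (0 : ℝ) < t := ht
    simp only [Pi.zero_apply]
    positivity

/-- Laplace formula for positively homogeneous functions. -/
theorem laplace_formula {g : (ι → ℝ) → ℝ} (hgm : Measurable g) (hg0 : ∀ x, 0 ≤ g x)
    (hgs : ∀ r : ℝ, 0 < r → ∀ x, g (r • x) = r * g x) :
    ∫⁻ x, ENNReal.ofReal (Real.exp (-(g x))) =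
      (Fintype.card ι).factorial * volume {x | g x ≤ 1} := by
  set n := Fintype.card ι with hn
  have h1 : ∀ x, ENNReal.ofReal (Real.exp (-(g x))) =
      ∫⁻ t, {p : (ι → ℝ) × ℝ | g p.1 ≤ p.2}.indicator
        (fun p => ENNReal.ofReal (Real.exp (-p.2))) (x, t) := by
    intro x
    rw [← lintegral_exp_Ici, ← lintegral_indicator measurableSet_Ici]
    refine lintegral_congr fun t => ?_
    by_cases h : g x ≤ t
    · simp only [mem_Ici, h, indicator_of_mem, mem_ofPred_eq]
    · simp only [mem_Ici, h, not_false_eq_true, indicator_of_notMem, mem_ofPred_eq]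
  have hmeas : Measurable ({p : (ι → ℝ) × ℝ | g p.1 ≤ p.2}.indicator
      (fun p => ENNReal.ofReal (Real.exp (-p.2)))) := by
    refine Measurable.indicator (by (clear * -; fun_prop)) ?_
    exact measurableSet_le (hgm.comp measurable_fst) measurable_snd
  simp_rw [h1]
  rw [lintegral_lintegral_swap (f := fun (x : ι → ℝ) (t : ℝ) =>
    {p : (ι → ℝ) × ℝ | g p.1 ≤ p.2}.indicator
        (fun p => ENNReal.ofReal (Real.exp (-p.2))) (x, t)) hmeas.aemeasurable]
  have h2 : ∀ t : ℝ, ∫⁻ x, {p : (ι → ℝ) × ℝ | g p.1 ≤ p.2}.indicator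
        (fun p => ENNReal.ofReal (Real.exp (-p.2))) (x, t) =
      ENNReal.ofReal (Real.exp (-t)) * volume {x | g x ≤ t} := by
    intro t
    have : (fun x => {p : (ι → ℝ) × ℝ | g p.1 ≤ p.2}.indicator
        (fun p => ENNReal.ofReal (Real.exp (-p.2))) (x, t)) =
        {x | g x ≤ t}.indicator (fun _ => ENNReal.ofReal (Real.exp (-t))) := by
      ext x
      by_cases h : g x ≤ t <;> simp [h]
    rw [this, lintegral_indicator (measurableSet_le hgm measurable_const), setLIntegral_const]
  simp_rw [h2]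
  have h3 : ∀ t : ℝ, 0 < t → volume {x | g x ≤ t} = ENNReal.ofReal (t ^ n) * volume {x | g x ≤ 1} := by
    intro t ht
    have : {x | g x ≤ t} = t • {x | g x ≤ 1} := by
      ext x
      rw [mem_smul_set_iff_inv_smul_mem₀ ht.ne']
      simp only [mem_setOf_eq]
      rw [hgs _ (inv_pos.mpr ht), inv_mul_le_iff₀ ht, mul_one]
    rw [this, Measure.addHaar_smul, Module.finrank_fintype_fun_eq_card, abs_of_pos (by (clear * - ht; positivity))]
  have h4 : ∀ t : ℝ, t < 0 → volume {x | g x ≤ t} = 0 := by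
    intro t ht
    have : {x | g x ≤ t} = ∅ := by
      ext x
      simp only [mem_setOf_eq, mem_empty_iff_false, iff_false, not_le]
      exact lt_of_lt_of_le ht (hg0 x)
    rw [this]; simp
  have h5 : ∫⁻ t, ENNReal.ofReal (Real.exp (-t)) * volume {x | g x ≤ t} =
      ∫⁻ t in Ioi (0 : ℝ), ENNReal.ofReal (Real.exp (-t)) * volume {x | g x ≤ t} := by
    rw [← lintegral_indicator measurableSet_Ioi]
    refine lintegral_congr_ae ?_
    have h0 : ∀ᵐ t : ℝ, t ≠ 0 := by
      simp [ae_iff]
    filter_upwards [h0] with t ht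
    rcases lt_or_gt_of_ne ht with h | h
    · rw [h4 t h, indicator_of_notMem (by simpa only [mem_Ioi, not_lt] using h.le), mul_zero]
    · rw [indicator_of_mem (by simpa only [mem_Ioi] using h)]
  rw [h5, setLIntegral_congr_fun measurableSet_Ioi (g := fun t =>
    ENNReal.ofReal (Real.exp (-t) * t ^ n) * volume {x | g x ≤ 1})]
  · rw [lintegral_mul_const _ (by fun_prop), lintegral_gamma]
  · intro t ht
    simp only
    rw [h3 t ht, ← mul_assoc, ← ENNReal.ofReal_mul (by positivity)]

theorem EF_eq {K : Set (ι → ℝ)} (hK : IsCompact K) {z : ι → ℝ} (hz : z ∈ K) :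
    EF K z = (Fintype.card ι).factorial * volume (polarP K z) := by
  have hn : K.Nonempty := ⟨z, hz⟩
  rw [polarP_eq hK hn]
  exact laplace_formula (hs_continuous hK hn z).measurable (hs_nonneg hK hz)
    (fun r hr x => hs_smul hK hn z x hr.le)

end Vale.Agent.P248
end
end
end

section

section

section

/-! The loss side of the local estimate near the standard simplex. -/

set_option linter.unusedSectionVars false

open MeasureTheory Set
open scoped ENNReal Topology Matrix

namespace Vale.Agent.P248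

/-- the open octant -/
def oct : Set V3 := {c | ∀ k, 0 < c k}

theorem measurableSet_oct : MeasurableSet oct := by
  have : oct = Set.univ.pi (fun _ : Fin 3 => Ioi (0 : ℝ)) := by
    ext c; simp only [oct, mem_ofPred_eq, mem_pi, mem_univ, mem_Ioi, forall_const]
  rw [this]
  exact MeasurableSet.univ_pi fun _ => measurableSet_Ioi

/-- the Laplace integral of the octant -/
theorem lintegral_oct_exp {a : V3} (ha : ∀ k, 0 < a k) :
    ∫⁻ c in oct, ENNReal.ofReal (Real.exp (-∑ k, c k * a k)) = ENNReal.ofReal (∏ k, (a k)⁻¹) := by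
  have e1 : oct = Set.univ.pi (fun _ : Fin 3 => Ioi (0 : ℝ)) := by
    ext c; simp only [oct, mem_ofPred_eq, mem_pi, mem_univ, mem_Ioi, forall_const]
  have e2 : (volume : Measure V3).restrict oct =
      Measure.pi (fun _ : Fin 3 => (volume : Measure ℝ).restrict (Ioi 0)) := by
    rw [e1, volume_pi, Measure.restrict_pi_pi]
  have e3 : ∀ c : V3, Real.exp (-∑ k, c k * a k) = ∏ k, Real.exp (-a k * c k) := by
    intro c
    rw [← Real.exp_sum, ← Finset.sum_neg_distrib]
    congr 1
    exact Finset.sum_congr rfl fun k _ => by ring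
  have hint : ∀ k : Fin 3, Integrable (fun t : ℝ => Real.exp (-a k * t))
      ((volume : Measure ℝ).restrict (Ioi 0)) := fun k =>
    integrableOn_exp_mul_Ioi (by have := ha k; linarith only [this]) 0
  simp_rw [e3]
  rw [e2, ← ofReal_integral_eq_lintegral_ofReal
    (Integrable.fintype_prod (f := fun k (t : ℝ) => Real.exp (-a k * t)) hint)
    (Filter.Eventually.of_forall fun c => Finset.prod_nonneg fun k _ => (Real.exp_pos _).le),
    integral_fintype_prod_eq_prod (𝕜 := ℝ) (fun k (t : ℝ) => Real.exp (-a k * t))]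
  congr 1
  refine Finset.prod_congr rfl fun k _ => ?_
  rw [integral_exp_mul_Ioi (by have := ha k; linarith only [this]) 0]
  have := (ha k).ne'
  simp

/-- coordinates extended by `0` at `j` -/
noncomputable def extd (j : Fin 4) (c : V3) : Fin 4 → ℝ :=
  ![![0, c 0, c 1, c 2], ![c 0, 0, c 1, c 2], ![c 0, c 1, 0, c 2], ![c 0, c 1, c 2, 0]] j

theorem sum_extd (j : Fin 4) (c : V3) (f : Fin 4 → ℝ) :
    ∑ k, c k * f (j.succAbove k) = ∑ i, extd j c i * f i := by
  fin_cases j
  · show ∑ k, c k * f ((0 : Fin 4).succAbove k) = ∑ i, extd 0 c i * f i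
    simp only [Fin.isValue, Fin.zero_succAbove, Fin.sum_univ_succ, Fin.succ_zero_eq_one, Fin.succ_one_eq_two, Finset.univ_unique, Fin.default_eq_zero, Finset.sum_singleton, Fin.reduceSucc, extd, Nat.succ_eq_add_one, Nat.reduceAdd, Matrix.cons_val', Matrix.cons_val_fin_one, Matrix.cons_val_zero, zero_mul, Matrix.cons_val_succ, zero_add]
  · show ∑ k, c k * f ((1 : Fin 4).succAbove k) = ∑ i, extd 1 c i * f i
    have e0 : (1 : Fin 4).succAbove 0 = 0 := rfl
    have e1 : (1 : Fin 4).succAbove 1 = 2 := rfl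
    have e2 : (1 : Fin 4).succAbove 2 = 3 := rfl
    rw [Fin.sum_univ_three, Fin.sum_univ_four, e0, e1, e2]
    simp only [Fin.isValue, extd, Nat.succ_eq_add_one, Nat.reduceAdd, Matrix.cons_val', Matrix.cons_val_zero, Matrix.cons_val_fin_one, Matrix.cons_val_one, zero_mul, add_zero, Matrix.cons_val]
  · show ∑ k, c k * f ((2 : Fin 4).succAbove k) = ∑ i, extd 2 c i * f i
    have e0 : (2 : Fin 4).succAbove 0 = 0 := rfl
    have e1 : (2 : Fin 4).succAbove 1 = 1 := rfl
    have e2 : (2 : Fin 4).succAbove 2 = 3 := rfl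
    rw [Fin.sum_univ_three, Fin.sum_univ_four, e0, e1, e2]
    simp only [Fin.isValue, extd, Nat.succ_eq_add_one, Nat.reduceAdd, Matrix.cons_val', Matrix.cons_val_zero, Matrix.cons_val_fin_one, Matrix.cons_val, Matrix.cons_val_one, zero_mul, add_zero]
  · show ∑ k, c k * f ((3 : Fin 4).succAbove k) = ∑ i, extd 3 c i * f i
    have e0 : (3 : Fin 4).succAbove 0 = 0 := rfl
    have e1 : (3 : Fin 4).succAbove 1 = 1 := rfl
    have e2 : (3 : Fin 4).succAbove 2 = 2 := rfl
    rw [Fin.sum_univ_three, Fin.sum_univ_four, e0, e1, e2]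
    simp [extd]

/-- the matrix of the linear chart of the `j`-th cone -/
noncomputable def chartM (j : Fin 4) : Matrix (Fin 3) (Fin 3) ℝ :=
  ![!![-1, 0, 0; 0, -1, 0; 0, 0, -1], !![1, 0, 0; 1, -1, 0; 1, 0, -1],
    !![1, -1, 0; 1, 0, 0; 1, 0, -1], !![1, -1, 0; 1, 0, -1; 1, 0, 0]] j

/-- the linear chart of the `j`-th cone -/
noncomputable def chartL (j : Fin 4) : V3 →ₗ[ℝ] V3 := Matrix.toLin' (chartM j)

theorem chartL_apply (j : Fin 4) (c : V3) (k : Fin 3) :
    chartL j c k = extd j c 0 - extd j c k.succ := by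
  fin_cases j <;> fin_cases k <;>
    simp [chartL, chartM, extd, Matrix.toLin'_apply, Matrix.mulVec, dotProduct, Fin.sum_univ_three] <;>
    ring

theorem chartM_det (j : Fin 4) : |(chartM j).det| = 1 := by
  fin_cases j <;> simp [chartM, Matrix.det_fin_three]

theorem chart_mp (j : Fin 4) :
    MeasurePreserving (chartL j) (volume : Measure V3) (volume : Measure V3) := by
  refine ⟨(LinearMap.continuous_of_finiteDimensional _).measurable, ?_⟩
  have h : (chartM j).det ≠ 0 := by
    intro h0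
    have := chartM_det j
    rw [h0] at this
    simp at this
  have h2 := Real.map_matrix_volume_pi_eq_smul_volume_pi h
  have e : ENNReal.ofReal |((chartM j).det)⁻¹| = 1 := by
    rw [abs_inv, chartM_det]; simp
  rw [e, one_smul] at h2
  exact h2

/-- the open cones -/
def coneA (j : Fin 4) : Set V3 :=
  ![{y | y 0 < 0 ∧ y 1 < 0 ∧ y 2 < 0}, {y | 0 < y 0 ∧ y 1 < y 0 ∧ y 2 < y 0},
    {y | 0 < y 1 ∧ y 0 < y 1 ∧ y 2 < y 1}, {y | 0 < y 2 ∧ y 0 < y 2 ∧ y 1 < y 2}] j

theorem chart_preimage (j : Fin 4) : chartL j ⁻¹' coneA j = oct := by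
  ext c
  rw [mem_preimage]
  have hiff : c ∈ oct ↔ 0 < c 0 ∧ 0 < c 1 ∧ 0 < c 2 := by
    constructor
    · intro h
      exact ⟨h 0, h 1, h 2⟩
    · rintro ⟨a, b, d⟩ k
      fin_cases k
      · exact a
      · exact b
      · exact d
  rw [hiff]
  fin_cases j
  · have h0 := chartL_apply 0 c 0
    have h1 := chartL_apply 0 c 1
    have h2 := chartL_apply 0 c 2
    simp only [Fin.isValue, extd, Nat.succ_eq_add_one, Nat.reduceAdd, Matrix.cons_val', Matrix.cons_val_zero, Matrix.cons_val_fin_one, Fin.succ_zero_eq_one, Matrix.cons_val_one, zero_sub, Fin.succ_one_eq_two, Matrix.cons_val, Fin.reduceSucc] at h0 h1 h2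
    show (chartL 0 c) 0 < 0 ∧ (chartL 0 c) 1 < 0 ∧ (chartL 0 c) 2 < 0 ↔ _
    rw [h0, h1, h2]
    constructor <;> rintro ⟨a, b, d⟩ <;> refine ⟨?_, ?_, ?_⟩ <;> linarith only [a, b, d]
  · have h0 := chartL_apply 1 c 0
    have h1 := chartL_apply 1 c 1
    have h2 := chartL_apply 1 c 2
    simp only [Fin.isValue, extd, Nat.succ_eq_add_one, Nat.reduceAdd, Matrix.cons_val', Matrix.cons_val_zero, Matrix.cons_val_fin_one, Matrix.cons_val_one, Fin.succ_zero_eq_one, sub_zero, Fin.succ_one_eq_two, Matrix.cons_val, Fin.reduceSucc] at h0 h1 h2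
    show 0 < (chartL 1 c) 0 ∧ (chartL 1 c) 1 < (chartL 1 c) 0 ∧
      (chartL 1 c) 2 < (chartL 1 c) 0 ↔ _
    rw [h0, h1, h2]
    constructor <;> rintro ⟨a, b, d⟩ <;> refine ⟨?_, ?_, ?_⟩ <;> linarith only [a, b, d]
  · have h0 := chartL_apply 2 c 0
    have h1 := chartL_apply 2 c 1
    have h2 := chartL_apply 2 c 2
    simp [extd] at h0 h1 h2
    show 0 < (chartL 2 c) 1 ∧ (chartL 2 c) 0 < (chartL 2 c) 1 ∧
      (chartL 2 c) 2 < (chartL 2 c) 1 ↔ _
    rw [h0, h1, h2]
    constructor <;> rintro ⟨a, b, d⟩ <;> refine ⟨?_, ?_, ?_⟩ <;> linarith only [a, b, d]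
  · have h0 := chartL_apply 3 c 0
    have h1 := chartL_apply 3 c 1
    have h2 := chartL_apply 3 c 2
    simp only [Fin.isValue, extd, Nat.succ_eq_add_one, Nat.reduceAdd, Matrix.cons_val', Matrix.cons_val_zero, Matrix.cons_val_fin_one, Matrix.cons_val, Matrix.cons_val_one, Fin.succ_zero_eq_one, Fin.succ_one_eq_two, Fin.reduceSucc, sub_zero] at h0 h1 h2
    show 0 < (chartL 3 c) 2 ∧ (chartL 3 c) 0 < (chartL 3 c) 2 ∧
      (chartL 3 c) 1 < (chartL 3 c) 2 ↔ _
    rw [h0, h1, h2]
    constructor <;> rintro ⟨a, b, d⟩ <;> refine ⟨?_, ?_, ?_⟩ <;> linarith only [a, b, d]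

theorem measurableSet_coneA (j : Fin 4) : MeasurableSet (coneA j) := by
  have h : ∀ a b : V3 → ℝ, Continuous a → Continuous b → MeasurableSet {y : V3 | a y < b y} :=
    fun a b ha hb => measurableSet_lt ha.measurable hb.measurable
  have hc : ∀ k : Fin 3, Continuous fun y : V3 => y k := fun k => continuous_apply k
  fin_cases j
  · exact (h _ _ (hc 0) continuous_const).inter
      ((h _ _ (hc 1) continuous_const).inter (h _ _ (hc 2) continuous_const))
  · exact (h _ _ continuous_const (hc 0)).inter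
      ((h _ _ (hc 1) (hc 0)).inter (h _ _ (hc 2) (hc 0)))
  · exact (h _ _ continuous_const (hc 1)).inter
      ((h _ _ (hc 0) (hc 1)).inter (h _ _ (hc 2) (hc 1)))
  · exact (h _ _ continuous_const (hc 2)).inter
      ((h _ _ (hc 0) (hc 2)).inter (h _ _ (hc 1) (hc 2)))

theorem coneA_disjoint : Pairwise (Function.onFun Disjoint coneA) := by
  intro i j hij
  rw [Function.onFun, Set.disjoint_left]
  intro y h1 h2
  fin_cases i <;> fin_cases j <;> simp [coneA] at hij h1 h2 <;>
    obtain ⟨a1, a2, a3⟩ := h1 <;> obtain ⟨b1, b2, b3⟩ := h2 <;> linarith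

/-- cone decomposition of an integral over `ℝ³` -/
theorem sum_cones_le {F : V3 → ℝ≥0∞} (hF : Measurable F) :
    ∑ j, ∫⁻ c in oct, F (chartL j c) ≤ ∫⁻ y, F y := by
  have h1 : ∀ j, ∫⁻ c in oct, F (chartL j c) = ∫⁻ y in coneA j, F y := by
    intro j
    rw [← chart_preimage j]
    exact (chart_mp j).setLIntegral_comp_preimage (measurableSet_coneA j) hF
  simp_rw [h1]
  have h2 := lintegral_iUnion (μ := (volume : Measure V3)) measurableSet_coneA coneA_disjoint F
  rw [tsum_fintype] at h2
  rw [← h2]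
  exact setLIntegral_le_lintegral _ _

/-- `G_j` through the support function -/
theorem Gj_eq {K : Set V3} (hK : IsCompact K) (hn : K.Nonempty) (z : V3) (j : Fin 4) (c : V3) :
    Gj K j c = hs K z (chartL j c) - ∑ k, c k * lam (j.succAbove k) z := by
  have e : ∀ x : V3, -∑ k, c k * lam (j.succAbove k) x = ∑ i, (x i - z i) * chartL j c i -
      ∑ k, c k * lam (j.succAbove k) z := by
    intro x
    have e1 := sum_extd j c (fun i => lam i x)
    have e2 := sum_extd j c (fun i => lam i z)
    rw [e1, e2, Fin.sum_univ_succ (fun i => extd j c i * lam i x),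
      Fin.sum_univ_succ (fun i => extd j c i * lam i z)]
    simp only [lam_zero, lam_succ, chartL_apply, Fin.sum_univ_three]
    ring
  apply le_antisymm
  · refine csSup_le (hn.image _) ?_
    rintro _ ⟨x, hx, rfl⟩
    simp only
    rw [e]
    exact sub_le_sub_right (le_hs hK z _ hx) _
  · rw [sub_le_iff_le_add]
    refine hs_le hn fun x hx => ?_
    have hb : BddAbove ((fun x => -∑ k, c k * lam (j.succAbove k) x) '' K) := by
      refine (hK.image ?_).bddAbove
      have : (fun x : V3 => -∑ k, c k * lam (j.succAbove k) x) = fun x =>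
          ∑ i, (x i - z i) * chartL j c i - ∑ k, c k * lam (j.succAbove k) z := funext e
      rw [this]
      fun_prop
    have := le_csSup hb ⟨x, hx, rfl⟩
    simp only at this
    rw [e] at this
    unfold Gj
    linarith only [this]

theorem Gj_continuous {K : Set V3} (hK : IsCompact K) (hn : K.Nonempty) (j : Fin 4) :
    Continuous (Gj K j) := by
  have e : Gj K j = fun c => hs K 0 (chartL j c) - ∑ k, c k * lam (j.succAbove k) 0 :=
    funext fun c => Gj_eq hK hn 0 j c
  rw [e]
  have h1 : Continuous fun c => hs K 0 (chartL j c) :=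
    (hs_continuous hK hn 0).comp (LinearMap.continuous_of_finiteDimensional _)
  exact h1.sub (by fun_prop)

theorem Gj_smul {K : Set V3} (hK : IsCompact K) (hn : K.Nonempty) (j : Fin 4) (c : V3) {r : ℝ}
    (hr : 0 ≤ r) : Gj K j (r • c) = r * Gj K j c := by
  rw [Gj_eq hK hn 0 j, Gj_eq hK hn 0 j, map_smul, hs_smul hK hn 0 _ hr, mul_sub, Finset.mul_sum]
  congr 1
  refine Finset.sum_congr rfl fun k _ => ?_
  simp only [Pi.smul_apply, smul_eq_mul]
  ring

theorem prod_ge_256 {a : Fin 4 → ℝ} (ha : ∀ i, 0 < a i) (hs : ∑ i, a i = 1) :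
    256 ≤ ∑ j : Fin 4, ∏ k, (a (j.succAbove k))⁻¹ := by
  have h0 := ha 0
  have h1 := ha 1
  have h2 := ha 2
  have h3 := ha 3
  rw [Fin.sum_univ_four] at hs
  have e : ∑ j : Fin 4, ∏ k, (a (j.succAbove k))⁻¹ = (a 0 * a 1 * a 2 * a 3)⁻¹ := by
    have e0 : ∏ k, (a ((0 : Fin 4).succAbove k))⁻¹ = (a 1)⁻¹ * (a 2)⁻¹ * (a 3)⁻¹ := by
      rw [Fin.prod_univ_three]; rfl
    have e1 : ∏ k, (a ((1 : Fin 4).succAbove k))⁻¹ = (a 0)⁻¹ * (a 2)⁻¹ * (a 3)⁻¹ := by
      rw [Fin.prod_univ_three]; rfl
    have e2 : ∏ k, (a ((2 : Fin 4).succAbove k))⁻¹ = (a 0)⁻¹ * (a 1)⁻¹ * (a 3)⁻¹ := by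
      rw [Fin.prod_univ_three]; rfl
    have e3 : ∏ k, (a ((3 : Fin 4).succAbove k))⁻¹ = (a 0)⁻¹ * (a 1)⁻¹ * (a 2)⁻¹ := by
      rw [Fin.prod_univ_three]; rfl
    rw [Fin.sum_univ_four, e0, e1, e2, e3]
    field_simp
    linarith only [hs]
  rw [e, le_inv_comm₀ (by norm_num) (by positivity)]
  set p := a 0 * a 1 with hp
  set q := a 2 * a 3 with hq
  have hp1 : p ≤ ((a 0 + a 1) / 2) ^ 2 := by linarith only [sq_nonneg (a 0 - a 1)]
  have hq1 : q ≤ ((a 2 + a 3) / 2) ^ 2 := by linarith only [sq_nonneg (a 2 - a 3)]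
  have hpq : p * q ≤ ((a 0 + a 1) / 2) ^ 2 * ((a 2 + a 3) / 2) ^ 2 :=
    mul_le_mul hp1 hq1 (by (clear * - h2 h3; positivity)) (by positivity)
  have h4 : (a 0 + a 1) / 2 * ((a 2 + a 3) / 2) ≤ 1 / 16 := by
    linarith only [mul_eq_zero_of_left (sub_eq_zero.2 hs) (a 0 + a 1 + a 2 + a 3 - (1)), mul_nonneg (mul_self_nonneg (1 : ℝ)) (sq_nonneg ((a 0 + a 1) - (a 2 + a 3))), mul_eq_zero_of_left (sub_eq_zero.2 hs) (0 - (0 - 1 * 1))]
  have h5 : 0 ≤ (a 0 + a 1) / 2 * ((a 2 + a 3) / 2) := by positivity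
  calc a 0 * a 1 * a 2 * a 3 = p * q := by rw [hp, hq]; ring
    _ ≤ ((a 0 + a 1) / 2 * ((a 2 + a 3) / 2)) ^ 2 := by rw [mul_pow]; exact hpq
    _ ≤ (1 / 16) ^ 2 := by (clear * - h0 h1 h2 h3 h4; gcongr)
    _ = 256⁻¹ := by norm_num

theorem scale_oct {F : V3 → ℝ≥0∞} (hF : Measurable F) {s : ℝ} (hs : 0 < s) :
    ∫⁻ d in oct, F d = ENNReal.ofReal (s ^ 3) * ∫⁻ c in oct, F (s • c) := by
  have h1 : Measure.map (s • · : V3 → V3) volume = ENNReal.ofReal |(s ^ 3)⁻¹| • volume := by
    have := Measure.map_addHaar_smul (volume : Measure V3) hs.ne'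
    rwa [Module.finrank_fintype_fun_eq_card, Fintype.card_fin] at this
  have hpre : (s • · : V3 → V3) ⁻¹' oct = oct := by
    ext c
    simp only [mem_preimage, oct, mem_ofPred_eq, Pi.smul_apply, smul_eq_mul]
    exact forall_congr' fun k => by rw [mul_pos_iff_of_pos_left hs]
  have h2 : ∫⁻ c in oct, F (s • c) = ∫⁻ d in oct, F d ∂(Measure.map (s • · : V3 → V3) volume) := by
    rw [setLIntegral_map measurableSet_oct hF (measurable_const_smul s), hpre]
  rw [h2, h1, Measure.restrict_smul, lintegral_smul_measure, smul_eq_mul, ← mul_assoc,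
    ← ENNReal.ofReal_mul (by positivity), abs_of_pos (by positivity),
    mul_inv_cancel₀ (by positivity), ENNReal.ofReal_one, one_mul]

theorem loss_bound {K : Set V3} (hK : IsCompact K) (hS : stdS (Fin 3) ⊆ K) {z : V3} {ε : ℝ}
    (hε0 : 0 ≤ ε) (hε : ε < 1) (hz : ∀ k, (1 - ε) / 4 ≤ lam k z) :
    ENNReal.ofReal 256 ≤ 6 * volume (polarP K z) +
      ENNReal.ofReal (256 / (1 - ε) ^ 4) * Phi K := by
  have hb : 0 < (1 - ε) / 4 := by linarith
  have hzpos : ∀ k, 0 < lam k z := fun k => hb.trans_le (hz k)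
  have hzS : z ∈ stdS (Fin 3) := by
    refine ⟨fun k => (hzpos k.succ).le, ?_⟩
    have := hzpos 0
    rw [lam_zero] at this
    linarith only [this]
  have hzK : z ∈ K := hS hzS
  have hn : K.Nonempty := ⟨z, hzK⟩
  have hEF : 6 * volume (polarP K z) = EF K z := by
    rw [EF_eq hK hzK]
    norm_num [Fintype.card_fin, Nat.factorial]
  set s : ℝ := 4 / (1 - ε) with hsdef
  have h1ε : 0 < 1 - ε := by linarith only [hε]
  have hspos : 0 < s := by positivity
  have hs4 : 256 / (1 - ε) ^ 4 = s ^ 4 := by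
    rw [hsdef, div_pow]; norm_num
  have hsinv : s⁻¹ = (1 - ε) / 4 := by rw [hsdef, inv_div]
  have hFm : Measurable fun y => ENNReal.ofReal (Real.exp (-(hs K z y))) :=
    ((hs_continuous hK hn z).neg.measurable.exp).ennreal_ofReal
  have hGm : ∀ j, Measurable (Gj K j) := fun j => (Gj_continuous hK hn j).measurable
  have hFc : ∀ j, Measurable fun c => ENNReal.ofReal (Real.exp (-(hs K z (chartL j c)))) :=
    fun j => hFm.comp (LinearMap.continuous_of_finiteDimensional _).measurable
  have key : ∀ j, ENNReal.ofReal (∏ k, (lam (j.succAbove k) z)⁻¹) ≤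
      (∫⁻ c in oct, ENNReal.ofReal (Real.exp (-(hs K z (chartL j c))))) +
      ENNReal.ofReal (s ^ 4) * ∫⁻ c in oct, ENNReal.ofReal (Gj K j c * Real.exp (-∑ k, c k)) := by
    intro j
    have hH : Measurable fun d : V3 => ENNReal.ofReal (Gj K j d * Real.exp (-∑ k, d k * s⁻¹)) :=
      ((hGm j).mul (by fun_prop)).ennreal_ofReal
    have hsc : ENNReal.ofReal (s ^ 4) *
        ∫⁻ c in oct, ENNReal.ofReal (Gj K j c * Real.exp (-∑ k, c k)) =
        ∫⁻ d in oct, ENNReal.ofReal (Gj K j d * Real.exp (-∑ k, d k * s⁻¹)) := by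
      rw [scale_oct hH hspos]
      have e : ∀ c : V3, ENNReal.ofReal (Gj K j (s • c) * Real.exp (-∑ k, (s • c) k * s⁻¹)) =
          ENNReal.ofReal s * ENNReal.ofReal (Gj K j c * Real.exp (-∑ k, c k)) := by
        intro c
        rw [Gj_smul hK hn j c hspos.le, mul_assoc, ENNReal.ofReal_mul hspos.le]
        congr 5
        refine Finset.sum_congr rfl fun k _ => ?_
        simp only [Pi.smul_apply, smul_eq_mul]
        (clear * - hspos; field_simp)
      have hH0 : Measurable fun c : V3 => ENNReal.ofReal (Gj K j c * Real.exp (-∑ k, c k)) :=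
        ((hGm j).mul (by fun_prop)).ennreal_ofReal
      simp_rw [e]
      rw [lintegral_const_mul _ hH0, ← mul_assoc, ← ENNReal.ofReal_mul (by positivity),
        ← pow_succ]
    rw [hsc, ← lintegral_oct_exp (a := fun k => lam (j.succAbove k) z) (fun k => hzpos _),
      ← lintegral_add_left (hFc j)]
    refine setLIntegral_mono ((hFc j).add hH) fun c hc => ?_
    have hG := Gj_eq hK hn z j c
    set G := Gj K j c with hGdef
    set S := ∑ k, c k * lam (j.succAbove k) z with hSdef
    have h1 : hs K z (chartL j c) = G + S := by linarith only [hG]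
    rw [h1]
    have h2 : Real.exp (-S) ≤ Real.exp (-(G + S)) + G * Real.exp (-S) := by
      have h3 : Real.exp (-(G + S)) = Real.exp (-G) * Real.exp (-S) := by
        rw [← Real.exp_add]; congr 1; ring
      rw [h3]
      have h4 := Real.add_one_le_exp (-G)
      nlinarith only [h4, Real.exp_pos (-S)]
    calc ENNReal.ofReal (Real.exp (-S))
        ≤ ENNReal.ofReal (Real.exp (-(G + S)) + G * Real.exp (-S)) := ENNReal.ofReal_le_ofReal h2
      _ ≤ ENNReal.ofReal (Real.exp (-(G + S))) + ENNReal.ofReal (G * Real.exp (-S)) :=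
          ENNReal.ofReal_add_le
      _ ≤ _ := by
          refine add_le_add le_rfl ?_
          rw [ENNReal.ofReal_mul' (Real.exp_pos _).le, ENNReal.ofReal_mul' (Real.exp_pos _).le]
          gcongr
          rw [hSdef]
          refine Finset.sum_le_sum fun k _ => ?_
          rw [hsinv]
          exact mul_le_mul_of_nonneg_left (hz _) (hc k).le
  have hPhi : ∑ j, ∫⁻ c in oct, ENNReal.ofReal (Gj K j c * Real.exp (-∑ k, c k)) ≤ Phi K := by
    unfold Phi
    refine Finset.sum_le_sum fun j _ => ?_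
    exact lintegral_mono_set fun c hc k => (hc k).le
  have hsum : ENNReal.ofReal 256 ≤ ∑ j : Fin 4, ENNReal.ofReal (∏ k, (lam (j.succAbove k) z)⁻¹) := by
    rw [← ENNReal.ofReal_sum_of_nonneg fun j _ => Finset.prod_nonneg fun k _ =>
      (inv_pos.mpr (hzpos _)).le]
    exact ENNReal.ofReal_le_ofReal (prod_ge_256 hzpos (sum_lam z))
  calc ENNReal.ofReal 256 ≤ ∑ j : Fin 4, ENNReal.ofReal (∏ k, (lam (j.succAbove k) z)⁻¹) := hsum
    _ ≤ ∑ j, ((∫⁻ c in oct, ENNReal.ofReal (Real.exp (-(hs K z (chartL j c))))) +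
      ENNReal.ofReal (s ^ 4) * ∫⁻ c in oct, ENNReal.ofReal (Gj K j c * Real.exp (-∑ k, c k))) :=
        Finset.sum_le_sum fun j _ => key j
    _ = (∑ j, ∫⁻ c in oct, ENNReal.ofReal (Real.exp (-(hs K z (chartL j c))))) +
      ENNReal.ofReal (s ^ 4) *
        ∑ j, ∫⁻ c in oct, ENNReal.ofReal (Gj K j c * Real.exp (-∑ k, c k)) := by
        rw [Finset.sum_add_distrib, Finset.mul_sum]
    _ ≤ _ := by
        rw [hEF, hs4]
        gcongr
        exact sum_cones_le hFm

end Vale.Agent.P248
end
end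
end

section

section

section

set_option linter.unusedSectionVars false

open MeasureTheory Set
open scoped ENNReal Topology Pointwise

namespace Vale.Agent.P248

variable {m : ℕ}

/-- Insert a coordinate. -/
def ins (i : Fin (m + 1)) (s : ℝ) (y : Fin m → ℝ) : Fin (m + 1) → ℝ :=
  i.insertNth (α := fun _ => ℝ) s y

theorem ins_same (i : Fin (m + 1)) (s : ℝ) (y : Fin m → ℝ) : ins i s y i = s := by
  simp [ins]

theorem ins_update (i : Fin (m + 1)) (s t : ℝ) (y : Fin m → ℝ) :
    Function.update (ins i s y) i t = ins i t y := by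
  simp [ins]

theorem ins_add (i : Fin (m + 1)) (s t : ℝ) (y y' : Fin m → ℝ) :
    ins i s y + ins i t y' = ins i (s + t) (y + y') := by
  ext k
  refine Fin.succAboveCases i ?_ (fun j => ?_) k <;> simp [ins]

theorem ins_smul (i : Fin (m + 1)) (r s : ℝ) (y : Fin m → ℝ) :
    r • ins i s y = ins i (r * s) (r • y) := by
  ext k
  refine Fin.succAboveCases i ?_ (fun j => ?_) k <;> simp [ins]

theorem measurable_ins (i : Fin (m + 1)) : Measurable (fun p : ℝ × (Fin m → ℝ) => ins i p.1 p.2) :=
  (MeasurableEquiv.piFinSuccAbove (fun _ : Fin (m + 1) => ℝ) i).symm.measurable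

theorem lintegral_ins (i : Fin (m + 1)) {u : (Fin (m + 1) → ℝ) → ℝ≥0∞} (hu : Measurable u) :
    ∫⁻ x, u x = ∫⁻ s : ℝ, ∫⁻ y : Fin m → ℝ, u (ins i s y) := by
  have hvp : MeasurePreserving (MeasurableEquiv.piFinSuccAbove (fun _ : Fin (m + 1) => ℝ) i)
      volume volume := volume_preserving_piFinSuccAbove (fun _ : Fin (m + 1) => ℝ) i
  rw [← hvp.symm.lintegral_comp hu]
  exact lintegral_prod _ (hu.comp
    (MeasurableEquiv.piFinSuccAbove (fun _ : Fin (m + 1) => ℝ) i).symm.measurable).aemeasurable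

/-- The fibre integral. -/
noncomputable def fib (K : Set (Fin (m + 1) → ℝ)) (z : Fin (m + 1) → ℝ) (i : Fin (m + 1)) (s : ℝ) :
    ℝ≥0∞ := ∫⁻ y : Fin m → ℝ, ENNReal.ofReal (Real.exp (-(hs K z (ins i s y))))

section

variable {K : Set (Fin (m + 1) → ℝ)} {z : Fin (m + 1) → ℝ} {i : Fin (m + 1)}

theorem measurable_fib (hK : IsCompact K) (hn : K.Nonempty) : Measurable (fib K z i) := by
  have h : Measurable (fun p : ℝ × (Fin m → ℝ) =>
      ENNReal.ofReal (Real.exp (-(hs K z (ins i p.1 p.2))))) := by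
    have := ((hs_continuous hK hn z).measurable.comp (measurable_ins i)).neg.exp.ennreal_ofReal
    exact this
  exact h.lintegral_prod_right'

theorem measurable_fib_inner (hK : IsCompact K) (hn : K.Nonempty) (s : ℝ) :
    Measurable (fun y : Fin m → ℝ => ENNReal.ofReal (Real.exp (-(hs K z (ins i s y))))) := by
  have : Measurable (fun y : Fin m → ℝ => ins i s y) :=
    (measurable_ins i).comp measurable_prodMk_left
  exact ((hs_continuous hK hn z).measurable.comp this).neg.exp.ennreal_ofReal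

/-- Fubini for the exponential functional. -/
theorem EF_fib (hK : IsCompact K) (hn : K.Nonempty) (hz : z i = 0) (ζ : ℝ) :
    EF K (Function.update z i ζ) = ∫⁻ s, ENNReal.ofReal (Real.exp (ζ * s)) * fib K z i s := by
  unfold EF
  rw [lintegral_ins i]
  · refine lintegral_congr fun s => ?_
    unfold fib
    rw [← lintegral_const_mul _ (measurable_fib_inner hK hn s)]
    refine lintegral_congr fun y => ?_
    rw [← ENNReal.ofReal_mul (Real.exp_pos _).le, ← Real.exp_add]
    congr 2
    rw [hs_shift hK hn (Function.update z i ζ) z]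
    have : ∑ k, (z k - Function.update z i ζ k) * ins i s y k = -(ζ * s) := by
      rw [Finset.sum_eq_single i]
      · simp only [hz, Function.update_self, zero_sub, ins_same, neg_mul]
      · intro k _ hk
        simp [hk]
      · simp only [Finset.mem_univ, not_true_eq_false, Function.update_self, mul_eq_zero, IsEmpty.forall_iff]
    rw [this]; ring
  · exact (hs_continuous hK hn _).measurable.neg.exp.ennreal_ofReal

/-- Midpoint log-concavity. -/
theorem fib_mid (hK : IsCompact K) (hn : K.Nonempty) (s t : ℝ) :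
    fib K z i s * fib K z i t ≤ fib K z i ((s + t) / 2) ^ 2 := by
  refine PL.pl_pi m _ _ _ (measurable_fib_inner hK hn s) (measurable_fib_inner hK hn t)
    (measurable_fib_inner hK hn _) fun x y => ?_
  rw [← ENNReal.ofReal_mul (Real.exp_pos _).le, ← ENNReal.ofReal_pow (Real.exp_pos _).le,
    ← Real.exp_add, ← Real.exp_nat_mul]
  apply ENNReal.ofReal_le_ofReal
  apply Real.exp_le_exp.mpr
  have h1 : ins i ((s + t) / 2) (fun k => (x k + y k) / 2) =
      (1 / 2 : ℝ) • (ins i s x + ins i t y) := by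
    rw [ins_add, ins_smul]
    congr 1
    · ring
    · ext k; simp only [one_div, Pi.smul_apply, Pi.add_apply, smul_eq_mul]; ring
  have h2 := hs_smul hK hn z (ins i s x + ins i t y) (r := 1 / 2) (by norm_num)
  have h3 := hs_add_le hK hn z (ins i s x) (ins i t y)
  rw [h1, h2]
  push_cast
  linarith only [h3]

theorem fib_pos (hK : IsCompact K) (hn : K.Nonempty) (s : ℝ) : 0 < fib K z i s := by
  unfold fib
  rw [lintegral_pos_iff_support (measurable_fib_inner hK hn s)]
  have : Function.support (fun y : Fin m → ℝ =>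
      ENNReal.ofReal (Real.exp (-(hs K z (ins i s y))))) = univ := by
    ext y
    simp only [Function.mem_support, ne_eq, ENNReal.ofReal_eq_zero, not_le, Real.exp_pos, mem_univ]
  rw [this]
  exact isOpen_univ.measure_pos volume univ_nonempty

/-- Section equals projection in the direction of coordinate i. -/
def Proj0 (K : Set (Fin (m + 1) → ℝ)) (i : Fin (m + 1)) : Prop :=
  ∀ x ∈ K, Function.update x i 0 ∈ K

theorem sum_update (x z y : Fin (m + 1) → ℝ) (hz : z i = 0) :
    ∑ k, (Function.update x i 0 k - z k) * y k = ∑ k, (x k - z k) * y k - x i * y i := by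
  have : ∀ k, (Function.update x i 0 k - z k) * y k = (x k - z k) * y k -
      if k = i then x i * y i else 0 := by
    intro k
    by_cases h : k = i
    · subst h; simp [hz]
    · simp [h]
  rw [Finset.sum_congr rfl fun k _ => this k, Finset.sum_sub_distrib]
  simp only [Finset.sum_ite_eq', Finset.mem_univ, ↓reduceIte]

theorem sum_update_right (x z y : Fin (m + 1) → ℝ) (hz : z i = 0) :
    ∑ k, (x k - z k) * Function.update y i 0 k = ∑ k, (x k - z k) * y k - x i * y i := by
  have : ∀ k, (x k - z k) * Function.update y i 0 k = (x k - z k) * y k -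
      if k = i then x i * y i else 0 := by
    intro k
    by_cases h : k = i
    · subst h; simp [hz]
    · simp [h]
  rw [Finset.sum_congr rfl fun k _ => this k, Finset.sum_sub_distrib]
  simp only [Finset.sum_ite_eq', Finset.mem_univ, ↓reduceIte]

/-- The support function is monotone in the distinguished coordinate. -/
theorem hs_anti (hK : IsCompact K) (hn : K.Nonempty) (hP : Proj0 K i) (hz : z i = 0)
    {s t : ℝ} (hst : (0 ≤ s ∧ s ≤ t) ∨ (s ≤ 0 ∧ t ≤ s)) (y : Fin m → ℝ) :
    hs K z (ins i s y) ≤ hs K z (ins i t y) := by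
  refine hs_le hn fun x hx => ?_
  have e1 : ∀ r, ∑ k, (x k - z k) * ins i r y k =
      ∑ k, (x k - z k) * ins i 0 y k + x i * r := by
    intro r
    have := sum_update_right x z (ins i r y) hz
    rw [ins_update, ins_same] at this
    linarith only [this]
  have e2 : ∀ r, ∑ k, (Function.update x i 0 k - z k) * ins i r y k =
      ∑ k, (x k - z k) * ins i 0 y k := by
    intro r
    rw [sum_update x z _ hz, e1 r, ins_same]; ring
  by_cases h3 : x i * s ≤ 0
  · have := le_hs hK z (ins i t y) (hP x hx)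
    rw [e2] at this
    rw [e1]
    linarith only [h3, this]
  · have h : x i * s ≤ x i * t := by
      push Not at h3
      rcases hst with ⟨h1, h2⟩ | ⟨h1, h2⟩
      · have hx0 : 0 ≤ x i := by
          by_contra hc
          push Not at hc
          have := mul_nonpos_of_nonpos_of_nonneg hc.le h1
          linarith only [h3, this]
        exact mul_le_mul_of_nonneg_left h2 hx0
      · have hx0 : x i ≤ 0 := by
          by_contra hc
          push Not at hc
          have := mul_nonpos_of_nonneg_of_nonpos hc.le h1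
          linarith only [h3, this]
        exact mul_le_mul_of_nonpos_left h2 hx0
    have := le_hs hK z (ins i t y) hx
    rw [e1] at this ⊢
    linarith

theorem fib_anti (hK : IsCompact K) (hn : K.Nonempty) (hP : Proj0 K i) (hz : z i = 0)
    {s t : ℝ} (hst : (0 ≤ s ∧ s ≤ t) ∨ (s ≤ 0 ∧ t ≤ s)) : fib K z i t ≤ fib K z i s := by
  unfold fib
  refine lintegral_mono fun y => ?_
  apply ENNReal.ofReal_le_ofReal
  apply Real.exp_le_exp.mpr
  have := hs_anti hK hn hP hz hst y
  linarith

/-- The half of K on the side of sign σ. -/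
def half (K : Set (Fin (m + 1) → ℝ)) (i : Fin (m + 1)) (σ : ℝ) : Set (Fin (m + 1) → ℝ) :=
  K ∩ {x | 0 ≤ σ * x i}

theorem half_compact (hK : IsCompact K) (i : Fin (m + 1)) (σ : ℝ) : IsCompact (half K i σ) :=
  hK.inter_right (isClosed_le continuous_const (by fun_prop))

theorem half_nonempty (hn : K.Nonempty) (hP : Proj0 K i) (σ : ℝ) : (half K i σ).Nonempty := by
  obtain ⟨x, hx⟩ := hn
  exact ⟨_, hP x hx, by simp only [mem_ofPred_eq, Function.update_self, mul_zero, Std.le_refl]⟩

theorem hs_half_same (hK : IsCompact K) (hn : K.Nonempty) (hP : Proj0 K i) (hz : z i = 0) {σ : ℝ}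
    {y : Fin (m + 1) → ℝ} (hσ : ∀ x : ℝ, σ * x < 0 → x * y i ≤ 0) :
    hs (half K i σ) z y = hs K z y := by
  apply le_antisymm
  · exact hs_le (half_nonempty hn hP σ) fun x hx => le_hs hK z y hx.1
  · refine hs_le hn fun x hx => ?_
    by_cases h : 0 ≤ σ * x i
    · exact le_hs (half_compact hK i σ) z y ⟨hx, h⟩
    · have h1 := le_hs (half_compact hK i σ) z y (x := Function.update x i 0) ⟨hP x hx, by simp only [mem_ofPred_eq, Function.update_self, mul_zero, Std.le_refl]⟩
      rw [sum_update x z y hz] at h1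
      have := hσ (x i) (not_le.mp h)
      linarith only [h1, this]

theorem hs_half_opp (hK : IsCompact K) (hn : K.Nonempty) (hP : Proj0 K i) (hz : z i = 0) {σ : ℝ}
    {y : Fin (m + 1) → ℝ} (hσ : ∀ x : ℝ, 0 ≤ σ * x → x * y i ≤ 0) :
    hs (half K i σ) z y = hs K z (Function.update y i 0) := by
  apply le_antisymm
  · refine hs_le (half_nonempty hn hP σ) fun x hx => ?_
    have h1 := le_hs hK z (Function.update y i 0) hx.1
    rw [sum_update_right x z y hz] at h1
    have := hσ (x i) hx.2
    linarith only [h1, this]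
  · refine hs_le hn fun x hx => ?_
    have h1 := le_hs (half_compact hK i σ) z y (x := Function.update x i 0) ⟨hP x hx, by simp only [mem_ofPred_eq, Function.update_self, mul_zero, Std.le_refl]⟩
    rw [sum_update x z y hz] at h1
    rw [sum_update_right x z y hz]
    exact h1

theorem fib_half_same (hK : IsCompact K) (hn : K.Nonempty) (hP : Proj0 K i) (hz : z i = 0)
    {σ s : ℝ} (hσ : ∀ x : ℝ, σ * x < 0 → x * s ≤ 0) : fib (half K i σ) z i s = fib K z i s := by
  unfold fib
  refine lintegral_congr fun y => ?_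
  rw [hs_half_same hK hn hP hz (by rw [ins_same]; exact hσ)]

theorem fib_half_opp (hK : IsCompact K) (hn : K.Nonempty) (hP : Proj0 K i) (hz : z i = 0)
    {σ s : ℝ} (hσ : ∀ x : ℝ, 0 ≤ σ * x → x * s ≤ 0) : fib (half K i σ) z i s = fib K z i 0 := by
  unfold fib
  refine lintegral_congr fun y => ?_
  rw [hs_half_opp hK hn hP hz (by rw [ins_same]; exact hσ), ins_update]

/-- Splitting an integral over the line. -/
theorem lintegral_split (f : ℝ → ℝ≥0∞) :
    ∫⁻ s, f s = (∫⁻ s in Ioi (0 : ℝ), f s) + ∫⁻ s in Ioi (0 : ℝ), f (-s) := by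
  rw [← lintegral_add_compl f (measurableSet_Ioi (a := (0 : ℝ)))]
  congr 1
  rw [compl_Ioi, setLIntegral_congr Iio_ae_eq_Iic.symm,
    ← lintegral_indicator measurableSet_Iio, ← lintegral_indicator measurableSet_Ioi]
  have h := lintegral_neg_eq_self (μ := (volume : Measure ℝ)) ((Iio (0 : ℝ)).indicator f)
  rw [← h]
  refine lintegral_congr fun s => ?_
  by_cases hs : 0 < s
  · simp only [mem_Iio, Left.neg_neg_iff, hs, indicator_of_mem, mem_Ioi]
  · simp only [mem_Iio, Left.neg_neg_iff, hs, not_false_eq_true, indicator_of_notMem, mem_Ioi]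

theorem lintegral_exp_const {ζ c : ℝ} (hζ : 0 < ζ) (hc : 0 ≤ c) :
    ∫⁻ s in Ioi (0 : ℝ), ENNReal.ofReal (Real.exp (-(ζ * s)) * c) = ENNReal.ofReal (c / ζ) := by
  have h1 : IntegrableOn (fun s : ℝ => Real.exp (-(ζ * s))) (Ioi 0) := by
    have := integrableOn_exp_mul_Ioi (a := -ζ) (by linarith only [hζ]) 0
    refine this.congr_fun (fun s _ => ?_) measurableSet_Ioi
    simp only; congr 1; ring
  rw [← ofReal_integral_eq_lintegral_ofReal (h1.mul_const c)
    (Filter.Eventually.of_forall fun s => by positivity)]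
  congr 1
  rw [integral_mul_const]
  have h2 : ∫ s in Ioi (0 : ℝ), Real.exp (-(ζ * s)) = 1 / ζ := by
    have := integral_exp_mul_Ioi (a := -ζ) (by linarith only [hζ]) 0
    rw [show (fun s : ℝ => Real.exp (-(ζ * s))) = fun s => Real.exp (-ζ * s) by
      ext s; congr 1; ring, this]
    simp
  rw [h2]; ring


/-- The fibre integral at zero is finite. -/
theorem fib_zero_lt_top (hK : IsCompact K) (hz : z ∈ interior K) : fib K z i 0 < ∞ := by
  have hzK := interior_subset hz
  have hn : K.Nonempty := ⟨z, hzK⟩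
  have h1 : fib K z i 0 = (Fintype.card (Fin m)).factorial *
      volume {y : Fin m → ℝ | hs K z (ins i 0 y) ≤ 1} := by
    refine laplace_formula ?_ (fun y => hs_nonneg hK hzK _) (fun r hr y => ?_)
    · exact (hs_continuous hK hn z).measurable.comp ((measurable_ins i).comp measurable_prodMk_left)
    · rw [← hs_smul hK hn z _ hr.le, ins_smul, mul_zero]
  rw [h1]
  refine ENNReal.mul_lt_top (by simp only [Fintype.card_fin, ENNReal.natCast_lt_top]) ?_
  obtain ⟨M, hM⟩ := isBounded_iff_forall_norm_le.mp (polarP_isBounded hz)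
  have h2 : Bornology.IsBounded {y : Fin m → ℝ | hs K z (ins i 0 y) ≤ 1} := by
    refine isBounded_iff_forall_norm_le.mpr ⟨M, fun y hy => ?_⟩
    have hy' : ins i 0 y ∈ polarP K z := by
      rw [polarP_eq hK hn]; exact hy
    have h3 := hM _ hy'
    have hM0 : 0 ≤ M := (norm_nonneg _).trans h3
    rw [pi_norm_le_iff_of_nonneg hM0] at h3 ⊢
    intro j
    have h4 := h3 (i.succAbove j)
    simpa only [Real.norm_eq_abs, ge_iff_le, ins, Fin.insertNth_apply_succAbove] using h4
  exact h2.measure_lt_top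

theorem fib_update (hK : IsCompact K) (hn : K.Nonempty) (ζ : ℝ) :
    fib K (Function.update z i ζ) i 0 = fib K z i 0 := by
  unfold fib
  refine lintegral_congr fun y => ?_
  rw [hs_shift hK hn (Function.update z i ζ) z]
  have : ∑ k, (z k - Function.update z i ζ k) * ins i 0 y k = 0 := by
    refine Finset.sum_eq_zero fun k _ => ?_
    by_cases h : k = i
    · subst h; simp [ins_same]
    · simp [h]
  rw [this, add_zero]

theorem fib_lt_top (hK : IsCompact K) (hP : Proj0 K i) (hz : z ∈ interior K) (s : ℝ) :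
    fib K (Function.update z i 0) i s < ∞ := by
  have hzK := interior_subset hz
  have hn : K.Nonempty := ⟨z, hzK⟩
  refine lt_of_le_of_lt (fib_anti hK hn hP (by simp) (s := 0) ?_)
    ((fib_update hK hn 0).trans_lt (fib_zero_lt_top hK hz))
  rcases le_total 0 s with h | h
  · exact Or.inl ⟨le_rfl, h⟩
  · exact Or.inr ⟨le_rfl, h⟩

/-- The two sides satisfy the axioms of a side. -/
theorem fib_side (hK : IsCompact K) (hP : Proj0 K i) (hz : z ∈ interior K) {ε : ℝ}
    (hε : ε = 1 ∨ ε = -1) :
    Side (fun s => (fib K (Function.update z i 0) i (ε * s)).toReal) := by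
  have hzK := interior_subset hz
  have hn : K.Nonempty := ⟨z, hzK⟩
  have hfin := fib_lt_top hK hP hz
  have hpos : ∀ s : ℝ, 0 ≤ s → 0 < (fib K (Function.update z i 0) i (ε * s)).toReal := fun s _ =>
    ENNReal.toReal_pos (fib_pos hK hn _).ne' (hfin _).ne
  have hanti : ∀ s t : ℝ, 0 ≤ s → s ≤ t → (fib K (Function.update z i 0) i (ε * t)).toReal ≤
      (fib K (Function.update z i 0) i (ε * s)).toReal := by
    intro s t h0 hst
    refine ENNReal.toReal_mono (hfin _).ne (fib_anti hK hn hP (by simp) ?_)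
    rcases hε with rfl | rfl
    · left; constructor <;> linarith only [h0, hst]
    · right; constructor <;> linarith
  refine ⟨?_, hpos, hanti, fun r s hr hs => ?_⟩
  · exact ((measurable_fib hK hn).comp (measurable_const_mul ε)).ennreal_toReal
  · refine submul_of_mid hpos hanti (fun s t _ _ => ?_) hr hs
    have h := ENNReal.toReal_mono (by finiteness [(hfin ((ε * s + ε * t) / 2)).ne])
      (fib_mid hK hn (z := Function.update z i 0) (i := i) (ε * s) (ε * t))
    rw [ENNReal.toReal_mul, ENNReal.toReal_pow] at h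
    have e : ε * ((s + t) / 2) = (ε * s + ε * t) / 2 := by ring
    simp only [e]
    exact h

theorem lap_fib (hK : IsCompact K) (hP : Proj0 K i) (hz : z ∈ interior K) (ε ζ : ℝ) :
    lap (fun s => (fib K (Function.update z i 0) i (ε * s)).toReal) ζ =
      ∫⁻ s in Ioi (0 : ℝ), ENNReal.ofReal (Real.exp (ζ * s)) *
        fib K (Function.update z i 0) i (ε * s) := by
  unfold lap
  refine lintegral_congr fun s => ?_
  rw [ENNReal.ofReal_mul (Real.exp_pos _).le, ENNReal.ofReal_toReal (fib_lt_top hK hP hz _).ne]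

/-- The functional as a sum of two Laplace transforms. -/
theorem EF_lap (hK : IsCompact K) (hP : Proj0 K i) (hz : z ∈ interior K) :
    EF K z = lap (fun s => (fib K (Function.update z i 0) i (1 * s)).toReal) (z i) +
      lap (fun s => (fib K (Function.update z i 0) i (-1 * s)).toReal) (-(z i)) := by
  have hn : K.Nonempty := ⟨z, interior_subset hz⟩
  have h1 : EF K z = EF K (Function.update (Function.update z i 0) i (z i)) := by simp
  rw [h1, EF_fib hK hn (by simp), lintegral_split, lap_fib hK hP hz, lap_fib hK hP hz]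
  congr 1
  · refine lintegral_congr fun s => ?_
    rw [one_mul]
  · refine lintegral_congr fun s => ?_
    rw [neg_one_mul]
    congr 3
    ring

theorem lintegral_exp_fib (hK : IsCompact K) (hP : Proj0 K i) (hz : z ∈ interior K) {ζ : ℝ}
    (hζ : 0 < ζ) :
    ∫⁻ s in Ioi (0 : ℝ), ENNReal.ofReal (Real.exp (-(ζ * s))) * fib K (Function.update z i 0) i 0 =
      ENNReal.ofReal ((fib K (Function.update z i 0) i 0).toReal / ζ) := by
  rw [← lintegral_exp_const hζ ENNReal.toReal_nonneg]
  refine lintegral_congr fun s => ?_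
  rw [ENNReal.ofReal_mul (Real.exp_pos _).le, ENNReal.ofReal_toReal (fib_lt_top hK hP hz _).ne]

theorem EF_half_pos (hK : IsCompact K) (hP : Proj0 K i) (hz : z ∈ interior K) {ζ : ℝ}
    (hζ : 0 < ζ) :
    EF (half K i 1) (Function.update z i ζ) =
      lap (fun s => (fib K (Function.update z i 0) i (1 * s)).toReal) ζ +
        ENNReal.ofReal ((fib K (Function.update z i 0) i (1 * 0)).toReal / ζ) := by
  have hn : K.Nonempty := ⟨z, interior_subset hz⟩
  have hz0 : (Function.update z i 0) i = 0 := by simp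
  have h1 : EF (half K i 1) (Function.update z i ζ) =
      EF (half K i 1) (Function.update (Function.update z i 0) i ζ) := by simp
  rw [h1, EF_fib (half_compact hK i 1) (half_nonempty hn hP 1) hz0, lintegral_split,
    lap_fib hK hP hz, mul_zero, ← lintegral_exp_fib hK hP hz hζ]
  congr 1
  · refine setLIntegral_congr_fun measurableSet_Ioi fun s hs => ?_
    have hs' : 0 < s := hs
    rw [one_mul, fib_half_same hK hn hP hz0 (fun x hx => by nlinarith only [hs', hx])]
  · refine setLIntegral_congr_fun measurableSet_Ioi fun s hs => ?_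
    have hs' : 0 < s := hs
    rw [fib_half_opp hK hn hP hz0 (fun x hx => by linarith only [mul_nonneg (le_of_lt (sub_pos.2 hs')) (sub_nonneg.2 hx)])]
    congr 3
    ring

theorem EF_half_neg (hK : IsCompact K) (hP : Proj0 K i) (hz : z ∈ interior K) {ζ : ℝ}
    (hζ : 0 < ζ) :
    EF (half K i (-1)) (Function.update z i (-ζ)) =
      lap (fun s => (fib K (Function.update z i 0) i (-1 * s)).toReal) ζ +
        ENNReal.ofReal ((fib K (Function.update z i 0) i (-1 * 0)).toReal / ζ) := by
  have hn : K.Nonempty := ⟨z, interior_subset hz⟩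
  have hz0 : (Function.update z i 0) i = 0 := by simp
  have h1 : EF (half K i (-1)) (Function.update z i (-ζ)) =
      EF (half K i (-1)) (Function.update (Function.update z i 0) i (-ζ)) := by simp
  rw [h1, EF_fib (half_compact hK i (-1)) (half_nonempty hn hP (-1)) hz0, lintegral_split,
    lap_fib hK hP hz, mul_zero, ← lintegral_exp_fib hK hP hz hζ, add_comm]
  congr 1
  · refine setLIntegral_congr_fun measurableSet_Ioi fun s hs => ?_
    have hs' : 0 < s := hs
    rw [neg_one_mul, fib_half_same hK hn hP hz0 (fun x hx => by nlinarith only [hs', hx]), neg_mul_neg]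
  · refine setLIntegral_congr_fun measurableSet_Ioi fun s hs => ?_
    have hs' : 0 < s := hs
    rw [fib_half_opp hK hn hP hz0 (fun x hx => by nlinarith only [hs', hx]), neg_mul]

theorem volume_half (hK : IsCompact K) (i : Fin (m + 1)) :
    volume K = volume (half K i 1) + volume (half K i (-1)) := by
  have h0 : volume {x : Fin (m + 1) → ℝ | x i = 0} = 0 := by
    rw [volume_pi]
    exact Measure.pi_hyperplane _ i 0
  have h1 : K = half K i 1 ∪ half K i (-1) := by
    ext x
    constructor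
    · intro h
      rcases le_total 0 (x i) with h' | h'
      · have h2 : 0 ≤ 1 * x i := by linarith only [h']
        exact Or.inl ⟨h, h2⟩
      · have h2 : 0 ≤ -1 * x i := by linarith only [h']
        exact Or.inr ⟨h, h2⟩
    · rintro (h | h) <;> exact h.1
  have h2 : AEDisjoint volume (half K i 1) (half K i (-1)) := by
    refine measure_mono_null (fun x hx => ?_) h0
    have h3 : 0 ≤ 1 * x i := hx.1.2
    have h4 : 0 ≤ -1 * x i := hx.2.2
    have h5 : x i = 0 := by linarith only [h3, h4]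
    exact h5
  conv_lhs => rw [h1]
  exact measure_union₀ (half_compact hK i (-1)).measurableSet.nullMeasurableSet h2

/-- **Gluing lemma**. -/
theorem glue (hK : IsCompact K) (hP : Proj0 K i) (hz : z ∈ interior K) {c : ℝ} (hc : 0 < c)
    (hv1 : 0 < volume (half K i 1)) (hv2 : 0 < volume (half K i (-1)))
    (h1 : ∀ ζ, 0 < ζ → ENNReal.ofReal c ≤
      volume (half K i 1) * EF (half K i 1) (Function.update z i ζ))
    (h2 : ∀ ζ, 0 < ζ → ENNReal.ofReal c ≤
      volume (half K i (-1)) * EF (half K i (-1)) (Function.update z i (-ζ))) :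
    ENNReal.ofReal c ≤ volume K * EF K z := by
  have ht1 : volume (half K i 1) < ∞ := (half_compact hK i 1).measure_lt_top
  have ht2 : volume (half K i (-1)) < ∞ := (half_compact hK i (-1)).measure_lt_top
  set v1 := (volume (half K i 1)).toReal with hv1'
  set v2 := (volume (half K i (-1))).toReal with hv2'
  have hv1p : 0 < v1 := ENNReal.toReal_pos hv1.ne' ht1.ne
  have hv2p : 0 < v2 := ENNReal.toReal_pos hv2.ne' ht2.ne
  have e1 : volume (half K i 1) = ENNReal.ofReal v1 := (ENNReal.ofReal_toReal ht1.ne).symm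
  have e2 : volume (half K i (-1)) = ENNReal.ofReal v2 := (ENNReal.ofReal_toReal ht2.ne).symm
  have key : ∀ {v : ℝ} {X : ℝ≥0∞}, 0 < v → ENNReal.ofReal c ≤ ENNReal.ofReal v * X →
      ENNReal.ofReal (c / v) ≤ X := by
    intro v X hv h
    rw [ENNReal.ofReal_div_of_pos hv]
    exact ENNReal.div_le_of_le_mul' h
  have h1' : ∀ ζ, 0 < ζ → ENNReal.ofReal (c / v1) ≤
      lap (fun s => (fib K (Function.update z i 0) i (1 * s)).toReal) ζ +
        ENNReal.ofReal ((fib K (Function.update z i 0) i (1 * 0)).toReal / ζ) := by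
    intro ζ hζ
    rw [← EF_half_pos hK hP hz hζ]
    exact key hv1p (e1 ▸ h1 ζ hζ)
  have h2' : ∀ ζ, 0 < ζ → ENNReal.ofReal (c / v2) ≤
      lap (fun s => (fib K (Function.update z i 0) i (-1 * s)).toReal) ζ +
        ENNReal.ofReal ((fib K (Function.update z i 0) i (-1 * 0)).toReal / ζ) := by
    intro ζ hζ
    rw [← EF_half_neg hK hP hz hζ]
    exact key hv2p (e2 ▸ h2 ζ hζ)
  have h3 := lap_glue (fib_side hK hP hz (Or.inl rfl)) (fib_side hK hP hz (Or.inr rfl))
    (by simp) (by (clear * - hc hv1p; positivity) : 0 < c / v1) (by (clear * - hc hv2p; positivity) : 0 < c / v2) h1' h2' (z i)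
  rw [← EF_lap hK hP hz] at h3
  rw [volume_half hK i, e1, e2, ← ENNReal.ofReal_add hv1p.le hv2p.le]
  calc ENNReal.ofReal c = ENNReal.ofReal (v1 + v2) *
        ENNReal.ofReal (c / v1 * (c / v2) / (c / v1 + c / v2)) := by
        rw [← ENNReal.ofReal_mul (by (clear * - hv1p hv2p; positivity))]
        congr 1
        field_simp
        ring
    _ ≤ _ := by (clear * - h3; gcongr)

end

end Vale.Agent.P248
end
end
end

section

section

section

set_option linter.unusedSectionVars false

open MeasureTheory Set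
open scoped ENNReal Topology Pointwise

namespace Vale.Agent.P248

section Top

variable {ι : Type*} [Fintype ι] [DecidableEq ι]

/-- The exponential functional is infinite at points outside the interior. -/
theorem EF_top {K : Set (ι → ℝ)} (hK : IsCompact K) (hconv : Convex ℝ K)
    (hint : (interior K).Nonempty) {z : ι → ℝ} (hz : z ∉ interior K) : EF K z = ∞ := by
  have hn : K.Nonempty := hint.mono interior_subset
  obtain ⟨f, hf⟩ := geometric_hahn_banach_open_point hconv.interior isOpen_interior hz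
  set y0 : ι → ℝ := fun i => f (Pi.single i 1) with hy0
  have hfy : ∀ x : ι → ℝ, f x = ∑ i, x i * y0 i := by
    intro x
    have h1 : x = ∑ i, x i • (Pi.single i (1 : ℝ) : ι → ℝ) := by
      ext k
      simp only [Finset.sum_apply, Pi.smul_apply, Pi.single_apply, smul_eq_mul, mul_ite, mul_one, mul_zero, Finset.sum_ite_eq, Finset.mem_univ, ↓reduceIte]
    conv_lhs => rw [h1]
    rw [map_sum]
    refine Finset.sum_congr rfl fun i _ => ?_
    rw [map_smul, smul_eq_mul]
  have hle : ∀ x ∈ K, f x ≤ f z := by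
    intro x hx
    have h1 : closure (interior K) = K := by
      rw [hconv.closure_interior_eq_closure_of_nonempty_interior hint, hK.isClosed.closure_eq]
    have h2 : K ⊆ {x | f x ≤ f z} := by
      rw [← h1]
      refine closure_minimal (fun x hx => (hf x hx).le) (isClosed_le f.continuous continuous_const)
    exact h2 hx
  have hs0 : hs K z y0 ≤ 0 := by
    refine hs_le hn fun x hx => ?_
    have h1 := hle x hx
    rw [hfy, hfy] at h1
    calc ∑ i, (x i - z i) * y0 i = ∑ i, x i * y0 i - ∑ i, z i * y0 i := by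
          rw [← Finset.sum_sub_distrib]
          exact Finset.sum_congr rfl fun i _ => by ring
      _ ≤ 0 := by linarith only [h1]
  have hy0ne : 0 < ∑ i, y0 i * y0 i := by
    have h1 : 0 ≤ ∑ i, y0 i * y0 i := Finset.sum_nonneg fun i _ => mul_self_nonneg _
    refine lt_of_le_of_ne h1 fun h2 => ?_
    have h3 : ∀ i, y0 i = 0 := by
      intro i
      have := (Finset.sum_eq_zero_iff_of_nonneg (fun i _ => mul_self_nonneg (y0 i))).mp h2.symm i
        (Finset.mem_univ i)
      exact mul_self_eq_zero.mp this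
    obtain ⟨a, ha⟩ := hint
    have h4 := hf a ha
    rw [hfy, hfy] at h4
    simp only [h3, mul_zero, Finset.sum_const_zero, lt_self_iff_false] at h4
  set d := ∑ i, y0 i * y0 i with hd
  have hfy0 : f y0 = d := hfy y0
  set F : (ι → ℝ) → ℝ≥0∞ := fun y => ENNReal.ofReal (Real.exp (-(hs K z y))) with hF
  have hFm : Measurable F := (hs_continuous hK hn z).measurable.neg.exp.ennreal_ofReal
  have hFmono : ∀ y, F y ≤ F (y + y0) := by
    intro y
    apply ENNReal.ofReal_le_ofReal
    apply Real.exp_le_exp.mpr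
    have := hs_add_le hK hn z y y0
    linarith only [hs0, this]
  have hm1 : MeasurableSet {y : ι → ℝ | 0 ≤ f y ∧ f y < d} :=
    (measurableSet_le measurable_const f.continuous.measurable).inter
      (measurableSet_lt f.continuous.measurable measurable_const)
  have hm2 : MeasurableSet {y : ι → ℝ | d ≤ f y} :=
    measurableSet_le measurable_const f.continuous.measurable
  have hm0 : MeasurableSet {y : ι → ℝ | 0 ≤ f y} :=
    measurableSet_le measurable_const f.continuous.measurable
  have hsplit : ∫⁻ y in {y : ι → ℝ | 0 ≤ f y}, F y =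
      (∫⁻ y in {y : ι → ℝ | 0 ≤ f y ∧ f y < d}, F y) + ∫⁻ y in {y : ι → ℝ | d ≤ f y}, F y := by
    rw [← lintegral_union hm2]
    · congr 2
      ext y
      constructor
      · intro h
        rcases lt_or_ge (f y) d with h' | h'
        · exact Or.inl ⟨h, h'⟩
        · exact Or.inr h'
      · rintro (h | h)
        · exact h.1
        · exact hy0ne.le.trans h
    · refine disjoint_left.mpr fun y h1 h2 => ?_
      exact absurd h1.2 (not_lt.mpr h2)
  have hshift : ∫⁻ y in {y : ι → ℝ | 0 ≤ f y}, F y ≤ ∫⁻ y in {y : ι → ℝ | d ≤ f y}, F y := by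
    rw [← lintegral_indicator hm0, ← lintegral_indicator hm2,
      ← lintegral_add_right_eq_self (fun y => ({y : ι → ℝ | d ≤ f y}.indicator F) y) y0]
    refine lintegral_mono fun y => ?_
    by_cases h : 0 ≤ f y
    · have h2 : d ≤ f (y + y0) := by rw [map_add, hfy0]; linarith only [h]
      rw [indicator_of_mem (show y ∈ {y : ι → ℝ | 0 ≤ f y} from h),
        indicator_of_mem (show y + y0 ∈ {y : ι → ℝ | d ≤ f y} from h2)]
      exact hFmono y
    · rw [indicator_of_notMem (show y ∉ {y : ι → ℝ | 0 ≤ f y} from h)]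
      exact zero_le
  have hpos : 0 < ∫⁻ y in {y : ι → ℝ | 0 ≤ f y ∧ f y < d}, F y := by
    rw [setLIntegral_pos_iff hFm]
    have h1 : Function.support F = univ := by
      ext y
      simp only [hF, Function.mem_support, ne_eq, ENNReal.ofReal_eq_zero, not_le, Real.exp_pos, mem_univ]
    rw [h1, univ_inter]
    have hopen : IsOpen {y : ι → ℝ | 0 < f y ∧ f y < d} :=
      (isOpen_lt continuous_const f.continuous).inter (isOpen_lt f.continuous continuous_const)
    have hne : {y : ι → ℝ | 0 < f y ∧ f y < d}.Nonempty := by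
      refine ⟨(1 / 2 : ℝ) • y0, ?_⟩
      have : f ((1 / 2 : ℝ) • y0) = d / 2 := by rw [map_smul, hfy0, smul_eq_mul]; ring
      constructor <;> rw [this] <;> linarith only [hy0ne]
    exact (hopen.measure_pos volume hne).trans_le (measure_mono fun y hy => ⟨hy.1.le, hy.2⟩)
  by_contra hne
  have h1 : ∫⁻ y in {y : ι → ℝ | 0 ≤ f y}, F y ≠ ∞ := by
    refine ne_top_of_le_ne_top hne ?_
    exact setLIntegral_le_lintegral _ _
  have h2 : (∫⁻ y in {y : ι → ℝ | 0 ≤ f y ∧ f y < d}, F y) +
      ∫⁻ y in {y : ι → ℝ | 0 ≤ f y}, F y ≤ ∫⁻ y in {y : ι → ℝ | 0 ≤ f y}, F y := by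
    conv_rhs => rw [hsplit]
    (clear * - hshift; gcongr)
  have h3 : ∫⁻ y in {y : ι → ℝ | 0 ≤ f y}, F y <
      (∫⁻ y in {y : ι → ℝ | 0 ≤ f y ∧ f y < d}, F y) + ∫⁻ y in {y : ι → ℝ | 0 ≤ f y}, F y := by
    rw [add_comm]
    exact ENNReal.lt_add_right h1 hpos.ne'
  exact absurd h2 (not_le.mpr h3)

end Top

variable {n : ℕ}

/-- Locally anti-blocking sets, in coordinates. -/
def LABk (K : Set (Fin n → ℝ)) : Prop := ∀ x ∈ K, ∀ i, Function.update x i 0 ∈ K

theorem isAB_of_nonneg {K : Set (Fin n → ℝ)} (hconv : Convex ℝ K) (hL : LABk K)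
    (hnn : ∀ x ∈ K, ∀ i, 0 ≤ x i) : IsAB K where
  nonneg := hnn
  down := by
    intro x hx y hy
    have key : ∀ J : Finset (Fin n), J.piecewise y x ∈ K := by
      intro J
      induction J using Finset.induction_on with
      | empty => simpa using hx
      | insert j s hj ih =>
        rw [Finset.piecewise_insert]
        set w := s.piecewise y x with hw
        have hwj : w j = x j := by simp [hw, hj]
        rcases eq_or_lt_of_le ((hy j).1.trans (hy j).2) with h0 | h0
        · have : y j = w j := by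
            rw [hwj]; exact le_antisymm (hy j).2 (h0 ▸ (hy j).1)
          rw [this, Function.update_eq_self]
          exact ih
        · have h1 : Function.update w j (y j) =
              (y j / x j) • w + (1 - y j / x j) • Function.update w j 0 := by
            ext k
            by_cases hk : k = j
            · subst hk
              simp only [Function.update_self, Pi.add_apply, Pi.smul_apply, smul_eq_mul, mul_zero,
                add_zero, hwj]
              (clear * - h0; field_simp)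
            · simp only [Function.update_of_ne hk, Pi.add_apply, Pi.smul_apply, smul_eq_mul]
              ring
          rw [h1]
          refine hconv ih (hL w ih j) (by have := (hy j).1; (clear * - this h0; positivity)) ?_ (by ring)
          rw [sub_nonneg, div_le_one h0]
          exact (hy j).2
    have := key Finset.univ
    rwa [Finset.piecewise_univ] at this

/-- The constant. -/
noncomputable def cst (n : ℕ) : ℝ :=
  n.factorial * (((n : ℝ) + 1) ^ (n + 1) * (volume (stdS (Fin n))).toReal ^ 2)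

theorem stdS_toReal_ge (n : ℕ) : (1 : ℝ) / n.factorial ≤ (volume (stdS (Fin n))).toReal := by
  have hfin : volume (stdS (Fin n)) ≠ ∞ := by
    have hb : Bornology.IsBounded (stdS (Fin n)) := by
      refine isBounded_iff_forall_norm_le.mpr ⟨1, fun x hx => ?_⟩
      rw [pi_norm_le_iff_of_nonneg zero_le_one]
      intro i
      rw [Real.norm_eq_abs, abs_of_nonneg (hx.1 i)]
      exact (Finset.single_le_sum (fun j _ => hx.1 j) (Finset.mem_univ i)).trans hx.2
    exact hb.measure_lt_top.ne
  have h := ENNReal.toReal_mono hfin (volume_stdS_ge (ι := Fin n))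
  rwa [ENNReal.toReal_ofReal (by positivity), Fintype.card_fin] at h

theorem cst_pos (n : ℕ) : 0 < cst n := by
  unfold cst
  have h := stdS_toReal_ge n
  have h2 : (0 : ℝ) < 1 / n.factorial := by positivity
  have h3 : 0 < (volume (stdS (Fin n))).toReal := h2.trans_le h
  positivity

/-- The inequality for signed locally anti-blocking bodies. -/
theorem signed_core {K : Set (Fin n → ℝ)} (hK : IsCompact K) (hconv : Convex ℝ K)
    (hL : LABk K) {σ : Fin n → ℝ} (hσ : ∀ i, σ i = 1 ∨ σ i = -1)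
    (hs : ∀ x ∈ K, ∀ i, 0 ≤ σ i * x i) {z : Fin n → ℝ} (hz : z ∈ interior K) :
    ENNReal.ofReal (cst n) ≤ volume K * EF K z := by
  have hσ2 : ∀ i, σ i * σ i = 1 := fun i => by rcases hσ i with h | h <;> rw [h] <;> norm_num
  have hdet : |LinearMap.det (diagMap σ)| = 1 := by
    rw [diagMap_det, Finset.abs_prod]
    refine Finset.prod_eq_one fun i _ => ?_
    rcases hσ i with h | h <;> rw [h] <;> norm_num
  have hdet0 : LinearMap.det (diagMap σ) ≠ 0 := by
    intro h; rw [h] at hdet; norm_num at hdet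
  have hvol : ∀ A : Set (Fin n → ℝ), volume (diagMap σ ⁻¹' A) = volume A := by
    intro A
    rw [Measure.addHaar_preimage_linearMap volume hdet0, abs_inv, hdet]
    simp
  have hinv : ∀ x, diagMap σ (diagMap σ x) = x := by
    intro x; ext i
    rw [diagMap_apply, diagMap_apply, ← mul_assoc, hσ2, one_mul]
  have hcont : Continuous (diagMap σ) := (diagMap σ).continuous_of_finiteDimensional
  set K' := diagMap σ ⁻¹' K with hK'
  have himg : K' = diagMap σ '' K := by
    ext x
    constructor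
    · intro h; exact ⟨_, h, hinv x⟩
    · rintro ⟨y, hy, rfl⟩
      rw [hK', mem_preimage, hinv]; exact hy
  have hKc' : IsCompact K' := by rw [himg]; exact hK.image hcont
  have hconv' : Convex ℝ K' := hconv.linear_preimage _
  have hL' : LABk K' := by
    intro x hx i
    have h1 := hL _ hx i
    have h2 : diagMap σ (Function.update x i 0) = Function.update (diagMap σ x) i 0 := by
      ext k
      by_cases hk : k = i
      · subst hk; simp only [diagMap_apply, Function.update_self, mul_zero]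
      · simp [diagMap_apply, hk]
    rw [hK', mem_preimage, h2]; exact h1
  have hnn : ∀ x ∈ K', ∀ i, 0 ≤ x i := by
    intro x hx i
    have := hs _ hx i
    rwa [diagMap_apply, ← mul_assoc, hσ2, one_mul] at this
  have hAB := isAB_of_nonneg hconv' hL' hnn
  have hz' : diagMap σ z ∈ interior K' := by
    have hopen : IsOpen (diagMap σ ⁻¹' interior K) := isOpen_interior.preimage hcont
    refine (interior_maximal (preimage_mono interior_subset) hopen) ?_
    rw [mem_preimage, hinv]; exact hz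
  have hpol : polarP K' (diagMap σ z) = diagMap σ ⁻¹' (polarP K z) := by
    have e : ∀ x y, ∑ i, (diagMap σ x i - diagMap σ z i) * y i =
        ∑ i, (x i - z i) * diagMap σ y i := by
      intro x y
      refine Finset.sum_congr rfl fun i _ => ?_
      rw [diagMap_apply, diagMap_apply, diagMap_apply]; ring
    ext y
    constructor
    · intro h x hx
      rw [← e]
      exact h _ (by rw [hK', mem_preimage, hinv]; exact hx)
    · intro h x hx
      have := h _ hx
      rw [← e, hinv] at this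
      exact this
  have hmain := (ab_core hKc' hconv' hAB hz').1
  rw [hpol, hvol, hvol] at hmain
  have hzK := interior_subset hz
  rw [EF_eq hK hzK]
  have hf1 : volume K ≠ ∞ := hK.measure_lt_top.ne
  have hf2 : volume (polarP K z) ≠ ∞ := (polarP_isBounded hz).measure_lt_top.ne
  rw [← ENNReal.ofReal_toReal hf1, ← ENNReal.ofReal_toReal hf2]
  have h1 : ((Fintype.card (Fin n)).factorial : ℝ≥0∞) = ENNReal.ofReal (n.factorial : ℝ) := by
    rw [Fintype.card_fin, ENNReal.ofReal_natCast]
  rw [h1, ← ENNReal.ofReal_mul (by positivity), ← ENNReal.ofReal_mul ENNReal.toReal_nonneg]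
  apply ENNReal.ofReal_le_ofReal
  unfold cst
  calc (n.factorial : ℝ) * (((n : ℝ) + 1) ^ (n + 1) * (volume (stdS (Fin n))).toReal ^ 2)
      ≤ n.factorial * ((volume K).toReal * (volume (polarP K z)).toReal) := by (clear * - hmain; gcongr)
    _ = _ := by ring

theorem half_convex {m : ℕ} {K : Set (Fin (m + 1) → ℝ)} (hconv : Convex ℝ K) (i : Fin (m + 1))
    (σ : ℝ) : Convex ℝ (half K i σ) := by
  refine hconv.inter ?_
  intro x hx y hy a b ha hb _
  have h1 : 0 ≤ σ * x i := hx
  have h2 : 0 ≤ σ * y i := hy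
  have h3 : 0 ≤ a * (σ * x i) + b * (σ * y i) := by (clear * - ha h1 hb h2; positivity)
  have h4 : a * (σ * x i) + b * (σ * y i) = σ * (a • x + b • y) i := by
    simp only [Pi.add_apply, Pi.smul_apply, smul_eq_mul]; ring
  rw [h4] at h3
  exact h3

theorem half_LAB {m : ℕ} {K : Set (Fin (m + 1) → ℝ)} (hL : LABk K) (i : Fin (m + 1))
    (σ : ℝ) : LABk (half K i σ) := by
  intro x hx j
  refine ⟨hL x hx.1 j, ?_⟩
  by_cases hj : i = j
  · subst hj
    have : 0 ≤ σ * Function.update x i 0 i := by simp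
    exact this
  · have h2 : 0 ≤ σ * Function.update x j 0 i := by
      rw [Function.update_of_ne hj]; exact hx.2
    exact h2

theorem half_interior {m : ℕ} {K : Set (Fin (m + 1) → ℝ)} (hconv : Convex ℝ K)
    (hint : (interior K).Nonempty) (i : Fin (m + 1)) {σ : ℝ} (h : ∃ x ∈ K, 0 < σ * x i) :
    (interior (half K i σ)).Nonempty := by
  obtain ⟨x, hx, hxi⟩ := h
  have h1 : x ∈ closure (interior K) := by
    rw [hconv.closure_interior_eq_closure_of_nonempty_interior hint]
    exact subset_closure hx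
  have hopen : IsOpen {x : Fin (m + 1) → ℝ | 0 < σ * x i} :=
    isOpen_lt continuous_const (by fun_prop)
  obtain ⟨w, hw1, hw2⟩ := mem_closure_iff.mp h1 _ hopen hxi
  refine ⟨w, ?_⟩
  have h2 : interior K ∩ {x : Fin (m + 1) → ℝ | 0 < σ * x i} ⊆ half K i σ := by
    rintro y ⟨h3, h4⟩
    have h5 : 0 < σ * y i := h4
    have h6 : 0 ≤ σ * y i := h5.le
    exact ⟨interior_subset h3, h6⟩
  exact interior_maximal h2 (isOpen_interior.inter hopen) ⟨hw2, hw1⟩

/-- The inequality for locally anti-blocking bodies. -/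
theorem lab_core (J : Finset (Fin n)) : ∀ {K : Set (Fin n → ℝ)}, IsCompact K → Convex ℝ K →
    (interior K).Nonempty → LABk K →
    (∀ i, i ∉ J → ∃ σ : ℝ, (σ = 1 ∨ σ = -1) ∧ ∀ x ∈ K, 0 ≤ σ * x i) →
    ∀ z, ENNReal.ofReal (cst n) ≤ volume K * EF K z := by
  have top_case : ∀ {K : Set (Fin n → ℝ)}, IsCompact K → Convex ℝ K →
      (interior K).Nonempty → ∀ z, z ∉ interior K → ENNReal.ofReal (cst n) ≤ volume K * EF K z := by
    intro K hK hconv hint z hz
    have hv : 0 < volume K :=
      (isOpen_interior.measure_pos volume hint).trans_le (measure_mono interior_subset)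
    rw [EF_top hK hconv hint hz, ENNReal.mul_top hv.ne']
    exact le_top
  induction J using Finset.induction_on with
  | empty =>
    intro K hK hconv hint hL hsig z
    by_cases hz : z ∈ interior K
    · choose σ hσ using fun i => hsig i (Finset.notMem_empty i)
      exact signed_core hK hconv hL (fun i => (hσ i).1) (fun x hx i => (hσ i).2 x hx) hz
    · exact top_case hK hconv hint z hz
  | insert i J hi ih =>
    intro K hK hconv hint hL hsig z
    by_cases hz : z ∈ interior K
    swap
    · exact top_case hK hconv hint z hz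
    by_cases h1 : ∀ x ∈ K, 0 ≤ 1 * x i
    · refine ih hK hconv hint hL (fun j hj => ?_) z
      by_cases hji : j = i
      · subst hji; exact ⟨1, Or.inl rfl, h1⟩
      · exact hsig j (by simp [hji, hj])
    by_cases h2 : ∀ x ∈ K, 0 ≤ -1 * x i
    · refine ih hK hconv hint hL (fun j hj => ?_) z
      by_cases hji : j = i
      · subst hji; exact ⟨-1, Or.inr rfl, h2⟩
      · exact hsig j (by simp [hji, hj])
    push Not at h1 h2
    rcases n with _ | m
    · exact i.elim0
    have hP : Proj0 K i := fun x hx => hL x hx i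
    have hi1 : (interior (half K i 1)).Nonempty := by
      refine half_interior hconv hint i ?_
      obtain ⟨x, hx, hx2⟩ := h2
      exact ⟨x, hx, by linarith⟩
    have hi2 : (interior (half K i (-1))).Nonempty := by
      refine half_interior hconv hint i ?_
      obtain ⟨x, hx, hx2⟩ := h1
      exact ⟨x, hx, by linarith only [hx2]⟩
    have hsig' : ∀ ε : ℝ, (ε = 1 ∨ ε = -1) → ∀ j, j ∉ J →
        ∃ σ : ℝ, (σ = 1 ∨ σ = -1) ∧ ∀ x ∈ half K i ε, 0 ≤ σ * x j := by
      intro ε hε j hj
      by_cases hji : j = i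
      · subst hji; exact ⟨ε, hε, fun x hx => hx.2⟩
      · obtain ⟨σ, h3, h4⟩ := hsig j (by simp [hji, hj])
        exact ⟨σ, h3, fun x hx => h4 x hx.1⟩
    have hpos : ∀ {A : Set (Fin (m + 1) → ℝ)}, (interior A).Nonempty → 0 < volume A := fun h =>
      (isOpen_interior.measure_pos volume h).trans_le (measure_mono interior_subset)
    exact glue hK hP hz (cst_pos _) (hpos hi1) (hpos hi2)
      (fun ζ _ => ih (half_compact hK i 1) (half_convex hconv i 1) hi1 (half_LAB hL i 1)
        (hsig' 1 (Or.inl rfl)) _)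
      (fun ζ _ => ih (half_compact hK i (-1)) (half_convex hconv i (-1)) hi2 (half_LAB hL i (-1))
        (hsig' (-1) (Or.inr rfl)) _)

/-- **Main inequality**, in coordinates. -/
theorem lab_polar {K : Set (Fin n → ℝ)} (hK : IsCompact K) (hconv : Convex ℝ K) (hL : LABk K)
    {z : Fin n → ℝ} (hz : z ∈ interior K) :
    ENNReal.ofReal (((n : ℝ) + 1) ^ (n + 1) / (n.factorial : ℝ) ^ 2) ≤
      volume K * volume (polarP K z) := by
  have h := lab_core Finset.univ hK hconv ⟨z, hz⟩ hL (fun i hi => absurd (Finset.mem_univ i) hi) z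
  rw [EF_eq hK (interior_subset hz)] at h
  have hf1 : volume K ≠ ∞ := hK.measure_lt_top.ne
  have hf2 : volume (polarP K z) ≠ ∞ := (polarP_isBounded hz).measure_lt_top.ne
  have h1 : ((Fintype.card (Fin n)).factorial : ℝ≥0∞) = ENNReal.ofReal (n.factorial : ℝ) := by
    rw [Fintype.card_fin, ENNReal.ofReal_natCast]
  rw [← ENNReal.ofReal_toReal hf1, ← ENNReal.ofReal_toReal hf2] at h ⊢
  rw [h1, ← ENNReal.ofReal_mul (by positivity), ← ENNReal.ofReal_mul ENNReal.toReal_nonneg,
    ENNReal.ofReal_le_ofReal_iff (by (clear * -; positivity))] at h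
  rw [← ENNReal.ofReal_mul ENNReal.toReal_nonneg]
  apply ENNReal.ofReal_le_ofReal
  unfold cst at h
  have hv := stdS_toReal_ge n
  have hfp : (0 : ℝ) < n.factorial := by positivity
  have h2 : (n.factorial : ℝ) * (((n : ℝ) + 1) ^ (n + 1) * (volume (stdS (Fin n))).toReal ^ 2) ≤
      n.factorial * ((volume K).toReal * (volume (polarP K z)).toReal) := by
    calc _ ≤ _ := h
      _ = _ := by ring
  have h3 := le_of_mul_le_mul_left h2 hfp
  refine le_trans ?_ h3
  calc ((n : ℝ) + 1) ^ (n + 1) / (n.factorial : ℝ) ^ 2 =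
        ((n : ℝ) + 1) ^ (n + 1) * (1 / n.factorial) ^ 2 := by ring
    _ ≤ _ := by (clear * - hv; gcongr)

end Vale.Agent.P248
end
end
end

section

section

section

/-! Simplices in `ℝ³` satisfy the Mahler inequality; affine invariance. -/

set_option linter.unusedSectionVars false

open MeasureTheory Set
open scoped ENNReal Topology Matrix

namespace Vale.Agent.P248

/-- The homeomorphism `x ↦ M x + w`. -/
theorem exists_homeo_matrix (M : Matrix (Fin 3) (Fin 3) ℝ) (hM : M.det ≠ 0) (w : V3) :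
    ∃ h : V3 ≃ₜ V3, ∀ x, h x = M *ᵥ x + w := by
  have hdet : LinearMap.det (Matrix.toLin' M) ≠ 0 := by rwa [LinearMap.det_toLin']
  refine ⟨((LinearMap.equivOfDetNeZero (Matrix.toLin' M) hdet).toContinuousLinearEquiv.toHomeomorph).trans
    (Homeomorph.addRight w), fun x => rfl⟩

theorem volume_affine_image (M : Matrix (Fin 3) (Fin 3) ℝ) (w : V3) (K : Set V3) :
    volume ((fun x => M *ᵥ x + w) '' K) = ENNReal.ofReal |M.det| * volume K := by
  have h1 : (fun x => M *ᵥ x + w) '' K = (fun x => x + (-w)) ⁻¹' (Matrix.toLin' M '' K) := by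
    ext y
    simp only [mem_image, mem_preimage, Matrix.toLin'_apply]
    constructor
    · rintro ⟨x, hx, rfl⟩
      exact ⟨x, hx, by simp⟩
    · rintro ⟨x, hx, h⟩
      exact ⟨x, hx, by rw [h]; simp⟩
  rw [h1, measure_preimage_add_right, Measure.addHaar_image_linearMap, LinearMap.det_toLin']

theorem polarP_affine_image (M : Matrix (Fin 3) (Fin 3) ℝ) (w : V3) (K : Set V3) (z : V3) :
    polarP ((fun x => M *ᵥ x + w) '' K) (M *ᵥ z + w) = Matrix.toLin' Mᵀ ⁻¹' polarP K z := by
  ext y
  simp only [polarP, mem_ofPred_eq, mem_preimage, Matrix.toLin'_apply, forall_mem_image]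
  refine forall₂_congr fun x _ => ?_
  have h1 : ∑ i, ((M *ᵥ x + w) i - (M *ᵥ z + w) i) * y i = (M *ᵥ (x - z)) ⬝ᵥ y := by
    simp only [dotProduct]
    refine Finset.sum_congr rfl fun i _ => ?_
    rw [Matrix.mulVec_sub]
    simp only [Pi.add_apply, Pi.sub_apply]
    ring
  have h2 : ∑ i, (x i - z i) * (Mᵀ *ᵥ y) i = (x - z) ⬝ᵥ (Mᵀ *ᵥ y) := by
    simp only [dotProduct, Pi.sub_apply]
  rw [h1, h2, Matrix.mulVec_transpose, dotProduct_comm _ (y ᵥ* M), dotProduct_comm _ y,
    Matrix.dotProduct_mulVec]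

/-- affine invariance -/
theorem Good.affine {M : Matrix (Fin 3) (Fin 3) ℝ} (hM : M.det ≠ 0) (w : V3) {K : Set V3}
    (hK : Good K) : Good ((fun x => M *ᵥ x + w) '' K) := by
  obtain ⟨h, hh⟩ := exists_homeo_matrix M hM w
  have hfun : (fun x => M *ᵥ x + w) = (h : V3 → V3) := by
    funext x; exact (hh x).symm
  intro z' hz'
  rw [hfun, ← h.image_interior] at hz'
  obtain ⟨z, hz, rfl⟩ := hz'
  rw [hh z, volume_affine_image, polarP_affine_image]
  have hdet : LinearMap.det (Matrix.toLin' Mᵀ) ≠ 0 := by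
    rw [LinearMap.det_toLin', Matrix.det_transpose]; exact hM
  rw [Measure.addHaar_preimage_linearMap volume hdet, LinearMap.det_toLin', Matrix.det_transpose]
  have h1 := hK z hz
  have h2 : ENNReal.ofReal |M.det| * volume K * (ENNReal.ofReal |M.det⁻¹| * volume (polarP K z)) =
      volume K * volume (polarP K z) := by
    have h3 : ENNReal.ofReal |M.det| * ENNReal.ofReal |M.det⁻¹| = 1 := by
      rw [← ENNReal.ofReal_mul (abs_nonneg _), ← abs_mul, mul_inv_cancel₀ hM, abs_one,
        ENNReal.ofReal_one]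
    calc _ = (ENNReal.ofReal |M.det| * ENNReal.ofReal |M.det⁻¹|) *
          (volume K * volume (polarP K z)) := by ring
      _ = _ := by rw [h3, one_mul]
  rw [h2]
  exact h1

/-- vertices of the standard simplex -/
def stdP : Option (Fin 3) → V3
  | none => 0
  | some k => Pi.single k 1

theorem stdS_convex : Convex ℝ (stdS (Fin 3)) := by
  intro x hx y hy a b ha hb hab
  refine ⟨fun i => ?_, ?_⟩
  · have h1 := hx.1 i
    have h2 := hy.1 i
    simp only [Pi.add_apply, Pi.smul_apply, smul_eq_mul]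
    positivity
  · simp only [Pi.add_apply, Pi.smul_apply, smul_eq_mul, Finset.sum_add_distrib, ← Finset.mul_sum]
    have h1 := hx.2
    have h2 := hy.2
    linarith [mul_eq_zero_of_left (sub_eq_zero.2 hab) (a + b - (1)), mul_nonneg (sub_nonneg.2 hb) (sub_nonneg.2 h2), mul_eq_zero_of_left (sub_eq_zero.2 hab) (b - (0)), mul_nonneg (sub_nonneg.2 ha) (sub_nonneg.2 h1), mul_eq_zero_of_left (sub_eq_zero.2 hab) (a - (0))]

theorem stdS_eq_hull : convexHull ℝ (range stdP) = stdS (Fin 3) := by
  apply Subset.antisymm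
  · apply convexHull_min _ stdS_convex
    rintro _ ⟨o, rfl⟩
    cases o with
    | none => exact ⟨fun i => le_refl _, by simp only [stdP, Pi.zero_apply, Finset.sum_const_zero, zero_le_one]⟩
    | some k =>
      refine ⟨fun i => ?_, ?_⟩
      · simp only [stdP, Pi.single_apply]
        split_ifs <;> norm_num
      · simp only [stdP, Finset.sum_pi_single', Finset.mem_univ, ↓reduceIte, Std.le_refl]
  · intro x hx
    let wt : Option (Fin 3) → ℝ := fun o => o.elim (1 - ∑ i, x i) x
    have hw0 : ∀ o ∈ Finset.univ, 0 ≤ wt o := by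
      intro o _
      cases o with
      | none => exact sub_nonneg.mpr hx.2
      | some k => exact hx.1 k
    have hw1 : ∑ o, wt o = 1 := by
      rw [Fintype.sum_option]
      change (1 - ∑ i, x i) + ∑ i, x i = 1
      ring
    have h := (convex_convexHull ℝ (range stdP)).sum_mem (t := Finset.univ) (w := wt) (z := stdP)
      hw0 hw1 (fun o _ => subset_convexHull ℝ _ ⟨o, rfl⟩)
    have hx2 : ∑ o, wt o • stdP o = x := by
      rw [Fintype.sum_option]
      change (1 - ∑ i, x i) • (0 : V3) + ∑ k, x k • (Pi.single k 1 : V3) = x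
      rw [smul_zero, zero_add]
      ext i
      simp only [Finset.sum_apply, Pi.smul_apply, Pi.single_apply, smul_eq_mul, mul_ite, mul_one, mul_zero, Finset.sum_ite_eq, Finset.mem_univ, ↓reduceIte]
    rwa [hx2] at h

theorem stdS_isCompact : IsCompact (stdS (Fin 3)) := by
  rw [← stdS_eq_hull]
  exact (finite_range stdP).isCompact_convexHull (𝕜 := ℝ)

theorem stdS_good : Good (stdS (Fin 3)) := by
  intro z hz
  have hL : LABk (stdS (Fin 3)) := by
    intro x hx i
    refine ⟨fun j => ?_, ?_⟩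
    · rw [Function.update_apply]
      split_ifs
      · exact le_refl _
      · exact hx.1 j
    · refine le_trans (Finset.sum_le_sum fun j _ => ?_) hx.2
      rw [Function.update_apply]
      split_ifs
      · exact hx.1 j
      · exact le_refl _
  have h := lab_polar stdS_isCompact stdS_convex hL hz
  have h2 : (((3 : ℕ) : ℝ) + 1) ^ (3 + 1) / ((3 : ℕ).factorial : ℝ) ^ 2 = 64 / 9 := by
    norm_num [Nat.factorial]
  rwa [h2] at h

theorem simplex_good_aux {p : Option (Fin 3) → V3}
    (hi : (interior (convexHull ℝ (range p))).Nonempty) : Good (convexHull ℝ (range p)) := by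
  have hspan : affineSpan ℝ (range p) = ⊤ :=
    interior_convexHull_nonempty_iff_affineSpan_eq_top.mp hi
  have hfin : Module.finrank ℝ (vectorSpan ℝ (range p)) = 3 := by
    have h1 : vectorSpan ℝ (range p) = ⊤ := by
      rw [← direction_affineSpan, hspan, AffineSubspace.direction_top]
    rw [h1, finrank_top]
    simp
  have hind : AffineIndependent ℝ p :=
    (affineIndependent_iff_finrank_vectorSpan_eq ℝ p (by simp only [Fintype.card_option, Fintype.card_fin, Nat.reduceAdd] : Fintype.card (Option (Fin 3)) = 3 + 1)).mpr hfin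
  have hlin := (affineIndependent_iff_linearIndependent_vsub ℝ p none).mp hind
  let R : Matrix (Fin 3) (Fin 3) ℝ := Matrix.of fun k => p (some k) - p none
  have hR : LinearIndependent ℝ R.row := by
    have h := hlin.comp (fun k : Fin 3 => (⟨some k, by simp⟩ : {x : Option (Fin 3) // x ≠ none}))
      (fun a b hab => by simpa using hab)
    exact h
  have hRdet : R.det ≠ 0 := by
    have h := Matrix.linearIndependent_rows_iff_isUnit.mp hR
    rw [Matrix.isUnit_iff_isUnit_det] at h
    exact h.ne_zero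
  have hM : (Rᵀ).det ≠ 0 := by rwa [Matrix.det_transpose]
  have himg : convexHull ℝ (range p) = (fun x => Rᵀ *ᵥ x + p none) '' stdS (Fin 3) := by
    let f : V3 →ᵃ[ℝ] V3 := (Matrix.toLin' Rᵀ).toAffineMap + AffineMap.const ℝ V3 (p none)
    have hf : (fun x => Rᵀ *ᵥ x + p none) = (f : V3 → V3) := rfl
    rw [hf, ← stdS_eq_hull, AffineMap.image_convexHull, ← range_comp]
    congr 1
    congr 1
    funext o
    cases o with
    | none =>
      change p none = Rᵀ *ᵥ (0 : V3) + p none
      simp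
    | some k =>
      change p (some k) = Rᵀ *ᵥ (Pi.single k 1 : V3) + p none
      rw [Matrix.mulVec_single_one]
      ext i
      simp only [Matrix.col, Matrix.transpose, Matrix.of_apply, Pi.sub_apply, Pi.add_apply, sub_add_cancel, R]
  rw [himg]
  exact stdS_good.affine hM _

variable {ι : Type} [Fintype ι]

theorem simplex_good {p : ι → V3} (h4 : Fintype.card ι = 4)
    (hi : (interior (convexHull ℝ (range p))).Nonempty) : Good (convexHull ℝ (range p)) := by
  have e : Option (Fin 3) ≃ ι := Fintype.equivOfCardEq (by simp only [Fintype.card_option, Fintype.card_fin, Nat.reduceAdd, h4])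
  have hr : range p = range (p ∘ e) := (e.surjective.range_comp p).symm
  rw [hr] at hi ⊢
  exact simplex_good_aux hi

theorem card_ge_four {p : ι → V3}
    (hi : (interior (convexHull ℝ (range p))).Nonempty) : 4 ≤ Fintype.card ι := by
  have hspan : affineSpan ℝ (range p) = ⊤ :=
    interior_convexHull_nonempty_iff_affineSpan_eq_top.mp hi
  have hfin : Module.finrank ℝ (vectorSpan ℝ (range p)) = 3 := by
    have h1 : vectorSpan ℝ (range p) = ⊤ := by
      rw [← direction_affineSpan, hspan, AffineSubspace.direction_top]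
    rw [h1, finrank_top]
    simp only [Module.finrank_fintype_fun_eq_card, Fintype.card_fin]
  have hne : Nonempty ι := by
    by_contra h
    rw [not_nonempty_iff] at h
    rw [range_eq_empty, convexHull_empty, interior_empty] at hi
    exact hi.ne_empty rfl
  have hpos : 0 < Fintype.card ι := Fintype.card_pos
  obtain ⟨m, hm⟩ : ∃ m, Fintype.card ι = m + 1 := ⟨Fintype.card ι - 1, by omega⟩
  have := finrank_vectorSpan_range_le ℝ p hm
  (clear * - hfin hm this; omega)

end Vale.Agent.P248
end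
end
end

section

section

section

/-! The fibre integrals of a fiber sum. -/

set_option linter.unusedSectionVars false

open MeasureTheory Set Filter
open scoped ENNReal Topology

namespace Vale.Agent.P248

variable {m : ℕ}

theorem dot_ins (i : Fin (m + 1)) (w : Fin (m + 1) → ℝ) (s : ℝ) (y : Fin m → ℝ) :
    ∑ k, w k * ins i s y k = w i * s + ∑ j, w (i.succAbove j) * y j := by
  rw [Fin.sum_univ_succAbove _ i]
  simp only [ins, Fin.insertNth_apply_same, Fin.insertNth_apply_succAbove]

variable {K K1 K2 : Set (Fin (m + 1) → ℝ)} {i : Fin (m + 1)} {z : Fin (m + 1) → ℝ}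

/-- The support function of a fiber sum. -/
theorem hs_fiber (hn : K.Nonempty) (hK1 : IsCompact K1) (hK2 : IsCompact K2)
    (h : ∀ x ∈ K, ∃ r : ℝ, x + r • (Pi.single i 1 : Fin (m + 1) → ℝ) ∈ K1 ∧
      x - r • (Pi.single i 1 : Fin (m + 1) → ℝ) ∈ K2) (hz : z i = 0)
    {μ ν s s1 s2 : ℝ} (hμ : 0 < μ) (hν : 0 < ν) (h1 : μ + ν = 1) (e1 : μ * s1 = s / 2)
    (e2 : ν * s2 = s / 2) (y1 y2 : Fin m → ℝ) :
    hs K z (ins i s (fun k => μ * y1 k + ν * y2 k)) ≤
      μ * hs K1 z (ins i s1 y1) + ν * hs K2 z (ins i s2 y2) := by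
  refine hs_le hn fun x hx => ?_
  obtain ⟨r, hr1, hr2⟩ := h x hx
  have f1 := le_hs hK1 z (ins i s1 y1) hr1
  have f2 := le_hs hK2 z (ins i s2 y2) hr2
  rw [dot_ins] at f1 f2 ⊢
  have g1 : ∀ j, (x + r • (Pi.single i 1 : Fin (m + 1) → ℝ)) (i.succAbove j) =
      x (i.succAbove j) := by
    intro j
    simp
  have g2 : ∀ j, (x - r • (Pi.single i 1 : Fin (m + 1) → ℝ)) (i.succAbove j) =
      x (i.succAbove j) := by
    intro j
    simp
  have g3 : (x + r • (Pi.single i 1 : Fin (m + 1) → ℝ)) i = x i + r := by simp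
  have g4 : (x - r • (Pi.single i 1 : Fin (m + 1) → ℝ)) i = x i - r := by simp
  simp only [g1, g3, hz, sub_zero] at f1
  simp only [g2, g4, hz, sub_zero] at f2
  rw [hz, sub_zero]
  have g5 : ∑ j, (x (i.succAbove j) - z (i.succAbove j)) * (μ * y1 j + ν * y2 j) =
      μ * ∑ j, (x (i.succAbove j) - z (i.succAbove j)) * y1 j +
      ν * ∑ j, (x (i.succAbove j) - z (i.succAbove j)) * y2 j := by
    rw [Finset.mul_sum, Finset.mul_sum, ← Finset.sum_add_distrib]
    refine Finset.sum_congr rfl fun j _ => ?_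
    ring
  rw [g5]
  have k1 := mul_le_mul_of_nonneg_left f1 hμ.le
  have k2 := mul_le_mul_of_nonneg_left f2 hν.le
  have k3 : μ * ((x i + r) * s1) + ν * ((x i - r) * s2) = x i * s := by
    have : μ * ((x i + r) * s1) + ν * ((x i - r) * s2) =
        (x i + r) * (μ * s1) + (x i - r) * (ν * s2) := by ring
    rw [this, e1, e2]; ring
  linarith

theorem exp_rpow_aux {μ a : ℝ} :
    (ENNReal.ofReal (Real.exp (-a))) ^ μ = ENNReal.ofReal (Real.exp (-(μ * a))) := by
  rw [ENNReal.ofReal_rpow_of_pos (Real.exp_pos _), ← Real.exp_mul]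
  congr 2
  ring

/-- The fibre integrals of a fiber sum. -/
theorem fib_fiber (hK : IsCompact K) (hn : K.Nonempty) (hK1 : IsCompact K1) (hn1 : K1.Nonempty)
    (hK2 : IsCompact K2) (hn2 : K2.Nonempty)
    (h : ∀ x ∈ K, ∃ r : ℝ, x + r • (Pi.single i 1 : Fin (m + 1) → ℝ) ∈ K1 ∧
      x - r • (Pi.single i 1 : Fin (m + 1) → ℝ) ∈ K2) (hz : z i = 0)
    {μ ν s s1 s2 : ℝ} (hμ : 0 < μ) (hν : 0 < ν) (h1 : μ + ν = 1) (e1 : μ * s1 = s / 2)
    (e2 : ν * s2 = s / 2) :
    fib K1 z i s1 ^ μ * fib K2 z i s2 ^ ν ≤ fib K z i s := by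
  refine PL.plw_pi m hμ hν h1 _ _ _ (measurable_fib_inner hK1 hn1 s1)
    (measurable_fib_inner hK2 hn2 s2) (measurable_fib_inner hK hn s) fun y1 y2 => ?_
  rw [exp_rpow_aux, exp_rpow_aux, ← ENNReal.ofReal_mul (Real.exp_pos _).le, ← Real.exp_add]
  apply ENNReal.ofReal_le_ofReal
  apply Real.exp_le_exp.mpr
  have := hs_fiber hn hK1 hK2 h hz hμ hν h1 e1 e2 y1 y2
  linarith only [this]

/-- Log-concavity of the fibre integral. -/
theorem fib_wlc (hK : IsCompact K) (hn : K.Nonempty) {μ ν s1 s2 : ℝ} (hμ : 0 < μ) (hν : 0 < ν)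
    (h1 : μ + ν = 1) :
    fib K z i s1 ^ μ * fib K z i s2 ^ ν ≤ fib K z i (μ * s1 + ν * s2) := by
  refine PL.plw_pi m hμ hν h1 _ _ _ (measurable_fib_inner hK hn s1)
    (measurable_fib_inner hK hn s2) (measurable_fib_inner hK hn _) fun y1 y2 => ?_
  rw [exp_rpow_aux, exp_rpow_aux, ← ENNReal.ofReal_mul (Real.exp_pos _).le, ← Real.exp_add]
  apply ENNReal.ofReal_le_ofReal
  apply Real.exp_le_exp.mpr
  have e : ins i (μ * s1 + ν * s2) (fun k => μ * y1 k + ν * y2 k) =
      μ • ins i s1 y1 + ν • ins i s2 y2 := by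
    rw [ins_smul, ins_smul, ins_add]
    rfl
  have h2 := hs_add_le hK hn z (μ • ins i s1 y1) (ν • ins i s2 y2)
  rw [hs_smul hK hn z _ hμ.le, hs_smul hK hn z _ hν.le, ← e] at h2
  linarith

/-- The fibre integral is finite. -/
theorem fib_finite (hK : IsCompact K) {c : ℝ} (hz : z i = 0)
    (hc : Function.update z i c ∈ interior K) (s : ℝ) : fib K z i s < ∞ := by
  have hn : K.Nonempty := ⟨_, interior_subset hc⟩
  have h0 : fib K z i 0 < ∞ := by
    have h1 := fib_zero_lt_top (i := i) hK hc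
    rwa [fib_update hK hn] at h1
  have h1 := fib_mid hK hn (z := z) (i := i) s (-s)
  have e : (s + -s) / 2 = 0 := by ring
  rw [e] at h1
  by_contra hne
  have htop : fib K z i s = ∞ := by simpa only [gt_iff_lt, not_lt, top_le_iff] using hne
  rw [htop, ENNReal.top_mul (fib_pos hK hn _).ne'] at h1
  exact (ENNReal.pow_lt_top h0 (n := 2)).not_ge h1

theorem fib_continuous (hK : IsCompact K) {c : ℝ} (hz : z i = 0)
    (hc : Function.update z i c ∈ interior K) : Continuous fun s => (fib K z i s).toReal := by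
  have hn : K.Nonempty := ⟨_, interior_subset hc⟩
  have hfin := fib_finite hK hz hc
  have hpos : ∀ s, 0 < (fib K z i s).toReal := fun s =>
    ENNReal.toReal_pos (fib_pos hK hn s).ne' (hfin s).ne
  have hconc : ConcaveOn ℝ univ fun s => Real.log (fib K z i s).toReal := by
    refine ⟨convex_univ, fun s1 _ s2 _ μ ν hμ hν h1 => ?_⟩
    simp only [smul_eq_mul]
    rcases hμ.eq_or_lt with h0 | hμ
    · have h2 : ν = 1 := by rw [← h0] at h1; simpa using h1
      rw [← h0, h2]; simp
    rcases hν.eq_or_lt with h0 | hν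
    · have h2 : μ = 1 := by rw [← h0] at h1; simpa using h1
      rw [← h0, h2]; simp
    have h3 := ENNReal.toReal_mono (hfin _).ne (fib_wlc hK hn (z := z) (i := i) (s1 := s1)
      (s2 := s2) hμ hν h1)
    rw [ENNReal.toReal_mul, ← ENNReal.toReal_rpow, ← ENNReal.toReal_rpow] at h3
    have h4 := Real.log_le_log (mul_pos (Real.rpow_pos_of_pos (hpos s1) μ)
      (Real.rpow_pos_of_pos (hpos s2) ν)) h3
    rwa [Real.log_mul (Real.rpow_pos_of_pos (hpos s1) μ).ne'
      (Real.rpow_pos_of_pos (hpos s2) ν).ne', Real.log_rpow (hpos s1),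
      Real.log_rpow (hpos s2)] at h4
  have hcont : Continuous fun s => Real.log (fib K z i s).toReal := by
    rw [← continuousOn_univ]
    exact hconc.continuousOn isOpen_univ
  have h5 : (fun s => (fib K z i s).toReal) =
      fun s => Real.exp (Real.log (fib K z i s).toReal) := by
    funext s
    rw [Real.exp_log (hpos s)]
  rw [h5]
  exact Real.continuous_exp.comp hcont

end Vale.Agent.P248
end
end
end

section

section

section

/-! Permutations of the barycentric coordinates of the standard simplex. -/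

set_option linter.unusedSectionVars false

open MeasureTheory Set
open scoped ENNReal Topology Matrix

namespace Vale.Agent.P248

theorem mem_stdS_iff {x : V3} : x ∈ stdS (Fin 3) ↔ ∀ i, 0 ≤ lam i x := by
  constructor
  · rintro ⟨h1, h2⟩ i
    refine Fin.cases ?_ (fun k => ?_) i
    · rw [lam_zero]; linarith
    · rw [lam_succ]; exact h1 k
  · intro h
    refine ⟨fun k => by rw [← lam_succ k x]; exact h k.succ, ?_⟩
    have := h 0
    rw [lam_zero] at this
    linarith only [this]

theorem ext_lam {x y : V3} (h : ∀ i, lam i x = lam i y) : x = y := by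
  ext k
  have := h k.succ
  rwa [lam_succ, lam_succ] at this

theorem lam_comb (i : Fin 4) (s t : ℝ) (hst : s + t = 1) (x y : V3) :
    lam i (s • x + t • y) = s * lam i x + t * lam i y := by
  refine Fin.cases ?_ (fun k => ?_) i
  · simp only [lam_zero, Pi.add_apply, Pi.smul_apply, smul_eq_mul, Finset.sum_add_distrib,
      ← Finset.mul_sum]
    have : s = 1 - t := by linarith only [hst]
    rw [this]; ring
  · simp [lam_succ]

theorem lam_continuous (i : Fin 4) : Continuous (lam i) := by
  refine Fin.cases ?_ (fun k => ?_) i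
  · exact continuous_const.sub (continuous_finsetSum _ fun l _ => continuous_apply l)
  · exact continuous_apply k

/-- Permuting the barycentric coordinates. -/
noncomputable def chartP (τ : Equiv.Perm (Fin 4)) (x : V3) : V3 := fun k => lam (τ k.succ) x

theorem lam_chartP (τ : Equiv.Perm (Fin 4)) (i : Fin 4) (x : V3) :
    lam i (chartP τ x) = lam (τ i) x := by
  refine Fin.cases ?_ (fun k => ?_) i
  · rw [lam_zero]
    have h1 : ∑ i, lam (τ i) x = 1 := by
      rw [Equiv.sum_comp τ (fun i => lam i x)]; exact sum_lam x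
    rw [Fin.sum_univ_succ] at h1
    simp only [chartP]
    linarith only [h1]
  · rw [lam_succ]; rfl

theorem chartP_mul (τ σ : Equiv.Perm (Fin 4)) (x : V3) :
    chartP σ (chartP τ x) = chartP (τ * σ) x := by
  refine ext_lam fun i => ?_
  rw [lam_chartP, lam_chartP, lam_chartP]
  rfl

theorem chartP_one (x : V3) : chartP 1 x = x := by
  refine ext_lam fun i => ?_
  rw [lam_chartP]; rfl

theorem chartP_inv (τ : Equiv.Perm (Fin 4)) (x : V3) : chartP τ⁻¹ (chartP τ x) = x := by
  rw [chartP_mul, mul_inv_cancel, chartP_one]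

theorem chartP_inv' (τ : Equiv.Perm (Fin 4)) (x : V3) : chartP τ (chartP τ⁻¹ x) = x := by
  rw [chartP_mul, inv_mul_cancel, chartP_one]

theorem chartP_continuous (τ : Equiv.Perm (Fin 4)) : Continuous (chartP τ) :=
  continuous_pi fun _ => lam_continuous _

theorem mem_chartP_image {τ : Equiv.Perm (Fin 4)} {K : Set V3} {x : V3} :
    x ∈ chartP τ '' K ↔ chartP τ⁻¹ x ∈ K := by
  constructor
  · rintro ⟨y, hy, rfl⟩; rwa [chartP_inv]
  · intro h; exact ⟨_, h, chartP_inv' τ x⟩

theorem chartP_image_stdS (τ : Equiv.Perm (Fin 4)) :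
    chartP τ '' stdS (Fin 3) = stdS (Fin 3) := by
  ext x
  rw [mem_chartP_image, mem_stdS_iff, mem_stdS_iff]
  simp only [lam_chartP]
  constructor
  · intro h i
    have := h (τ i)
    rwa [show τ⁻¹ (τ i) = i from τ.symm_apply_apply i] at this
  · intro h i; exact h _

theorem chartP_comb (τ : Equiv.Perm (Fin 4)) (s t : ℝ) (hst : s + t = 1) (x y : V3) :
    chartP τ (s • x + t • y) = s • chartP τ x + t • chartP τ y := by
  ext k
  simp only [chartP, Pi.add_apply, Pi.smul_apply, smul_eq_mul]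
  exact lam_comb _ s t hst x y

theorem chartP_convex {τ : Equiv.Perm (Fin 4)} {K : Set V3} (hK : Convex ℝ K) :
    Convex ℝ (chartP τ '' K) := by
  rintro _ ⟨x, hx, rfl⟩ _ ⟨y, hy, rfl⟩ s t hs ht hst
  exact ⟨s • x + t • y, hK hx hy hs ht hst, chartP_comb τ s t hst x y⟩

theorem chartP_compact {τ : Equiv.Perm (Fin 4)} {K : Set V3} (hK : IsCompact K) :
    IsCompact (chartP τ '' K) := hK.image (chartP_continuous τ)

/-- gradients of the barycentric coordinates -/
def glam (i : Fin 4) : V3 := Fin.cases (motive := fun _ => V3) (fun _ => -1) (fun k => Pi.single k 1) i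

theorem lam_eq_glam (i : Fin 4) (x : V3) : lam i x = glam i ⬝ᵥ x + lam i 0 := by
  refine Fin.cases ?_ (fun k => ?_) i
  · simp only [glam, Fin.cases_zero, lam_zero, dotProduct, neg_mul, one_mul, Finset.sum_neg_distrib,
      Pi.zero_apply, Finset.sum_const_zero]
    ring
  · simp [glam, lam_succ]

/-- matrix of `chartP τ` -/
def matP (τ : Equiv.Perm (Fin 4)) : Matrix (Fin 3) (Fin 3) ℝ := Matrix.of fun k => glam (τ k.succ)

theorem chartP_eq (τ : Equiv.Perm (Fin 4)) (x : V3) : chartP τ x = matP τ *ᵥ x + chartP τ 0 := by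
  ext k
  simp only [chartP, Pi.add_apply, Matrix.mulVec, matP, Matrix.of_apply]
  exact lam_eq_glam _ x

theorem volume_stdS3 : volume (stdS (Fin 3)) = ENNReal.ofReal (1 / 6) := by
  rw [volume_stdS_eq]
  norm_num [Nat.factorial]

theorem matP_det (τ : Equiv.Perm (Fin 4)) : |(matP τ).det| = 1 := by
  have h1 := volume_affine_image (matP τ) (chartP τ 0) (stdS (Fin 3))
  have h2 : (fun x => matP τ *ᵥ x + chartP τ 0) = chartP τ := by
    funext x; exact (chartP_eq τ x).symm
  rw [h2, chartP_image_stdS, volume_stdS3, ← ENNReal.ofReal_mul (abs_nonneg _)] at h1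
  have h3 := (ENNReal.ofReal_eq_ofReal_iff (by (clear * -; norm_num)) (by positivity)).mp h1
  (clear * - h3; linarith)

theorem volume_chartP (τ : Equiv.Perm (Fin 4)) (K : Set V3) :
    volume (chartP τ '' K) = volume K := by
  have h1 := volume_affine_image (matP τ) (chartP τ 0) K
  have h2 : (fun x => matP τ *ᵥ x + chartP τ 0) = chartP τ := by
    funext x; exact (chartP_eq τ x).symm
  rw [h2, matP_det, ENNReal.ofReal_one, one_mul] at h1
  exact h1

theorem eta_chartP (τ : Equiv.Perm (Fin 4)) (K : Set V3) (r : ℝ) (j k : Fin 4) :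
    eta (chartP τ '' K) r j k = eta K r (τ j) (τ k) := by
  unfold eta
  congr 1
  ext t
  constructor
  · rintro ⟨_, ⟨⟨x, hx, rfl⟩, h⟩, rfl⟩
    refine ⟨x, ⟨hx, ?_⟩, ?_⟩
    · simpa only [mem_ofPred_eq, lam_chartP] using h
    · simp only [lam_chartP]
  · rintro ⟨x, ⟨hx, h⟩, rfl⟩
    refine ⟨chartP τ x, ⟨⟨x, hx, rfl⟩, ?_⟩, ?_⟩
    · simpa only [mem_ofPred_eq, lam_chartP] using h
    · simp only [lam_chartP]

end Vale.Agent.P248
end
end
end

section

section

section

/-! Volume products at points far from the centroid of the standard simplex. -/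

set_option linter.unusedSectionVars false

open MeasureTheory Set
open scoped ENNReal Topology Matrix

namespace Vale.Agent.P248

/-- columns `p_k - p_0` for the points `p_0 = b_0 (1,1,1)`, `p_k = -b_k e_k` -/
def farM (b : Fin 4 → ℝ) : Matrix (Fin 3) (Fin 3) ℝ :=
  Matrix.of fun i k => -(if i = k then b k.succ else 0) - b 0

theorem farM_det (b : Fin 4 → ℝ) :
    (farM b).det = -(b 1 * b 2 * b 3 + b 0 * (b 1 * b 2 + b 1 * b 3 + b 2 * b 3)) := by
  rw [Matrix.det_fin_three]
  simp only [farM, Matrix.of_apply]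
  have h1 : (1 : Fin 3) ≠ 0 := by decide
  have h2 : (2 : Fin 3) ≠ 0 := by decide
  have h3 : (2 : Fin 3) ≠ 1 := by decide
  have e1 : (0 : Fin 3).succ = (1 : Fin 4) := rfl
  have e2 : (1 : Fin 3).succ = (2 : Fin 4) := rfl
  have e3 : (2 : Fin 3).succ = (3 : Fin 4) := rfl
  simp only [e1, if_true, e2, e3, h3.symm, if_false, h3, h1.symm, h1, h2, h2.symm]
  ring

/-- the image of the standard simplex lies in the polar body -/
theorem farM_image_subset {K : Set V3} {a : ℝ} (hla : ∀ x ∈ K, ∀ i, -a ≤ lam i x) {z : V3}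
    (hz : ∀ i, 0 < lam i z + a) :
    (fun x => farM (fun i => (lam i z + a)⁻¹) *ᵥ x + fun _ => (lam 0 z + a)⁻¹) '' stdS (Fin 3) ⊆
      polarP K z := by
  rintro _ ⟨w, hw, rfl⟩
  simp only [polarP, mem_ofPred_eq]
  intro x hx
  set b : Fin 4 → ℝ := fun i => (lam i z + a)⁻¹ with hb
  have hb0 : ∀ i, 0 < b i := fun i => inv_pos.mpr (hz i)
  have hbm : ∀ i, b i * (lam i z + a) = 1 := fun i => inv_mul_cancel₀ (hz i).ne'
  have hw0 := hw.1
  have hw1 := hw.2
  have hx0 := hla x hx 0
  have hx1 := hla x hx 1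
  have hx2 := hla x hx 2
  have hx3 := hla x hx 3
  have hz0 := hbm 0
  have hz1 := hbm 1
  have hz2 := hbm 2
  have hz3 := hbm 3
  have hc0 := hb0 0
  have hc1 := hb0 1
  have hc2 := hb0 2
  have hc3 := hb0 3
  have e1 : (0 : Fin 3).succ = (1 : Fin 4) := rfl
  have e2 : (1 : Fin 3).succ = (2 : Fin 4) := rfl
  have e3 : (2 : Fin 3).succ = (3 : Fin 4) := rfl
  have l1 : ∀ y : V3, lam 1 y = y 0 := fun y => rfl
  have l2 : ∀ y : V3, lam 2 y = y 1 := fun y => rfl
  have l3 : ∀ y : V3, lam 3 y = y 2 := fun y => rfl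
  rw [lam_zero, Fin.sum_univ_three] at hx0 hz0
  rw [l1] at hx1 hz1
  rw [l2] at hx2 hz2
  rw [l3] at hx3 hz3
  have key : ∑ i, (x i - z i) * ((farM b *ᵥ w) i + b 0) =
      (1 - (w 0 + w 1 + w 2)) * (b 0 * ((x 0 + x 1 + x 2) - (z 0 + z 1 + z 2))) +
      w 0 * (b 1 * (z 0 - x 0)) + w 1 * (b 2 * (z 1 - x 1)) + w 2 * (b 3 * (z 2 - x 2)) := by
    simp only [Matrix.mulVec, dotProduct, farM, Matrix.of_apply, Fin.sum_univ_three]
    have h1 : (1 : Fin 3) ≠ 0 := by decide
    have h2 : (2 : Fin 3) ≠ 0 := by decide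
    have h3 : (2 : Fin 3) ≠ 1 := by decide
    simp only [h1, h2, h3, h1.symm, h2.symm, h3.symm, if_true, if_false, e1, e2, e3]
    ring
  change ∑ i, (x i - z i) * ((farM b *ᵥ w) i + b 0) ≤ 1
  rw [key]
  rw [Fin.sum_univ_three] at hw1
  have f0 : b 0 * ((x 0 + x 1 + x 2) - (z 0 + z 1 + z 2)) ≤ 1 := by linarith only [mul_nonneg (sub_nonneg.2 hx0) (le_of_lt (sub_pos.2 hc0)), hz0]
  have f1 : b 1 * (z 0 - x 0) ≤ 1 := by nlinarith only [hz1, hx1, hc1]
  have f2 : b 2 * (z 1 - x 1) ≤ 1 := by nlinarith only [hz2, hx2, hc2]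
  have f3 : b 3 * (z 2 - x 2) ≤ 1 := by nlinarith only [hz3, hx3, hc3]
  have g0 : (1 - (w 0 + w 1 + w 2)) * (b 0 * ((x 0 + x 1 + x 2) - (z 0 + z 1 + z 2))) ≤
      (1 - (w 0 + w 1 + w 2)) * 1 := mul_le_mul_of_nonneg_left f0 (by linarith only [hw1])
  have g1 : w 0 * (b 1 * (z 0 - x 0)) ≤ w 0 * 1 := mul_le_mul_of_nonneg_left f1 (hw0 0)
  have g2 : w 1 * (b 2 * (z 1 - x 1)) ≤ w 1 * 1 := mul_le_mul_of_nonneg_left f2 (hw0 1)
  have g3 : w 2 * (b 3 * (z 2 - x 2)) ≤ w 2 * 1 := mul_le_mul_of_nonneg_left f3 (hw0 2)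
  linarith only [g0, g1, g2, g3]

/-- lower bound of the volume of the polar body of `K ⊆ T_a` -/
theorem far_polar_volume {K : Set V3} {a : ℝ} (hla : ∀ x ∈ K, ∀ i, -a ≤ lam i x)
    {z : V3} (hz : ∀ i, 0 < lam i z + a) :
    ENNReal.ofReal ((1 + 4 * a) / (6 * ∏ i, (lam i z + a))) ≤ volume (polarP K z) := by
  have h1 := measure_mono (μ := volume) (farM_image_subset hla hz)
  rw [volume_affine_image, farM_det] at h1
  refine le_trans ?_ h1
  have h2 : ENNReal.ofReal (1 / 6) ≤ volume (stdS (Fin 3)) := by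
    have := volume_stdS_ge (ι := Fin 3)
    simpa only [one_div, Nat.ofNat_pos, ENNReal.ofReal_inv_of_pos, ENNReal.ofReal_ofNat, ge_iff_le,     Fintype.card_fin, Nat.factorial, Nat.succ_eq_add_one, Nat.reduceAdd, zero_add, mul_one, Nat.reduceMul,     Nat.cast_ofNat] using this
  refine le_trans ?_ (mul_le_mul_right h2 _)
  rw [← ENNReal.ofReal_mul (abs_nonneg _)]
  refine ENNReal.ofReal_le_ofReal (le_of_eq ?_)
  have hs : lam 0 z + lam 1 z + lam 2 z + lam 3 z = 1 := by
    have := sum_lam z
    rw [Fin.sum_univ_four] at this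
    exact this
  rw [Fin.prod_univ_four, abs_neg]
  have h0 := hz 0
  have h1' := hz 1
  have h2' := hz 2
  have h3' := hz 3
  rw [abs_of_pos (by (clear * - h1' h2' h3' h0; (clear * - h1' h2' h3' h0; positivity)))]
  have hsum : 1 + 4 * a = (lam 0 z + a) + (lam 1 z + a) + (lam 2 z + a) + (lam 3 z + a) := by
    linarith only [hs]
  rw [hsum]
  field_simp
  ring

/-- points in the interior have positive shifted coordinates -/
theorem lam_add_pos {K : Set V3} {a : ℝ} (hla : ∀ x ∈ K, ∀ i, -a ≤ lam i x) {z : V3}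
    (hz : z ∈ interior K) (i : Fin 4) : 0 < lam i z + a := by
  obtain ⟨ε, hε, hball⟩ := Metric.mem_nhds_iff.mp (mem_interior_iff_mem_nhds.mp hz)
  -- move against the gradient
  have hmem : ∀ d : V3, ‖d‖ < ε → z + d ∈ K := fun d hd => hball (by
    rw [Metric.mem_ball, dist_eq_norm]; simpa only [add_sub_cancel_left] using hd)
  have hd : ‖(fun _ => ε / 2 : V3)‖ < ε := by
    refine lt_of_le_of_lt ((pi_norm_le_iff_of_nonneg (by positivity)).mpr fun k => ?_)
      (half_lt_self hε)
    rw [Real.norm_eq_abs, abs_of_pos (by positivity)]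
  refine Fin.cases ?_ (fun k => ?_) i
  · have h1 := hla _ (hmem _ hd) 0
    rw [lam_zero] at h1 ⊢
    simp only [Pi.add_apply, Fin.sum_univ_three] at h1 ⊢
    linarith
  · have hd' : ‖-(fun _ => ε / 2 : V3)‖ < ε := by rwa [norm_neg]
    have h1 := hla _ (hmem _ hd') k.succ
    rw [lam_succ] at h1 ⊢
    simp only [Pi.add_apply, Pi.neg_apply] at h1
    linarith only [hε, h1]

theorem far_real {w x y t a : ℝ} (ha : 0 ≤ a) (ha1 : a ≤ 1 / 2000000) (hw : 0 < w) (hx : 0 < x)
    (hy : 0 < y) (ht : 0 < t) (hs : w + x + y + t = 1 + 4 * a)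
    (hwf : w < (1 - 1 / 40) / 4 + a) :
    256 * (1 + a / 10) * (w * x * y * t) ≤ 1 + 4 * a := by
  -- AM-GM for three numbers
  have amgm : x * y * t ≤ ((x + y + t) / 3) ^ 3 := by
    have h1 : (x + y + t) ^ 3 - 27 * (x * y * t) =
        (x + y + t) * ((x - y) ^ 2 + (y - t) ^ 2 + (t - x) ^ 2) / 2 +
        3 * (x + y + t) * (x * y + y * t + t * x) - 27 * (x * y * t) := by ring
    have h2 : 9 * (x * y * t) ≤ (x + y + t) * (x * y + y * t + t * x) := by
      linarith only [mul_nonneg ht.le (sq_nonneg (x - y)), mul_nonneg hy.le (sq_nonneg (t - x)), mul_nonneg hx.le (sq_nonneg (y - t))]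
    have h3 : 0 ≤ (x + y + t) * ((x - y) ^ 2 + (y - t) ^ 2 + (t - x) ^ 2) / 2 := by (clear * - hx hy ht; positivity)
    linarith only [h3, h2]
  set s : ℝ := (1 + 4 * a) / 4 with hsdef
  set u : ℝ := s - w with hu
  have hu1 : 1 / 160 ≤ u := by rw [hu, hsdef]; linarith only [hwf]
  have hxyt : (x + y + t) / 3 = s + u / 3 := by rw [hu, hsdef]; (clear * - hs; linarith)
  have hwsu : w = s - u := by rw [hu]; ring
  have h4 : w * x * y * t ≤ s ^ 4 - 2 / 3 * s ^ 2 * u ^ 2 := by
    calc w * x * y * t = w * (x * y * t) := by ring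
      _ ≤ w * ((x + y + t) / 3) ^ 3 := mul_le_mul_of_nonneg_left amgm hw.le
      _ = (s - u) * (s + u / 3) ^ 3 := by rw [hxyt, hwsu]
      _ = s ^ 4 - 2 / 3 * s ^ 2 * u ^ 2 - (8 / 27 * s * u ^ 3 + u ^ 4 / 27) := by ring
      _ ≤ s ^ 4 - 2 / 3 * s ^ 2 * u ^ 2 := by
          have : 0 ≤ 8 / 27 * s * u ^ 3 + u ^ 4 / 27 := by
            have : 0 ≤ s := by rw [hsdef]; linarith only [hw, hwf]
            have : 0 ≤ u := by linarith only [hwf, hsdef]
            (clear * - ha hu1; positivity)
          linarith only [this]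
  have hs1 : 1 / 4 ≤ s := by rw [hsdef]; linarith only [ha]
  have hs2 : s ≤ 1 / 4 + 1 / 2000000 := by rw [hsdef]; linarith only [ha1]
  have hu2 : 1 / 25600 ≤ u ^ 2 := by nlinarith only [hsdef, hwf]
  have hss : 1 / 16 ≤ s ^ 2 := by nlinarith only [ha, hsdef]
  have h5 : 1 / 614400 ≤ 2 / 3 * s ^ 2 * u ^ 2 := by nlinarith only [hss, hu2]
  have h6 : s ^ 4 ≤ 1 / 256 + 1 / 1000000 := by
    have : s ^ 2 ≤ 1 / 16 + 1 / 3000000 := by nlinarith only [ha1, hsdef, hw, hwf]
    nlinarith only [this]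
  nlinarith only [ha, h4, h5, h6]

theorem volume_ge_sixth {K : Set V3} (hS : stdS (Fin 3) ⊆ K) :
    ENNReal.ofReal (1 / 6) ≤ volume K := by
  have h2 : ENNReal.ofReal (1 / 6) ≤ volume (stdS (Fin 3)) := by
    have := volume_stdS_ge (ι := Fin 3)
    simpa only [one_div, Nat.ofNat_pos, ENNReal.ofReal_inv_of_pos, ENNReal.ofReal_ofNat, ge_iff_le,     Fintype.card_fin, Nat.factorial, Nat.succ_eq_add_one, Nat.reduceAdd, zero_add, mul_one, Nat.reduceMul,     Nat.cast_ofNat] using this
  exact h2.trans (measure_mono hS)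

set_option linter.unusedVariables false in
theorem local_far {K : Set V3} (hK : IsCompact K) (hc : Convex ℝ K) (hS : stdS (Fin 3) ⊆ K)
    {a : ℝ} (ha : 0 ≤ a) (ha1 : a ≤ a0) (hla : ∀ x ∈ K, ∀ i, -a ≤ lam i x) {z : V3}
    (hz : z ∈ interior K) (hzf : ∃ k, lam k z < (1 - 1 / 40) / 4) :
    ENNReal.ofReal (64 / 9 * (1 + a / 10)) ≤ volume K * volume (polarP K z) := by
  have hpos := lam_add_pos hla hz
  have h1 := far_polar_volume hla hpos
  have h2 := volume_ge_sixth hS
  have ha1' : a ≤ 1 / 2000000 := ha1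
  have hs : lam 0 z + lam 1 z + lam 2 z + lam 3 z = 1 := by
    have := sum_lam z
    rw [Fin.sum_univ_four] at this
    exact this
  have p0 := hpos 0
  have p1 := hpos 1
  have p2 := hpos 2
  have p3 := hpos 3
  have hreal : 256 * (1 + a / 10) * ((lam 0 z + a) * (lam 1 z + a) * (lam 2 z + a) *
      (lam 3 z + a)) ≤ 1 + 4 * a := by
    obtain ⟨k, hk⟩ := hzf
    fin_cases k
    · have hk' : lam 0 z < (1 - 1 / 40) / 4 := hk
      exact far_real ha ha1' p0 p1 p2 p3 (by linarith only [hs]) (by linarith [hk'])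
    · have hk' : lam 1 z < (1 - 1 / 40) / 4 := hk
      have := far_real ha ha1' p1 p0 p2 p3 (by linarith only [hs]) (by linarith only [hk'])
      linarith only [this]
    · have hk' : lam 2 z < (1 - 1 / 40) / 4 := hk
      have := far_real ha ha1' p2 p0 p1 p3 (by linarith only [hs]) (by linarith only [hk'])
      linarith only [this]
    · have hk' : lam 3 z < (1 - 1 / 40) / 4 := hk
      have := far_real ha ha1' p3 p0 p1 p2 (by linarith only [hs]) (by linarith only [hk'])
      linarith only [this]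
  calc ENNReal.ofReal (64 / 9 * (1 + a / 10))
      ≤ ENNReal.ofReal (1 / 6 * ((1 + 4 * a) / (6 * ∏ i, (lam i z + a)))) := by
        refine ENNReal.ofReal_le_ofReal ?_
        rw [Fin.prod_univ_four, ← mul_div_assoc, le_div_iff₀ (by (clear * - p0 p1 p2 p3; positivity))]
        linarith only [hreal]
    _ = ENNReal.ofReal (1 / 6) * ENNReal.ofReal ((1 + 4 * a) / (6 * ∏ i, (lam i z + a))) :=
        ENNReal.ofReal_mul (by norm_num)
    _ ≤ _ := mul_le_mul' h2 h1

end Vale.Agent.P248
end
end
end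

section

section

section

/-! The local theorem: bodies close to the standard simplex. -/

set_option linter.unusedSectionVars false

open MeasureTheory Set
open scoped ENNReal Topology Matrix

namespace Vale.Agent.P248

theorem localstd_real {a E : ℝ} (ha : 0 ≤ a) (ha1 : a ≤ 1 / 2000000)
    (hE : (1 - 3 * (1 / 100 + 9 * a)) * (1 - 8 * a) * E ≤ a * (1 + 72 * a)) :
    2 / 3 * E + 648 * a ^ 2 / (1 / 100) ≤ 3 / 4 * a := by
  rcases le_total E 0 with hE0 | hE0
  · linarith [mul_nonneg (sub_nonneg.2 hE0) (sub_nonneg.2 ha1), mul_nonneg (sub_nonneg.2 ha) (sub_nonneg.2 ha1), mul_nonneg (sub_nonneg.2 ha) (sub_nonneg.2 hE0), mul_nonneg (sub_nonneg.2 ha) (sub_nonneg.2 ha)]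
  have h1 : (969 / 1000 : ℝ) ≤ (1 - 3 * (1 / 100 + 9 * a)) * (1 - 8 * a) := by nlinarith only [ha1]
  have h2 : 969 / 1000 * E ≤ a * (1 + 72 * a) :=
    (mul_le_mul_of_nonneg_right h1 hE0).trans hE
  have h3 : a ^ 2 ≤ 1 / 2000000 * a := by nlinarith only [ha, ha1]
  have h4 : 648 * a ^ 2 / (1 / 100) = 64800 * a ^ 2 := by ring
  rw [h4]
  nlinarith only [h2, h3]

/-- the final computation, in extended nonnegative reals -/
theorem localstd_final {a : ℝ} (ha : 0 ≤ a) (ha1 : a ≤ 1 / 2000000) {V P : ℝ≥0∞}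
    (hP : P ≤ ENNReal.ofReal (3 / 4 * a))
    (h : ENNReal.ofReal 256 ≤ 6 * V + ENNReal.ofReal (256 / (1 - 1 / 40) ^ 4) * P) :
    ENNReal.ofReal (64 / 9 * (1 + a / 10)) ≤ ENNReal.ofReal ((1 + a) / 6) * V := by
  rcases eq_or_ne V ∞ with hV | hV
  · rw [hV, ENNReal.mul_top]
    · exact le_top
    · rw [Ne, ENNReal.ofReal_eq_zero, not_le]
      positivity
  have hc : (0 : ℝ) ≤ 256 / (1 - 1 / 40) ^ 4 := by norm_num
  have h1 : ENNReal.ofReal 256 ≤ ENNReal.ofReal (6 * V.toReal +
      256 / (1 - 1 / 40) ^ 4 * (3 / 4 * a)) := by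
    refine h.trans ?_
    rw [ENNReal.ofReal_add (by positivity) (by positivity), ENNReal.ofReal_mul (by norm_num),
      ENNReal.ofReal_mul hc, ENNReal.ofReal_toReal hV]
    have h6 : ENNReal.ofReal 6 = 6 := by norm_num
    rw [h6]
    (clear * - hP; gcongr)
  have h2 : (256 : ℝ) ≤ 6 * V.toReal + 256 / (1 - 1 / 40) ^ 4 * (3 / 4 * a) := by
    have h3 : (0 : ℝ) ≤ 6 * V.toReal + 256 / (1 - 1 / 40) ^ 4 * (3 / 4 * a) := by
      have := V.toReal_nonneg
      positivity
    exact (ENNReal.ofReal_le_ofReal_iff h3).mp h1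
  rw [← ENNReal.ofReal_toReal hV, ← ENNReal.ofReal_mul (by positivity)]
  refine ENNReal.ofReal_le_ofReal ?_
  have h5 : (256 : ℝ) / (1 - 1 / 40) ^ 4 * (3 / 4 * a) ≤ 256 * (83 / 100 * a) := by
    have : (256 : ℝ) / (1 - 1 / 40) ^ 4 * (3 / 4) ≤ 256 * (83 / 100) := by norm_num
    linarith only [ha]
  have h6 : 256 / 6 * (1 - 83 / 100 * a) ≤ V.toReal := by linarith only [ha, h2]
  have h7 : (1 + a) / 6 * (256 / 6 * (1 - 83 / 100 * a)) ≤ (1 + a) / 6 * V.toReal :=
    mul_le_mul_of_nonneg_left h6 (by positivity)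
  (clear * - ha h7 ha1; nlinarith)

theorem local_std_of
    (hloss : ∀ {K : Set V3} (_ : IsCompact K) (_ : stdS (Fin 3) ⊆ K) {z : V3} {ε : ℝ}
      (_ : 0 ≤ ε) (_ : ε < 1) (_ : ∀ k, (1 - ε) / 4 ≤ lam k z),
      ENNReal.ofReal 256 ≤ 6 * volume (polarP K z) +
        ENNReal.ofReal (256 / (1 - ε) ^ 4) * Phi K)
    (hphi : ∀ {K : Set V3} (_ : IsCompact K) (_ : stdS (Fin 3) ⊆ K)
      (_ : ∀ x ∈ K, ∀ i, lam i x ≤ 1) {a r : ℝ} (_ : ∀ x ∈ K, ∀ i, -a ≤ lam i x) (_ : 0 ≤ a)
      (_ : 0 < r) (_ : 6 * a ≤ r),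
      Phi K ≤ ENNReal.ofReal (2 / 3 * ∑ j, ∑ k, eta K r j (j.succAbove k) + 648 * a ^ 2 / r))
    (hlam : ∀ {K : Set V3} (_ : IsCompact K) (_ : Convex ℝ K) (_ : stdS (Fin 3) ⊆ K) {a : ℝ}
      (_ : 0 ≤ a) (_ : volume K = ENNReal.ofReal ((1 + a) / 6)), ∀ x ∈ K, ∀ i, -a ≤ lam i x)
    (hgain : ∀ {K : Set V3} (_ : IsCompact K) (_ : Convex ℝ K) (_ : stdS (Fin 3) ⊆ K)
      {a r : ℝ} (_ : 0 ≤ a) (_ : a ≤ 1 / 100) (_ : 0 < r) (_ : r ≤ 1 / 10)
      (_ : volume K = ENNReal.ofReal ((1 + a) / 6)),
      (1 - 3 * (r + 9 * a)) * (1 - 8 * a) * ∑ j, ∑ k, eta K r j (j.succAbove k) ≤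
        a * (1 + 72 * a))
    {K : Set V3} (hK : IsCompact K) (hc : Convex ℝ K) (hS : stdS (Fin 3) ⊆ K)
    (h1 : ∀ x ∈ K, ∀ i, lam i x ≤ 1) {a : ℝ} (ha : 0 ≤ a) (ha1 : a ≤ a0)
    (hv : volume K = ENNReal.ofReal ((1 + a) / 6)) : GoodC (64 / 9 * (1 + a / 10)) K := by
  intro z hz
  have hla := hlam hK hc hS ha hv
  by_cases hfar : ∃ k, lam k z < (1 - 1 / 40) / 4
  · exact local_far hK hc hS ha ha1 hla hz hfar
  · push Not at hfar
    have ha1' : a ≤ 1 / 2000000 := ha1
    have hL := hloss hK hS (ε := 1 / 40) (by norm_num) (by norm_num) hfar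
    have hP := hphi hK hS h1 hla ha (r := 1 / 100) (by norm_num) (by linarith only [ha1'])
    have hG := hgain hK hc hS (r := 1 / 100) ha (by linarith only [ha1']) (by norm_num) (by norm_num) hv
    have hP' := hP.trans (ENNReal.ofReal_le_ofReal (localstd_real ha ha1' hG))
    rw [hv]
    exact localstd_final ha ha1' hP' hL

end Vale.Agent.P248
end
end
end

section

section

section

/-! Inscribed simplices of maximal volume, the defect, and the reduction of the local theorem to
the standard simplex. -/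

set_option linter.unusedSectionVars false

open MeasureTheory Set
open scoped ENNReal Topology Matrix Pointwise

namespace Vale.Agent.P248

/-! ### The simplex volume -/

theorem simpVol_nonneg (x : Fin 4 → V3) : 0 ≤ simpVol x := by
  unfold simpVol
  positivity

theorem simpVol_continuous : Continuous simpVol := by
  unfold simpVol
  refine (Continuous.abs ?_).div_const _
  refine Continuous.matrix_det ?_
  refine continuous_matrix fun i j => ?_
  simp only [Matrix.of_apply, Pi.sub_apply]
  fun_prop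

/-- The volume of a simplex under an affine map. -/
theorem simpVol_affine (M : Matrix (Fin 3) (Fin 3) ℝ) (w : V3) (x : Fin 4 → V3) :
    simpVol (fun i => M *ᵥ x i + w) = |M.det| * simpVol x := by
  have h : (Matrix.of fun i : Fin 3 => (M *ᵥ x i.succ + w) - (M *ᵥ x 0 + w)) =
      (Matrix.of fun i : Fin 3 => x i.succ - x 0) * Mᵀ := by
    ext i j
    rw [Matrix.of_apply, Matrix.mul_apply]
    simp only [Pi.sub_apply, Pi.add_apply, Matrix.mulVec, dotProduct, Matrix.of_apply,
      Matrix.transpose_apply]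
    rw [show (∑ k, M j k * x i.succ k + w j - (∑ k, M j k * x 0 k + w j)) =
      ∑ k, M j k * x i.succ k - ∑ k, M j k * x 0 k by ring, ← Finset.sum_sub_distrib]
    exact Finset.sum_congr rfl fun k _ => by ring
  unfold simpVol
  rw [h, Matrix.det_mul, Matrix.det_transpose, abs_mul]
  ring

theorem exists_isMaxSimplex {K : Set V3} (hK : IsCompact K) (hn : K.Nonempty) :
    ∃ x, IsMaxSimplex K x ∧ mval K = simpVol x := by
  have hc : IsCompact {x : Fin 4 → V3 | ∀ i, x i ∈ K} := by
    have h : {x : Fin 4 → V3 | ∀ i, x i ∈ K} = Set.pi univ fun _ => K := by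
      ext x
      simp only [mem_ofPred_eq, mem_pi, mem_univ, forall_const]
    rw [h]
    exact isCompact_univ_pi fun _ => hK
  obtain ⟨z, hz⟩ := hn
  have hne : {x : Fin 4 → V3 | ∀ i, x i ∈ K}.Nonempty := ⟨fun _ => z, fun _ => hz⟩
  obtain ⟨x, hx, hmax⟩ := hc.exists_isMaxOn hne simpVol_continuous.continuousOn
  refine ⟨x, ⟨hx, fun y hy => hmax hy⟩, ?_⟩
  exact IsGreatest.csSup_eq ⟨⟨x, hx, rfl⟩, by rintro _ ⟨y, hy, rfl⟩; exact hmax hy⟩

theorem bddAbove_simpVol {K : Set V3} (hK : IsCompact K) :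
    BddAbove (simpVol '' {x | ∀ i, x i ∈ K}) := by
  rcases K.eq_empty_or_nonempty with rfl | hn
  · have h : {x : Fin 4 → V3 | ∀ i, x i ∈ (∅ : Set V3)} = ∅ := by
      ext x
      simp only [mem_ofPred_eq, mem_empty_iff_false, iff_false, not_forall, not_false_eq_true]
      exact ⟨0, trivial⟩
    rw [h, image_empty]
    exact bddAbove_empty
  · obtain ⟨x, hx, _⟩ := exists_isMaxSimplex hK hn
    exact ⟨simpVol x, by rintro _ ⟨y, hy, rfl⟩; exact hx.max y hy⟩

theorem le_mval {K : Set V3} (hK : IsCompact K) {x : Fin 4 → V3} (hx : ∀ i, x i ∈ K) :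
    simpVol x ≤ mval K :=
  le_csSup (bddAbove_simpVol hK) ⟨x, hx, rfl⟩

theorem mval_mono {K L : Set V3} (hL : IsCompact L) (hn : K.Nonempty) (h : K ⊆ L) :
    mval K ≤ mval L := by
  obtain ⟨z, hz⟩ := hn
  refine csSup_le_csSup (bddAbove_simpVol hL) ⟨_, ⟨fun _ => z, fun _ => hz, rfl⟩⟩ ?_
  exact image_mono fun x hx i => h (hx i)

theorem mval_pos {K : Set V3} (hK : IsCompact K) (hi : (interior K).Nonempty) : 0 < mval K := by
  obtain ⟨z, hz⟩ := hi
  obtain ⟨δ, hδ, hball⟩ := Metric.isOpen_iff.mp isOpen_interior z hz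
  have hδ2 : 0 < δ / 2 := by linarith
  let x : Fin 4 → V3 := Fin.cons z fun k : Fin 3 => z + Pi.single k (δ / 2)
  have hx : ∀ i, x i ∈ K := by
    intro i
    refine Fin.cases ?_ (fun k => ?_) i
    · exact interior_subset hz
    · refine interior_subset (hball ?_)
      have hk : x k.succ = z + (Pi.single k (δ / 2) : V3) := rfl
      rw [hk, mem_ball_iff_norm, add_sub_cancel_left]
      refine lt_of_le_of_lt ?_ (half_lt_self hδ)
      rw [pi_norm_le_iff_of_nonneg hδ2.le]
      intro j
      rw [Pi.single_apply]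
      split_ifs
      · rw [Real.norm_of_nonneg hδ2.le]
      · simpa only [norm_zero] using hδ2.le
  have hval : simpVol x = (δ / 2) ^ 3 / 6 := by
    unfold simpVol
    have h : (Matrix.of fun i : Fin 3 => x i.succ - x 0) = Matrix.diagonal fun _ => δ / 2 := by
      ext i j
      change ((z + (Pi.single i (δ / 2) : V3)) - z) j = _
      rw [add_sub_cancel_left, Matrix.diagonal_apply, Pi.single_apply]
      by_cases hij : i = j
      · simp [hij]
      · rw [if_neg hij, if_neg fun h => hij h.symm]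
    rw [h, Matrix.det_diagonal, Finset.prod_const, Finset.card_univ, Fintype.card_fin,
      abs_of_pos (by positivity)]
  have h1 := le_mval hK hx
  rw [hval] at h1
  have h2 : 0 < (δ / 2) ^ 3 / 6 := by positivity
  linarith only [h2, h1]

/-- The matrix of edge vectors. -/
noncomputable def edgeM (x : Fin 4 → V3) : Matrix (Fin 3) (Fin 3) ℝ :=
  (Matrix.of fun i : Fin 3 => x i.succ - x 0)ᵀ

theorem edgeM_det (x : Fin 4 → V3) :
    (edgeM x).det = (Matrix.of fun i : Fin 3 => x i.succ - x 0).det := by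
  rw [edgeM, Matrix.det_transpose]

/-- The vertices of the standard simplex. -/
noncomputable def stdV : Fin 4 → V3 := Fin.cons 0 fun k : Fin 3 => Pi.single k 1

theorem range_stdV : range stdV = range stdP := by
  ext v
  constructor
  · rintro ⟨i, rfl⟩
    refine Fin.cases ?_ (fun k => ?_) i
    · exact ⟨none, rfl⟩
    · exact ⟨some k, rfl⟩
  · rintro ⟨o, rfl⟩
    cases o with
    | none => exact ⟨0, rfl⟩
    | some k => exact ⟨k.succ, rfl⟩

theorem stdV_hull : convexHull ℝ (range stdV) = stdS (Fin 3) := by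
  rw [range_stdV, stdS_eq_hull]

theorem edgeM_stdV (x : Fin 4 → V3) (i : Fin 4) : edgeM x *ᵥ stdV i + x 0 = x i := by
  refine Fin.cases ?_ (fun k => ?_) i
  · change edgeM x *ᵥ (0 : V3) + x 0 = x 0
    simp
  · change edgeM x *ᵥ (Pi.single k 1 : V3) + x 0 = x k.succ
    rw [Matrix.mulVec_single_one]
    ext j
    simp [edgeM, Matrix.col, Matrix.transpose]

theorem hull_affine (M : Matrix (Fin 3) (Fin 3) ℝ) (w : V3) {ι : Type*} (p : ι → V3) :
    convexHull ℝ (range fun i => M *ᵥ p i + w) =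
      (fun x => M *ᵥ x + w) '' convexHull ℝ (range p) := by
  let f : V3 →ᵃ[ℝ] V3 := (Matrix.toLin' M).toAffineMap + AffineMap.const ℝ V3 w
  have hf : (fun x => M *ᵥ x + w) = (f : V3 → V3) := rfl
  rw [hf, AffineMap.image_convexHull, ← range_comp]
  rfl

theorem hull_eq_image (x : Fin 4 → V3) :
    convexHull ℝ (range x) = (fun v => edgeM x *ᵥ v + x 0) '' stdS (Fin 3) := by
  rw [← stdV_hull, ← hull_affine]
  congr 2
  funext i
  exact (edgeM_stdV x i).symm

theorem volume_stdS3_sixth : volume (stdS (Fin 3)) = ENNReal.ofReal (1 / 6) := by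
  rw [volume_stdS_eq]
  norm_num [Nat.factorial]

theorem volume_hull (x : Fin 4 → V3) :
    volume (convexHull ℝ (range x)) = ENNReal.ofReal (simpVol x) := by
  rw [hull_eq_image, volume_affine_image, volume_stdS3_sixth, edgeM_det,
    ← ENNReal.ofReal_mul (abs_nonneg _)]
  unfold simpVol
  congr 1
  ring

theorem simpVol_eq {x : Fin 4 → V3} :
    (volume (convexHull ℝ (range x))).toReal = simpVol x := by
  rw [volume_hull, ENNReal.toReal_ofReal (simpVol_nonneg x)]

theorem mval_le_volume {K : Set V3} (hK : IsCompact K) (hc : Convex ℝ K) (hn : K.Nonempty) :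
    mval K ≤ (volume K).toReal := by
  obtain ⟨x, hx, hm⟩ := exists_isMaxSimplex hK hn
  rw [hm, ← simpVol_eq]
  refine ENNReal.toReal_mono hK.measure_lt_top.ne (measure_mono ?_)
  exact convexHull_min (range_subset_iff.mpr hx.mem) hc

theorem defect_nonneg {K : Set V3} (hK : IsCompact K) (hc : Convex ℝ K)
    (hi : (interior K).Nonempty) : 0 ≤ defect K := by
  have h1 := mval_pos hK hi
  have h2 := mval_le_volume hK hc (hi.mono interior_subset)
  unfold defect
  rw [sub_nonneg, le_div_iff₀ h1, one_mul]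
  exact h2

/-! ### Affine maps -/

theorem mval_affine {M : Matrix (Fin 3) (Fin 3) ℝ} (w : V3) (K : Set V3) :
    mval ((fun x => M *ᵥ x + w) '' K) = |M.det| * mval K := by
  unfold mval
  have h : simpVol '' {x | ∀ i, x i ∈ (fun x => M *ᵥ x + w) '' K} =
      |M.det| • (simpVol '' {x | ∀ i, x i ∈ K}) := by
    ext t
    constructor
    · rintro ⟨x, hx, rfl⟩
      choose y hy hyx using hx
      refine ⟨simpVol y, ⟨y, hy, rfl⟩, ?_⟩
      change |M.det| * simpVol y = simpVol x
      rw [← simpVol_affine M w]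
      congr 1
      funext i
      exact hyx i
    · rintro ⟨_, ⟨y, hy, rfl⟩, rfl⟩
      refine ⟨fun i => M *ᵥ y i + w, fun i => ⟨y i, hy i, rfl⟩, ?_⟩
      exact simpVol_affine M w y
  rw [h, Real.sSup_smul_of_nonneg (abs_nonneg _)]
  rfl

theorem defect_affine {M : Matrix (Fin 3) (Fin 3) ℝ} (hM : M.det ≠ 0) (w : V3) (K : Set V3) :
    defect ((fun x => M *ᵥ x + w) '' K) = defect K := by
  unfold defect
  rw [mval_affine, volume_affine_image, ENNReal.toReal_mul,
    ENNReal.toReal_ofReal (abs_nonneg _), mul_div_mul_left _ _ (abs_ne_zero.mpr hM)]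

theorem defect_translate {K : Set V3} (z : V3) :
    defect ((fun x => x - z) '' K) = defect K := by
  have h : (fun x : V3 => x - z) = fun x => (1 : Matrix (Fin 3) (Fin 3) ℝ) *ᵥ x + (-z) := by
    funext x
    rw [Matrix.one_mulVec, sub_eq_add_neg]
  rw [h]
  exact defect_affine (by simp) _ K

/-- affine invariance with a general constant -/
theorem goodC_affine_matrix {c : ℝ} {M : Matrix (Fin 3) (Fin 3) ℝ} (hM : M.det ≠ 0) (w : V3)
    {K : Set V3} (hK : GoodC c K) : GoodC c ((fun x => M *ᵥ x + w) '' K) := by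
  obtain ⟨h, hh⟩ := exists_homeo_matrix M hM w
  have hfun : (fun x => M *ᵥ x + w) = (h : V3 → V3) := by
    funext x; exact (hh x).symm
  intro z' hz'
  rw [hfun, ← h.image_interior] at hz'
  obtain ⟨z, hz, rfl⟩ := hz'
  rw [hh z, volume_affine_image, polarP_affine_image]
  have hdet : LinearMap.det (Matrix.toLin' Mᵀ) ≠ 0 := by
    rw [LinearMap.det_toLin', Matrix.det_transpose]; exact hM
  rw [Measure.addHaar_preimage_linearMap volume hdet, LinearMap.det_toLin', Matrix.det_transpose]
  have h1 := hK z hz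
  have h2 : ENNReal.ofReal |M.det| * volume K * (ENNReal.ofReal |M.det⁻¹| * volume (polarP K z)) =
      volume K * volume (polarP K z) := by
    have h3 : ENNReal.ofReal |M.det| * ENNReal.ofReal |M.det⁻¹| = 1 := by
      rw [← ENNReal.ofReal_mul (abs_nonneg _), ← abs_mul, mul_inv_cancel₀ hM, abs_one,
        ENNReal.ofReal_one]
    calc _ = (ENNReal.ofReal |M.det| * ENNReal.ofReal |M.det⁻¹|) *
          (volume K * volume (polarP K z)) := by ring
      _ = _ := by rw [h3, one_mul]
  rw [h2]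
  exact h1

/-! ### The simplex in the standard position -/

theorem simpVol_stdV : simpVol stdV = 1 / 6 := by
  unfold simpVol
  have h : (Matrix.of fun i : Fin 3 => stdV i.succ - stdV 0) = 1 := by
    ext i j
    change ((Pi.single i 1 : V3) - 0) j = _
    rw [sub_zero, Matrix.one_apply, Pi.single_apply]
    by_cases hij : i = j
    · simp [hij]
    · rw [if_neg hij, if_neg fun h => hij h.symm]
  rw [h, Matrix.det_one, abs_one]

theorem det_update_zero (v : V3) :
    (Matrix.of fun k : Fin 3 => Function.update stdV 0 v k.succ - Function.update stdV 0 v 0).det =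
      lam 0 v := by
  have h : (Matrix.of fun k : Fin 3 => Function.update stdV 0 v k.succ - Function.update stdV 0 v 0)
      = !![1 - v 0, -v 1, -v 2; -v 0, 1 - v 1, -v 2; -v 0, -v 1, 1 - v 2] := by
    ext a b
    have h1 : Function.update stdV 0 v a.succ = (Pi.single a 1 : V3) := by
      rw [Function.update_of_ne (Fin.succ_ne_zero a)]
      rfl
    rw [Matrix.of_apply, h1, Function.update_self, Pi.sub_apply, Pi.single_apply]
    fin_cases a <;> fin_cases b <;> simp
  rw [h, Matrix.det_fin_three, lam_zero, Fin.sum_univ_three]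
  simp only [Fin.isValue, Matrix.of_apply, Matrix.cons_val', Matrix.cons_val_zero, Matrix.cons_val_fin_one, Matrix.cons_val_one, Matrix.cons_val, mul_neg, neg_mul, neg_neg]
  ring

theorem det_update_succ (i : Fin 3) (v : V3) :
    (Matrix.of fun k : Fin 3 => Function.update stdV i.succ v k.succ -
      Function.update stdV i.succ v 0).det = lam i.succ v := by
  have h : (Matrix.of fun k : Fin 3 => Function.update stdV i.succ v k.succ -
      Function.update stdV i.succ v 0) = Matrix.updateRow 1 i v := by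
    ext a b
    have h0 : Function.update stdV i.succ v 0 = 0 := by
      rw [Function.update_of_ne (Fin.succ_ne_zero i).symm]
      rfl
    rw [Matrix.of_apply, h0, sub_zero, Matrix.updateRow_apply]
    by_cases hai : a = i
    · rw [if_pos hai, hai, Function.update_self]
    · rw [if_neg hai, Function.update_of_ne (fun h => hai (Fin.succ_injective _ h))]
      change (Pi.single a 1 : V3) b = _
      rw [Matrix.one_apply, Pi.single_apply]
      by_cases hab : a = b
      · simp [hab]
      · rw [if_neg hab, if_neg fun h => hab h.symm]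
  rw [h, lam_succ, Matrix.det_fin_three]
  fin_cases i <;> simp [Matrix.updateRow_apply]

theorem simpVol_update (i : Fin 4) (v : V3) :
    simpVol (Function.update stdV i v) = |lam i v| / 6 := by
  unfold simpVol
  refine Fin.cases ?_ (fun k => ?_) i
  · rw [det_update_zero]
  · rw [det_update_succ]

/-! ### Normalization -/

theorem stdV_mem_stdS (i : Fin 4) : stdV i ∈ stdS (Fin 3) := by
  rw [← stdV_hull]
  exact subset_convexHull ℝ _ ⟨i, rfl⟩

theorem edgeM_det_abs (x : Fin 4 → V3) : |(edgeM x).det| = 6 * simpVol x := by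
  rw [edgeM_det]
  unfold simpVol
  ring

/-- An affine map sends a convex body to one in which the standard simplex is an inscribed simplex
of maximal volume. -/
theorem exists_normal_form {K : Set V3} (hK : IsCompact K) (hc : Convex ℝ K)
    (hi : (interior K).Nonempty) :
    ∃ (K' : Set V3) (R : Matrix (Fin 3) (Fin 3) ℝ) (w : V3), R.det ≠ 0 ∧
      K = (fun v => R *ᵥ v + w) '' K' ∧ IsCompact K' ∧ Convex ℝ K' ∧ stdS (Fin 3) ⊆ K' ∧
      (∀ x ∈ K', ∀ i, lam i x ≤ 1) ∧ volume K' = ENNReal.ofReal ((1 + defect K) / 6) ∧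
      defect K' = defect K := by
  obtain ⟨x, hx, hm⟩ := exists_isMaxSimplex hK (hi.mono interior_subset)
  have hpos : 0 < simpVol x := hm ▸ mval_pos hK hi
  set R := edgeM x with hR
  have hRabs : |R.det| = 6 * simpVol x := edgeM_det_abs x
  have hRdet : R.det ≠ 0 := by
    intro h
    rw [h, abs_zero] at hRabs
    linarith only [hpos, hRabs]
  have hRunit : IsUnit R.det := isUnit_iff_ne_zero.mpr hRdet
  set M := R⁻¹ with hM
  have hMdet : M.det ≠ 0 := by
    rw [hM, Matrix.det_nonsing_inv]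
    simpa using hRdet
  have hMabs : |M.det| = 1 / (6 * simpVol x) := by
    rw [hM, Matrix.det_nonsing_inv, Ring.inverse_eq_inv', abs_inv, hRabs, one_div]
  have hRM : ∀ v : V3, R *ᵥ (M *ᵥ v + -(M *ᵥ x 0)) + x 0 = v := by
    intro v
    rw [← sub_eq_add_neg, ← Matrix.mulVec_sub, Matrix.mulVec_mulVec, hM,
      Matrix.mul_nonsing_inv R hRunit, Matrix.one_mulVec, sub_add_cancel]
  have hMR : ∀ v : V3, M *ᵥ (R *ᵥ v + x 0) + -(M *ᵥ x 0) = v := by
    intro v
    rw [Matrix.mulVec_add, Matrix.mulVec_mulVec, hM, Matrix.nonsing_inv_mul R hRunit,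
      Matrix.one_mulVec, add_neg_cancel_right]
  set K' := (fun v => M *ᵥ v + -(M *ᵥ x 0)) '' K with hK'
  have hcont : Continuous fun v : V3 => M *ᵥ v + -(M *ᵥ x 0) := by
    have h1 : Continuous fun v : V3 => M *ᵥ v :=
      LinearMap.continuous_of_finiteDimensional (Matrix.toLin' M)
    exact h1.add continuous_const
  have hK'c : IsCompact K' := hK.image hcont
  have hK'conv : Convex ℝ K' := by
    let f : V3 →ᵃ[ℝ] V3 := (Matrix.toLin' M).toAffineMap + AffineMap.const ℝ V3 (-(M *ᵥ x 0))
    have hf : (fun x_1 => M *ᵥ x_1 + -(M *ᵥ x 0)) = (f : V3 → V3) := rfl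
    rw [hK', hf]
    exact hc.affine_image f
  have hS : stdS (Fin 3) ⊆ K' := by
    intro v hv
    refine ⟨R *ᵥ v + x 0, ?_, hMR v⟩
    have h1 : R *ᵥ v + x 0 ∈ convexHull ℝ (range x) := by
      rw [hull_eq_image]
      exact ⟨v, hv, rfl⟩
    exact convexHull_min (range_subset_iff.mpr hx.mem) hc h1
  have hmv : mval K' = 1 / 6 := by
    rw [hK', mval_affine, hMabs, hm]
    field_simp
  refine ⟨K', R, x 0, hRdet, ?_, hK'c, hK'conv, hS, ?_, ?_, ?_⟩
  · rw [hK', image_image]
    simp only [hRM, image_id']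
  · intro v hv i
    have h1 : simpVol (Function.update stdV i v) ≤ mval K' := by
      apply le_mval hK'c
      intro j
      by_cases hji : j = i
      · rw [hji, Function.update_self]
        exact hv
      · rw [Function.update_of_ne hji]
        exact hS (stdV_mem_stdS j)
    rw [simpVol_update, hmv] at h1
    have h2 := le_abs_self (lam i v)
    linarith only [h2, h1]
  · have hfin : volume K ≠ ∞ := hK.measure_lt_top.ne
    rw [hK', volume_affine_image, ← ENNReal.ofReal_toReal hfin,
      ← ENNReal.ofReal_mul (abs_nonneg _)]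
    congr 1
    unfold defect
    rw [hMabs, hm]
    field_simp
    ring
  · rw [hK', defect_affine hMdet]

theorem local_good_of_std
    (hstd : ∀ {K : Set V3}, IsCompact K → Convex ℝ K → stdS (Fin 3) ⊆ K →
      (∀ x ∈ K, ∀ i, lam i x ≤ 1) → ∀ {a : ℝ}, 0 ≤ a → a ≤ a0 →
      volume K = ENNReal.ofReal ((1 + a) / 6) → GoodC (64 / 9 * (1 + a / 10)) K)
    {K : Set V3} (hK : IsCompact K) (hc : Convex ℝ K)
    (hi : (interior K).Nonempty) (hd : defect K ≤ a0) :
    GoodC (64 / 9 * (1 + defect K / 10)) K := by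
  obtain ⟨K', R, w, hR, hKK', h1, h2, h3, h4, h5, h6⟩ := exists_normal_form hK hc hi
  have h := hstd h1 h2 h3 h4 (defect_nonneg hK hc hi) hd h5
  have h7 := goodC_affine_matrix hR w h
  rwa [← hKK'] at h7

theorem simplex_of_defect_zero {K : Set V3} (hK : IsCompact K) (hc : Convex ℝ K)
    (hi : (interior K).Nonempty) (hd : defect K = 0) :
    ∃ x : Fin 4 → V3, 0 < simpVol x ∧ K = convexHull ℝ (range x) := by
  obtain ⟨x, hx, hm⟩ := exists_isMaxSimplex hK (hi.mono interior_subset)
  have hpos : 0 < simpVol x := hm ▸ mval_pos hK hi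
  refine ⟨x, hpos, ?_⟩
  have hfin : volume K ≠ ∞ := hK.measure_lt_top.ne
  have hvol : volume (convexHull ℝ (range x)) = volume K := by
    rw [volume_hull, ← ENNReal.ofReal_toReal hfin]
    congr 1
    unfold defect at hd
    rw [hm, sub_eq_zero, div_eq_one_iff_eq hpos.ne'] at hd
    exact hd.symm
  have hcl : IsClosed (convexHull ℝ (range x)) :=
    ((finite_range x).isCompact_convexHull (𝕜 := ℝ)).isClosed
  exact (eq_of_subset_of_volume_eq hcl hc hi hK.isClosed
    (convexHull_min (range_subset_iff.mpr hx.mem) hc) hvol (hvol ▸ hfin)).symm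

end Vale.Agent.P248
end
end
end

section

section

section

/-!
# The volume product of a simplex (in every dimension)
-/

set_option linter.unusedSectionVars false

open MeasureTheory Set
open scoped ENNReal Topology Matrix

namespace Vale.Agent.P248

/-- Explicit convex combinations. -/
theorem mem_hull_fintype {ι E : Type*} [Fintype ι] [AddCommGroup E] [Module ℝ E] {p : ι → E}
    {x : E} : x ∈ convexHull ℝ (range p) ↔
    ∃ w : ι → ℝ, (∀ i, 0 ≤ w i) ∧ ∑ i, w i = 1 ∧ ∑ i, w i • p i = x := by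
  classical
  constructor
  · intro hx
    have h1 : convexHull ℝ (range p) ⊆
        {x | ∃ w : ι → ℝ, (∀ i, 0 ≤ w i) ∧ ∑ i, w i = 1 ∧ ∑ i, w i • p i = x} := by
      refine convexHull_min ?_ ?_
      · rintro _ ⟨i, rfl⟩
        refine ⟨Pi.single i 1, fun j => ?_, by simp only [Finset.sum_pi_single', Finset.mem_univ, ↓reduceIte], ?_⟩
        · by_cases h : j = i
          · subst h; simp only [Pi.single_eq_same, zero_le_one]
          · simp [h]
        · rw [Finset.sum_eq_single i]
          · simp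
          · intro j _ hj; simp [hj]
          · simp only [Finset.mem_univ, not_true_eq_false, Pi.single_eq_same, one_smul, IsEmpty.forall_iff]
      · rintro _ ⟨w, hw0, hw1, rfl⟩ _ ⟨v, hv0, hv1, rfl⟩ s t hs ht hst
        refine ⟨fun i => s * w i + t * v i, fun i => ?_, ?_, ?_⟩
        · have := hw0 i; have := hv0 i; (clear p x hx hw1 hv1 hst; positivity)
        · rw [Finset.sum_add_distrib, ← Finset.mul_sum, ← Finset.mul_sum, hw1, hv1]; linarith only [hst]
        · rw [Finset.smul_sum, Finset.smul_sum, ← Finset.sum_add_distrib]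
          refine Finset.sum_congr rfl fun i _ => ?_
          rw [add_smul, mul_smul, mul_smul]
    exact h1 hx
  · rintro ⟨w, hw0, hw1, rfl⟩
    exact (convex_convexHull ℝ _).sum_mem (fun i _ => hw0 i) hw1
      fun i _ => subset_convexHull ℝ _ ⟨i, rfl⟩

variable {n : ℕ}

/-- the matrix of the map `y ↦ (∑ y / (n + 1)) 1 - y` -/
noncomputable def cenM (n : ℕ) : Matrix (Fin n) (Fin n) ℝ :=
  fun i j => 1 / ((n : ℝ) + 1) - if i = j then 1 else 0

theorem cenM_det (n : ℕ) : |(cenM n).det| = 1 / ((n : ℝ) + 1) := by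
  have h1 : cenM n = -(1 + Matrix.replicateCol Unit (fun _ : Fin n => -(1 / ((n : ℝ) + 1))) *
      Matrix.replicateRow Unit (fun _ : Fin n => (1 : ℝ))) := by
    ext i j
    rw [Matrix.neg_apply, Matrix.add_apply, Matrix.mul_apply]
    simp only [cenM, Matrix.one_apply, Matrix.replicateCol_apply, Matrix.replicateRow_apply,
      Finset.univ_unique, Finset.sum_singleton, mul_one]
    ring
  rw [h1, Matrix.det_neg, Matrix.det_one_add_replicateCol_mul_replicateRow, abs_mul, abs_pow]
  simp only [abs_neg, abs_one, Fintype.card_fin, one_pow, dotProduct, one_mul, Finset.sum_const, Finset.card_univ, nsmul_eq_mul]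
  have h2 : (0 : ℝ) < (n : ℝ) + 1 := by positivity
  have h3 : 1 + (n : ℝ) * -(1 / ((n : ℝ) + 1)) = 1 / ((n : ℝ) + 1) := by
    field_simp
    ring
  rw [h3, abs_of_pos (by positivity)]

theorem cenM_mulVec (n : ℕ) (y : Fin n → ℝ) (i : Fin n) :
    (cenM n *ᵥ y) i = (∑ j, y j) / ((n : ℝ) + 1) - y i := by
  simp only [Matrix.mulVec, dotProduct, cenM, sub_mul, Finset.sum_sub_distrib]
  rw [← Finset.mul_sum]
  congr 1
  · ring
  · rw [Finset.sum_eq_single i]
    · simp
    · intro j _ hj
      simp [Ne.symm hj]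
    · simp only [Finset.mem_univ, not_true_eq_false, ↓reduceIte, one_mul, IsEmpty.forall_iff]

/-- the centroid of the standard simplex -/
noncomputable def cen (n : ℕ) : Fin n → ℝ := fun _ => 1 / ((n : ℝ) + 1)

theorem polarP_stdS_subset (n : ℕ) :
    polarP (stdS (Fin n)) (cen n) ⊆
      (Matrix.toLin' (cenM n)) ⁻¹' ((fun t : Fin n → ℝ => (fun _ => (1 : ℝ)) + t) ⁻¹'
        simpA (fun _ : Fin n => (n : ℝ) + 1)) := by
  intro y hy
  have hn : (0 : ℝ) < (n : ℝ) + 1 := by positivity
  set s := (∑ j, y j) / ((n : ℝ) + 1) with hs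
  have hsum : ∑ j, y j = s * ((n : ℝ) + 1) := by rw [hs]; field_simp
  have h0 : -s ≤ 1 := by
    have h := hy 0 ⟨fun _ => le_rfl, by simp only [Pi.zero_apply, Finset.sum_const_zero, zero_le_one]⟩
    have e : ∑ i, ((0 : Fin n → ℝ) i - cen n i) * y i = -s := by
      rw [hs]
      simp only [cen, Pi.zero_apply, zero_sub, neg_mul, Finset.sum_neg_distrib]
      rw [← Finset.mul_sum]
      ring
    rwa [e] at h
  have hi : ∀ i, y i - s ≤ 1 := by
    intro i
    have h := hy (Pi.single i 1) ⟨fun j => by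
      by_cases hj : j = i
      · subst hj; simp only [Pi.single_eq_same, zero_le_one]
      · simp [hj], by simp only [Finset.sum_pi_single', Finset.mem_univ, ↓reduceIte, Std.le_refl]⟩
    have e : ∑ j, ((Pi.single i (1 : ℝ) : Fin n → ℝ) j - cen n j) * y j = y i - s := by
      rw [hs]
      simp only [cen, sub_mul, Finset.sum_sub_distrib]
      rw [← Finset.mul_sum]
      congr 1
      · rw [Finset.sum_eq_single i]
        · simp
        · intro j _ hj
          simp [hj]
        · simp only [Finset.mem_univ, not_true_eq_false, Pi.single_eq_same, one_mul, IsEmpty.forall_iff]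
      · ring
    rwa [e] at h
  refine ⟨fun i => ?_, ?_⟩
  · have e : ((fun _ => (1 : ℝ)) + Matrix.toLin' (cenM n) y : Fin n → ℝ) i = 1 + s - y i := by
      rw [Matrix.toLin'_apply, Pi.add_apply, cenM_mulVec, ← hs]
      ring
    show 0 ≤ ((fun _ => (1 : ℝ)) + Matrix.toLin' (cenM n) y : Fin n → ℝ) i
    rw [e]
    have := hi i
    linarith only [this]
  · have e : ∀ i, ((fun _ => (1 : ℝ)) + Matrix.toLin' (cenM n) y : Fin n → ℝ) i =
        1 + s - y i := by
      intro i
      rw [Matrix.toLin'_apply, Pi.add_apply, cenM_mulVec, ← hs]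
      ring
    show ∑ i, ((fun _ => (1 : ℝ)) + Matrix.toLin' (cenM n) y : Fin n → ℝ) i /
      ((n : ℝ) + 1) ≤ 1
    rw [← Finset.sum_div]
    simp only [e, Finset.sum_sub_distrib, Finset.sum_const, Finset.card_univ,
      Fintype.card_fin, nsmul_eq_mul]
    rw [hsum, div_le_one hn]
    linarith

theorem volume_polarP_stdS_le (n : ℕ) :
    volume (polarP (stdS (Fin n)) (cen n)) ≤
      ENNReal.ofReal (((n : ℝ) + 1) ^ (n + 1) / n.factorial) := by
  refine (measure_mono (polarP_stdS_subset n)).trans ?_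
  have hn : (0 : ℝ) < (n : ℝ) + 1 := by positivity
  have hdet0 : LinearMap.det (Matrix.toLin' (cenM n)) ≠ 0 := by
    rw [LinearMap.det_toLin']
    intro h
    have := cenM_det n
    rw [h, abs_zero] at this
    have h2 : (0 : ℝ) < 1 / ((n : ℝ) + 1) := by (clear * -; positivity)
    linarith only [this, h2]
  rw [Measure.addHaar_preimage_linearMap volume hdet0, LinearMap.det_toLin', measure_preimage_add,
    volume_simpA (fun _ => hn), volume_stdS_eq, abs_inv, cenM_det,
    ← ENNReal.ofReal_mul (Finset.prod_nonneg fun _ _ => hn.le), ← ENNReal.ofReal_mul (by (clear * -; positivity))]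
  apply ENNReal.ofReal_le_ofReal
  rw [Finset.prod_const, Finset.card_univ, Fintype.card_fin]
  have hf : (0 : ℝ) < n.factorial := by positivity
  rw [one_div, inv_inv, pow_succ]
  apply le_of_eq
  ring

theorem stdS_eq_hull' (n : ℕ) : stdS (Fin n) =
    convexHull ℝ (range (fun o : Fin (n + 1) => (Fin.cases 0 (fun i => Pi.single i 1) o :
      Fin n → ℝ))) := by
  ext x
  rw [mem_hull_fintype]
  constructor
  · rintro ⟨h1, h2⟩
    refine ⟨Fin.cases (1 - ∑ i, x i) x, fun i => ?_, ?_, ?_⟩
    · refine Fin.cases ?_ (fun i => ?_) i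
      · simp only [Fin.cases_zero]; linarith
      · simp only [Fin.cases_succ]; exact h1 i
    · rw [Fin.sum_univ_succ]
      simp only [Fin.cases_zero, Fin.cases_succ, sub_add_cancel]
    · rw [Fin.sum_univ_succ]
      simp only [Fin.cases_zero, smul_zero, zero_add, Fin.cases_succ]
      ext k
      rw [Finset.sum_apply, Finset.sum_eq_single k]
      · simp
      · intro j _ hj
        simp [Ne.symm hj]
      · simp only [Finset.mem_univ, not_true_eq_false, Pi.smul_apply, Pi.single_eq_same, smul_eq_mul, mul_one, IsEmpty.forall_iff]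
  · rintro ⟨w, h1, h2, rfl⟩
    rw [Fin.sum_univ_succ] at h2
    have e : ∀ k, (∑ i, w i • (Fin.cases 0 (fun i => Pi.single i 1) i : Fin n → ℝ)) k =
        w k.succ := by
      intro k
      rw [Fin.sum_univ_succ]
      simp only [Fin.cases_zero, smul_zero, zero_add, Fin.cases_succ]
      rw [Finset.sum_apply, Finset.sum_eq_single k]
      · simp
      · intro j _ hj
        simp [Ne.symm hj]
      · simp only [Finset.mem_univ, not_true_eq_false, Pi.smul_apply, Pi.single_eq_same, smul_eq_mul, mul_one, IsEmpty.forall_iff]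
    refine ⟨fun i => ?_, ?_⟩
    · rw [e]; exact h1 _
    · simp only [e]
      have := h1 0
      linarith only [h2, this]

theorem stdS_convex' (n : ℕ) : Convex ℝ (stdS (Fin n)) := by
  rw [stdS_eq_hull']
  exact convex_convexHull ℝ _

theorem stdS_isCompact' (n : ℕ) : IsCompact (stdS (Fin n)) := by
  rw [stdS_eq_hull']
  exact (finite_range _).isCompact_convexHull (𝕜 := ℝ)

theorem cen_mem_interior (n : ℕ) : cen n ∈ interior (stdS (Fin n)) := by
  have hn : (0 : ℝ) < (n : ℝ) + 1 := by positivity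
  have hopen : IsOpen {x : Fin n → ℝ | (∀ i, 0 < x i) ∧ ∑ i, x i < 1} := by
    have h1 : {x : Fin n → ℝ | (∀ i, 0 < x i) ∧ ∑ i, x i < 1} =
        (⋂ i, {x : Fin n → ℝ | 0 < x i}) ∩ {x : Fin n → ℝ | ∑ i, x i < 1} := by
      ext x; simp only [mem_ofPred_eq, mem_inter_iff, mem_iInter]
    rw [h1]
    refine (isOpen_iInter_of_finite fun i => ?_).inter ?_
    · exact isOpen_lt continuous_const (continuous_apply i)
    · exact isOpen_lt (by fun_prop) continuous_const
  have hsub : {x : Fin n → ℝ | (∀ i, 0 < x i) ∧ ∑ i, x i < 1} ⊆ stdS (Fin n) :=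
    fun x hx => ⟨fun i => (hx.1 i).le, hx.2.le⟩
  refine interior_maximal hsub hopen ⟨fun i => ?_, ?_⟩
  · simp only [cen]; (clear * -; positivity)
  · simp only [cen, Finset.sum_const, Finset.card_univ, Fintype.card_fin, nsmul_eq_mul]
    rw [mul_one_div, div_lt_one hn]
    linarith only []

theorem stdS_LABk (n : ℕ) : LABk (stdS (Fin n)) := by
  intro x hx i
  refine ⟨fun j => ?_, ?_⟩
  · rw [Function.update_apply]
    split_ifs
    · exact le_refl _
    · exact hx.1 j
  · refine le_trans (Finset.sum_le_sum fun j _ => ?_) hx.2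
    rw [Function.update_apply]
    split_ifs
    · exact hx.1 j
    · exact le_refl _

/-- The volume product of the standard simplex, in coordinates. -/
theorem stdS_volumeProduct (n : ℕ) :
    (⨅ u ∈ interior (stdS (Fin n)), volume (stdS (Fin n)) * volume (polarP (stdS (Fin n)) u)) =
      ENNReal.ofReal (((n : ℝ) + 1) ^ (n + 1) / (n.factorial : ℝ) ^ 2) := by
  apply le_antisymm
  · refine (iInf₂_le (cen n) (cen_mem_interior n)).trans ?_
    refine (mul_le_mul' le_rfl (volume_polarP_stdS_le n)).trans ?_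
    rw [volume_stdS_eq, ← ENNReal.ofReal_mul (by positivity)]
    apply ENNReal.ofReal_le_ofReal
    rw [Fintype.card_fin]
    apply le_of_eq
    ring
  · exact le_iInf₂ fun u hu => lab_polar (stdS_isCompact' n) (stdS_convex' n) (stdS_LABk n) hu

/-- A simplex is a standard simplex in a suitable frame. -/
theorem IsSimplex.exists_frame {K : Set (EuclideanSpace ℝ (Fin n))} (h : IsSimplex K) :
    ∃ (p : EuclideanSpace ℝ (Fin n)) (b : Module.Basis (Fin n) ℝ (EuclideanSpace ℝ (Fin n))),
      frame p b ⁻¹' K = stdS (Fin n) := by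
  obtain ⟨v, hv, rfl⟩ := h
  have hlin := (affineIndependent_iff_linearIndependent_vsub ℝ v 0).mp hv
  have hlin2 : LinearIndependent ℝ (fun i : Fin n => v i.succ - v 0) := by
    have h := hlin.comp (fun k : Fin n => (⟨k.succ, Fin.succ_ne_zero k⟩ : {x : Fin (n + 1) // x ≠ 0}))
      (fun a b hab => by simpa using hab)
    exact h
  let b : Module.Basis (Fin n) ℝ (EuclideanSpace ℝ (Fin n)) :=
    Module.Basis.mk hlin2 (hlin2.span_eq_top_of_card_eq_finrank' (by simp only [Fintype.card_fin, finrank_euclideanSpace])).ge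
  have hb : ∀ i, b i = v i.succ - v 0 := fun i => by
    rw [Module.Basis.mk_apply]
  refine ⟨v 0, b, ?_⟩
  have hfr : ∀ u : Fin n → ℝ, frame (v 0) b u = (1 - ∑ i, u i) • v 0 + ∑ i, u i • v i.succ := by
    intro u
    unfold frame
    rw [Module.Basis.equivFun_symm_apply]
    simp only [hb, smul_sub, Finset.sum_sub_distrib, ← Finset.sum_smul, sub_smul, one_smul]
    abel
  ext u
  rw [mem_preimage, mem_hull_fintype]
  constructor
  · rintro ⟨w, h1, h2, h3⟩
    rw [Fin.sum_univ_succ] at h2 h3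
    have h4 : frame (v 0) b u = frame (v 0) b (fun i => w i.succ) := by
      rw [← h3, hfr]
      have : w 0 = 1 - ∑ i : Fin n, w i.succ := by linarith only [h2]
      rw [← this]
    obtain ⟨hh, hhe⟩ := frame_homeo (v 0) b
    have h5 : u = fun i => w i.succ := by
      apply hh.injective
      rw [hhe, hhe]
      exact h4
    rw [h5]
    refine ⟨fun i => h1 _, ?_⟩
    have := h1 0
    linarith only [h2, this]
  · rintro ⟨h1, h2⟩
    refine ⟨Fin.cases (1 - ∑ i, u i) u, fun i => ?_, ?_, ?_⟩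
    · refine Fin.cases ?_ (fun i => ?_) i
      · simp only [Fin.cases_zero]; linarith
      · simp only [Fin.cases_succ]; exact h1 i
    · rw [Fin.sum_univ_succ]
      simp only [Fin.cases_zero, Fin.cases_succ, sub_add_cancel]
    · rw [Fin.sum_univ_succ, hfr]
      simp only [Fin.cases_zero, Fin.cases_succ]

/-- **The volume product of a simplex.** -/
theorem IsSimplex.volumeProduct_eq {K : Set (EuclideanSpace ℝ (Fin n))} (h : IsSimplex K) :
    volumeProduct K = ENNReal.ofReal (((n : ℝ) + 1) ^ (n + 1) / (n.factorial : ℝ) ^ 2) := by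
  obtain ⟨p, b, hb⟩ := h.exists_frame
  rw [volumeProduct_frame p b, hb, stdS_volumeProduct]

/-- A simplex is locally anti-blocking. -/
theorem IsSimplex.isLocallyAntiBlocking {K : Set (EuclideanSpace ℝ (Fin n))} (h : IsSimplex K) :
    IsLocallyAntiBlocking K := by
  obtain ⟨p, b, hb⟩ := h.exists_frame
  refine ⟨p, b, fun x hx i => ?_⟩
  obtain ⟨hh, hhe⟩ := frame_homeo p b
  obtain ⟨u, rfl⟩ := hh.surjective x
  rw [hhe] at hx ⊢
  rw [← frame_update]
  have hu : u ∈ stdS (Fin n) := by rw [← hb]; exact hx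
  have h2 := stdS_LABk n u hu i
  rw [← hb] at h2
  exact h2

/-- A simplex is a convex body. -/
theorem IsSimplex.isConvexBody {K : Set (EuclideanSpace ℝ (Fin n))} (h : IsSimplex K) :
    IsConvexBody K := by
  obtain ⟨p, b, hb⟩ := h.exists_frame
  obtain ⟨v, hv, hK⟩ := h
  refine ⟨?_, ?_, ?_⟩
  · rw [hK]; exact (finite_range _).isCompact_convexHull (𝕜 := ℝ)
  · rw [hK]; exact convex_convexHull ℝ _
  · refine ⟨frame p b (cen n), ?_⟩
    have := cen_mem_interior n
    rw [← hb, frame_preimage_interior] at this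
    exact this

end Vale.Agent.P248
end
end
end

section

section

section

/-! The Mahler inequality for all convex bodies in dimension three, from the fiber-sum theorem. -/

set_option linter.unusedSectionVars false

open MeasureTheory Set
open scoped ENNReal Topology Matrix

namespace Vale.Agent.P248

/-- The fiber-sum theorem in a coordinate direction, with constant `64 / 9`. -/
def FSCoord : Prop := ∀ K K1 K2 : Set V3, IsCompact K → Convex ℝ K → (interior K).Nonempty →
      IsCompact K1 → Convex ℝ K1 → (interior K1).Nonempty →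
      IsCompact K2 → Convex ℝ K2 → (interior K2).Nonempty →
      (∀ x, x ∈ K ↔ ∃ r : ℝ, x + r • (Pi.single 0 1 : V3) ∈ K1 ∧
        x - r • (Pi.single 0 1 : V3) ∈ K2) →
      (∀ x ∈ K1, ∃ r : ℝ, x + r • (Pi.single 0 1 : V3) ∈ K2) →
      (∀ x ∈ K2, ∃ r : ℝ, x + r • (Pi.single 0 1 : V3) ∈ K1) →
      Good K1 → Good K2 → Good K

variable {ι κ : Type} [Fintype ι] [Fintype κ]

theorem exists_motion {p : ι → V3} {q : κ → V3} (h : Pres p q) (hi : Irred p q)
    (h1 : Fintype.card ι ≤ Fintype.card κ) (h2 : 5 ≤ Fintype.card ι) :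
    ∃ e β a, Motion p q e β a :=
  exists_motion_of h (h.span_facet hi) (euler_ineq_of h hi (hi.injective_p h) (hi.injective_q h)
    (h.span_facet hi)) h1 h2

/-! ### assembly -/

theorem hull_motion_mem {p : ι → V3} {e : V3} {β γ : ι → ℝ} {x : V3}
    (hx : x ∈ convexHull ℝ (range fun i => p i + γ i • e)) :
    ∃ r : ℝ, x + r • e ∈ convexHull ℝ (range fun i => p i + β i • e) := by
  obtain ⟨w, hw0, hw1, rfl⟩ := mem_hull_iff.mp hx
  refine ⟨∑ i, w i * (β i - γ i), mem_hull_iff.mpr ⟨w, hw0, hw1, ?_⟩⟩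
  rw [Finset.sum_smul, ← Finset.sum_add_distrib]
  refine Finset.sum_congr rfl fun i _ => ?_
  rw [smul_add, smul_add, smul_smul, smul_smul, add_assoc, ← add_smul]
  congr 2; ring

theorem good_of_irred_step (hFS : FSCoord) {p : ι → V3} {q : κ → V3} (h : Pres p q) (hi : Irred p q)
    (h1 : Fintype.card ι ≤ Fintype.card κ) (h2 : 5 ≤ Fintype.card ι)
    (IH : ∀ (p' : ι → V3) (q' : κ → V3), Pres p' q' → inc p q < inc p' q' →
      Good (convexHull ℝ (range p'))) : Good (convexHull ℝ (range p)) := by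
  obtain ⟨e, β, a, hm⟩ := exists_motion h hi h1 h2
  have hspan := h.span_facet hi
  have key : ∀ t : ℝ, t = 1 ∨ t = -1 →
      Good (convexHull ℝ (range fun i => p i + (t * β i) • e)) ∧
      (interior (convexHull ℝ (range fun i => p i + (t * β i) • e))).Nonempty := by
    intro t ht
    obtain ⟨z, q', hq', hinc⟩ := hm.deform h hspan ht
    constructor
    · have := IH _ _ hq' hinc
      rw [hull_translate] at this
      exact this.translate z
    · have h0 := hq'.zero_mem_interior
      rw [hull_translate] at h0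
      have h3 : (fun x : V3 => x - z) '' (convexHull ℝ (range fun i => p i + (t * β i) • e)) =
          (Homeomorph.subRight z) '' (convexHull ℝ (range fun i => p i + (t * β i) • e)) := by
        rfl
      rw [h3, ← Homeomorph.image_interior] at h0
      obtain ⟨y, hy, _⟩ := h0
      exact ⟨y, hy⟩
  obtain ⟨hg1, hi1⟩ := key 1 (Or.inl rfl)
  obtain ⟨hg2, hi2⟩ := key (-1) (Or.inr rfl)
  exact fiber_sum_of_coord 0 hFS hm.e_ne (isCompact_hull p) (convex_convexHull ℝ _) ⟨0, h.zero_mem_interior⟩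
    (isCompact_hull _) (convex_convexHull ℝ _) hi1
    (isCompact_hull _) (convex_convexHull ℝ _) hi2 (hm.comb h hspan)
    (fun x hx => hull_motion_mem hx) (fun x hx => hull_motion_mem hx) hg1 hg2

theorem inc_le (p : ι → V3) (q : κ → V3) : inc p q ≤ Fintype.card ι * Fintype.card κ := by
  classical
  unfold inc
  rw [Nat.card_eq_fintype_card, ← Fintype.card_prod]
  exact Fintype.card_subtype_le _

/-- One step of the induction when there are at least as many half-spaces as points. -/
theorem good_step_le (hFS : FSCoord) {p : ι → V3} {q : κ → V3} (h : Pres p q) (hi : Irred p q)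
    (h1 : Fintype.card ι ≤ Fintype.card κ)
    (IH : ∀ (p' : ι → V3) (q' : κ → V3), Pres p' q' → inc p q < inc p' q' →
      Good (convexHull ℝ (range p'))) : Good (convexHull ℝ (range p)) := by
  have h4 := card_ge_four ⟨0, h.zero_mem_interior⟩
  rcases Nat.lt_or_ge 4 (Fintype.card ι) with h5 | h5
  · exact good_of_irred_step hFS h hi h1 h5 IH
  · exact simplex_good (le_antisymm h5 h4) ⟨0, h.zero_mem_interior⟩

theorem Good.of_dual {p : ι → V3} {q : κ → V3} (h : Pres p q)
    (hd : ∀ z ∈ interior (convexHull ℝ (range p)),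
      Good (convexHull ℝ (range fun j => (1 - q j ⬝ᵥ z)⁻¹ • q j))) :
    Good (convexHull ℝ (range p)) := by
  intro z hz
  have hr := h.recenter hz
  have h1 := hd z hz 0 hr.dual.zero_mem_interior
  rw [hr.dual.polar] at h1
  -- volume of the translate
  have h2 : volume (convexHull ℝ (range fun i => p i - z)) = volume (convexHull ℝ (range p)) := by
    have : convexHull ℝ (range fun i => p i - z) = (fun x => x + z) ⁻¹' (convexHull ℝ (range p)) := by
      ext x; rw [mem_hull_translate]; rfl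
    rw [this, measure_preimage_add_right]
  have h3 : polarP (convexHull ℝ (range p)) z = convexHull ℝ (range fun j => (1 - q j ⬝ᵥ z)⁻¹ • q j) := by
    rw [← hr.polar]
    ext y
    constructor
    · intro hy x hx
      rw [mem_hull_translate] at hx
      have := hy _ hx
      simpa only [Pi.zero_apply, sub_zero, ge_iff_le, Pi.add_apply, add_sub_cancel_right] using this
    · intro hy x hx
      have hx' : x - z ∈ convexHull ℝ (range fun i => p i - z) := by
        rw [mem_hull_translate]; simpa only [sub_add_cancel] using hx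
      have := hy _ hx'
      simpa only [ge_iff_le, Pi.sub_apply, Pi.zero_apply, sub_zero] using this
  rw [h2] at h1
  rw [h3, mul_comm]
  exact h1

theorem good_of_pres_aux (hFS : FSCoord) (N : ℕ) : ∀ M : ℕ, ∀ (ι κ : Type) [Fintype ι] [Fintype κ]
    (p : ι → V3) (q : κ → V3), Pres p q → Fintype.card ι + Fintype.card κ = N →
    Fintype.card ι * Fintype.card κ - inc p q = M → Good (convexHull ℝ (range p)) := by
  classical
  induction N using Nat.strong_induction_on with
  | _ N ihN =>
    intro M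
    induction M using Nat.strong_induction_on with
    | _ M ihM =>
      intro ι κ _ _ p q h hN hM
      by_cases hi : Irred p q
      · -- irredundant
        have IH : ∀ (p' : ι → V3) (q' : κ → V3), Pres p' q' → inc p q < inc p' q' →
            Good (convexHull ℝ (range p')) := by
          intro p' q' h' hinc
          have h3 := inc_le p' q'
          exact ihM _ (by omega) ι κ p' q' h' hN rfl
        rcases le_or_gt (Fintype.card ι) (Fintype.card κ) with hle | hlt
        · exact good_step_le hFS h hi hle IH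
        · refine Good.of_dual h fun z hz => ?_
          have hr := h.recenter hz
          have hinc := inc_recenter h hz
          by_cases hi2 : Irred (fun j => (1 - q j ⬝ᵥ z)⁻¹ • q j) (fun i => p i - z)
          · refine good_step_le hFS hr.dual hi2 hlt.le ?_
            intro p' q' h' hinc'
            rw [inc_dual, hinc] at hinc'
            have h3 := inc_le p' q'
            refine ihM _ ?_ κ ι p' q' h' (by omega) rfl
            rw [← hM, mul_comm (Fintype.card κ)]
            rw [mul_comm] at h3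
            omega
          · -- redundant: smaller presentation
            exact good_of_not_irred hr.dual hi2 fun ι' κ' _ _ p' q' h' hlt' =>
              ihN _ (by omega) _ ι' κ' p' q' h' rfl rfl
      · exact good_of_not_irred h hi fun ι' κ' _ _ p' q' h' hlt' =>
              ihN _ (by omega) _ ι' κ' p' q' h' rfl rfl
where
  good_of_not_irred {ι κ : Type} [Fintype ι] [Fintype κ] {p : ι → V3} {q : κ → V3} (h : Pres p q)
    (hi : ¬ Irred p q) (ih : ∀ (ι' κ' : Type) [Fintype ι'] [Fintype κ'] (p' : ι' → V3)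
      (q' : κ' → V3), Pres p' q' →
      Fintype.card ι' + Fintype.card κ' < Fintype.card ι + Fintype.card κ →
      Good (convexHull ℝ (range p'))) : Good (convexHull ℝ (range p)) := by
    classical
    have h1 : (∃ i, Pres (fun i' : {i' : ι // i' ≠ i} => p i'.1) q) ∨
        (∃ j, Pres p (fun j' : {j' : κ // j' ≠ j} => q j'.1)) := by
      by_contra hcon
      push Not at hcon
      exact hi ⟨hcon.1, hcon.2⟩
    rcases h1 with ⟨i, h1⟩ | ⟨j, h1⟩
    · have h2 : convexHull ℝ (range p) =
          convexHull ℝ (range (fun i' : {i' : ι // i' ≠ i} => p i'.1)) := by rw [h, h1]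
      rw [h2]
      refine ih _ _ _ _ h1 ?_
      have : Fintype.card {i' : ι // i' ≠ i} < Fintype.card ι :=
        Fintype.card_subtype_lt (x := i) (by simp)
      omega
    · refine ih _ _ _ _ h1 ?_
      have : Fintype.card {j' : κ // j' ≠ j} < Fintype.card κ :=
        Fintype.card_subtype_lt (x := j) (by simp)
      omega

theorem good_of_pres (hFS : FSCoord) {p : ι → V3} {q : κ → V3} (h : Pres p q) :
    Good (convexHull ℝ (range p)) :=
  good_of_pres_aux hFS _ _ ι κ p q h rfl rfl

theorem good_polytope (hFS : FSCoord) {p : ι → V3} (hi : (interior (convexHull ℝ (range p))).Nonempty) :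
    Good (convexHull ℝ (range p)) := by
  obtain ⟨z, hz⟩ := hi
  refine Good.translate z ?_
  rw [← hull_translate]
  obtain ⟨κ, _, q, hq⟩ := exists_pres (p := fun i => p i - z) (by
    rw [hull_translate]
    have h3 : (fun x : V3 => x - z) '' (convexHull ℝ (range p)) =
          (Homeomorph.subRight z) '' (convexHull ℝ (range p)) := rfl
    rw [h3, ← Homeomorph.image_interior]
    exact ⟨z, hz, by simp⟩)
  exact good_of_pres hFS hq

/-- The Mahler inequality for every convex body of dimension three, in coordinates. -/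
theorem good_of_isConvexBody (hFS : FSCoord) {K : Set V3} (hK : IsCompact K) (hc : Convex ℝ K) : Good K :=
  good_of_approx (fun _ _ _ hi => good_polytope hFS hi) hK hc

end Vale.Agent.P248
end
end
end

section

section

section

/-! Estimate of `Phi` for the equality case of the Mahler inequality in dimension three. -/

open MeasureTheory Set
open scoped ENNReal Topology

namespace Vale.Agent.P248.EqPhi

/-- Iterated integral over the octant. -/
theorem lint_oct (k : Fin 3) {u : V3 → ℝ≥0∞} (hu : Measurable u) :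
    ∫⁻ c in {c : V3 | ∀ k, 0 ≤ c k}, u c =
      ∫⁻ v in Ici (0 : ℝ), ∫⁻ w in Ici (0 : ℝ), ∫⁻ s in Ici (0 : ℝ), u (ins k s ![v, w]) := by
  have hW : MeasurableSet {c : V3 | ∀ k, 0 ≤ c k} := by
    have : {c : V3 | ∀ k, 0 ≤ c k} = Set.pi univ fun _ => Ici (0 : ℝ) := by
      ext c; simp only [mem_ofPred_eq, pi_univ_Ici, mem_Ici, Pi.le_def]
    rw [this]
    exact MeasurableSet.univ_pi fun _ => measurableSet_Ici
  set W := {c : V3 | ∀ k, 0 ≤ c k} with hWdef
  have hum : Measurable (W.indicator u) := hu.indicator hW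
  have h2 : ∀ F : (Fin 2 → ℝ) → ℝ≥0∞, Measurable F →
      ∫⁻ y, F y = ∫⁻ v : ℝ, ∫⁻ w : ℝ, F ![v, w] := by
    intro F hF
    rw [← (volume_preserving_finTwoArrow ℝ).symm.lintegral_comp hF]
    exact lintegral_prod _ (hF.comp MeasurableEquiv.finTwoArrow.symm.measurable).aemeasurable
  have hmi : Measurable fun p : (Fin 2 → ℝ) × ℝ => W.indicator u (ins k p.2 p.1) :=
    hum.comp ((measurable_ins k).comp measurable_swap)
  have hmem : ∀ s v w : ℝ, ins k s ![v, w] ∈ W ↔ 0 ≤ s ∧ 0 ≤ v ∧ 0 ≤ w := by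
    intro s v w
    rw [hWdef, mem_ofPred_eq, Fin.forall_iff_succAbove k]
    simp only [ins, Nat.reduceAdd, Fin.insertNth_apply_same, Fin.insertNth_apply_succAbove, Fin.forall_fin_two, Fin.isValue, Matrix.cons_val_zero, Matrix.cons_val_one, Matrix.cons_val_fin_one]
  rw [← lintegral_indicator hW, lintegral_ins k hum, lintegral_lintegral_swap, h2]
  · rw [← lintegral_indicator measurableSet_Ici]
    refine lintegral_congr fun v => ?_
    by_cases hv : v ∈ Ici (0 : ℝ)
    · rw [indicator_of_mem hv, ← lintegral_indicator measurableSet_Ici]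
      refine lintegral_congr fun w => ?_
      by_cases hw : w ∈ Ici (0 : ℝ)
      · rw [indicator_of_mem hw, ← lintegral_indicator measurableSet_Ici]
        refine lintegral_congr fun s => ?_
        by_cases hs : s ∈ Ici (0 : ℝ)
        · rw [indicator_of_mem hs, indicator_of_mem]
          exact (hmem s v w).2 ⟨hs, hv, hw⟩
        · rw [indicator_of_notMem hs, indicator_of_notMem]
          exact fun h => hs ((hmem s v w).1 h).1
      · rw [indicator_of_notMem hw]
        have : ∀ s, W.indicator u (ins k s ![v, w]) = 0 := fun s =>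
          indicator_of_notMem (fun h => hw ((hmem s v w).1 h).2.2) _
        simp only [this, lintegral_const, measure_univ_of_isAddLeftInvariant, zero_mul]
    · rw [indicator_of_notMem hv]
      have : ∀ w s, W.indicator u (ins k s ![v, w]) = 0 := fun w s =>
        indicator_of_notMem (fun h => hv ((hmem s v w).1 h).2.1) _
      simp only [this, lintegral_const, measure_univ_of_isAddLeftInvariant, zero_mul]
  · exact hmi.lintegral_prod_right'
  · exact (hmi.comp measurable_swap).aemeasurable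

theorem lint_gamma_Ici (n : ℕ) :
    ∫⁻ t in Ici (0 : ℝ), ENNReal.ofReal (Real.exp (-t) * t ^ n) = n.factorial := by
  rw [← lintegral_gamma n]
  exact setLIntegral_congr Ioi_ae_eq_Ici.symm

/-- Integral of the excess over a level. -/
theorem lint_excess (m : ℝ) :
    ∫⁻ s in Ici (0 : ℝ), ENNReal.ofReal (max 0 (s - m) * Real.exp (-s)) ≤
      ENNReal.ofReal (Real.exp (-m)) := by
  calc ∫⁻ s in Ici (0 : ℝ), ENNReal.ofReal (max 0 (s - m) * Real.exp (-s))
      ≤ ∫⁻ s : ℝ, ENNReal.ofReal (max 0 (s - m) * Real.exp (-s)) := setLIntegral_le_lintegral _ _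
    _ = ∫⁻ s : ℝ, ENNReal.ofReal (max 0 ((s + m) - m) * Real.exp (-(s + m))) :=
        (lintegral_add_right_eq_self
          (fun s : ℝ => ENNReal.ofReal (max 0 (s - m) * Real.exp (-s))) m).symm
    _ = ∫⁻ s : ℝ, ENNReal.ofReal (Real.exp (-m)) *
          (Ici (0 : ℝ)).indicator (fun s => ENNReal.ofReal (Real.exp (-s) * s ^ 1)) s := by
        refine lintegral_congr fun s => ?_
        rw [add_sub_cancel_right]
        by_cases hs : s ∈ Ici (0 : ℝ)
        · rw [indicator_of_mem hs, ← ENNReal.ofReal_mul (Real.exp_pos _).le]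
          congr 1
          rw [max_eq_right hs, neg_add, Real.exp_add]
          ring
        · rw [indicator_of_notMem hs]
          have : s ≤ 0 := by
            simp only [mem_Ici, not_le] at hs
            exact hs.le
          rw [max_eq_left this]
          simp only [neg_add_rev, zero_mul, ENNReal.ofReal_zero, mul_zero]
    _ = ENNReal.ofReal (Real.exp (-m)) := by
        rw [lintegral_const_mul' _ _ ENNReal.ofReal_ne_top, lintegral_indicator measurableSet_Ici,
          lint_gamma_Ici 1]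
        simp

/-- Middle integral. -/
theorem lint_min {v : ℝ} (hv : 0 ≤ v) :
    ∫⁻ w in Ici (0 : ℝ), ENNReal.ofReal (Real.exp (-min v w) * Real.exp (-(v + w))) ≤
      ENNReal.ofReal (Real.exp (-v) / 2 + Real.exp (-(3 * v)) / 2) := by
  have hsplit : Ici (0 : ℝ) = Ico 0 v ∪ Ici v := (Ico_union_Ici_eq_Ici hv).symm
  rw [hsplit, ENNReal.ofReal_add (by positivity) (by positivity)]
  refine (lintegral_union_le _ _ _).trans ?_
  have e1 : ∫⁻ w in Ico (0 : ℝ) v, ENNReal.ofReal (Real.exp (-min v w) * Real.exp (-(v + w))) =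
      ENNReal.ofReal (Real.exp (-v) / 2 - Real.exp (-(3 * v)) / 2) := by
    have h1 : ∫⁻ w in Ico (0 : ℝ) v,
        ENNReal.ofReal (Real.exp (-min v w) * Real.exp (-(v + w))) =
        ∫⁻ w in Ico (0 : ℝ) v, ENNReal.ofReal (Real.exp (-v) * Real.exp (-2 * w)) := by
      refine setLIntegral_congr_fun measurableSet_Ico fun w hw => ?_
      rw [min_eq_right hw.2.le, ← Real.exp_add, ← Real.exp_add]
      congr 2
      ring
    have hint : IntegrableOn (fun w : ℝ => Real.exp (-v) * Real.exp (-2 * w)) (Ioc 0 v) :=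
      (Continuous.integrableOn_Ioc (by fun_prop))
    rw [h1, setLIntegral_congr (Ico_ae_eq_Ioc (a := (0 : ℝ)) (b := v)),
      ← ofReal_integral_eq_lintegral_ofReal hint
        (Filter.Eventually.of_forall fun w => by positivity),
      ← intervalIntegral.integral_of_le hv]
    congr 1
    rw [intervalIntegral.integral_const_mul,
      intervalIntegral.integral_comp_mul_left (fun x => Real.exp x) (by norm_num : (-2 : ℝ) ≠ 0),
      integral_exp]
    have : Real.exp (-(3 * v)) = Real.exp (-v) * Real.exp (-2 * v) := by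
      rw [← Real.exp_add]; congr 1; ring
    rw [this]
    simp only [mul_zero, Real.exp_zero, smul_eq_mul]
    ring
  have e2 : ∫⁻ w in Ici v, ENNReal.ofReal (Real.exp (-min v w) * Real.exp (-(v + w))) =
      ENNReal.ofReal (Real.exp (-(3 * v))) := by
    have h1 : ∫⁻ w in Ici v, ENNReal.ofReal (Real.exp (-min v w) * Real.exp (-(v + w))) =
        ∫⁻ w in Ici v, ENNReal.ofReal (Real.exp (-(2 * v))) * ENNReal.ofReal (Real.exp (-w)) := by
      refine setLIntegral_congr_fun measurableSet_Ici fun w hw => ?_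
      rw [min_eq_left hw, ← Real.exp_add, ← ENNReal.ofReal_mul (Real.exp_pos _).le, ← Real.exp_add]
      congr 2
      ring
    rw [h1, lintegral_const_mul' _ _ ENNReal.ofReal_ne_top, lintegral_exp_Ici,
      ← ENNReal.ofReal_mul (Real.exp_pos _).le, ← Real.exp_add]
    congr 2
    ring
  rw [e1, e2, ← ENNReal.ofReal_add, ← ENNReal.ofReal_add (by positivity) (by positivity)]
  · refine ENNReal.ofReal_le_ofReal (le_of_eq ?_)
    ring
  · have : Real.exp (-(3 * v)) ≤ Real.exp (-v) := Real.exp_le_exp.2 (by linarith)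
    linarith only [this]
  · positivity

/-- Exponential moments over the quadrant. -/
theorem lint_quad {t : ℝ} (ht : 0 ≤ t) :
    ∫⁻ v in Ici (0 : ℝ), ∫⁻ w in Ici (0 : ℝ),
      ENNReal.ofReal (3 * t * (v + w) ^ 2 * Real.exp (-(v + w))) = ENNReal.ofReal (18 * t) := by
  have g : ∀ n : ℕ, Measurable fun x : ℝ => ENNReal.ofReal (Real.exp (-x) * x ^ n) := by
    intro n; fun_prop
  have h1 : ∀ v ∈ Ici (0 : ℝ), ∫⁻ w in Ici (0 : ℝ),
      ENNReal.ofReal (3 * t * (v + w) ^ 2 * Real.exp (-(v + w))) =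
      ENNReal.ofReal (3 * t) * (ENNReal.ofReal (Real.exp (-v) * v ^ 2) +
        (2 * ENNReal.ofReal (Real.exp (-v) * v ^ 1) + 2 * ENNReal.ofReal (Real.exp (-v) * v ^ 0))) := by
    intro v hv
    have hv' : (0 : ℝ) ≤ v := hv
    have h2 : ∫⁻ w in Ici (0 : ℝ), ENNReal.ofReal (3 * t * (v + w) ^ 2 * Real.exp (-(v + w))) =
        ∫⁻ w in Ici (0 : ℝ), ENNReal.ofReal (3 * t) *
          (ENNReal.ofReal (Real.exp (-v) * v ^ 2) * ENNReal.ofReal (Real.exp (-w) * w ^ 0) +
          (2 * ENNReal.ofReal (Real.exp (-v) * v ^ 1) * ENNReal.ofReal (Real.exp (-w) * w ^ 1) +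
          ENNReal.ofReal (Real.exp (-v) * v ^ 0) * ENNReal.ofReal (Real.exp (-w) * w ^ 2))) := by
      refine setLIntegral_congr_fun measurableSet_Ici fun w hw => ?_
      have hw' : (0 : ℝ) ≤ w := hw
      have e2 : (2 : ℝ≥0∞) = ENNReal.ofReal 2 := by simp
      rw [e2, ← ENNReal.ofReal_mul (by (clear * -; positivity)), ← ENNReal.ofReal_mul (by positivity),
        ← ENNReal.ofReal_mul (by positivity), ← ENNReal.ofReal_mul (by positivity),
        ← ENNReal.ofReal_add (by (clear * - hv' hw'; positivity)) (by (clear * -; positivity)),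
        ← ENNReal.ofReal_add (by (clear * -; positivity)) (by (clear * - hv' hw'; positivity)),
        ← ENNReal.ofReal_mul (by positivity), neg_add, Real.exp_add]
      congr 1
      ring
    rw [h2, lintegral_const_mul' _ _ ENNReal.ofReal_ne_top, lintegral_add_left (by fun_prop),
      lintegral_add_left (by fun_prop), lintegral_const_mul' _ _ ENNReal.ofReal_ne_top,
      lintegral_const_mul' _ _ (ENNReal.mul_ne_top (by simp only [ne_eq, ENNReal.ofNat_ne_top, not_false_eq_true]) ENNReal.ofReal_ne_top),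
      lintegral_const_mul' _ _ ENNReal.ofReal_ne_top,
      lint_gamma_Ici, lint_gamma_Ici, lint_gamma_Ici]
    simp only [Nat.factorial, Nat.cast_one, mul_one]
    congr 2
    congr 1
    push_cast
    ring
  rw [setLIntegral_congr_fun measurableSet_Ici h1, lintegral_const_mul' _ _ ENNReal.ofReal_ne_top,
    lintegral_add_left (g 2), lintegral_add_left ((g 1).const_mul _),
    lintegral_const_mul _ (g 1), lintegral_const_mul _ (g 0),
    lint_gamma_Ici, lint_gamma_Ici, lint_gamma_Ici]
  have e6 : ENNReal.ofReal (18 * t) = ENNReal.ofReal (3 * t) * 6 := by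
    have : (6 : ℝ≥0∞) = ENNReal.ofReal 6 := by simp
    rw [this, ← ENNReal.ofReal_mul (by positivity)]
    congr 1
    ring
  rw [e6]
  congr 1
  simp only [Nat.factorial]
  push_cast
  norm_num

/-- Inner integral of the indicator part. -/
theorem lint_ind {t w : ℝ} (ht : 0 ≤ t) (ht1 : t ≤ 1 / 2) (hw : 0 ≤ w) :
    ∫⁻ s in Ici (0 : ℝ),
      ENNReal.ofReal ((if s < t * (s + w) then s + w else 0) * Real.exp (-(s + w))) ≤
      ENNReal.ofReal (3 * t * w ^ 2 * Real.exp (-w)) := by
  have hL : (0 : ℝ) ≤ 2 * t * w := by positivity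
  have hint : IntegrableOn (fun s : ℝ => (s + w) * Real.exp (-w)) (Ioc 0 (2 * t * w)) :=
    (Continuous.integrableOn_Ioc (by fun_prop))
  calc (∫⁻ s in Ici (0 : ℝ),
        ENNReal.ofReal ((if s < t * (s + w) then s + w else 0) * Real.exp (-(s + w))))
      ≤ ∫⁻ s in Ici (0 : ℝ), (Icc 0 (2 * t * w)).indicator
          (fun s => ENNReal.ofReal ((s + w) * Real.exp (-w))) s := by
        refine setLIntegral_mono' measurableSet_Ici fun s hs => ?_
        have hs' : (0 : ℝ) ≤ s := hs
        by_cases h : s < t * (s + w)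
        · rw [if_pos h, indicator_of_mem]
          · refine ENNReal.ofReal_le_ofReal ?_
            refine mul_le_mul_of_nonneg_left (Real.exp_le_exp.2 (by linarith only [hs'])) (by (clear * - hs' hw; positivity))
          · refine ⟨hs', ?_⟩
            (by_contra nlg; linarith [mul_nonneg (sub_nonneg.2 ht1) (sub_nonneg.2 hs'), mul_nonneg (mul_self_nonneg (1 : ℝ)) (le_of_lt (sub_pos.2 (not_le.1 nlg))), h])
        · rw [if_neg h]
          simp only [neg_add_rev, zero_mul, ENNReal.ofReal_zero, zero_le]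
    _ ≤ ∫⁻ s, (Icc 0 (2 * t * w)).indicator
          (fun s => ENNReal.ofReal ((s + w) * Real.exp (-w))) s := setLIntegral_le_lintegral _ _
    _ = ENNReal.ofReal (∫ s in (0 : ℝ)..(2 * t * w), (s + w) * Real.exp (-w)) := by
        rw [lintegral_indicator measurableSet_Icc, setLIntegral_congr Ioc_ae_eq_Icc.symm,
          intervalIntegral.integral_of_le hL, ofReal_integral_eq_lintegral_ofReal hint]
        filter_upwards [ae_restrict_mem measurableSet_Ioc] with s hs
        have : 0 < s := hs.1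
        simp only [Pi.zero_apply]
        positivity
    _ ≤ ENNReal.ofReal (3 * t * w ^ 2 * Real.exp (-w)) := by
        refine ENNReal.ofReal_le_ofReal ?_
        rw [intervalIntegral.integral_mul_const]
        refine mul_le_mul_of_nonneg_right ?_ (Real.exp_pos _).le
        rw [intervalIntegral.integral_add (by simp) (by simp), integral_id]
        simp only [intervalIntegral.integral_const, sub_zero, smul_eq_mul]
        have : 0 ≤ t * (1 / 2 - t) * w ^ 2 := by
          have : 0 ≤ 1 / 2 - t := by linarith only [ht1]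
          positivity
        linarith

theorem ins_ev0 (k : Fin 3) (s v w : ℝ) : ins k s ![v, w] (k.succAbove 0) = v := by
  simp [ins]

theorem ins_ev1 (k : Fin 3) (s v w : ℝ) : ins k s ![v, w] (k.succAbove 1) = w := by
  simp [ins]

theorem ins_sum (k : Fin 3) (s v w : ℝ) : ∑ i, ins k s ![v, w] i = s + (v + w) := by
  rw [Fin.sum_univ_succAbove _ k, Fin.sum_univ_two, ins_same, ins_ev0, ins_ev1]

/-- The excess of one coordinate over the smallest one. -/
noncomputable def qq (k : Fin 3) (c : V3) : ℝ :=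
  max 0 (c k - min (c (k.succAbove 0)) (c (k.succAbove 1)))

theorem measurable_qq (k : Fin 3) : Measurable (qq k) := by
  unfold qq
  fun_prop

theorem oct_A (k : Fin 3) :
    ∫⁻ c in {c : V3 | ∀ k, 0 ≤ c k}, ENNReal.ofReal (qq k c * Real.exp (-∑ i, c i)) ≤
      ENNReal.ofReal (2 / 3) := by
  have hm : Measurable fun c : V3 => ENNReal.ofReal (qq k c * Real.exp (-∑ i, c i)) := by
    have := measurable_qq k
    fun_prop
  rw [lint_oct k hm]
  have h1 : ∀ v ∈ Ici (0 : ℝ), ∀ w ∈ Ici (0 : ℝ), ∫⁻ s in Ici (0 : ℝ),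
      ENNReal.ofReal (qq k (ins k s ![v, w]) * Real.exp (-∑ i, ins k s ![v, w] i)) ≤
      ENNReal.ofReal (Real.exp (-min v w) * Real.exp (-(v + w))) := by
    intro v _ w _
    have h2 : ∀ s : ℝ, ENNReal.ofReal (qq k (ins k s ![v, w]) *
        Real.exp (-∑ i, ins k s ![v, w] i)) = ENNReal.ofReal (Real.exp (-(v + w))) *
          ENNReal.ofReal (max 0 (s - min v w) * Real.exp (-s)) := by
      intro s
      rw [ins_sum, ← ENNReal.ofReal_mul (Real.exp_pos _).le]
      unfold qq
      rw [ins_same, ins_ev0, ins_ev1, neg_add, Real.exp_add]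
      congr 1
      ring
    simp_rw [h2]
    rw [lintegral_const_mul' _ _ ENNReal.ofReal_ne_top, mul_comm (Real.exp (-min v w)),
      ENNReal.ofReal_mul (Real.exp_pos _).le]
    exact mul_le_mul_right (lint_excess _) _
  calc _ ≤ ∫⁻ v in Ici (0 : ℝ), ∫⁻ w in Ici (0 : ℝ),
        ENNReal.ofReal (Real.exp (-min v w) * Real.exp (-(v + w))) :=
        setLIntegral_mono' measurableSet_Ici fun v hv =>
          setLIntegral_mono' measurableSet_Ici fun w hw => h1 v hv w hw
    _ ≤ ∫⁻ v in Ici (0 : ℝ), ENNReal.ofReal (Real.exp (-v) / 2 + Real.exp (-(3 * v)) / 2) :=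
        setLIntegral_mono' measurableSet_Ici fun v hv => lint_min hv
    _ = ∫⁻ v in Ioi (0 : ℝ), (ENNReal.ofReal (Real.exp (-(1 * v)) * (1 / 2)) +
          ENNReal.ofReal (Real.exp (-(3 * v)) * (1 / 2))) := by
        rw [setLIntegral_congr Ioi_ae_eq_Ici.symm]
        refine lintegral_congr fun v => ?_
        rw [← ENNReal.ofReal_add (by positivity) (by positivity)]
        congr 1
        rw [one_mul]
        ring
    _ = ENNReal.ofReal (2 / 3) := by
        rw [lintegral_add_left (by fun_prop), lintegral_exp_const (by norm_num) (by norm_num),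
          lintegral_exp_const (by norm_num) (by norm_num),
          ← ENNReal.ofReal_add (by norm_num) (by norm_num)]
        norm_num

theorem oct_B (k : Fin 3) {t : ℝ} (ht : 0 ≤ t) (ht1 : t ≤ 1 / 2) :
    ∫⁻ c in {c : V3 | ∀ k, 0 ≤ c k},
      ENNReal.ofReal ((if c k < t * ∑ i, c i then ∑ i, c i else 0) * Real.exp (-∑ i, c i)) ≤
      ENNReal.ofReal (18 * t) := by
  have hm : Measurable fun c : V3 =>
      ENNReal.ofReal ((if c k < t * ∑ i, c i then ∑ i, c i else 0) * Real.exp (-∑ i, c i)) := by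
    have h1 : Measurable fun c : V3 => (if c k < t * ∑ i, c i then ∑ i, c i else 0) := by
      refine Measurable.ite ?_ (by fun_prop) measurable_const
      exact measurableSet_lt (by fun_prop) (by fun_prop)
    fun_prop
  rw [lint_oct k hm]
  simp_rw [ins_sum, ins_same]
  rw [← lint_quad ht]
  exact setLIntegral_mono' measurableSet_Ici fun v hv =>
    setLIntegral_mono' measurableSet_Ici fun w hw => lint_ind ht ht1 (add_nonneg hv hw)

/-- The vertices of the standard simplex. -/
theorem exists_vertex (j : Fin 4) :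
    ∃ x ∈ stdS (Fin 3), lam j x = 1 ∧ ∀ k, lam (j.succAbove k) x = 0 := by
  have h : ∃ x ∈ stdS (Fin 3), lam j x = 1 := by
    refine Fin.cases ?_ (fun m => ?_) j
    · refine ⟨0, ⟨fun i => le_rfl, by simp only [Pi.zero_apply, Finset.sum_const_zero, zero_le_one]⟩, ?_⟩
      simp [lam_zero]
    · refine ⟨Pi.single m 1, ⟨fun i => ?_, by simp⟩, ?_⟩
      · by_cases h : i = m
        · subst h; simp only [Pi.single_eq_same, zero_le_one]
        · simp [h]
      · simp [lam_succ]
  obtain ⟨x, hx, hx1⟩ := h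
  refine ⟨x, hx, hx1, ?_⟩
  have h0 : ∀ i, 0 ≤ lam i x := by
    intro i
    refine Fin.cases ?_ (fun m => ?_) i
    · rw [lam_zero]; linarith [hx.2]
    · rw [lam_succ]; exact hx.1 m
  have hs := sum_lam x
  rw [Fin.sum_univ_succAbove _ j, hx1] at hs
  have hs' : ∑ k, lam (j.succAbove k) x = 0 := by linarith
  intro k
  exact (Finset.sum_eq_zero_iff_of_nonneg fun k _ => h0 _).1 hs' k (Finset.mem_univ k)

theorem sum_lam_succAbove (j : Fin 4) (x : V3) :
    ∑ k, lam (j.succAbove k) x = 1 - lam j x := by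
  have hs := sum_lam x
  rw [Fin.sum_univ_succAbove _ j] at hs
  linarith only [hs]

section
variable {K : Set V3} (hS : stdS (Fin 3) ⊆ K) {a r : ℝ} (ha : ∀ x ∈ K, ∀ i, -a ≤ lam i x)
  (hr : 0 < r)
include ha

theorem le_eta {j k : Fin 4} {x : V3} (hx : x ∈ K) (hxj : 1 - r ≤ lam j x) :
    -lam k x ≤ eta K r j k := by
  refine le_csSup ⟨a, ?_⟩ ⟨x, ⟨hx, hxj⟩, rfl⟩
  rintro _ ⟨y, hy, rfl⟩
  have := ha y hy.1 k
  simp only
  linarith

include hS hr

theorem eta_nonneg (j : Fin 4) (k : Fin 3) : 0 ≤ eta K r j (j.succAbove k) := by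
  obtain ⟨x, hx, hx1, hx0⟩ := exists_vertex j
  have := le_eta ha (r := r) (k := j.succAbove k) (hS hx) (by rw [hx1]; linarith)
  rw [hx0 k] at this
  linarith

end

/-- Pointwise estimate of `G_j`. -/
theorem Gj_le {K : Set V3} (hS : stdS (Fin 3) ⊆ K)
    (h1 : ∀ x ∈ K, ∀ i, lam i x ≤ 1) {a r : ℝ} (ha : ∀ x ∈ K, ∀ i, -a ≤ lam i x) (ha0 : 0 ≤ a)
    (hr : 0 < r) (j : Fin 4) {c : V3} (hc : ∀ k, 0 ≤ c k) :
    Gj K j c ≤ ∑ k, eta K r j (j.succAbove k) * qq k c +
      ∑ m, a * (if c m < 3 * a / r * ∑ i, c i then ∑ i, c i else 0) := by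
  have hsum : 0 ≤ ∑ i, c i := Finset.sum_nonneg fun i _ => hc i
  have hq : ∀ k, 0 ≤ eta K r j (j.succAbove k) * qq k c := fun k =>
    mul_nonneg (eta_nonneg hS ha hr j k) (le_max_left _ _)
  have hi : ∀ m, 0 ≤ a * (if c m < 3 * a / r * ∑ i, c i then ∑ i, c i else 0) := by
    intro m
    split_ifs
    · (clear * - ha0 hsum; positivity)
    · simp
  have hne : K.Nonempty := by
    obtain ⟨x, hx, -⟩ := exists_vertex j
    exact ⟨x, hS hx⟩
  refine csSup_le (hne.image _) ?_
  rintro _ ⟨x, hx, rfl⟩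
  simp only
  by_cases hxj : 1 - r ≤ lam j x
  · -- close to the vertex
    obtain ⟨μ, hμ0, hμ⟩ : ∃ μ, 0 ≤ μ ∧ ∀ k, μ ≤ c k ∧ c k - μ ≤ qq k c := by
      refine ⟨min (c 0) (min (c 1) (c 2)), le_min (hc 0) (le_min (hc 1) (hc 2)), ?_⟩
      intro k
      unfold qq
      fin_cases k
      · refine ⟨min_le_left _ _, ?_⟩
        show c 0 - min (c 0) (min (c 1) (c 2)) ≤ max 0 (c 0 - min (c 1) (c 2))
        rcases le_total (c 0) (min (c 1) (c 2)) with h | h
        · rw [min_eq_left h]; simp only [Fin.isValue, sub_self, le_sup_left]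
        · rw [min_eq_right h]; exact le_max_right _ _
      · refine ⟨(min_le_right _ _).trans (min_le_left _ _), ?_⟩
        show c 1 - min (c 0) (min (c 1) (c 2)) ≤ max 0 (c 1 - min (c 0) (c 2))
        rw [min_left_comm]
        rcases le_total (c 1) (min (c 0) (c 2)) with h | h
        · rw [min_eq_left h]; simp only [Fin.isValue, sub_self, le_sup_left]
        · rw [min_eq_right h]; exact le_max_right _ _
      · refine ⟨(min_le_right _ _).trans (min_le_right _ _), ?_⟩
        show c 2 - min (c 0) (min (c 1) (c 2)) ≤ max 0 (c 2 - min (c 0) (c 1))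
        rw [← min_assoc, min_comm]
        rcases le_total (c 2) (min (c 0) (c 1)) with h | h
        · rw [min_eq_left h]; simp only [Fin.isValue, sub_self, le_sup_left]
        · rw [min_eq_right h]; exact le_max_right _ _
    have e1 : -∑ k, c k * lam (j.succAbove k) x =
        -(μ * ∑ k, lam (j.succAbove k) x) + ∑ k, (c k - μ) * (-lam (j.succAbove k) x) := by
      rw [Finset.mul_sum, ← Finset.sum_neg_distrib, ← Finset.sum_neg_distrib,
        ← Finset.sum_add_distrib]
      refine Finset.sum_congr rfl fun k _ => ?_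
      ring
    have e2 : 0 ≤ μ * ∑ k, lam (j.succAbove k) x := by
      rw [sum_lam_succAbove]
      exact mul_nonneg hμ0 (by linarith only [h1 x hx j])
    have e3 : ∑ k, (c k - μ) * (-lam (j.succAbove k) x) ≤
        ∑ k, eta K r j (j.succAbove k) * qq k c := by
      refine Finset.sum_le_sum fun k _ => ?_
      have h2 := le_eta ha (k := j.succAbove k) hx hxj
      have h3 := eta_nonneg hS ha hr j k
      have h4 := hμ k
      have h5 : 0 ≤ c k - μ := by linarith only [h4]
      calc (c k - μ) * (-lam (j.succAbove k) x) ≤ (c k - μ) * eta K r j (j.succAbove k) :=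
            mul_le_mul_of_nonneg_left h2 h5
        _ ≤ qq k c * eta K r j (j.succAbove k) := mul_le_mul_of_nonneg_right h4.2 h3
        _ = _ := mul_comm _ _
    have e4 : 0 ≤ ∑ m, a * (if c m < 3 * a / r * ∑ i, c i then ∑ i, c i else 0) :=
      Finset.sum_nonneg fun m _ => hi m
    linarith only [e1, e2, e3, e4]
  · -- far from the vertex
    push Not at hxj
    have hbig : ∃ m, r / 3 < lam (j.succAbove m) x := by
      by_contra hcon
      push Not at hcon
      have h2 := sum_lam_succAbove j x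
      have h3 : ∑ k : Fin 3, lam (j.succAbove k) x ≤ ∑ _k : Fin 3, r / 3 :=
        Finset.sum_le_sum fun k _ => hcon k
      simp only [Finset.sum_const, Finset.card_univ, Fintype.card_fin, nsmul_eq_mul, Nat.cast_ofNat] at h3
      linarith only [hxj, h2, h3]
    obtain ⟨m, hm⟩ := hbig
    have e1 : -∑ k, c k * lam (j.succAbove k) x ≤ a * ∑ i, c i - c m * (r / 3) := by
      rw [← Finset.sum_neg_distrib, Fin.sum_univ_succAbove _ m, Finset.mul_sum,
        Fin.sum_univ_succAbove (fun i => a * c i) m]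
      have h2 : -(c m * lam (j.succAbove m) x) ≤ a * c m - c m * (r / 3) := by
        have := mul_le_mul_of_nonneg_left hm.le (hc m)
        have := mul_nonneg ha0 (hc m)
        linarith
      have h3 : ∑ i : Fin 2, -(c (m.succAbove i) * lam (j.succAbove (m.succAbove i)) x) ≤
          ∑ i : Fin 2, a * c (m.succAbove i) := by
        refine Finset.sum_le_sum fun i _ => ?_
        have := mul_le_mul_of_nonneg_left (ha x hx (j.succAbove (m.succAbove i)))
          (hc (m.succAbove i))
        linarith only [this]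
      linarith only [h2, h3]
    have e2 : a * ∑ i, c i - c m * (r / 3) ≤
        a * (if c m < 3 * a / r * ∑ i, c i then ∑ i, c i else 0) := by
      split_ifs with h
      · have : 0 ≤ c m * (r / 3) := mul_nonneg (hc m) (by positivity)
        linarith only [this]
      · push Not at h
        have h2 := mul_le_mul_of_nonneg_right h (by positivity : 0 ≤ r / 3)
        have h3 : 3 * a / r * (∑ i, c i) * (r / 3) = a * ∑ i, c i := by
          (clear * - hr; field_simp)
        rw [h3] at h2
        linarith only [h2]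
    have e3 : a * (if c m < 3 * a / r * ∑ i, c i then ∑ i, c i else 0) ≤
        ∑ m, a * (if c m < 3 * a / r * ∑ i, c i then ∑ i, c i else 0) :=
      Finset.single_le_sum (f := fun m => a * (if c m < 3 * a / r * ∑ i, c i then ∑ i, c i else 0))
        (fun i _ => hi i) (Finset.mem_univ m)
    have e4 : 0 ≤ ∑ k, eta K r j (j.succAbove k) * qq k c := Finset.sum_nonneg fun k _ => hq k
    linarith

end Vale.Agent.P248.EqPhi

namespace Vale.Agent.P248

open EqPhi

theorem phi_bound {K : Set V3} (_hK : IsCompact K) (hS : stdS (Fin 3) ⊆ K)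
    (h1 : ∀ x ∈ K, ∀ i, lam i x ≤ 1) {a r : ℝ} (ha : ∀ x ∈ K, ∀ i, -a ≤ lam i x) (ha0 : 0 ≤ a)
    (hr : 0 < r) (har : 6 * a ≤ r) :
    Phi K ≤ ENNReal.ofReal (2 / 3 * ∑ j, ∑ k, eta K r j (j.succAbove k) + 648 * a ^ 2 / r) := by
  have ht0 : 0 ≤ 3 * a / r := by (clear * - ha0 hr; positivity)
  have ht1 : 3 * a / r ≤ 1 / 2 := by
    rw [div_le_iff₀ hr]; linarith only [har]
  have hW : MeasurableSet {c : V3 | ∀ k, 0 ≤ c k} := by
    have : {c : V3 | ∀ k, 0 ≤ c k} = Set.pi univ fun _ => Ici (0 : ℝ) := by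
      ext c; simp only [mem_ofPred_eq, pi_univ_Ici, mem_Ici, Pi.le_def]
    rw [this]
    exact MeasurableSet.univ_pi fun _ => measurableSet_Ici
  have hj : ∀ j, ∫⁻ c in {c : V3 | ∀ k, 0 ≤ c k},
      ENNReal.ofReal (Gj K j c * Real.exp (-∑ k, c k)) ≤
      ENNReal.ofReal (∑ k, eta K r j (j.succAbove k) * (2 / 3) +
        ∑ _m : Fin 3, a * (18 * (3 * a / r))) := by
    intro j
    have hpt : ∀ c ∈ {c : V3 | ∀ k, 0 ≤ c k},
        ENNReal.ofReal (Gj K j c * Real.exp (-∑ k, c k)) ≤
        (∑ k, ENNReal.ofReal (eta K r j (j.succAbove k)) *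
            ENNReal.ofReal (qq k c * Real.exp (-∑ i, c i))) +
          ∑ m, ENNReal.ofReal a * ENNReal.ofReal
            ((if c m < 3 * a / r * ∑ i, c i then ∑ i, c i else 0) * Real.exp (-∑ i, c i)) := by
      intro c hc
      have hsum : 0 ≤ ∑ i, c i := Finset.sum_nonneg fun i _ => hc i
      have e1 : ∀ k, ENNReal.ofReal (eta K r j (j.succAbove k)) *
            ENNReal.ofReal (qq k c * Real.exp (-∑ i, c i)) =
            ENNReal.ofReal (eta K r j (j.succAbove k) * qq k c * Real.exp (-∑ i, c i)) := by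
        intro k
        rw [← ENNReal.ofReal_mul (eta_nonneg hS ha hr j k), mul_assoc]
      have e2 : ∀ m, ENNReal.ofReal a * ENNReal.ofReal
            ((if c m < 3 * a / r * ∑ i, c i then ∑ i, c i else 0) * Real.exp (-∑ i, c i)) =
            ENNReal.ofReal (a * (if c m < 3 * a / r * ∑ i, c i then ∑ i, c i else 0) *
              Real.exp (-∑ i, c i)) := by
        intro m
        rw [← ENNReal.ofReal_mul ha0, mul_assoc]
      simp_rw [e1, e2]
      rw [← ENNReal.ofReal_sum_of_nonneg, ← ENNReal.ofReal_sum_of_nonneg, ← ENNReal.ofReal_add,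
        ← Finset.sum_mul, ← Finset.sum_mul, ← add_mul]
      · exact ENNReal.ofReal_le_ofReal
          (mul_le_mul_of_nonneg_right (Gj_le hS h1 ha ha0 hr j hc) (Real.exp_pos _).le)
      · refine Finset.sum_nonneg fun k _ => ?_
        exact mul_nonneg (mul_nonneg (eta_nonneg hS ha hr j k) (le_max_left _ _))
          (Real.exp_pos _).le
      · refine Finset.sum_nonneg fun k _ => ?_
        refine mul_nonneg (mul_nonneg ha0 ?_) (Real.exp_pos _).le
        split_ifs <;> [exact hsum; exact le_rfl]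
      · intro k _
        refine mul_nonneg (mul_nonneg ha0 ?_) (Real.exp_pos _).le
        split_ifs <;> [exact hsum; exact le_rfl]
      · intro k _
        exact mul_nonneg (mul_nonneg (eta_nonneg hS ha hr j k) (le_max_left _ _))
          (Real.exp_pos _).le
    refine (setLIntegral_mono' hW hpt).trans ?_
    have mq : ∀ k, Measurable fun c : V3 =>
        ENNReal.ofReal (qq k c * Real.exp (-∑ i, c i)) := by
      intro k
      have := measurable_qq k
      fun_prop
    have mi : ∀ m, Measurable fun c : V3 => ENNReal.ofReal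
        ((if c m < 3 * a / r * ∑ i, c i then ∑ i, c i else 0) * Real.exp (-∑ i, c i)) := by
      intro m
      have h1 : Measurable fun c : V3 =>
          (if c m < 3 * a / r * ∑ i, c i then ∑ i, c i else 0) := by
        refine Measurable.ite ?_ (by fun_prop) measurable_const
        exact measurableSet_lt (by fun_prop) (by fun_prop)
      fun_prop
    rw [lintegral_add_left (Finset.measurable_sum _ fun k _ => (mq k).const_mul _),
      lintegral_finsetSum _ (fun k _ => (mq k).const_mul _),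
      lintegral_finsetSum _ (fun k _ => (mi k).const_mul _)]
    simp_rw [lintegral_const_mul' _ _ ENNReal.ofReal_ne_top]
    rw [ENNReal.ofReal_add, ENNReal.ofReal_sum_of_nonneg, ENNReal.ofReal_sum_of_nonneg]
    · refine add_le_add (Finset.sum_le_sum fun k _ => ?_) (Finset.sum_le_sum fun m _ => ?_)
      · rw [ENNReal.ofReal_mul (eta_nonneg hS ha hr j k)]
        exact mul_le_mul_right (oct_A k) _
      · rw [ENNReal.ofReal_mul ha0]
        exact mul_le_mul_right (oct_B m ht0 ht1) _
    · intro m _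
      (clear * - ha0 hr; positivity)
    · intro k _
      exact mul_nonneg (eta_nonneg hS ha hr j k) (by norm_num)
    · exact Finset.sum_nonneg fun k _ => mul_nonneg (eta_nonneg hS ha hr j k) (by norm_num)
    · exact Finset.sum_nonneg fun m _ => by (clear * - ha0 hr; positivity)
  unfold Phi
  refine (Finset.sum_le_sum fun j _ => hj j).trans ?_
  rw [← ENNReal.ofReal_sum_of_nonneg]
  · refine ENNReal.ofReal_le_ofReal (le_of_eq ?_)
    rw [Finset.sum_add_distrib, Finset.mul_sum]
    congr 1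
    · refine Finset.sum_congr rfl fun j _ => ?_
      rw [Finset.mul_sum]
      exact Finset.sum_congr rfl fun k _ => mul_comm _ _
    · simp only [Finset.sum_const, Finset.card_univ, Fintype.card_fin, nsmul_eq_mul]
      push_cast
      field_simp
      ring
  · intro j _
    refine add_nonneg ?_ ?_
    · exact Finset.sum_nonneg fun k _ => mul_nonneg (eta_nonneg hS ha hr j k) (by norm_num)
    · exact Finset.sum_nonneg fun m _ => by (clear * - ha0 hr; positivity)

end Vale.Agent.P248
end
end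
end

section

section

section

set_option linter.unusedSectionVars false

open MeasureTheory Set
open scoped ENNReal Topology

namespace Vale.Agent.P248

theorem glue_alg1_eq {a0 q1 q2 z : ℝ} (ha : 0 < a0) (hq1 : 0 < q1) (hq2 : 0 < q2) (hz : 0 ≤ z)
    (hz1 : z ≤ 2 * a0 / q1)
    (h : a0 * (q1 / 2) / (a0 + (2 * a0 / q1 - z) * (q1 / 2)) +
      a0 * (q2 / 2) / (a0 + (2 * a0 / q2 + z) * (q2 / 2)) ≤ q1 * q2 / (q1 + q2)) :
    z = 2 * a0 / q1 - 2 * a0 / q2 := by
  have hd1 : 0 < 4 * a0 - z * q1 := by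
    rw [le_div_iff₀ hq1] at hz1; linarith only [ha, hz1]
  have hd2 : 0 < 4 * a0 + z * q2 := by positivity
  have e1 : a0 * (q1 / 2) / (a0 + (2 * a0 / q1 - z) * (q1 / 2)) = a0 * q1 / (4 * a0 - z * q1) := by
    have : a0 + (2 * a0 / q1 - z) * (q1 / 2) = (4 * a0 - z * q1) / 2 := by field_simp; ring
    rw [this]; (clear * - hq1 ha; field_simp)
  have e2 : a0 * (q2 / 2) / (a0 + (2 * a0 / q2 + z) * (q2 / 2)) = a0 * q2 / (4 * a0 + z * q2) := by
    have : a0 + (2 * a0 / q2 + z) * (q2 / 2) = (4 * a0 + z * q2) / 2 := by field_simp; ring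
    rw [this]; field_simp
  rw [e1, e2] at h
  have e3 : a0 * q1 / (4 * a0 - z * q1) + a0 * q2 / (4 * a0 + z * q2) - q1 * q2 / (q1 + q2) =
      (2 * a0 * (q1 - q2) + z * q1 * q2) ^ 2 /
        ((q1 + q2) * ((4 * a0 - z * q1) * (4 * a0 + z * q2))) := by
    have hne1 := hd1.ne'
    have hne2 := hd2.ne'
    have hne3 : q1 + q2 ≠ 0 := by positivity
    rw [div_add_div _ _ hne1 hne2, div_sub_div _ _ (mul_ne_zero hne1 hne2) hne3,
      div_eq_div_iff (by (clear * - hd1 ha hz hq2 hq1; positivity)) (by (clear * - hq1 hq2 hd1 ha hz; positivity))]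
    ring
  have e4 : (2 * a0 * (q1 - q2) + z * q1 * q2) ^ 2 /
        ((q1 + q2) * ((4 * a0 - z * q1) * (4 * a0 + z * q2))) ≤ 0 := by linarith only [h, e3]
  have e5 : (2 * a0 * (q1 - q2) + z * q1 * q2) ^ 2 ≤ 0 := by
    by_contra hc
    push Not at hc
    have : 0 < (2 * a0 * (q1 - q2) + z * q1 * q2) ^ 2 /
        ((q1 + q2) * ((4 * a0 - z * q1) * (4 * a0 + z * q2))) := by (clear * - hc hq1 hq2 hd1 ha hz; positivity)
    linarith only [h, e3, this]
  have e6 : 2 * a0 * (q1 - q2) + z * q1 * q2 = 0 := by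
    have := le_antisymm e5 (sq_nonneg _)
    exact pow_eq_zero_iff (two_ne_zero) |>.mp this
  field_simp
  linarith only [e6]

theorem glue_alg2_lt {a0 q1 q2 z : ℝ} (ha : 0 < a0) (hq1 : 0 < q1) (hq2 : 0 < q2)
    (hz1 : 2 * a0 / q1 ≤ z) :
    q1 * q2 / (q1 + q2) < (q1 - a0 / z) +
      a0 * (q2 / 2) / (a0 + (2 * a0 / q2 + z) * (q2 / 2)) := by
  have hz : 0 < z := lt_of_lt_of_le (by positivity) hz1
  have hzq : 2 * a0 ≤ z * q1 := by rwa [div_le_iff₀ hq1] at hz1
  have e2 : a0 * (q2 / 2) / (a0 + (2 * a0 / q2 + z) * (q2 / 2)) = a0 * q2 / (4 * a0 + z * q2) := by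
    have : a0 + (2 * a0 / q2 + z) * (q2 / 2) = (4 * a0 + z * q2) / 2 := by field_simp; ring
    rw [this]; field_simp
  rw [e2]
  have e3 : (q1 - a0 / z) + a0 * q2 / (4 * a0 + z * q2) - q1 * q2 / (q1 + q2) =
      (q1 ^ 2 * z * (4 * a0 + z * q2) - 4 * a0 ^ 2 * (q1 + q2)) /
        ((q1 + q2) * (z * (4 * a0 + z * q2))) := by
    field_simp
    ring
  have e4 : 0 < q1 ^ 2 * z * (4 * a0 + z * q2) - 4 * a0 ^ 2 * (q1 + q2) := by
    have h1 : 0 ≤ a0 * q1 * (z * q1 - 2 * a0) := by
      have : 0 ≤ z * q1 - 2 * a0 := by linarith only [hzq]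
      (clear * - ha hq1 hzq; positivity)
    have h2 : (2 * a0) ^ 2 ≤ (z * q1) ^ 2 := by gcongr
    have h3 : 0 ≤ q2 * ((z * q1) ^ 2 - (2 * a0) ^ 2) := by
      have : 0 ≤ (z * q1) ^ 2 - (2 * a0) ^ 2 := by linarith only [h2]
      (clear * - hq2 h2; positivity)
    have h4 : 0 < a0 ^ 2 * q1 := by positivity
    linarith only [h4, h3, h1]
  have e5 : 0 < (q1 ^ 2 * z * (4 * a0 + z * q2) - 4 * a0 ^ 2 * (q1 + q2)) /
        ((q1 + q2) * (z * (4 * a0 + z * q2))) := by positivity
  linarith only [e3, e5]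

theorem mobius_mono {a0 δ x y : ℝ} (ha : 0 < a0) (hδ : 0 ≤ δ) (hx : 0 < x) (hxy : x < y) :
    a0 * x / (a0 + δ * x) < a0 * y / (a0 + δ * y) := by
  have hy : 0 < y := hx.trans hxy
  rw [div_lt_div_iff₀ (by positivity) (by positivity)]
  linarith only [mul_pos (mul_pos ha ha) (sub_pos.mpr hxy)]

/-- The half value at the critical point. -/
theorem Side.crit {a : ℝ → ℝ} (ha : Side a) {q : ℝ} (hq : 0 < q)
    (h : ∀ ζ, 0 < ζ → ENNReal.ofReal q ≤ lap a ζ + ENNReal.ofReal (a 0 / ζ)) :
    ENNReal.ofReal (q / 2) ≤ lap a (2 * a 0 / q) := by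
  have ha0 := ha.pos 0 le_rfl
  have h1 := h (2 * a 0 / q) (by positivity)
  have e : a 0 / (2 * a 0 / q) = q / 2 := by field_simp
  rw [e] at h1
  have e2 : ENNReal.ofReal q = ENNReal.ofReal (q / 2) + ENNReal.ofReal (q / 2) := by
    rw [← ENNReal.ofReal_add (by positivity) (by positivity)]; congr 1; ring
  rw [e2] at h1
  exact (ENNReal.add_le_add_iff_right ENNReal.ofReal_ne_top).mp h1

/-- If the lower bound for one side is attained then the value at the critical point is minimal. -/
theorem Side.crit_eq {a : ℝ → ℝ} (ha : Side a) {q z : ℝ} (hq : 0 < q)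
    (h : ∀ ζ, 0 < ζ → ENNReal.ofReal q ≤ lap a ζ + ENNReal.ofReal (a 0 / ζ))
    (hz : z ≤ 2 * a 0 / q)
    (heq : lap a z ≤ ENNReal.ofReal (a 0 * (q / 2) / (a 0 + (2 * a 0 / q - z) * (q / 2)))) :
    lap a (2 * a 0 / q) + ENNReal.ofReal (a 0 / (2 * a 0 / q)) = ENNReal.ofReal q := by
  have ha0 := ha.pos 0 le_rfl
  have h2 := ha.crit hq h
  have e : a 0 / (2 * a 0 / q) = q / 2 := by field_simp
  have e2 : ENNReal.ofReal q = ENNReal.ofReal (q / 2) + ENNReal.ofReal (q / 2) := by
    rw [← ENNReal.ofReal_add (by positivity) (by positivity)]; congr 1; ring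
  rw [e, e2]
  congr 1
  refine le_antisymm ?_ h2
  by_contra hc
  push Not at hc
  obtain ⟨x, hx1, hx2⟩ := ENNReal.lt_iff_exists_nnreal_btwn.mp hc
  have hx1' : q / 2 < (x : ℝ) := by
    have : ENNReal.ofReal (q / 2) < ENNReal.ofReal (x : ℝ) := by
      rw [ENNReal.ofReal_coe_nnreal]; exact hx1
    exact (ENNReal.ofReal_lt_ofReal_iff_of_nonneg (by positivity)).mp this
  have hxpos : (0 : ℝ) < x := by linarith only [hq, hx1']
  have h3 : z + (2 * a 0 / q - z) = 2 * a 0 / q := by ring
  have h4 := lap_lower ha.meas ha.pos ha.anti ha.sub (z := z) (δ := 2 * a 0 / q - z)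
    (x := x) (by linarith only [hz]) hxpos (by rw [h3, ENNReal.ofReal_coe_nnreal]; exact hx2.le)
  have h5 := h4.trans heq
  have hd : 0 ≤ 2 * a 0 / q - z := by linarith only [hz]
  rw [ENNReal.ofReal_le_ofReal_iff (by (clear * - ha0 hq hz; positivity))] at h5
  have h6 := mobius_mono ha0 hd (by positivity : 0 < q / 2) hx1'
  linarith only [h5, h6]

theorem lap_glue_eq_nonneg {a b : ℝ → ℝ} (ha : Side a) (hb : Side b) (hab : a 0 = b 0) {q1 q2 : ℝ}
    (hq1 : 0 < q1) (hq2 : 0 < q2)
    (h1 : ∀ ζ, 0 < ζ → ENNReal.ofReal q1 ≤ lap a ζ + ENNReal.ofReal (a 0 / ζ))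
    (h2 : ∀ ζ, 0 < ζ → ENNReal.ofReal q2 ≤ lap b ζ + ENNReal.ofReal (b 0 / ζ))
    {z : ℝ} (hz : 0 ≤ z) (heq : lap a z + lap b (-z) ≤ ENNReal.ofReal (q1 * q2 / (q1 + q2))) :
    z = 2 * a 0 / q1 - 2 * b 0 / q2 ∧
    lap a (2 * a 0 / q1) + ENNReal.ofReal (a 0 / (2 * a 0 / q1)) = ENNReal.ofReal q1 ∧
    lap b (2 * b 0 / q2) + ENNReal.ofReal (b 0 / (2 * b 0 / q2)) = ENNReal.ofReal q2 := by
  have ha0 := ha.pos 0 le_rfl
  have hb0 := hb.pos 0 le_rfl
  have hz2 : -z ≤ 2 * b 0 / q2 := by
    have : 0 < 2 * b 0 / q2 := by (clear * - hb0 hq2; positivity)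
    linarith only [hz, this]
  have hB := hb.lower hq2 h2 hz2
  by_cases hc : z ≤ 2 * a 0 / q1
  · have hA := ha.lower hq1 h1 hc
    have hd : 0 ≤ 2 * a 0 / q1 - z := by linarith only [hc]
    have hd2 : 0 ≤ 2 * b 0 / q2 - -z := by linarith
    have h3 : ENNReal.ofReal (a 0 * (q1 / 2) / (a 0 + (2 * a 0 / q1 - z) * (q1 / 2)) +
        b 0 * (q2 / 2) / (b 0 + (2 * b 0 / q2 - -z) * (q2 / 2))) ≤
        ENNReal.ofReal (q1 * q2 / (q1 + q2)) := by
      rw [ENNReal.ofReal_add (by (clear * - ha0 hq1 hc; positivity)) (by (clear * - hb0 hq2 hz2; positivity))]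
      exact (add_le_add hA hB).trans heq
    rw [ENNReal.ofReal_le_ofReal_iff (by positivity)] at h3
    have h3' := h3
    rw [← hab, sub_neg_eq_add] at h3'
    have h4 := glue_alg1_eq ha0 hq1 hq2 hz hc h3'
    have h5 := glue_alg1 ha0 hq1 hq2 hz hc
    have hfinB : lap b (-z) ≠ ∞ := by
      intro h; rw [h] at heq; simp only [add_top, top_le_iff, ENNReal.ofReal_ne_top] at heq
    have hfinA : lap a z ≠ ∞ := by
      intro h; rw [h] at heq; simp only [top_add, top_le_iff, ENNReal.ofReal_ne_top] at heq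
    have hsum : q1 * q2 / (q1 + q2) = a 0 * (q1 / 2) / (a 0 + (2 * a 0 / q1 - z) * (q1 / 2)) +
        b 0 * (q2 / 2) / (b 0 + (2 * b 0 / q2 - -z) * (q2 / 2)) := by
      refine le_antisymm ?_ h3
      rw [← hab, sub_neg_eq_add]; exact h5
    have hA' : lap a z ≤ ENNReal.ofReal (a 0 * (q1 / 2) / (a 0 + (2 * a 0 / q1 - z) * (q1 / 2))) := by
      by_contra hcon
      push Not at hcon
      have : ENNReal.ofReal (q1 * q2 / (q1 + q2)) < lap a z + lap b (-z) := by
        rw [hsum, ENNReal.ofReal_add (by (clear * - ha0 hq1 hc; positivity)) (by (clear * - hb0 hq2 hz2; positivity))]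
        exact ENNReal.add_lt_add_of_lt_of_le ENNReal.ofReal_ne_top hcon hB
      exact absurd heq (not_le.mpr this)
    have hB' : lap b (-z) ≤
        ENNReal.ofReal (b 0 * (q2 / 2) / (b 0 + (2 * b 0 / q2 - -z) * (q2 / 2))) := by
      by_contra hcon
      push Not at hcon
      have : ENNReal.ofReal (q1 * q2 / (q1 + q2)) < lap a z + lap b (-z) := by
        rw [hsum, ENNReal.ofReal_add (by (clear * - ha0 hq1 hc; positivity)) (by (clear * - hb0 hq2 hz2; positivity))]
        exact ENNReal.add_lt_add_of_le_of_lt ENNReal.ofReal_ne_top hA hcon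
      exact absurd heq (not_le.mpr this)
    refine ⟨by rw [← hab]; exact h4, ha.crit_eq hq1 h1 hc hA', hb.crit_eq hq2 h2 hz2 hB'⟩
  · exfalso
    push Not at hc
    have hzpos : 0 < z := lt_of_lt_of_le (by positivity) hc.le
    have hA := h1 z hzpos
    have hq1z : 0 ≤ q1 - a 0 / z := by
      have : a 0 / z ≤ q1 / 2 := by
        rw [div_le_iff₀ hzpos]
        rw [div_lt_iff₀ hq1] at hc
        linarith only [hc]
      linarith only [hq1, this]
    have hA' : ENNReal.ofReal (q1 - a 0 / z) ≤ lap a z := by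
      rw [ENNReal.ofReal_sub _ (by (clear * - ha0 hzpos; positivity))]
      exact tsub_le_iff_right.mpr hA
    rw [← hab, sub_neg_eq_add] at hB
    have h3 : ENNReal.ofReal ((q1 - a 0 / z) +
            a 0 * (q2 / 2) / (a 0 + (2 * a 0 / q2 + z) * (q2 / 2))) ≤
        ENNReal.ofReal (q1 * q2 / (q1 + q2)) := by
      rw [ENNReal.ofReal_add hq1z (by (clear * - ha0 hq2 hzpos; positivity))]
      exact (add_le_add hA' hB).trans heq
    rw [ENNReal.ofReal_le_ofReal_iff (by positivity)] at h3
    have h4 := glue_alg2_lt ha0 hq1 hq2 hc.le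
    linarith only [h3, h4]

/-- Equality in the one-dimensional core of the gluing lemma. -/
theorem lap_glue_eq {a b : ℝ → ℝ} (ha : Side a) (hb : Side b) (hab : a 0 = b 0) {q1 q2 : ℝ}
    (hq1 : 0 < q1) (hq2 : 0 < q2)
    (h1 : ∀ ζ, 0 < ζ → ENNReal.ofReal q1 ≤ lap a ζ + ENNReal.ofReal (a 0 / ζ))
    (h2 : ∀ ζ, 0 < ζ → ENNReal.ofReal q2 ≤ lap b ζ + ENNReal.ofReal (b 0 / ζ))
    {z : ℝ} (heq : lap a z + lap b (-z) ≤ ENNReal.ofReal (q1 * q2 / (q1 + q2))) :
    z = 2 * a 0 / q1 - 2 * b 0 / q2 ∧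
    lap a (2 * a 0 / q1) + ENNReal.ofReal (a 0 / (2 * a 0 / q1)) = ENNReal.ofReal q1 ∧
    lap b (2 * b 0 / q2) + ENNReal.ofReal (b 0 / (2 * b 0 / q2)) = ENNReal.ofReal q2 := by
  rcases le_total 0 z with hz | hz
  · exact lap_glue_eq_nonneg ha hb hab hq1 hq2 h1 h2 hz heq
  · have := lap_glue_eq_nonneg hb ha hab.symm hq2 hq1 h2 h1 (z := -z) (by linarith only [hz])
      (by rw [neg_neg, mul_comm q2, add_comm q2, add_comm (lap b (-z))]; exact heq)
    exact ⟨by linarith only [this], this.2.2, this.2.1⟩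

variable {m : ℕ} {K : Set (Fin (m + 1) → ℝ)} {z : Fin (m + 1) → ℝ} {i : Fin (m + 1)}

/-- Equality in the gluing lemma. -/
theorem glue_eq (hK : IsCompact K) (hP : Proj0 K i) (hz : z ∈ interior K) {c : ℝ} (hc : 0 < c)
    (hv1 : 0 < volume (half K i 1)) (hv2 : 0 < volume (half K i (-1)))
    (h1 : ∀ ζ, 0 < ζ → ENNReal.ofReal c ≤
      volume (half K i 1) * EF (half K i 1) (Function.update z i ζ))
    (h2 : ∀ ζ, 0 < ζ → ENNReal.ofReal c ≤
      volume (half K i (-1)) * EF (half K i (-1)) (Function.update z i (-ζ)))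
    (heq : volume K * EF K z ≤ ENNReal.ofReal c) :
    ∃ ζ1 ζ2 : ℝ, 0 < ζ1 ∧ 0 < ζ2 ∧ z i = ζ1 - ζ2 ∧
      volume (half K i 1) * EF (half K i 1) (Function.update z i ζ1) = ENNReal.ofReal c ∧
      volume (half K i (-1)) * EF (half K i (-1)) (Function.update z i (-ζ2)) =
        ENNReal.ofReal c := by
  have ht1 : volume (half K i 1) < ∞ := (half_compact hK i 1).measure_lt_top
  have ht2 : volume (half K i (-1)) < ∞ := (half_compact hK i (-1)).measure_lt_top
  set v1 := (volume (half K i 1)).toReal with hv1'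
  set v2 := (volume (half K i (-1))).toReal with hv2'
  have hv1p : 0 < v1 := ENNReal.toReal_pos hv1.ne' ht1.ne
  have hv2p : 0 < v2 := ENNReal.toReal_pos hv2.ne' ht2.ne
  have e1 : volume (half K i 1) = ENNReal.ofReal v1 := (ENNReal.ofReal_toReal ht1.ne).symm
  have e2 : volume (half K i (-1)) = ENNReal.ofReal v2 := (ENNReal.ofReal_toReal ht2.ne).symm
  have key : ∀ {v : ℝ} {X : ℝ≥0∞}, 0 < v → ENNReal.ofReal c ≤ ENNReal.ofReal v * X →
      ENNReal.ofReal (c / v) ≤ X := by
    intro v X hv h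
    rw [ENNReal.ofReal_div_of_pos hv]
    exact ENNReal.div_le_of_le_mul' h
  have key2 : ∀ {v : ℝ}, 0 < v → ENNReal.ofReal v * ENNReal.ofReal (c / v) = ENNReal.ofReal c := by
    intro v hv
    rw [← ENNReal.ofReal_mul hv.le]
    congr 1
    (clear * - hv hc; field_simp)
  have h1' : ∀ ζ, 0 < ζ → ENNReal.ofReal (c / v1) ≤
      lap (fun s => (fib K (Function.update z i 0) i (1 * s)).toReal) ζ +
        ENNReal.ofReal ((fib K (Function.update z i 0) i (1 * 0)).toReal / ζ) := by
    intro ζ hζ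
    rw [← EF_half_pos hK hP hz hζ]
    exact key hv1p (e1 ▸ h1 ζ hζ)
  have h2' : ∀ ζ, 0 < ζ → ENNReal.ofReal (c / v2) ≤
      lap (fun s => (fib K (Function.update z i 0) i (-1 * s)).toReal) ζ +
        ENNReal.ofReal ((fib K (Function.update z i 0) i (-1 * 0)).toReal / ζ) := by
    intro ζ hζ
    rw [← EF_half_neg hK hP hz hζ]
    exact key hv2p (e2 ▸ h2 ζ hζ)
  have hS1 := fib_side hK hP hz (Or.inl (rfl : (1 : ℝ) = 1))
  have hS2 := fib_side hK hP hz (Or.inr (rfl : (-1 : ℝ) = -1))
  have heq' : lap (fun s => (fib K (Function.update z i 0) i (1 * s)).toReal) (z i) +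
      lap (fun s => (fib K (Function.update z i 0) i (-1 * s)).toReal) (-(z i)) ≤
      ENNReal.ofReal (c / v1 * (c / v2) / (c / v1 + c / v2)) := by
    rw [← EF_lap hK hP hz]
    rw [volume_half hK i, e1, e2, ← ENNReal.ofReal_add hv1p.le hv2p.le] at heq
    have h5 : ENNReal.ofReal c = ENNReal.ofReal (v1 + v2) *
        ENNReal.ofReal (c / v1 * (c / v2) / (c / v1 + c / v2)) := by
      rw [← ENNReal.ofReal_mul (by (clear * - hv1p hv2p; positivity))]
      congr 1
      field_simp
      ring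
    rw [h5] at heq
    exact (ENNReal.mul_le_mul_iff_right (by simpa only [ne_eq, ENNReal.ofReal_eq_zero, not_le] using (by positivity : 0 < v1 + v2))
      ENNReal.ofReal_ne_top).mp heq
  obtain ⟨hzi, hA, hB⟩ := lap_glue_eq hS1 hS2 (by simp) (by (clear * - hc hv1p; positivity) : 0 < c / v1)
    (by (clear * - hc hv2p; positivity) : 0 < c / v2) h1' h2' heq'
  have hp1 := hS1.pos 0 le_rfl
  have hp2 := hS2.pos 0 le_rfl
  refine ⟨_, _, ?_, ?_, hzi, ?_, ?_⟩
  · (clear * - hp1 hc hv1p; positivity)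
  · (clear * - hp2 hc hv2p; positivity)
  · rw [EF_half_pos hK hP hz (by (clear * - hp1 hc hv1p; positivity)), hA, e1, key2 hv1p]
  · rw [EF_half_neg hK hP hz (by (clear * - hp2 hc hv2p; positivity)), hB, e2, key2 hv2p]

end Vale.Agent.P248
end
end
end

section

section

section

set_option linter.unusedSectionVars false

open MeasureTheory Set
open scoped ENNReal Topology

namespace Vale.Agent.P248

section General

variable {ι : Type*} [Fintype ι] [DecidableEq ι]

/-- Strict convexity of the exponential functional: minimizers are unique. -/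
theorem EF_unique {K : Set (ι → ℝ)} (hK : IsCompact K) (hn : K.Nonempty) {V : ℝ≥0∞}
    (hV0 : V ≠ 0) (hVt : V ≠ ∞) {c : ℝ} (hc : 0 < c)
    (hlow : ∀ z, ENNReal.ofReal c ≤ V * EF K z) {z w : ι → ℝ}
    (hz : V * EF K z ≤ ENNReal.ofReal c) (hw : V * EF K w ≤ ENNReal.ofReal c) : z = w := by
  by_contra hne
  set u : ι → ℝ := (1 / 2 : ℝ) • (z + w) with hu
  set L : (ι → ℝ) → ℝ := fun y => ∑ i, (w i - z i) * y i with hL
  have hLc : Continuous L := by (clear * -; fun_prop)
  have e1 : ∀ y, hs K z y = hs K u y + (1 / 2) * L y := by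
    intro y
    rw [hs_shift hK hn z u y]
    congr 1
    rw [hL, Finset.mul_sum]
    refine Finset.sum_congr rfl fun i _ => ?_
    simp only [hu, Pi.smul_apply, Pi.add_apply, smul_eq_mul]; ring
  have e2 : ∀ y, hs K w y = hs K u y - (1 / 2) * L y := by
    intro y
    rw [hs_shift hK hn w u y, sub_eq_add_neg]
    congr 1
    rw [hL, Finset.mul_sum, ← Finset.sum_neg_distrib]
    refine Finset.sum_congr rfl fun i _ => ?_
    simp only [hu, Pi.smul_apply, Pi.add_apply, smul_eq_mul]; ring
  have hLne : ∃ y, L y ≠ 0 := by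
    refine ⟨w - z, ?_⟩
    have h1 : L (w - z) = ∑ i, (w i - z i) * (w i - z i) := rfl
    rw [h1]
    intro h0
    apply hne
    ext i
    have h2 := (Finset.sum_eq_zero_iff_of_nonneg (fun i _ => mul_self_nonneg (w i - z i))).mp h0 i
      (Finset.mem_univ i)
    have h3 := mul_self_eq_zero.mp h2
    linarith only [h3]
  set F : (ι → ℝ) → ℝ≥0∞ := fun y => ENNReal.ofReal (2 * Real.exp (-(hs K u y))) with hF
  set G : (ι → ℝ) → ℝ≥0∞ := fun y => ENNReal.ofReal (Real.exp (-(hs K z y)) +
    Real.exp (-(hs K w y))) with hG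
  have hmz : Measurable fun y => ENNReal.ofReal (Real.exp (-(hs K z y))) :=
    (hs_continuous hK hn z).measurable.neg.exp.ennreal_ofReal
  have hmw : Measurable fun y => ENNReal.ofReal (Real.exp (-(hs K w y))) :=
    (hs_continuous hK hn w).measurable.neg.exp.ennreal_ofReal
  have hGm : Measurable G :=
    ((hs_continuous hK hn z).measurable.neg.exp.add
      (hs_continuous hK hn w).measurable.neg.exp).ennreal_ofReal
  have hle : ∀ y, 2 * Real.exp (-(hs K u y)) ≤ Real.exp (-(hs K z y)) + Real.exp (-(hs K w y)) ∧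
      (L y ≠ 0 → 2 * Real.exp (-(hs K u y)) < Real.exp (-(hs K z y)) +
        Real.exp (-(hs K w y))) := by
    intro y
    have h1 : Real.exp (-(hs K z y)) + Real.exp (-(hs K w y)) - 2 * Real.exp (-(hs K u y)) =
        Real.exp (-(hs K u y)) * (Real.exp (-(L y / 4)) - Real.exp (L y / 4)) ^ 2 := by
      have h2 : Real.exp (-(hs K z y)) = Real.exp (-(hs K u y)) * Real.exp (-(L y / 4)) ^ 2 := by
        rw [← Real.exp_nat_mul, ← Real.exp_add, e1]; congr 1; push_cast; ring
      have h3 : Real.exp (-(hs K w y)) = Real.exp (-(hs K u y)) * Real.exp (L y / 4) ^ 2 := by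
        rw [← Real.exp_nat_mul, ← Real.exp_add, e2]; congr 1; push_cast; ring
      have h4 : Real.exp (-(L y / 4)) * Real.exp (L y / 4) = 1 := by
        rw [← Real.exp_add, neg_add_cancel, Real.exp_zero]
      rw [h2, h3]
      linear_combination 2 * Real.exp (-(hs K u y)) * h4
    have hpos := Real.exp_pos (-(hs K u y))
    constructor
    · have : 0 ≤ Real.exp (-(hs K u y)) * (Real.exp (-(L y / 4)) - Real.exp (L y / 4)) ^ 2 := by
        (clear * -; positivity)
      linarith only [h1, this]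
    · intro hy
      have h5 : Real.exp (-(L y / 4)) - Real.exp (L y / 4) ≠ 0 := by
        intro h6
        have h7 := Real.exp_injective (sub_eq_zero.mp h6)
        apply hy
        linarith only [h7]
      have : 0 < Real.exp (-(hs K u y)) * (Real.exp (-(L y / 4)) - Real.exp (L y / 4)) ^ 2 := by
        (clear * - h5; positivity)
      linarith only [h1, this]
  have hGint : ∫⁻ y, G y = EF K z + EF K w := by
    unfold EF
    rw [← lintegral_add_left hmz]
    refine lintegral_congr fun y => ?_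
    exact ENNReal.ofReal_add (Real.exp_pos _).le (Real.exp_pos _).le
  have hFint : ∫⁻ y, F y = 2 * EF K u := by
    unfold EF
    have hmu : Measurable fun y => ENNReal.ofReal (Real.exp (-(hs K u y))) :=
      (hs_continuous hK hn u).measurable.neg.exp.ennreal_ofReal
    rw [← lintegral_const_mul _ hmu]
    refine lintegral_congr fun y => ?_
    simp only [hF]
    rw [ENNReal.ofReal_mul (by norm_num)]
    simp
  have hfz : EF K z ≠ ∞ := by
    intro h; rw [h, ENNReal.mul_top hV0] at hz; simp at hz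
  have hfw : EF K w ≠ ∞ := by
    intro h; rw [h, ENNReal.mul_top hV0] at hw; simp at hw
  have hFG : ∫⁻ y, F y ≤ ∫⁻ y, G y :=
    lintegral_mono fun y => ENNReal.ofReal_le_ofReal (hle y).1
  have hFfin : ∫⁻ y, F y ≠ ∞ := by
    refine ne_top_of_le_ne_top ?_ hFG
    rw [hGint]
    exact ENNReal.add_ne_top.mpr ⟨hfz, hfw⟩
  have hopen : IsOpen {y | L y ≠ 0} := isOpen_ne_fun hLc continuous_const
  have hstrict : ∫⁻ y, F y < ∫⁻ y, G y := by
    refine lintegral_strict_mono_of_ae_le_of_ae_lt_on hGm.aemeasurable hFfin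
      (Filter.Eventually.of_forall fun y => ENNReal.ofReal_le_ofReal (hle y).1)
      (s := {y | L y ≠ 0}) (hopen.measure_pos volume hLne).ne'
      (Filter.Eventually.of_forall fun y hy => ?_)
    have h1 := (hle y).2 hy
    have h2 := Real.exp_pos (-(hs K u y))
    exact (ENNReal.ofReal_lt_ofReal_iff (by linarith only [h1, h2])).mpr h1
  rw [hFint, hGint] at hstrict
  have h1 : V * (2 * EF K u) < V * (EF K z + EF K w) :=
    (ENNReal.mul_lt_mul_iff_right hV0 hVt).mpr hstrict
  have h2 : 2 * ENNReal.ofReal c ≤ V * (2 * EF K u) := by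
    have := hlow u
    calc 2 * ENNReal.ofReal c ≤ 2 * (V * EF K u) := by (clear * - this; gcongr)
      _ = V * (2 * EF K u) := by ring
  have h3 : V * (EF K z + EF K w) ≤ 2 * ENNReal.ofReal c := by
    rw [mul_add, two_mul]
    exact add_le_add hz hw
  exact absurd (h2.trans_lt h1) (not_lt.mpr h3)

/-- Shear maps. -/
noncomputable def shr (i j : ι) (θ : ℝ) : (ι → ℝ) →ₗ[ℝ] (ι → ℝ) :=
  Matrix.toLin' (Matrix.transvection j i θ)

theorem shr_apply (i j : ι) (θ : ℝ) (x : ι → ℝ) (k : ι) :
    shr i j θ x k = x k + if k = j then θ * x i else 0 := by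
  unfold shr
  rw [Matrix.toLin'_apply, Matrix.transvection, Matrix.add_mulVec, Matrix.one_mulVec,
    Pi.add_apply, Matrix.single_mulVec]
  congr 1
  by_cases h : k = j
  · subst h; simp
  · simp [h]

theorem shr_det {i j : ι} (hij : j ≠ i) (θ : ℝ) : LinearMap.det (shr i j θ) = 1 := by
  unfold shr
  rw [LinearMap.det_toLin', Matrix.det_transvection_of_ne _ _ hij]

theorem shr_measurePreserving {i j : ι} (hij : j ≠ i) (θ : ℝ) :
    MeasurePreserving (shr i j θ) volume volume := by
  refine ⟨(LinearMap.continuous_of_finiteDimensional _).measurable, ?_⟩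
  rw [Measure.map_linearMap_addHaar_eq_smul_addHaar volume
    (by rw [shr_det hij]; exact one_ne_zero), shr_det hij]
  simp

theorem shr_neg {i j : ι} (hij : j ≠ i) (θ : ℝ) (x : ι → ℝ) :
    shr i j θ (shr i j (-θ) x) = x := by
  ext k
  rw [shr_apply, shr_apply, shr_apply]
  by_cases h : k = j
  · subst h
    simp [hij.symm]
  · simp [h]

theorem shr_pair (i j : ι) (θ : ℝ) (x y : ι → ℝ) :
    ∑ k, shr i j θ x k * y k = ∑ k, x k * shr j i θ y k := by
  have h1 : ∑ k, shr i j θ x k * y k = ∑ k, x k * y k + θ * x i * y j := by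
    rw [Finset.sum_congr rfl fun k _ => by rw [shr_apply, add_mul], Finset.sum_add_distrib]
    congr 1
    simp only [ite_mul, zero_mul, Finset.sum_ite_eq', Finset.mem_univ, ↓reduceIte]
  have h2 : ∑ k, x k * shr j i θ y k = ∑ k, x k * y k + x i * (θ * y j) := by
    rw [Finset.sum_congr rfl fun k _ => by rw [shr_apply, mul_add], Finset.sum_add_distrib]
    congr 1
    simp only [mul_ite, mul_zero, Finset.sum_ite_eq', Finset.mem_univ, ↓reduceIte]
  rw [h1, h2]; ring

theorem EF_shr {i j : ι} (hij : j ≠ i) (θ : ℝ) {K : Set (ι → ℝ)} (hK : IsCompact K)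
    (hn : K.Nonempty) (u : ι → ℝ) :
    EF (shr i j (-θ) ⁻¹' K) u = EF K (shr i j (-θ) u) := by
  have hinv : ∀ x, shr i j (-θ) (shr i j θ x) = x := fun x => by
    have := shr_neg hij (-θ) x
    rwa [neg_neg] at this
  have h1 : ∀ y, hs (shr i j (-θ) ⁻¹' K) u y = hs K (shr i j (-θ) u) (shr j i θ y) := by
    intro y
    have hn' : (shr i j (-θ) ⁻¹' K).Nonempty := by
      obtain ⟨x, hx⟩ := hn
      exact ⟨shr i j θ x, by rw [mem_preimage, hinv]; exact hx⟩
    have e : ∀ x : ι → ℝ, ∑ k, (shr i j θ x k - u k) * y k =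
        ∑ k, (x k - shr i j (-θ) u k) * shr j i θ y k := by
      intro x
      have e1 := shr_pair i j θ (x - shr i j (-θ) u) y
      rw [map_sub, shr_neg hij] at e1
      exact e1
    have hK' : IsCompact (shr i j (-θ) ⁻¹' K) := by
      have : shr i j (-θ) ⁻¹' K = shr i j θ '' K := by
        ext x
        constructor
        · intro h; exact ⟨_, h, shr_neg hij θ x⟩
        · rintro ⟨x', hx', rfl⟩
          rw [mem_preimage, hinv]; exact hx'
      rw [this]
      exact hK.image (LinearMap.continuous_of_finiteDimensional _)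
    apply le_antisymm
    · refine hs_le hn' fun x hx => ?_
      have h2 := le_hs hK (shr i j (-θ) u) (shr j i θ y) hx
      rw [← e, shr_neg hij] at h2
      exact h2
    · refine hs_le hn fun x hx => ?_
      rw [← e]
      exact le_hs hK' u y (by rw [mem_preimage, hinv]; exact hx)
  unfold EF
  have hmu : Measurable fun y => ENNReal.ofReal (Real.exp (-(hs K (shr i j (-θ) u) y))) :=
    (hs_continuous hK hn _).measurable.neg.exp.ennreal_ofReal
  rw [← (shr_measurePreserving hij.symm θ).lintegral_comp hmu]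
  exact lintegral_congr fun y => by rw [h1]

end General

variable {n : ℕ}

/-- Points of a set on the coordinate axes. -/
def axisPts (K : Set (Fin n → ℝ)) : Set (Fin n → ℝ) :=
  {x | x ∈ K ∧ ∃ (i : Fin n) (t : ℝ), x = Pi.single i t}

/-- Sets spanned by their points on the axes. -/
def Axial (K : Set (Fin n → ℝ)) : Prop := K ⊆ convexHull ℝ (insert 0 (axisPts K))

theorem Axial.union {K A B : Set (Fin n → ℝ)} (hA : Axial A) (hB : Axial B) (hAK : A ⊆ K)
    (hBK : B ⊆ K) (hK : K ⊆ A ∪ B) : Axial K := by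
  have mono : ∀ {C : Set (Fin n → ℝ)}, C ⊆ K →
      convexHull ℝ (insert 0 (axisPts C)) ⊆ convexHull ℝ (insert 0 (axisPts K)) := by
    intro C hC
    refine convexHull_mono (insert_subset_insert fun x hx => ⟨hC hx.1, hx.2⟩)
  intro x hx
  rcases hK hx with h | h
  · exact mono hAK (hA h)
  · exact mono hBK (hB h)

/-- Equality for signed bodies. -/
theorem signed_eq {K : Set (Fin n → ℝ)} (hK : IsCompact K) (hconv : Convex ℝ K)
    (hL : LABk K) {σ : Fin n → ℝ} (hσ : ∀ i, σ i = 1 ∨ σ i = -1)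
    (hs : ∀ x ∈ K, ∀ i, 0 ≤ σ i * x i) {z : Fin n → ℝ} (hz : z ∈ interior K)
    (heq : volume K * EF K z ≤ ENNReal.ofReal (cst n)) : Axial K := by
  have hσ2 : ∀ i, σ i * σ i = 1 := fun i => by rcases hσ i with h | h <;> rw [h] <;> norm_num
  have hdet : |LinearMap.det (diagMap σ)| = 1 := by
    rw [diagMap_det, Finset.abs_prod]
    refine Finset.prod_eq_one fun i _ => ?_
    rcases hσ i with h | h <;> rw [h] <;> norm_num
  have hdet0 : LinearMap.det (diagMap σ) ≠ 0 := by
    intro h; rw [h] at hdet; norm_num at hdet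
  have hvol : ∀ A : Set (Fin n → ℝ), volume (diagMap σ ⁻¹' A) = volume A := by
    intro A
    rw [Measure.addHaar_preimage_linearMap volume hdet0, abs_inv, hdet]
    simp
  have hinv : ∀ x, diagMap σ (diagMap σ x) = x := by
    intro x; ext i
    rw [diagMap_apply, diagMap_apply, ← mul_assoc, hσ2, one_mul]
  have hcont : Continuous (diagMap σ) := (diagMap σ).continuous_of_finiteDimensional
  set K' := diagMap σ ⁻¹' K with hK'
  have himg : K' = diagMap σ '' K := by
    ext x
    constructor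
    · intro h; exact ⟨_, h, hinv x⟩
    · rintro ⟨y, hy, rfl⟩
      rw [hK', mem_preimage, hinv]; exact hy
  have hKc' : IsCompact K' := by rw [himg]; exact hK.image hcont
  have hconv' : Convex ℝ K' := hconv.linear_preimage _
  have hL' : LABk K' := by
    intro x hx i
    have h1 := hL _ hx i
    have h2 : diagMap σ (Function.update x i 0) = Function.update (diagMap σ x) i 0 := by
      ext k
      by_cases hk : k = i
      · subst hk; simp [diagMap_apply]
      · simp only [diagMap_apply, ne_eq, hk, not_false_eq_true, Function.update_of_ne]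
    rw [hK', mem_preimage, h2]; exact h1
  have hnn : ∀ x ∈ K', ∀ i, 0 ≤ x i := by
    intro x hx i
    have := hs _ hx i
    rwa [diagMap_apply, ← mul_assoc, hσ2, one_mul] at this
  have hAB := isAB_of_nonneg hconv' hL' hnn
  have hz' : diagMap σ z ∈ interior K' := by
    have hopen : IsOpen (diagMap σ ⁻¹' interior K) := isOpen_interior.preimage hcont
    refine (interior_maximal (preimage_mono interior_subset) hopen) ?_
    rw [mem_preimage, hinv]; exact hz
  have hpol : polarP K' (diagMap σ z) = diagMap σ ⁻¹' (polarP K z) := by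
    have e : ∀ x y, ∑ i, (diagMap σ x i - diagMap σ z i) * y i =
        ∑ i, (x i - z i) * diagMap σ y i := by
      intro x y
      refine Finset.sum_congr rfl fun i _ => ?_
      rw [diagMap_apply, diagMap_apply, diagMap_apply]; ring
    ext y
    constructor
    · intro h x hx
      rw [← e]
      exact h _ (by rw [hK', mem_preimage, hinv]; exact hx)
    · intro h x hx
      have := h _ hx
      rw [← e, hinv] at this
      exact this
  have hmain := (ab_core hKc' hconv' hAB hz').1
  have hzK := interior_subset hz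
  rw [EF_eq hK hzK] at heq
  have hf1 : volume K ≠ ∞ := hK.measure_lt_top.ne
  have hf2 : volume (polarP K z) ≠ ∞ := (polarP_isBounded hz).measure_lt_top.ne
  rw [← ENNReal.ofReal_toReal hf1, ← ENNReal.ofReal_toReal hf2] at heq
  have h1 : ((Fintype.card (Fin n)).factorial : ℝ≥0∞) = ENNReal.ofReal (n.factorial : ℝ) := by
    rw [Fintype.card_fin, ENNReal.ofReal_natCast]
  rw [h1, ← ENNReal.ofReal_mul (by positivity), ← ENNReal.ofReal_mul ENNReal.toReal_nonneg,
    ENNReal.ofReal_le_ofReal_iff (cst_pos n).le] at heq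
  have h2 : (n.factorial : ℝ) * ((volume K).toReal * (volume (polarP K z)).toReal) ≤
      n.factorial * (((n : ℝ) + 1) ^ (n + 1) * (volume (stdS (Fin n))).toReal ^ 2) := by
    unfold cst at heq
    calc _ = _ := by ring
      _ ≤ _ := heq
  have h3 := le_of_mul_le_mul_left h2 (by positivity : (0 : ℝ) < n.factorial)
  have h4 : (volume K').toReal * (volume (polarP K' (diagMap σ z))).toReal =
      ((n : ℝ) + 1) ^ (n + 1) * (volume (stdS (Fin n))).toReal ^ 2 := by
    refine le_antisymm ?_ hmain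
    rw [hpol, hvol, hvol]; exact h3
  have h5 := ab_eq hKc' hconv' hAB hz' h4
  set a : Fin n → ℝ := fun i => ((n : ℝ) + 1) * diagMap σ z i with ha
  have hzpos : ∀ i, 0 < diagMap σ z i := interior_pos hAB.nonneg hz'
  have hapos : ∀ i, 0 < a i := fun i => by
    have := hzpos i
    simp only [ha]
    (clear * - this; positivity)
  have hax : ∀ i, (Pi.single i (σ i * a i) : Fin n → ℝ) ∈ K := by
    intro i
    have h6 : (Pi.single i (a i) : Fin n → ℝ) ∈ K' := by
      rw [h5]
      refine ⟨fun k => ?_, ?_⟩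
      · by_cases hk : k = i
        · subst hk; simp [(hapos k).le]
        · simp [hk]
      · rw [Finset.sum_eq_single i]
        · simp [(hapos i).ne']
        · intro k _ hk; simp [hk]
        · simp only [Finset.mem_univ, not_true_eq_false, Pi.single_eq_same, div_eq_zero_iff, or_self, IsEmpty.forall_iff]
    have h7 : diagMap σ (Pi.single i (a i)) = Pi.single i (σ i * a i) := by
      ext k
      by_cases hk : k = i
      · subst hk; simp [diagMap_apply]
      · simp [diagMap_apply, hk]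
    rw [← h7]
    exact h6
  intro x hx
  have hx' : diagMap σ x ∈ K' := by rw [hK', mem_preimage, hinv]; exact hx
  rw [h5] at hx'
  have hx2 : x = ∑ i, (diagMap σ x i / a i) • (Pi.single i (σ i * a i) : Fin n → ℝ) := by
    ext k
    rw [Finset.sum_apply, Finset.sum_eq_single k]
    · simp only [Pi.smul_apply, Pi.single_eq_same, smul_eq_mul]
      rw [diagMap_apply]
      have := (hapos k).ne'
      field_simp
      rw [sq, hσ2 k, mul_one]
    · intro i _ hi
      simp [Ne.symm hi]
    · simp only [Finset.mem_univ, not_true_eq_false, Pi.smul_apply, Pi.single_eq_same, smul_eq_mul, mul_eq_zero, div_eq_zero_iff, IsEmpty.forall_iff]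
  rw [hx2]
  refine convex_comb_mem (convex_convexHull ℝ _)
    (subset_convexHull ℝ _ (mem_insert _ _)) (fun i => div_nonneg (hx'.1 i) (hapos i).le)
    (fun i => subset_convexHull ℝ _ (mem_insert_of_mem _ ⟨hax i, i, _, rfl⟩)) hx'.2

/-- Both halves of a two-sided locally anti-blocking body are bodies. -/
theorem half_facts {m : ℕ} {K : Set (Fin (m + 1) → ℝ)} (hconv : Convex ℝ K)
    (hint : (interior K).Nonempty) {i : Fin (m + 1)} (h1 : ¬ ∀ x ∈ K, 0 ≤ 1 * x i)
    (h2 : ¬ ∀ x ∈ K, 0 ≤ -1 * x i) :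
    (interior (half K i 1)).Nonempty ∧ (interior (half K i (-1))).Nonempty := by
  push Not at h1 h2
  constructor
  · refine half_interior hconv hint i ?_
    obtain ⟨x, hx, hx2⟩ := h2
    exact ⟨x, hx, by linarith⟩
  · refine half_interior hconv hint i ?_
    obtain ⟨x, hx, hx2⟩ := h1
    exact ⟨x, hx, by linarith⟩

theorem lab_low {K : Set (Fin n → ℝ)} (hK : IsCompact K) (hconv : Convex ℝ K)
    (hint : (interior K).Nonempty) (hL : LABk K) (z : Fin n → ℝ) :
    ENNReal.ofReal (cst n) ≤ volume K * EF K z :=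
  lab_core Finset.univ hK hconv hint hL (fun i hi => absurd (Finset.mem_univ i) hi) z

theorem pos_vol {A : Set (Fin n → ℝ)} (h : (interior A).Nonempty) : 0 < volume A :=
  (isOpen_interior.measure_pos volume h).trans_le (measure_mono interior_subset)

theorem mem_interior_of_eq {K : Set (Fin n → ℝ)} (hK : IsCompact K) (hconv : Convex ℝ K)
    (hint : (interior K).Nonempty) {z : Fin n → ℝ} {c : ℝ}
    (heq : volume K * EF K z ≤ ENNReal.ofReal c) : z ∈ interior K := by
  by_contra hz
  rw [EF_top hK hconv hint hz, ENNReal.mul_top (pos_vol hint).ne'] at heq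
  simp at heq

/-- Equality forces the body to be axial. -/
theorem lab_eq_axial (J : Finset (Fin n)) : ∀ {K : Set (Fin n → ℝ)}, IsCompact K → Convex ℝ K →
    (interior K).Nonempty → LABk K →
    (∀ i, i ∉ J → ∃ σ : ℝ, (σ = 1 ∨ σ = -1) ∧ ∀ x ∈ K, 0 ≤ σ * x i) →
    ∀ z, volume K * EF K z ≤ ENNReal.ofReal (cst n) → Axial K := by
  induction J using Finset.induction_on with
  | empty =>
    intro K hK hconv hint hL hsig z heq
    have hz := mem_interior_of_eq hK hconv hint heq
    choose σ hσ using fun i => hsig i (Finset.notMem_empty i)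
    exact signed_eq hK hconv hL (fun i => (hσ i).1) (fun x hx i => (hσ i).2 x hx) hz heq
  | insert i J hi ih =>
    intro K hK hconv hint hL hsig z heq
    have hz := mem_interior_of_eq hK hconv hint heq
    by_cases h1 : ∀ x ∈ K, 0 ≤ 1 * x i
    · refine ih hK hconv hint hL (fun j hj => ?_) z heq
      by_cases hji : j = i
      · subst hji; exact ⟨1, Or.inl rfl, h1⟩
      · exact hsig j (by simp [hji, hj])
    by_cases h2 : ∀ x ∈ K, 0 ≤ -1 * x i
    · refine ih hK hconv hint hL (fun j hj => ?_) z heq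
      by_cases hji : j = i
      · subst hji; exact ⟨-1, Or.inr rfl, h2⟩
      · exact hsig j (by simp [hji, hj])
    rcases n with _ | m
    · exact i.elim0
    have hP : Proj0 K i := fun x hx => hL x hx i
    obtain ⟨hi1, hi2⟩ := half_facts hconv hint h1 h2
    have hsig' : ∀ ε : ℝ, (ε = 1 ∨ ε = -1) → ∀ j, j ∉ J →
        ∃ σ : ℝ, (σ = 1 ∨ σ = -1) ∧ ∀ x ∈ half K i ε, 0 ≤ σ * x j := by
      intro ε hε j hj
      by_cases hji : j = i
      · subst hji; exact ⟨ε, hε, fun x hx => hx.2⟩
      · obtain ⟨σ, h3, h4⟩ := hsig j (by simp [hji, hj])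
        exact ⟨σ, h3, fun x hx => h4 x hx.1⟩
    obtain ⟨ζ1, ζ2, _, _, _, hA, hB⟩ := glue_eq hK hP hz (cst_pos _) (pos_vol hi1) (pos_vol hi2)
      (fun ζ _ => lab_low (half_compact hK i 1) (half_convex hconv i 1) hi1 (half_LAB hL i 1) _)
      (fun ζ _ => lab_low (half_compact hK i (-1)) (half_convex hconv i (-1)) hi2
        (half_LAB hL i (-1)) _) heq
    have hA1 := ih (half_compact hK i 1) (half_convex hconv i 1) hi1 (half_LAB hL i 1)
      (hsig' 1 (Or.inl rfl)) _ hA.le
    have hA2 := ih (half_compact hK i (-1)) (half_convex hconv i (-1)) hi2 (half_LAB hL i (-1))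
      (hsig' (-1) (Or.inr rfl)) _ hB.le
    refine Axial.union hA1 hA2 (fun x hx => hx.1) (fun x hx => hx.1) (fun x hx => ?_)
    rcases le_total 0 (x i) with h' | h'
    · have h3 : 0 ≤ 1 * x i := by linarith only [h']
      exact Or.inl ⟨hx, h3⟩
    · have h3 : 0 ≤ -1 * x i := by linarith only [h']
      exact Or.inr ⟨hx, h3⟩

/-- In the equality case at most one coordinate direction is two-sided. -/
theorem lab_eq_two {m : ℕ} {K : Set (Fin (m + 1) → ℝ)} (hK : IsCompact K) (hconv : Convex ℝ K)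
    (hint : (interior K).Nonempty) (hL : LABk K) {z : Fin (m + 1) → ℝ}
    (heq : volume K * EF K z ≤ ENNReal.ofReal (cst (m + 1))) {i j : Fin (m + 1)} (hij : j ≠ i)
    (h1 : ¬ ∀ x ∈ K, 0 ≤ 1 * x i) (h2 : ¬ ∀ x ∈ K, 0 ≤ -1 * x i) {ε : ℝ} (hε : 0 < ε)
    (hj1 : (Pi.single j ε : Fin (m + 1) → ℝ) ∈ K)
    (hj2 : (Pi.single j (-ε) : Fin (m + 1) → ℝ) ∈ K) : False := by
  have hz := mem_interior_of_eq hK hconv hint heq
  have hn : K.Nonempty := hint.mono interior_subset
  have hP : Proj0 K i := fun x hx => hL x hx i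
  have hAx := lab_eq_axial Finset.univ hK hconv hint hL
    (fun i hi => absurd (Finset.mem_univ i) hi) z heq
  obtain ⟨hi1, hi2⟩ := half_facts hconv hint h1 h2
  obtain ⟨M, hM⟩ := isBounded_iff_forall_norm_le.mp hK.isBounded
  set θ : ℝ := ε / (|M| + 1) with hθ
  have hθpos : 0 < θ := by (clear * - hε; positivity)
  have hseg : ∀ t : ℝ, |t| ≤ ε → (Pi.single j t : Fin (m + 1) → ℝ) ∈ K := by
    intro t ht
    have e : (Pi.single j t : Fin (m + 1) → ℝ) = ((1 + t / ε) / 2) • Pi.single j ε +
        ((1 - t / ε) / 2) • Pi.single j (-ε) := by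
      ext k
      by_cases hk : k = j
      · subst hk
        simp only [Pi.single_eq_same, Pi.add_apply, Pi.smul_apply, smul_eq_mul]
        field_simp
        ring
      · simp [hk]
    rw [e]
    have h3 := abs_le.mp ht
    have h4 : -1 ≤ t / ε := by rw [le_div_iff₀ hε]; linarith only [h3]
    have h5 : t / ε ≤ 1 := by rw [div_le_iff₀ hε]; linarith only [h3]
    exact hconv hj1 hj2 (by linarith only [h4]) (by linarith) (by ring)
  set K' : Set (Fin (m + 1) → ℝ) := shr i j (-θ) ⁻¹' K with hK'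
  have hinv : ∀ x, shr i j (-θ) (shr i j θ x) = x := fun x => by
    have := shr_neg hij (-θ) x
    rwa [neg_neg] at this
  have himg : K' = shr i j θ '' K := by
    ext x
    constructor
    · intro h; exact ⟨_, h, shr_neg hij θ x⟩
    · rintro ⟨x', hx', rfl⟩
      rw [hK', mem_preimage, hinv]; exact hx'
  have hcont : ∀ t, Continuous (shr i j t) := fun t => LinearMap.continuous_of_finiteDimensional _
  have hKc' : IsCompact K' := by rw [himg]; exact hK.image (hcont θ)
  have hfix : ∀ t (x : Fin (m + 1) → ℝ), shr i j t (Function.update x i 0) =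
      Function.update x i 0 := by
    intro t x
    ext k
    rw [shr_apply]
    simp
  have hcoord : ∀ t (x : Fin (m + 1) → ℝ), shr i j t x i = x i := by
    intro t x
    rw [shr_apply]
    simp [hij.symm]
  have hP' : Proj0 K' i := by
    have hset : K ⊆ {w | Function.update w i 0 + (Pi.single j (θ * w i) : Fin (m + 1) → ℝ) ∈ K} := by
      have hcv : Convex ℝ {w : Fin (m + 1) → ℝ |
          Function.update w i 0 + (Pi.single j (θ * w i) : Fin (m + 1) → ℝ) ∈ K} := by
        intro w hw w' hw' a b ha hb hab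
        have h3 := hconv hw hw' ha hb hab
        have e : a • (Function.update w i 0 + (Pi.single j (θ * w i) : Fin (m + 1) → ℝ)) +
            b • (Function.update w' i 0 + (Pi.single j (θ * w' i) : Fin (m + 1) → ℝ)) =
            Function.update (a • w + b • w') i 0 +
              (Pi.single j (θ * (a • w + b • w') i) : Fin (m + 1) → ℝ) := by
          ext k
          by_cases hk : k = i
          · subst hk
            simp only [smul_add, Pi.add_apply, Pi.smul_apply, Function.update_self, smul_eq_mul, mul_zero, ne_eq, hij.symm, not_false_eq_true, Pi.single_eq_of_ne, add_zero]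
          · by_cases hk2 : k = j
            · subst hk2
              simp only [smul_add, Pi.add_apply, Pi.smul_apply, ne_eq, hk, not_false_eq_true, Function.update_of_ne, smul_eq_mul, Pi.single_eq_same]; ring
            · simp only [smul_add, Pi.add_apply, Pi.smul_apply, ne_eq, hk, not_false_eq_true, Function.update_of_ne, smul_eq_mul, hk2, Pi.single_eq_of_ne, mul_zero, add_zero]
        rw [e] at h3
        exact h3
      refine hAx.trans (convexHull_min ?_ hcv)
      rintro w (rfl | ⟨hw, k, t, rfl⟩)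
      · have h0 : (0 : Fin (m + 1) → ℝ) ∈ K := by
          have := hseg 0 (by simpa only [abs_zero] using hε.le)
          simpa using this
        simpa using h0
      · by_cases hk : k = i
        · subst hk
          have ht : |t| ≤ |M| := by
            have h3 := hM _ hw
            have h4 := (norm_le_pi_norm (Pi.single k t : Fin (m + 1) → ℝ) k).trans h3
            rw [Pi.single_eq_same, Real.norm_eq_abs] at h4
            exact h4.trans (le_abs_self M)
          have h5 : (Pi.single j (θ * t) : Fin (m + 1) → ℝ) ∈ K := by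
            refine hseg _ ?_
            rw [abs_mul, abs_of_pos hθpos, hθ, div_mul_eq_mul_div, div_le_iff₀ (by (clear * -; positivity))]
            have : |t| ≤ |M| + 1 := by linarith only [ht]
            (clear * - this hε; gcongr)
          have h6 : Function.update (Pi.single k t : Fin (m + 1) → ℝ) k 0 = 0 := by
            ext l
            by_cases hl : l = k
            · subst hl; simp
            · simp [hl]
          have h7 : Function.update (Pi.single k t : Fin (m + 1) → ℝ) k 0 +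
              (Pi.single j (θ * (Pi.single k t : Fin (m + 1) → ℝ) k) : Fin (m + 1) → ℝ) ∈ K := by
            rw [h6, zero_add, Pi.single_eq_same]; exact h5
          exact h7
        · have h6 : Function.update (Pi.single k t : Fin (m + 1) → ℝ) i 0 = Pi.single k t := by
            ext l
            by_cases hl : l = i
            · subst hl; simp [Ne.symm hk]
            · simp [hl]
          have h7 : Function.update (Pi.single k t : Fin (m + 1) → ℝ) i 0 +
              (Pi.single j (θ * (Pi.single k t : Fin (m + 1) → ℝ) i) : Fin (m + 1) → ℝ) ∈ K := by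
            rw [h6, Pi.single_eq_of_ne (Ne.symm hk), mul_zero, Pi.single_zero, add_zero]
            exact hw
          exact h7
    intro x hx
    have hw : shr i j (-θ) x ∈ K := hx
    have h3 := hset hw
    have h4 : Function.update (shr i j (-θ) x) i 0 +
        (Pi.single j (θ * shr i j (-θ) x i) : Fin (m + 1) → ℝ) = Function.update x i 0 := by
      rw [hcoord]
      ext k
      by_cases hk : k = i
      · subst hk
        simp [hij.symm]
      · by_cases hk2 : k = j
        · subst hk2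
          simp [hk, shr_apply]
        · simp only [Pi.add_apply, ne_eq, hk, not_false_eq_true, Function.update_of_ne, shr_apply, hk2, ↓reduceIte, add_zero, Pi.single_eq_of_ne]
    rw [hK', mem_preimage, hfix, ← h4]
    exact h3
  have hz' : shr i j θ z ∈ interior K' := by
    have hopen : IsOpen (shr i j (-θ) ⁻¹' interior K) := isOpen_interior.preimage (hcont _)
    refine (interior_maximal (preimage_mono interior_subset) hopen) ?_
    rw [mem_preimage, hinv]; exact hz
  have hvolpre : ∀ A : Set (Fin (m + 1) → ℝ), volume (shr i j (-θ) ⁻¹' A) = volume A := by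
    intro A
    rw [Measure.addHaar_preimage_linearMap volume (by rw [shr_det hij]; exact one_ne_zero),
      shr_det hij]
    simp
  have hhalf : ∀ σ, half K' i σ = shr i j (-θ) ⁻¹' (half K i σ) := by
    intro σ
    ext x
    constructor
    · rintro ⟨h3, h4⟩
      refine ⟨h3, ?_⟩
      have h5 : 0 ≤ σ * shr i j (-θ) x i := by rw [hcoord]; exact h4
      exact h5
    · rintro ⟨h3, h4⟩
      refine ⟨h3, ?_⟩
      have h5 : 0 ≤ σ * shr i j (-θ) x i := h4
      rw [hcoord] at h5
      exact h5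
  have hEFh : ∀ σ u, (half K i σ).Nonempty → EF (half K' i σ) u =
      EF (half K i σ) (shr i j (-θ) u) := by
    intro σ u hne
    rw [hhalf]
    exact EF_shr hij θ (half_compact hK i σ) hne u
  have hvh : ∀ σ, volume (half K' i σ) = volume (half K i σ) := fun σ => by rw [hhalf, hvolpre]
  have heq' : volume K' * EF K' (shr i j θ z) ≤ ENNReal.ofReal (cst (m + 1)) := by
    rw [hK', hvolpre, EF_shr hij θ hK hn, hinv]
    exact heq
  have hne1 : (half K i 1).Nonempty := hi1.mono interior_subset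
  have hne2 : (half K i (-1)).Nonempty := hi2.mono interior_subset
  have hlow1 : ∀ u, ENNReal.ofReal (cst (m + 1)) ≤ volume (half K i 1) * EF (half K i 1) u :=
    lab_low (half_compact hK i 1) (half_convex hconv i 1) hi1 (half_LAB hL i 1)
  have hlow2 : ∀ u, ENNReal.ofReal (cst (m + 1)) ≤ volume (half K i (-1)) *
      EF (half K i (-1)) u :=
    lab_low (half_compact hK i (-1)) (half_convex hconv i (-1)) hi2 (half_LAB hL i (-1))
  obtain ⟨ζ1, ζ2, _, _, _, hA, _⟩ := glue_eq hK hP hz (cst_pos _) (pos_vol hi1) (pos_vol hi2)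
    (fun ζ _ => hlow1 _) (fun ζ _ => hlow2 _) heq
  obtain ⟨ζ1', ζ2', _, h2pos, hzi, hA', _⟩ := glue_eq hKc' hP' hz' (cst_pos _)
    (by rw [hvh]; exact pos_vol hi1) (by rw [hvh]; exact pos_vol hi2)
    (fun ζ _ => by rw [hvh, hEFh _ _ hne1]; exact hlow1 _)
    (fun ζ _ => by rw [hvh, hEFh _ _ hne2]; exact hlow2 _) heq'
  rw [hvh, hEFh _ _ hne1] at hA'
  have hU := EF_unique (half_compact hK i 1) hne1 (pos_vol hi1).ne'
    (half_compact hK i 1).measure_lt_top.ne (cst_pos (m + 1)) hlow1 hA.le hA'.le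
  have hj := congrFun hU j
  rw [shr_apply] at hj
  simp only [Function.update_of_ne hij, if_true, Function.update_self] at hj
  rw [shr_apply] at hj
  simp only [if_true] at hj
  rw [hcoord] at hzi
  have h8 : θ * ζ2' = 0 := by
    rw [hzi] at hj
    linarith only [hj]
  have h9 : 0 < θ * ζ2' := by (clear * - hε h2pos; positivity)
  linarith only [h8, h9]

end Vale.Agent.P248
end
end
end

section

section

section

/-!
# Equality for locally anti-blocking bodies: exactly the simplices
-/

set_option linter.unusedSectionVars false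

open MeasureTheory Set
open scoped ENNReal Topology

namespace Vale.Agent.P248

variable {n : ℕ}

theorem LABk.zero_mem {K : Set (Fin n → ℝ)} (hL : LABk K) (hn : K.Nonempty) :
    (0 : Fin n → ℝ) ∈ K := by
  obtain ⟨x, hx⟩ := hn
  have h : ∀ J : Finset (Fin n), J.piecewise (0 : Fin n → ℝ) x ∈ K := by
    intro J
    induction J using Finset.induction_on with
    | empty => simpa using hx
    | insert j J hj ih =>
      rw [Finset.piecewise_insert]
      exact hL _ ih j
  have := h Finset.univ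
  rwa [Finset.piecewise_univ] at this

/-- points of an axis between two points of a convex set -/
theorem single_mem_of_between {H : Set (Fin n → ℝ)} (hH : Convex ℝ H) {j : Fin n} {a b s : ℝ}
    (ha : (Pi.single j a : Fin n → ℝ) ∈ H) (hb : (Pi.single j b : Fin n → ℝ) ∈ H) (h1 : a ≤ s)
    (h2 : s ≤ b) : (Pi.single j s : Fin n → ℝ) ∈ H := by
  have hc : Convex ℝ ((LinearMap.single ℝ (fun _ : Fin n => ℝ) j) ⁻¹' H) :=
    hH.linear_preimage _
  exact hc.ordConnected.out (x := a) (y := b) ha hb ⟨h1, h2⟩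

/-- the extent of a body along an axis -/
theorem exists_extent {K : Set (Fin n → ℝ)} (hK : IsCompact K) (h0 : (0 : Fin n → ℝ) ∈ K)
    (j : Fin n) : ∃ M m : ℝ, (Pi.single j M : Fin n → ℝ) ∈ K ∧ (Pi.single j m : Fin n → ℝ) ∈ K ∧
      m ≤ 0 ∧ 0 ≤ M ∧ ∀ t, (Pi.single j t : Fin n → ℝ) ∈ K → m ≤ t ∧ t ≤ M := by
  set A : Set ℝ := {t | (Pi.single j t : Fin n → ℝ) ∈ K} with hA
  have hcont : Continuous (fun x : Fin n → ℝ => x j) := continuous_apply j
  have hcont2 : Continuous (fun x : Fin n → ℝ => (Pi.single j (x j) : Fin n → ℝ)) :=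
    (continuous_single j).comp hcont
  have hAi : A = (fun x : Fin n → ℝ => x j) '' (K ∩ {x | x = Pi.single j (x j)}) := by
    ext t
    constructor
    · intro ht
      exact ⟨Pi.single j t, ⟨ht, by simp⟩, by simp⟩
    · rintro ⟨x, ⟨hx, hx2⟩, rfl⟩
      have hx3 : x = Pi.single j (x j) := hx2
      show (Pi.single j (x j) : Fin n → ℝ) ∈ K
      rw [← hx3]; exact hx
  have hAc : IsCompact A := by
    rw [hAi]
    exact (hK.inter_right (isClosed_eq continuous_id hcont2)).image hcont
  have h0A : (0 : ℝ) ∈ A := by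
    show (Pi.single j (0 : ℝ) : Fin n → ℝ) ∈ K
    rw [Pi.single_zero]; exact h0
  have hne : A.Nonempty := ⟨0, h0A⟩
  refine ⟨sSup A, sInf A, hAc.sSup_mem hne, hAc.sInf_mem hne, csInf_le hAc.bddBelow h0A,
    le_csSup hAc.bddAbove h0A, fun t ht => ⟨csInf_le hAc.bddBelow ht, le_csSup hAc.bddAbove ht⟩⟩

/-- In the equality case the body is the convex hull of `n + 1` points. -/
theorem lab_eq_hull {K : Set (Fin n → ℝ)} (hK : IsCompact K) (hconv : Convex ℝ K)
    (hint : (interior K).Nonempty) (hL : LABk K) {z : Fin n → ℝ}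
    (heq : volume K * EF K z ≤ ENNReal.ofReal (cst n)) :
    ∃ v : Fin (n + 1) → (Fin n → ℝ), K = convexHull ℝ (range v) := by
  have hn : K.Nonempty := hint.mono interior_subset
  have h0 := hL.zero_mem hn
  rcases n with _ | m
  · refine ⟨fun _ => 0, ?_⟩
    rw [Subsingleton.eq_univ_of_nonempty hn]
    symm
    exact Subsingleton.eq_univ_of_nonempty ⟨0, subset_convexHull ℝ _ ⟨0, rfl⟩⟩
  have hAx := lab_eq_axial Finset.univ hK hconv hint hL
    (fun i hi => absurd (Finset.mem_univ i) hi) z heq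
  choose M μ hM hμ hμ0 hM0 hbd using fun j => exists_extent hK h0 j
  -- at most one two-sided direction
  have huniq : ∀ i j, μ i < 0 → 0 < M i → μ j < 0 → 0 < M j → j = i := by
    intro i j h1 h2 h3 h4
    by_contra hij
    have hε : 0 < min (M j) (-(μ j)) := lt_min h4 (by linarith only [h3])
    refine lab_eq_two hK hconv hint hL heq hij ?_ ?_ hε ?_ ?_
    · intro h
      have := h _ (hμ i)
      rw [Pi.single_eq_same] at this
      linarith only [h1, this]
    · intro h
      have := h _ (hM i)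
      rw [Pi.single_eq_same] at this
      linarith only [h2, this]
    · exact single_mem_of_between hconv (hμ j) (hM j) (by linarith) (min_le_left _ _)
    · refine single_mem_of_between hconv (hμ j) (hM j) ?_ (by linarith)
      have := min_le_right (M j) (-(μ j))
      linarith
  set t : Fin (m + 1) → ℝ := fun j => if μ j < 0 then μ j else M j with ht
  have htK : ∀ j, (Pi.single j (t j) : Fin (m + 1) → ℝ) ∈ K := by
    intro j
    simp only [ht]
    split_ifs
    · exact hμ j
    · exact hM j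
  -- the criterion
  have crit : ∀ q : Fin (m + 1) → ℝ, q ∈ K →
      (∀ H : Set (Fin (m + 1) → ℝ), Convex ℝ H → q ∈ H →
        (∀ j, (Pi.single j (t j) : Fin (m + 1) → ℝ) ∈ H) →
        (0 : Fin (m + 1) → ℝ) ∈ H ∧
          ∀ j, μ j < 0 → 0 < M j → (Pi.single j (M j) : Fin (m + 1) → ℝ) ∈ H) →
      ∃ v : Fin (m + 1 + 1) → (Fin (m + 1) → ℝ), K = convexHull ℝ (range v) := by
    intro q hq hH
    refine ⟨Fin.cons q (fun j => Pi.single j (t j)), ?_⟩
    set v : Fin (m + 1 + 1) → (Fin (m + 1) → ℝ) := Fin.cons q (fun j => Pi.single j (t j)) with hv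
    apply Subset.antisymm
    · refine hAx.trans (convexHull_min ?_ (convex_convexHull ℝ _))
      have hcv : Convex ℝ (convexHull ℝ (range v)) := convex_convexHull ℝ _
      have hvt : ∀ j, (Pi.single j (t j) : Fin (m + 1) → ℝ) ∈ convexHull ℝ (range v) :=
        fun j => subset_convexHull ℝ _ ⟨j.succ, by simp [hv]⟩
      obtain ⟨hz0, hzM⟩ := hH (convexHull ℝ (range v)) hcv
        (subset_convexHull ℝ _ ⟨0, by simp [hv]⟩) hvt
      rintro x (rfl | ⟨hx, j, s, rfl⟩)
      · exact hz0
      · obtain ⟨h1, h2⟩ := hbd j s hx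
        have hz0' : (Pi.single j (0 : ℝ) : Fin (m + 1) → ℝ) ∈ convexHull ℝ (range v) := by
          rw [Pi.single_zero]; exact hz0
        have h5 := hvt j
        simp only [ht] at h5
        by_cases h3 : μ j < 0
        · rw [if_pos h3] at h5
          by_cases h4 : 0 < M j
          · exact single_mem_of_between hcv h5 (hzM j h3 h4) h1 h2
          · exact single_mem_of_between hcv h5 hz0' h1 (by linarith only [h2, h4])
        · rw [if_neg h3] at h5
          exact single_mem_of_between hcv hz0' h5 (by linarith only [h1, h3]) h2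
    · refine convexHull_min ?_ hconv
      rintro _ ⟨i, rfl⟩
      refine Fin.cases ?_ (fun j => ?_) i
      · simpa [hv] using hq
      · simpa [hv] using htK j
  by_cases hex : ∃ i, μ i < 0 ∧ 0 < M i
  · obtain ⟨i, hi1, hi2⟩ := hex
    refine crit (Pi.single i (M i)) (hM i) (fun H hH hq hj => ⟨?_, fun j h1 h2 => ?_⟩)
    · have h5 := hj i
      simp only [ht] at h5
      rw [if_pos hi1] at h5
      have h6 := single_mem_of_between hH h5 hq hi1.le hi2.le
      rwa [Pi.single_zero] at h6
    · have := huniq i j hi1 hi2 h1 h2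
      subst this
      exact hq
  · push Not at hex
    refine crit 0 h0 (fun H hH hq hj => ⟨hq, fun j h1 h2 => ?_⟩)
    exact absurd h2 (not_lt.mpr (hex j h1))

/-- **Equality case.** -/
theorem isSimplex_of_eq {K : Set (EuclideanSpace ℝ (Fin n))} (hK : IsConvexBody K)
    (hL : IsLocallyAntiBlocking K)
    (h : volumeProduct K ≤ ENNReal.ofReal (((n : ℝ) + 1) ^ (n + 1) / (n.factorial : ℝ) ^ 2)) :
    IsSimplex K := by
  obtain ⟨p, b, hb⟩ := hL
  have hKc := frame_preimage_isCompact p b hK.1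
  have hKv := frame_preimage_convex p b hK.2.1
  have hL' : LABk (frame p b ⁻¹' K) := frame_lab hb
  obtain ⟨hh, hhe⟩ := frame_homeo p b
  have hfun : frame p b = hh := funext fun u => (hhe u).symm
  have hint : (interior (frame p b ⁻¹' K)).Nonempty := by
    rw [frame_preimage_interior, hfun]
    obtain ⟨x, hx⟩ := hK.2.2
    obtain ⟨u, rfl⟩ := hh.surjective x
    exact ⟨u, hx⟩
  obtain ⟨z, hz, hmin⟩ := exists_santalo hKc hKv hint
  rw [volumeProduct_frame p b] at h
  have h1 : volume (frame p b ⁻¹' K) * volume (polarP (frame p b ⁻¹' K) z) ≤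
      ENNReal.ofReal (((n : ℝ) + 1) ^ (n + 1) / (n.factorial : ℝ) ^ 2) := by
    refine le_trans ?_ h
    exact le_iInf₂ fun u hu => mul_le_mul' le_rfl (hmin u hu)
  have heq : volume (frame p b ⁻¹' K) * EF (frame p b ⁻¹' K) z ≤ ENNReal.ofReal (cst n) := by
    rw [EF_eq hKc (interior_subset hz)]
    have h2 : ((Fintype.card (Fin n)).factorial : ℝ≥0∞) = ENNReal.ofReal (n.factorial : ℝ) := by
      rw [Fintype.card_fin, ENNReal.ofReal_natCast]
    rw [h2]
    calc _ = ENNReal.ofReal (n.factorial : ℝ) *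
        (volume (frame p b ⁻¹' K) * volume (polarP (frame p b ⁻¹' K) z)) := by ring
      _ ≤ ENNReal.ofReal (n.factorial : ℝ) *
        ENNReal.ofReal (((n : ℝ) + 1) ^ (n + 1) / (n.factorial : ℝ) ^ 2) :=
          mul_le_mul' le_rfl h1
      _ = ENNReal.ofReal (cst n) := by
        rw [← ENNReal.ofReal_mul (by positivity)]
        congr 1
        unfold cst
        rw [volume_stdS_eq, ENNReal.toReal_ofReal (by positivity), Fintype.card_fin]
        ring
  obtain ⟨v, hv⟩ := lab_eq_hull hKc hKv hint hL' heq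
  have himg : K = convexHull ℝ (range (fun i => frame p b (v i))) := by
    let f : (Fin n → ℝ) →ᵃ[ℝ] EuclideanSpace ℝ (Fin n) :=
      b.equivFun.symm.toLinearMap.toAffineMap + AffineMap.const ℝ (Fin n → ℝ) p
    have hf : (f : (Fin n → ℝ) → EuclideanSpace ℝ (Fin n)) = frame p b := by
      funext u
      show b.equivFun.symm u + p = p + b.equivFun.symm u
      exact add_comm _ _
    have h3 : K = frame p b '' (frame p b ⁻¹' K) := by
      rw [hfun, image_preimage_eq _ hh.surjective]
    rw [h3, hv, ← hf, AffineMap.image_convexHull, ← range_comp]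
    rfl
  refine ⟨fun i => frame p b (v i), ?_, himg⟩
  have hKi := hK.2.2
  rw [himg] at hKi
  have hspan := interior_convexHull_nonempty_iff_affineSpan_eq_top.mp hKi
  refine (affineIndependent_iff_finrank_vectorSpan_eq ℝ _
    (by simp : Fintype.card (Fin (n + 1)) = n + 1)).mpr ?_
  have h1 : vectorSpan ℝ (range fun i => frame p b (v i)) = ⊤ := by
    rw [← direction_affineSpan, hspan, AffineSubspace.direction_top]
  rw [h1, finrank_top]
  simp only [finrank_euclideanSpace, Fintype.card_fin]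

/-- **The general Mahler inequality with equality case** for locally anti-blocking bodies. -/
theorem lab_full {K : Set (EuclideanSpace ℝ (Fin n))} (hK : IsConvexBody K)
    (hL : IsLocallyAntiBlocking K) :
    ENNReal.ofReal (((n : ℝ) + 1) ^ (n + 1) / (n.factorial : ℝ) ^ 2) ≤ volumeProduct K ∧
    (volumeProduct K = ENNReal.ofReal (((n : ℝ) + 1) ^ (n + 1) / (n.factorial : ℝ) ^ 2) ↔
      IsSimplex K) := by
  refine ⟨?_, fun h => isSimplex_of_eq hK hL h.le, fun h => h.volumeProduct_eq⟩
  obtain ⟨p, b, hb⟩ := hL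
  rw [volumeProduct_frame p b]
  exact le_iInf₂ fun u hu => lab_polar (frame_preimage_isCompact p b hK.1)
    (frame_preimage_convex p b hK.2.1) (frame_lab hb) hu

end Vale.Agent.P248
end
end
end

section

section

section

/-!
# Volume of a fiber sum
-/

open MeasureTheory Set
open scoped ENNReal

namespace Vale.Agent.P248

variable {m : ℕ}

/-- The volume as the integral of the lengths of the fibers in one coordinate direction. -/
theorem volume_eq_lintegral_fiber (i : Fin (m + 1)) {S : Set (Fin (m + 1) → ℝ)}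
    (hS : MeasurableSet S) :
    volume S = ∫⁻ y : Fin m → ℝ, volume {s : ℝ | ins i s y ∈ S} := by
  have hvp : MeasurePreserving (MeasurableEquiv.piFinSuccAbove (fun _ : Fin (m + 1) => ℝ) i)
      volume volume := volume_preserving_piFinSuccAbove (fun _ : Fin (m + 1) => ℝ) i
  have h1 := hvp.symm.measure_preimage hS.nullMeasurableSet
  rw [← h1]
  have h2 : MeasurableSet
      ((MeasurableEquiv.piFinSuccAbove (fun _ : Fin (m + 1) => ℝ) i).symm ⁻¹' S) :=
    (MeasurableEquiv.piFinSuccAbove (fun _ : Fin (m + 1) => ℝ) i).symm.measurable hS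
  exact Measure.prod_apply_symm h2

theorem isCompact_fiber (i : Fin (m + 1)) {K : Set (Fin (m + 1) → ℝ)} (hK : IsCompact K)
    (y : Fin m → ℝ) : IsCompact {s : ℝ | ins i s y ∈ K} := by
  have hc : Continuous (fun s : ℝ => ins i s y) := by
    refine continuous_pi fun k => ?_
    refine Fin.succAboveCases i ?_ (fun j => ?_) k
    · simp only [ins, Fin.insertNth_apply_same]
      exact continuous_id'
    · simp only [ins, Fin.insertNth_apply_succAbove]
      exact continuous_const
  have hcl : IsClosed {s : ℝ | ins i s y ∈ K} := hK.isClosed.preimage hc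
  have hsub : {s : ℝ | ins i s y ∈ K} ⊆ (fun x : Fin (m + 1) → ℝ => x i) '' K := by
    intro s hs
    exact ⟨ins i s y, hs, ins_same i s y⟩
  exact (hK.image (continuous_apply i)).of_isClosed_subset hcl hsub

theorem ins_add_smul_single (i : Fin (m + 1)) (s r : ℝ) (y : Fin m → ℝ) :
    ins i s y + r • (Pi.single i 1 : Fin (m + 1) → ℝ) = ins i (s + r) y := by
  ext k
  refine Fin.succAboveCases i ?_ (fun j => ?_) k <;> simp [ins, Fin.succAbove_ne]

theorem ins_sub_smul_single (i : Fin (m + 1)) (s r : ℝ) (y : Fin m → ℝ) :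
    ins i s y - r • (Pi.single i 1 : Fin (m + 1) → ℝ) = ins i (s - r) y := by
  ext k
  refine Fin.succAboveCases i ?_ (fun j => ?_) k <;> simp [ins, Fin.succAbove_ne]

/-- If the fibers of `K` contain the averages of the fibers of `K1` and `K2` and `K1`, `K2` have
the same projection, then `vol K1 + vol K2 ≤ 2 vol K`. -/
theorem volume_fiber_sum {m : ℕ} (i : Fin (m + 1)) {K K1 K2 : Set (Fin (m + 1) → ℝ)}
    (hK : IsCompact K) (hK1 : IsCompact K1) (hK2 : IsCompact K2)
    (h : ∀ (x : Fin (m + 1) → ℝ) (r : ℝ), x + r • (Pi.single i 1 : Fin (m + 1) → ℝ) ∈ K1 →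
      x - r • (Pi.single i 1 : Fin (m + 1) → ℝ) ∈ K2 → x ∈ K)
    (hp1 : ∀ x ∈ K1, ∃ r : ℝ, x + r • (Pi.single i 1 : Fin (m + 1) → ℝ) ∈ K2)
    (hp2 : ∀ x ∈ K2, ∃ r : ℝ, x + r • (Pi.single i 1 : Fin (m + 1) → ℝ) ∈ K1) :
    volume K1 + volume K2 ≤ 2 * volume K := by
  rw [volume_eq_lintegral_fiber i hK.measurableSet, volume_eq_lintegral_fiber i hK1.measurableSet,
    volume_eq_lintegral_fiber i hK2.measurableSet]
  have hmeas : ∀ {S : Set (Fin (m + 1) → ℝ)}, IsCompact S →
      Measurable fun y : Fin m → ℝ => volume {s : ℝ | ins i s y ∈ S} := by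
    intro S hS
    have h2 : MeasurableSet
        ((MeasurableEquiv.piFinSuccAbove (fun _ : Fin (m + 1) => ℝ) i).symm ⁻¹' S) :=
      (MeasurableEquiv.piFinSuccAbove (fun _ : Fin (m + 1) => ℝ) i).symm.measurable
        hS.measurableSet
    exact measurable_measure_prodMk_right h2
  rw [← lintegral_add_left (hmeas hK1), ← lintegral_const_mul _ (hmeas hK)]
  refine lintegral_mono fun y => ?_
  by_cases hne : {s : ℝ | ins i s y ∈ K1}.Nonempty
  · have hne2 : {s : ℝ | ins i s y ∈ K2}.Nonempty := by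
      obtain ⟨s, hs⟩ := hne
      obtain ⟨r, hr⟩ := hp1 _ hs
      rw [ins_add_smul_single] at hr
      exact ⟨s + r, hr⟩
    refine PL.bm_one (isCompact_fiber i hK1 y).measurableSet
      (isCompact_fiber i hK2 y).measurableSet hne hne2 ?_
    intro a ha b hb
    refine h (ins i ((a + b) / 2) y) ((a - b) / 2) ?_ ?_
    · rw [ins_add_smul_single]
      convert (show ins i a y ∈ K1 from ha) using 2
      ring
    · rw [ins_sub_smul_single]
      convert (show ins i b y ∈ K2 from hb) using 2
      ring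
  · have hemp : {s : ℝ | ins i s y ∈ K1} = ∅ := not_nonempty_iff_eq_empty.1 hne
    have hemp2 : {s : ℝ | ins i s y ∈ K2} = ∅ := by
      rw [← not_nonempty_iff_eq_empty]
      rintro ⟨s, hs⟩
      obtain ⟨r, hr⟩ := hp2 _ hs
      rw [ins_add_smul_single] at hr
      exact hne ⟨s + r, hr⟩
    simp only [hemp, hemp2, measure_empty, add_zero]
    exact zero_le

end Vale.Agent.P248
end
end
end

section

section

section

/-! Gain side of the local estimate: excess volume over the facets. -/

set_option linter.unusedSectionVars false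

open MeasureTheory Set
open scoped ENNReal Topology Matrix

namespace Vale.Agent.P248

theorem mulVec3 (M : Matrix (Fin 3) (Fin 3) ℝ) (x : V3) (i : Fin 3) :
    (M *ᵥ x) i = M i 0 * x 0 + M i 1 * x 1 + M i 2 * x 2 := by
  simp only [Matrix.mulVec, dotProduct, Fin.sum_univ_three]

/-- triangle in the plane -/
def tri : Set (Fin 2 → ℝ) := {y | 0 ≤ y 0 ∧ 0 ≤ y 1 ∧ y 0 + y 1 ≤ 1}

theorem tri_measurable : MeasurableSet tri := by
  have h0 : Measurable (fun y : Fin 2 → ℝ => y 0) := measurable_pi_apply 0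
  have h1 : Measurable (fun y : Fin 2 → ℝ => y 1) := measurable_pi_apply 1
  exact (measurableSet_le measurable_const h0).inter
    ((measurableSet_le measurable_const h1).inter (measurableSet_le (h0.add h1) measurable_const))

/-- truncated prism over the triangle -/
def pri (h : Fin 3 → ℝ) : Set V3 :=
  {x | 0 ≤ x 1 ∧ 0 ≤ x 2 ∧ x 1 + x 2 ≤ 1 ∧ 0 ≤ x 0 ∧
    x 0 ≤ h 0 * (1 - x 1 - x 2) + h 1 * x 1 + h 2 * x 2}

theorem pri_measurable (h : Fin 3 → ℝ) : MeasurableSet (pri h) := by
  have h0 : Measurable (fun y : V3 => y 0) := measurable_pi_apply 0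
  have h1 : Measurable (fun y : V3 => y 1) := measurable_pi_apply 1
  have h2 : Measurable (fun y : V3 => y 2) := measurable_pi_apply 2
  have h3 : Measurable (fun x : V3 => h 0 * (1 - x 1 - x 2) + h 1 * x 1 + h 2 * x 2) := by
    fun_prop
  exact (measurableSet_le measurable_const h1).inter
    ((measurableSet_le measurable_const h2).inter
      ((measurableSet_le (h1.add h2) measurable_const).inter
        ((measurableSet_le measurable_const h0).inter (measurableSet_le h0 h3))))

theorem volume_pri_int (h : Fin 3 → ℝ) : volume (pri h) =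
    ∫⁻ y in tri, ENNReal.ofReal (h 0 * (1 - y 0 - y 1) + h 1 * y 0 + h 2 * y 1) := by
  rw [volume_eq_lintegral_fiber 0 (pri_measurable h), ← lintegral_indicator tri_measurable]
  refine lintegral_congr fun y => ?_
  have e0 : ∀ s : ℝ, ins 0 s y 0 = s := fun s => rfl
  have e1 : ∀ s : ℝ, ins 0 s y 1 = y 0 := fun s => rfl
  have e2 : ∀ s : ℝ, ins 0 s y 2 = y 1 := fun s => rfl
  by_cases hy : y ∈ tri
  · rw [indicator_of_mem hy]
    have h1 : {s : ℝ | ins 0 s y ∈ pri h} =
        Icc 0 (h 0 * (1 - y 0 - y 1) + h 1 * y 0 + h 2 * y 1) := by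
      ext s
      simp only [pri, mem_ofPred_eq, e1, e2, e0, mem_Icc]
      exact ⟨fun h => ⟨h.2.2.2.1, h.2.2.2.2⟩, fun h => ⟨hy.1, hy.2.1, hy.2.2, h.1, h.2⟩⟩
    rw [h1, Real.volume_Icc, sub_zero]
  · rw [indicator_of_notMem hy]
    have h1 : {s : ℝ | ins 0 s y ∈ pri h} = ∅ := by
      ext s
      simp only [pri, mem_ofPred_eq, e0, e1, e2, mem_empty_iff_false, iff_false]
      exact fun h => hy ⟨h.1, h.2.1, h.2.2.1⟩
    rw [h1, measure_empty]

theorem volume_pri0 : ∫⁻ y in tri, ENNReal.ofReal (1 - y 0 - y 1) = ENNReal.ofReal (1 / 6) := by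
  have h1 := volume_pri_int ![1, 0, 0]
  have h2 : pri ![1, 0, 0] = stdS (Fin 3) := by
    ext x
    simp only [pri, mem_ofPred_eq, stdS, Fin.sum_univ_three]
    simp only [Fin.isValue, Matrix.cons_val_zero, one_mul, Matrix.cons_val_one, zero_mul, add_zero, Matrix.cons_val]
    constructor
    · rintro ⟨a1, a2, a3, a4, a5⟩
      refine ⟨fun i => ?_, by linarith only [a5]⟩
      fin_cases i <;> assumption
    · rintro ⟨a1, a2⟩
      have b0 := a1 0
      have b1 := a1 1
      have b2 := a1 2
      refine ⟨b1, b2, by linarith only [a2, b0], b0, by linarith only [a2]⟩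
  rw [h2, volume_stdS3] at h1
  rw [h1]
  refine lintegral_congr fun y => ?_
  simp

theorem volume_pri1 : ∫⁻ y in tri, ENNReal.ofReal (y 0) = ENNReal.ofReal (1 / 6) := by
  have h1 := volume_pri_int ![0, 1, 0]
  have h2 : pri ![0, 1, 0] =
      (fun x => (!![1, 0, 0; 1, 1, 0; 0, 0, 1] : Matrix (Fin 3) (Fin 3) ℝ) *ᵥ x + 0) '' stdS (Fin 3) := by
    ext x
    constructor
    · rintro ⟨a1, a2, a3, a4, a5⟩
      have a5' : x 0 ≤ x 1 := by simpa only [Fin.isValue, Matrix.cons_val_zero, zero_mul, Matrix.cons_val_one, one_mul, zero_add,     Matrix.cons_val, add_zero] using a5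
      refine ⟨![x 0, x 1 - x 0, x 2], ⟨fun i => ?_, ?_⟩, ?_⟩
      · fin_cases i
        · exact a4
        · simpa only [Fin.isValue, Fin.mk_one, Matrix.cons_val_one, Matrix.cons_val_zero, sub_nonneg] using a5'
        · exact a2
      · simp only [Fin.sum_univ_three]
        simp only [Fin.isValue, Matrix.cons_val_zero, Matrix.cons_val_one, add_sub_cancel, Matrix.cons_val]
        linarith only [a3]
      · ext i
        fin_cases i <;> simp
    · rintro ⟨s, ⟨b1, b2⟩, rfl⟩
      have c0 := b1 0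
      have c1 := b1 1
      have c2 := b1 2
      rw [Fin.sum_univ_three] at b2
      simp only [pri, mem_ofPred_eq, Pi.add_apply, mulVec3]
      simp only [Fin.isValue, Matrix.of_apply, Matrix.cons_val', Matrix.cons_val_zero, Matrix.cons_val_fin_one, Matrix.cons_val_one, one_mul, Matrix.cons_val, zero_mul, add_zero, Pi.zero_apply, zero_add, le_add_iff_nonneg_right]
      refine ⟨by linarith only [c0, c1], c2, by linarith only [b2], c0, c1⟩
  rw [h2, volume_affine_image, volume_stdS3] at h1
  have h3 : |(!![1, 0, 0; 1, 1, 0; 0, 0, 1] : Matrix (Fin 3) (Fin 3) ℝ).det| = 1 := by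
    rw [Matrix.det_fin_three]; simp
  rw [h3, ENNReal.ofReal_one, one_mul] at h1
  rw [h1]
  refine lintegral_congr fun y => ?_
  simp

theorem volume_pri2 : ∫⁻ y in tri, ENNReal.ofReal (y 1) = ENNReal.ofReal (1 / 6) := by
  have h1 := volume_pri_int ![0, 0, 1]
  have h2 : pri ![0, 0, 1] =
      (fun x => (!![1, 0, 0; 0, 1, 0; 1, 0, 1] : Matrix (Fin 3) (Fin 3) ℝ) *ᵥ x + 0) '' stdS (Fin 3) := by
    ext x
    constructor
    · rintro ⟨a1, a2, a3, a4, a5⟩
      have a5' : x 0 ≤ x 2 := by simpa only [Fin.isValue, Matrix.cons_val_zero, zero_mul, Matrix.cons_val_one, add_zero, Matrix.cons_val,     one_mul, zero_add] using a5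
      refine ⟨![x 0, x 1, x 2 - x 0], ⟨fun i => ?_, ?_⟩, ?_⟩
      · fin_cases i
        · exact a4
        · exact a1
        · simpa only [Fin.isValue, Fin.reduceFinMk, Matrix.cons_val, sub_nonneg] using a5'
      · simp only [Fin.sum_univ_three]
        simp only [Fin.isValue, Matrix.cons_val_zero, Matrix.cons_val_one, Matrix.cons_val]
        linarith only [a3]
      · ext i
        fin_cases i <;> simp
    · rintro ⟨s, ⟨b1, b2⟩, rfl⟩
      have c0 := b1 0
      have c1 := b1 1
      have c2 := b1 2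
      rw [Fin.sum_univ_three] at b2
      simp only [pri, mem_ofPred_eq, Pi.add_apply, mulVec3]
      simp
      refine ⟨c1, by linarith only [c0, c2], by linarith only [b2], c0, c2⟩
  rw [h2, volume_affine_image, volume_stdS3] at h1
  have h3 : |(!![1, 0, 0; 0, 1, 0; 1, 0, 1] : Matrix (Fin 3) (Fin 3) ℝ).det| = 1 := by
    rw [Matrix.det_fin_three]; simp
  rw [h3, ENNReal.ofReal_one, one_mul] at h1
  rw [h1]
  refine lintegral_congr fun y => ?_
  simp

theorem volume_pri {h : Fin 3 → ℝ} (hh : ∀ i, 0 ≤ h i) :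
    volume (pri h) = ENNReal.ofReal ((h 0 + h 1 + h 2) / 6) := by
  rw [volume_pri_int]
  have h1 : ∫⁻ y in tri, ENNReal.ofReal (h 0 * (1 - y 0 - y 1) + h 1 * y 0 + h 2 * y 1) =
      ∫⁻ y in tri, (ENNReal.ofReal (h 0) * ENNReal.ofReal (1 - y 0 - y 1) +
        ENNReal.ofReal (h 1) * ENNReal.ofReal (y 0)) + ENNReal.ofReal (h 2) * ENNReal.ofReal (y 1) := by
    refine setLIntegral_congr_fun tri_measurable fun y hy => ?_
    obtain ⟨a, b, c⟩ := hy
    have h0 : 0 ≤ 1 - y 0 - y 1 := by linarith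
    have g0 := mul_nonneg (hh 0) h0
    have g1 := mul_nonneg (hh 1) a
    have g2 := mul_nonneg (hh 2) b
    rw [ENNReal.ofReal_add (by positivity) g2, ENNReal.ofReal_add g0 g1,
      ENNReal.ofReal_mul (hh 0), ENNReal.ofReal_mul (hh 1), ENNReal.ofReal_mul (hh 2)]
  rw [h1, lintegral_add_left (by fun_prop), lintegral_add_left (by fun_prop),
    lintegral_const_mul _ (by fun_prop), lintegral_const_mul _ (by fun_prop),
    lintegral_const_mul _ (by fun_prop), volume_pri0, volume_pri1, volume_pri2,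
    ← ENNReal.ofReal_mul (hh 0), ← ENNReal.ofReal_mul (hh 1), ← ENNReal.ofReal_mul (hh 2)]
  have g0 := hh 0
  have g1 := hh 1
  have g2 := hh 2
  rw [← ENNReal.ofReal_add (by positivity) (by positivity),
    ← ENNReal.ofReal_add (by positivity) (by positivity)]
  congr 1
  ring

/-- The region below facet `1` on the far side. -/
def cell (k : Fin 4) : Set V3 := {x | lam k x < 0 ∧ ∀ m, m ≠ k → 0 ≤ lam m x}

theorem lam1 (x : V3) : lam 1 x = x 0 := rfl
theorem lam2 (x : V3) : lam 2 x = x 1 := rfl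
theorem lam3 (x : V3) : lam 3 x = x 2 := rfl
theorem lam0 (x : V3) : lam 0 x = 1 - x 0 - x 1 - x 2 := by
  rw [lam_zero, Fin.sum_univ_three]; ring

theorem prism_bound {K : Set V3} (hc : Convex ℝ K) {P : Fin 3 → V3} {h : Fin 3 → ℝ}
    (hh : ∀ i, 0 ≤ h i) (hP0 : ∀ i, P i 0 = 0) (hP1 : ∀ i, 0 ≤ P i 1) (hP2 : ∀ i, 0 ≤ P i 2)
    (hP3 : ∀ i, P i 1 + P i 2 ≤ 1) (hPK : ∀ i, P i ∈ K)
    (hYK : ∀ i, P i - h i • (Pi.single 0 1 : V3) ∈ K) :
    ENNReal.ofReal (|(P 1 1 - P 0 1) * (P 2 2 - P 0 2) - (P 1 2 - P 0 2) * (P 2 1 - P 0 1)| *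
      ((h 0 + h 1 + h 2) / 6)) ≤ volume (K ∩ cell 1) := by
  set M : Matrix (Fin 3) (Fin 3) ℝ :=
    !![-1, 0, 0; 0, P 1 1 - P 0 1, P 2 1 - P 0 1; 0, P 1 2 - P 0 2, P 2 2 - P 0 2] with hM
  have hdet : M.det = -((P 1 1 - P 0 1) * (P 2 2 - P 0 2) - (P 1 2 - P 0 2) * (P 2 1 - P 0 1)) := by
    rw [hM, Matrix.det_fin_three]; simp only [Fin.isValue, Matrix.of_apply, Matrix.cons_val', Matrix.cons_val_zero, Matrix.cons_val_fin_one, Matrix.cons_val_one, neg_mul, one_mul, neg_sub, Matrix.cons_val, mul_zero, zero_mul, sub_zero, add_zero]; ring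
  have hv : volume ((fun x => M *ᵥ x + P 0) '' (pri h \ {x | x 0 = 0})) =
      ENNReal.ofReal (|(P 1 1 - P 0 1) * (P 2 2 - P 0 2) - (P 1 2 - P 0 2) * (P 2 1 - P 0 1)| *
      ((h 0 + h 1 + h 2) / 6)) := by
    rw [volume_affine_image, measure_sdiff_null (volume_coord_zero 0), volume_pri hh, hdet, abs_neg,
      ← ENNReal.ofReal_mul (abs_nonneg _)]
  rw [← hv]
  refine measure_mono ?_
  rintro _ ⟨x, ⟨⟨a1, a2, a3, a4, a5⟩, a6⟩, rfl⟩
  have a4' : 0 < x 0 := lt_of_le_of_ne a4 fun h => a6 h.symm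
  have e0 : (M *ᵥ x + P 0) 0 = - x 0 := by
    rw [Pi.add_apply, mulVec3]; simp [hM, hP0]
  have e1 : (M *ᵥ x + P 0) 1 = (1 - x 1 - x 2) * P 0 1 + x 1 * P 1 1 + x 2 * P 2 1 := by
    rw [Pi.add_apply, mulVec3]; simp only [hM, Fin.isValue, Matrix.of_apply, Matrix.cons_val', Matrix.cons_val_zero, Matrix.cons_val_fin_one, Matrix.cons_val_one, zero_mul, zero_add, Matrix.cons_val]; ring
  have e2 : (M *ᵥ x + P 0) 2 = (1 - x 1 - x 2) * P 0 2 + x 1 * P 1 2 + x 2 * P 2 2 := by
    rw [Pi.add_apply, mulVec3]; simp only [hM, Fin.isValue, Matrix.of_apply, Matrix.cons_val', Matrix.cons_val_zero, Matrix.cons_val_fin_one, Matrix.cons_val, Matrix.cons_val_one, zero_mul, zero_add]; ring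
  have b0 : 0 ≤ 1 - x 1 - x 2 := by linarith only [a3]
  change M *ᵥ x + P 0 ∈ K ∩ cell 1
  constructor
  · set H := h 0 * (1 - x 1 - x 2) + h 1 * x 1 + h 2 * x 2 with hH
    have hHpos : 0 < H := lt_of_lt_of_le a4' a5
    have hA : (1 - x 1 - x 2) • P 0 + x 1 • P 1 + x 2 • P 2 ∈ K := by
      have h1 := hc.sum_mem (t := Finset.univ) (w := ![1 - x 1 - x 2, x 1, x 2]) (z := P)
        (fun i _ => by fin_cases i <;> assumption)
        (by rw [Fin.sum_univ_three]; simp only [Nat.succ_eq_add_one, Nat.reduceAdd, Fin.isValue, Matrix.cons_val_zero, Matrix.cons_val_one, Matrix.cons_val]; ring) (fun i _ => hPK i)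
      rw [Fin.sum_univ_three] at h1
      exact h1
    have hB : (1 - x 1 - x 2) • (P 0 - h 0 • (Pi.single 0 1 : V3)) +
        x 1 • (P 1 - h 1 • (Pi.single 0 1 : V3)) + x 2 • (P 2 - h 2 • (Pi.single 0 1 : V3)) ∈ K := by
      have h1 := hc.sum_mem (t := Finset.univ) (w := ![1 - x 1 - x 2, x 1, x 2])
        (z := fun i => P i - h i • (Pi.single 0 1 : V3))
        (fun i _ => by fin_cases i <;> assumption)
        (by rw [Fin.sum_univ_three]; simp only [Nat.succ_eq_add_one, Nat.reduceAdd, Fin.isValue, Matrix.cons_val_zero, Matrix.cons_val_one, Matrix.cons_val]; ring) (fun i _ => hYK i)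
      rw [Fin.sum_univ_three] at h1
      exact h1
    have h2 := hc hA hB (a := 1 - x 0 / H) (b := x 0 / H)
      (by rw [sub_nonneg, div_le_one hHpos]; exact a5) (by (clear * - a4' hHpos; positivity)) (by ring)
    have h3 : x 0 / H * H = x 0 := div_mul_cancel₀ _ hHpos.ne'
    have h4 : (1 - x 0 / H) • ((1 - x 1 - x 2) • P 0 + x 1 • P 1 + x 2 • P 2) +
        (x 0 / H) • ((1 - x 1 - x 2) • (P 0 - h 0 • (Pi.single 0 1 : V3)) +
        x 1 • (P 1 - h 1 • (Pi.single 0 1 : V3)) + x 2 • (P 2 - h 2 • (Pi.single 0 1 : V3))) =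
        M *ᵥ x + P 0 := by
      ext i
      fin_cases i
      · change _ = (M *ᵥ x + P 0) 0
        rw [e0]
        simp only [Fin.isValue, smul_add, Fin.zero_eta, Pi.add_apply, Pi.smul_apply, hP0, smul_eq_mul, mul_zero, add_zero, Pi.sub_apply, Pi.single_eq_same, mul_one, zero_sub, mul_neg, zero_add]
        rw [hH] at h3
        linear_combination -h3
      · change _ = (M *ᵥ x + P 0) 1
        rw [e1]
        simp only [Fin.isValue, smul_add, Fin.mk_one, Pi.add_apply, Pi.smul_apply, smul_eq_mul, Pi.sub_apply, ne_eq, one_ne_zero, not_false_eq_true, Pi.single_eq_of_ne, mul_zero, sub_zero]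
        ring
      · change _ = (M *ᵥ x + P 0) 2
        rw [e2]
        simp only [Fin.isValue, smul_add, Fin.reduceFinMk, Pi.add_apply, Pi.smul_apply, smul_eq_mul, Pi.sub_apply, ne_eq, Fin.reduceEq, not_false_eq_true, Pi.single_eq_of_ne, mul_zero, sub_zero]
        ring
    rw [h4] at h2
    exact h2
  · have p01 := hP1 0
    have p11 := hP1 1
    have p21 := hP1 2
    have p02 := hP2 0
    have p12 := hP2 1
    have p22 := hP2 2
    have q0 := hP3 0
    have q1 := hP3 1
    have q2 := hP3 2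
    refine ⟨?_, fun m hm => ?_⟩
    · rw [lam1, e0]; linarith only [a4']
    · fin_cases m
      · change 0 ≤ lam 0 _
        rw [lam0, e0, e1, e2]
        (by_contra nlg; linarith only [nlg, mul_nonneg (sub_nonneg.2 a2) (sub_nonneg.2 q2), mul_nonneg (sub_nonneg.2 a1) (sub_nonneg.2 q1), mul_nonneg (sub_nonneg.2 b0) (sub_nonneg.2 q0), mul_nonneg (le_of_lt (sub_pos.2 (not_le.1 nlg))) (sub_nonneg.2 a2), mul_nonneg (le_of_lt (sub_pos.2 (not_le.1 nlg))) (sub_nonneg.2 a1), mul_nonneg (le_of_lt (sub_pos.2 (not_le.1 nlg))) (sub_nonneg.2 b0), a4'])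
      · exact absurd rfl hm
      · change 0 ≤ lam 2 _
        rw [lam2, e1]; (clear * - b0 p01 a1 p11 a2 p21; positivity)
      · change 0 ≤ lam 3 _
        rw [lam3, e2]; (clear * - b0 p02 a1 p12 a2 p22; positivity)

theorem exists_vertex (j : Fin 4) : ∃ v : V3, lam j v = 1 ∧ ∀ i, i ≠ j → lam i v = 0 := by
  have h0 : ∀ i : Fin 4, i ≠ 0 → lam i (0 : V3) = 0 := by
    intro i hi
    obtain ⟨k, rfl⟩ := Fin.exists_succ_eq.mpr hi
    rw [lam_succ]; rfl
  refine ⟨chartP (Equiv.swap 0 j) 0, ?_, fun i hi => ?_⟩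
  · rw [lam_chartP, Equiv.swap_apply_right, lam_zero]; simp
  · rw [lam_chartP]
    apply h0
    intro h
    apply hi
    have := congrArg (Equiv.swap 0 j) h
    rwa [Equiv.swap_apply_self, Equiv.swap_apply_left] at this

theorem eta_spec {K : Set V3} (hK : IsCompact K) (hS : stdS (Fin 3) ⊆ K) {r : ℝ} (hr : 0 ≤ r)
    {j k : Fin 4} (hjk : j ≠ k) :
    0 ≤ eta K r j k ∧ ∃ y ∈ K, 1 - r ≤ lam j y ∧ eta K r j k = -lam k y := by
  obtain ⟨v, hv1, hv2⟩ := exists_vertex j
  have hvS : v ∈ stdS (Fin 3) := by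
    rw [mem_stdS_iff]
    intro i
    by_cases h : i = j
    · rw [h, hv1]; norm_num
    · rw [hv2 i h]
  have hcl : IsClosed {x : V3 | 1 - r ≤ lam j x} := isClosed_le continuous_const (lam_continuous j)
  have hcomp : IsCompact (K ∩ {x | 1 - r ≤ lam j x}) := hK.inter_right hcl
  have hvm : v ∈ K ∩ {x | 1 - r ≤ lam j x} := ⟨hS hvS, by rw [mem_ofPred_eq, hv1]; linarith⟩
  have hcomp2 : IsCompact ((fun x => -lam k x) '' (K ∩ {x | 1 - r ≤ lam j x})) :=
    hcomp.image (lam_continuous k).neg
  have hne : ((fun x => -lam k x) '' (K ∩ {x | 1 - r ≤ lam j x})).Nonempty := ⟨_, ⟨v, hvm, rfl⟩⟩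
  refine ⟨?_, ?_⟩
  · have h1 : -lam k v ≤ eta K r j k := le_csSup hcomp2.bddAbove ⟨v, hvm, rfl⟩
    rw [hv2 k hjk.symm, neg_zero] at h1
    exact h1
  · obtain ⟨y, ⟨hyK, hy1⟩, hy2⟩ := hcomp2.sSup_mem hne
    exact ⟨y, hyK, hy1, hy2.symm⟩

theorem facet_bound1 {K : Set V3} (hK : IsCompact K) (hc : Convex ℝ K) (hS : stdS (Fin 3) ⊆ K)
    {a r : ℝ} (ha : 0 ≤ a) (ha1 : a ≤ 1 / 100) (hr : 0 < r) (hr1 : r ≤ 1 / 10)
    (hla : ∀ x ∈ K, ∀ i, -a ≤ lam i x) :
    ENNReal.ofReal ((1 - 3 * (r + 9 * a)) * (1 - 8 * a) *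
      ((eta K r 0 1 + eta K r 2 1 + eta K r 3 1) / 6)) ≤ volume (K ∩ cell 1) := by
  obtain ⟨e0, y0, hy0, hl0, he0⟩ := eta_spec hK hS hr.le (show (0 : Fin 4) ≠ 1 by decide)
  obtain ⟨e2, y2, hy2, hl2, he2⟩ := eta_spec hK hS hr.le (show (2 : Fin 4) ≠ 1 by decide)
  obtain ⟨e3, y3, hy3, hl3, he3⟩ := eta_spec hK hS hr.le (show (3 : Fin 4) ≠ 1 by decide)
  rw [he0, lam1] at e0
  rw [he2, lam1] at e2
  rw [he3, lam1] at e3
  set y : Fin 3 → V3 := ![y0, y2, y3] with hy
  have hyK : ∀ i, y i ∈ K := by intro i; fin_cases i <;> assumption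
  have hyn : ∀ i, y i 0 ≤ 0 := by
    intro i; fin_cases i
    · change y0 0 ≤ 0; linarith only [e0]
    · change y2 0 ≤ 0; linarith only [e2]
    · change y3 0 ≤ 0; linarith only [e3]
  set P : Fin 3 → V3 := fun i => ![0, (1 - 8 * a) * y i 1 + 8 * a / 3, (1 - 8 * a) * y i 2 + 8 * a / 3]
    with hP
  set h : Fin 3 → ℝ := fun i => (1 - 8 * a) * (-(y i 0)) with hh
  have h8 : 0 ≤ 1 - 8 * a := by linarith only [ha1]
  have hb : ∀ i, -a ≤ y i 0 ∧ -a ≤ y i 1 ∧ -a ≤ y i 2 ∧ y i 0 + y i 1 + y i 2 ≤ 1 + a := by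
    intro i
    have h0 := hla _ (hyK i) 0
    have h1 := hla _ (hyK i) 1
    have h2 := hla _ (hyK i) 2
    have h3 := hla _ (hyK i) 3
    rw [lam0] at h0
    rw [lam1] at h1
    rw [lam2] at h2
    rw [lam3] at h3
    exact ⟨h1, h2, h3, by linarith only [h0]⟩
  have hPi0 : ∀ i, P i 0 = 0 := fun i => rfl
  have hPi1 : ∀ i, P i 1 = (1 - 8 * a) * y i 1 + 8 * a / 3 := fun i => rfl
  have hPi2 : ∀ i, P i 2 = (1 - 8 * a) * y i 2 + 8 * a / 3 := fun i => rfl
  have hp1 : ∀ i, 0 ≤ P i 1 := by
    intro i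
    rw [hPi1]
    have h1 := (hb i).2.1
    nlinarith only [ha, h1, ha1]
  have hp2 : ∀ i, 0 ≤ P i 2 := by
    intro i
    rw [hPi2]
    have h1 := (hb i).2.2.1
    nlinarith only [ha, h1, ha1]
  have hp3 : ∀ i, P i 1 + P i 2 ≤ 1 := by
    intro i
    rw [hPi1, hPi2]
    have h1 : y i 1 + y i 2 ≤ 1 + 2 * a := by
      have := (hb i).1; have := (hb i).2.2.2; (clear hK hc hS r ha ha1 hr hr1 e0 hl0 he0 e2 hl2 he2 e3 hl3 he3 hy hyn P hP h hh h8 hPi0 hPi1 hPi2 hp1 hp2; linarith)
    nlinarith only [ha, h1, ha1]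
  have hg : (![0, 1 / 3, 1 / 3] : V3) ∈ K := by
    apply hS
    refine ⟨fun i => ?_, ?_⟩
    · fin_cases i <;> simp
    · rw [Fin.sum_univ_three]; simp only [one_div, Fin.isValue, Matrix.cons_val_zero, Matrix.cons_val_one, zero_add, Matrix.cons_val]; norm_num
  have hPS : ∀ i, P i ∈ K := by
    intro i
    apply hS
    refine ⟨fun l => ?_, ?_⟩
    · fin_cases l
      · exact le_refl _
      · exact hp1 i
      · exact hp2 i
    · rw [Fin.sum_univ_three, hPi0, zero_add]; exact hp3 i
  have hYK : ∀ i, P i - h i • (Pi.single 0 1 : V3) ∈ K := by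
    intro i
    have h1 := hc (hyK i) hg h8 (show 0 ≤ 8 * a by (clear * - ha; positivity)) (by ring)
    have h2 : (1 - 8 * a) • y i + (8 * a) • (![0, 1 / 3, 1 / 3] : V3) =
        P i - h i • (Pi.single 0 1 : V3) := by
      ext l
      fin_cases l
      · simp only [Nat.succ_eq_add_one, Nat.reduceAdd, one_div, Matrix.smul_cons, smul_eq_mul, mul_zero, Matrix.smul_empty, Fin.zero_eta, Fin.isValue, Pi.add_apply, Pi.smul_apply, Matrix.cons_val_zero, add_zero, hP, hh, mul_neg, neg_smul, Pi.sub_apply, Pi.neg_apply, Pi.single_eq_same, mul_one, sub_neg_eq_add, zero_add]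
      · simp [hP]; ring
      · simp only [Nat.succ_eq_add_one, Nat.reduceAdd, one_div, Matrix.smul_cons, smul_eq_mul, mul_zero, Matrix.smul_empty, Fin.reduceFinMk, Pi.add_apply, Fin.isValue, Pi.smul_apply, Matrix.cons_val, hP, Pi.sub_apply, ne_eq, Fin.reduceEq, not_false_eq_true, Pi.single_eq_of_ne, sub_zero, add_right_inj]; ring
    rw [h2] at h1
    exact h1
  have hmain := prism_bound hc (P := P) (h := h)
    (fun i => mul_nonneg h8 (by have := hyn i; linarith only [this])) hPi0 hp1 hp2 hp3 hPS hYK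
  refine le_trans (ENNReal.ofReal_le_ofReal ?_) hmain
  have hsum : h 0 + h 1 + h 2 = (1 - 8 * a) * (eta K r 0 1 + eta K r 2 1 + eta K r 3 1) := by
    rw [he0, he2, he3, lam1, lam1, lam1]
    change (1 - 8 * a) * (-(y0 0)) + (1 - 8 * a) * (-(y2 0)) + (1 - 8 * a) * (-(y3 0)) = _
    ring
  have hsn : 0 ≤ h 0 + h 1 + h 2 := by
    rw [hsum, he0, he2, he3, lam1, lam1, lam1]
    exact mul_nonneg h8 (by linarith only [e0, e2, e3])
  have hdet : 1 - 3 * (r + 9 * a) ≤
      |(P 1 1 - P 0 1) * (P 2 2 - P 0 2) - (P 1 2 - P 0 2) * (P 2 1 - P 0 1)| := by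
    refine le_trans ?_ (le_abs_self _)
    have a0 : P 0 1 + P 0 2 ≤ r + 9 * a := by
      rw [lam0] at hl0
      have h1 : y 0 1 + y 0 2 ≤ r + a := by
        change y0 1 + y0 2 ≤ _
        have h2 : -a ≤ y0 0 := (hb 0).1
        linarith only [hl0, h2]
      rw [hPi1, hPi2]
      nlinarith only [ha, h1, hr, ha1]
    have a1 : 1 - (r + 9 * a) ≤ P 1 1 := by
      rw [lam2] at hl2
      have h1 : 1 - r ≤ y 1 1 := hl2
      rw [hPi1]
      nlinarith only [ha, h1, hr, ha1]
    have a2 : 1 - (r + 9 * a) ≤ P 2 2 := by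
      rw [lam3] at hl3
      have h1 : 1 - r ≤ y 2 2 := hl3
      rw [hPi2]
      nlinarith only [ha, h1, hr, ha1]
    have b0 := hp1 0
    have b1 := hp2 0
    have b2 := hp2 1
    have b3 := hp1 2
    have b4 := hp3 1
    have b5 := hp3 2
    set s := r + 9 * a
    generalize P 0 1 = p01 at *
    generalize P 0 2 = p02 at *
    generalize P 1 1 = p11 at *
    generalize P 1 2 = p12 at *
    generalize P 2 1 = p21 at *
    generalize P 2 2 = p22 at *
    -- row stochastic 3x3 matrix
    have c1 : 0 ≤ 1 - p11 - p12 := by linarith only [b4]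
    have c2 : 0 ≤ 1 - p21 - p22 := by linarith only [b5]
    nlinarith only [a0, a1, a2, c1, c2, b3, b2, b1, b0]
  calc (1 - 3 * (r + 9 * a)) * (1 - 8 * a) * ((eta K r 0 1 + eta K r 2 1 + eta K r 3 1) / 6)
      = (1 - 3 * (r + 9 * a)) * ((h 0 + h 1 + h 2) / 6) := by rw [hsum]; ring
    _ ≤ _ := mul_le_mul_of_nonneg_right hdet (by (clear * - h8 e0 e2 e3; positivity))

theorem chartP_image_cell (τ : Equiv.Perm (Fin 4)) (j : Fin 4) :
    chartP τ '' cell (τ j) = cell j := by
  ext x
  rw [mem_chartP_image]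
  simp only [cell, mem_ofPred_eq, lam_chartP]
  rw [show τ⁻¹ (τ j) = j from τ.symm_apply_apply j]
  constructor
  · rintro ⟨h1, h2⟩
    refine ⟨h1, fun m hm => ?_⟩
    have := h2 (τ m) (fun h => hm (τ.injective h))
    rwa [show τ⁻¹ (τ m) = m from τ.symm_apply_apply m] at this
  · rintro ⟨h1, h2⟩
    refine ⟨h1, fun m hm => h2 _ fun h => hm ?_⟩
    rw [← h]
    exact (τ.apply_symm_apply m).symm

theorem chartP_injective (τ : Equiv.Perm (Fin 4)) : Function.Injective (chartP τ) :=
  Function.LeftInverse.injective (chartP_inv τ)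

theorem facet_bound {K : Set V3} (hK : IsCompact K) (hc : Convex ℝ K) (hS : stdS (Fin 3) ⊆ K)
    {a r : ℝ} (ha : 0 ≤ a) (ha1 : a ≤ 1 / 100) (hr : 0 < r) (hr1 : r ≤ 1 / 10)
    (hla : ∀ x ∈ K, ∀ i, -a ≤ lam i x) (k : Fin 4) :
    ENNReal.ofReal ((1 - 3 * (r + 9 * a)) * (1 - 8 * a) *
      ((∑ j, eta K r j k - eta K r k k) / 6)) ≤ volume (K ∩ cell k) := by
  set τ : Equiv.Perm (Fin 4) := Equiv.swap 1 k with hτ
  have hτ1 : τ 1 = k := Equiv.swap_apply_left 1 k
  have h1 := facet_bound1 (chartP_compact (τ := τ) hK) (chartP_convex hc)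
    (by rw [← chartP_image_stdS τ]; exact image_mono hS) ha ha1 hr hr1 (by
      rintro _ ⟨x, hx, rfl⟩ i
      rw [lam_chartP]; exact hla x hx _)
  have h2 : chartP τ '' K ∩ cell 1 = chartP τ '' (K ∩ cell k) := by
    rw [image_inter (chartP_injective τ), ← chartP_image_cell τ 1, hτ1]
  rw [h2, volume_chartP, eta_chartP, eta_chartP, eta_chartP, hτ1] at h1
  have h3 : ∑ j, eta K r j k - eta K r k k = eta K r (τ 0) k + eta K r (τ 2) k + eta K r (τ 3) k := by
    rw [← Equiv.sum_comp τ (fun j => eta K r j k), Fin.sum_univ_four, hτ1]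
    ring
  rw [h3]
  exact h1

theorem cell_measurable (k : Fin 4) : MeasurableSet (cell k) := by
  have h1 : cell k = {x | lam k x < 0} ∩ ⋂ m, {x | m ≠ k → 0 ≤ lam m x} := by
    ext x; simp only [cell, ne_eq, mem_ofPred_eq, mem_inter_iff, mem_iInter]
  rw [h1]
  refine (measurableSet_lt (lam_continuous k).measurable measurable_const).inter
    (MeasurableSet.iInter fun m => ?_)
  by_cases h : m = k
  · simp only [h, ne_eq, not_true_eq_false, IsEmpty.forall_iff, ofPred_true, MeasurableSet.univ]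
  · simp only [ne_eq, h, not_false_eq_true, forall_const]
    exact measurableSet_le measurable_const (lam_continuous m).measurable

theorem cell_disjoint {k l : Fin 4} (h : k ≠ l) : Disjoint (cell k) (cell l) := by
  rw [Set.disjoint_left]
  rintro x ⟨h1, h2⟩ ⟨h3, h4⟩
  exact absurd h3 (not_lt.mpr (h2 l h.symm))

theorem gain_bound' {K : Set V3} (hK : IsCompact K) (hc : Convex ℝ K) (hS : stdS (Fin 3) ⊆ K)
    {a r : ℝ} (ha : 0 ≤ a) (ha1 : a ≤ 1 / 100) (hr : 0 < r) (hr1 : r ≤ 1 / 10)
    (hla : ∀ x ∈ K, ∀ i, -a ≤ lam i x)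
    (hv : volume K = ENNReal.ofReal ((1 + a) / 6)) :
    (1 - 3 * (r + 9 * a)) * (1 - 8 * a) * ∑ j, ∑ k, eta K r j (j.succAbove k) ≤ a := by
  have h1 : volume (⋃ k ∈ (Finset.univ : Finset (Fin 4)), K ∩ cell k) =
      ∑ k, volume (K ∩ cell k) := by
    refine measure_biUnion_finset ?_ fun k _ => hK.measurableSet.inter (cell_measurable k)
    intro k _ l _ hkl
    exact (cell_disjoint hkl).mono inter_subset_right inter_subset_right
  have h2 : Disjoint (stdS (Fin 3)) (⋃ k ∈ (Finset.univ : Finset (Fin 4)), K ∩ cell k) := by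
    rw [Set.disjoint_left]
    intro x hx hx2
    simp only [mem_iUnion] at hx2
    obtain ⟨k, _, _, hk, _⟩ := hx2
    exact absurd hk (not_lt.mpr (mem_stdS_iff.mp hx k))
  have h3 : volume (stdS (Fin 3)) + ∑ k, volume (K ∩ cell k) ≤ volume K := by
    rw [← h1, ← measure_union' h2 stdS_isClosed.measurableSet]
    refine measure_mono (union_subset hS ?_)
    exact iUnion₂_subset fun k _ => inter_subset_left
  have hcst : 0 ≤ (1 - 3 * (r + 9 * a)) * (1 - 8 * a) := mul_nonneg (by linarith only [ha1, hr1]) (by linarith only [ha1])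
  have hsn : ∀ k, 0 ≤ ∑ j, eta K r j k - eta K r k k := by
    intro k
    rw [Fin.sum_univ_succAbove _ k, add_sub_cancel_left]
    exact Finset.sum_nonneg fun j _ => (eta_spec hK hS hr.le (Fin.succAbove_ne k j)).1
  have h4 : ENNReal.ofReal (1 / 6 + ∑ k, (1 - 3 * (r + 9 * a)) * (1 - 8 * a) *
      ((∑ j, eta K r j k - eta K r k k) / 6)) ≤ ENNReal.ofReal ((1 + a) / 6) := by
    rw [← hv]
    refine le_trans ?_ h3
    rw [ENNReal.ofReal_add (by norm_num) (Finset.sum_nonneg fun k _ =>
      mul_nonneg hcst (div_nonneg (hsn k) (by norm_num))),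
      ENNReal.ofReal_sum_of_nonneg (fun k _ =>
      mul_nonneg hcst (div_nonneg (hsn k) (by norm_num))), volume_stdS3]
    gcongr with k _
    exact facet_bound hK hc hS ha ha1 hr hr1 hla k
  have h5 := (ENNReal.ofReal_le_ofReal_iff (by positivity)).mp h4
  have h6 : ∑ j, ∑ k, eta K r j (j.succAbove k) = ∑ k, (∑ j, eta K r j k - eta K r k k) := by
    have e1 : ∀ j, ∑ k, eta K r j (j.succAbove k) = ∑ k, eta K r j k - eta K r j j := by
      intro j
      rw [Fin.sum_univ_succAbove (fun k => eta K r j k) j, add_sub_cancel_left]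
    rw [Finset.sum_congr rfl fun j _ => e1 j, Finset.sum_sub_distrib, Finset.sum_sub_distrib,
      Finset.sum_comm]
  rw [← Finset.mul_sum, ← Finset.sum_div, ← h6] at h5
  linarith only [h5]

theorem tetra_bound1 {K : Set V3} (hc : Convex ℝ K) (hS : stdS (Fin 3) ⊆ K) {x : V3} (hx : x ∈ K)
    (hx0 : lam 1 x < 0) : ENNReal.ofReal (-lam 1 x / 6) ≤ volume (K ∩ {x | lam 1 x < 0}) := by
  rw [lam1] at hx0 ⊢
  set M : Matrix (Fin 3) (Fin 3) ℝ := !![x 0, 0, 0; x 1, 1, 0; x 2, 0, 1] with hM
  have hdet : M.det = x 0 := by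
    rw [hM, Matrix.det_fin_three]; simp
  have hv : volume ((fun y => M *ᵥ y + 0) '' (stdS (Fin 3) \ {x | x 0 = 0})) =
      ENNReal.ofReal (-x 0 / 6) := by
    rw [volume_affine_image, measure_sdiff_null (volume_coord_zero 0), volume_stdS3, hdet,
      abs_of_neg hx0, ← ENNReal.ofReal_mul (by linarith)]
    congr 1
    ring
  rw [← hv]
  refine measure_mono ?_
  rintro _ ⟨s, ⟨⟨a1, a2⟩, a3⟩, rfl⟩
  have a0' : 0 < s 0 := lt_of_le_of_ne (a1 0) fun h => a3 h.symm
  change M *ᵥ s + 0 ∈ K ∩ {x | lam 1 x < 0}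
  rw [Fin.sum_univ_three] at a2
  constructor
  · have hz : (0 : V3) ∈ K := hS ⟨fun _ => le_refl _, by simp⟩
    have h1 : (Pi.single 1 1 : V3) ∈ K := by
      apply hS
      refine ⟨fun i => ?_, by simp⟩
      fin_cases i <;> simp
    have h2 : (Pi.single 2 1 : V3) ∈ K := by
      apply hS
      refine ⟨fun i => ?_, by simp⟩
      fin_cases i <;> simp
    have h3 := hc.sum_mem (t := Finset.univ) (w := ![1 - s 0 - s 1 - s 2, s 0, s 1, s 2])
      (z := ![0, x, Pi.single 1 1, Pi.single 2 1])
      (fun i _ => by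
        fin_cases i
        · change 0 ≤ 1 - s 0 - s 1 - s 2
          linarith only [a2]
        · exact a1 0
        · exact a1 1
        · exact a1 2)
      (by rw [Fin.sum_univ_four]; simp; ring) (fun i _ => by fin_cases i <;> assumption)
    rw [Fin.sum_univ_four] at h3
    have h4 : ![1 - s 0 - s 1 - s 2, s 0, s 1, s 2] 0 • (![0, x, Pi.single 1 1, Pi.single 2 1] : Fin 4 → V3) 0 +
        ![1 - s 0 - s 1 - s 2, s 0, s 1, s 2] 1 • (![0, x, Pi.single 1 1, Pi.single 2 1] : Fin 4 → V3) 1 +
        ![1 - s 0 - s 1 - s 2, s 0, s 1, s 2] 2 • (![0, x, Pi.single 1 1, Pi.single 2 1] : Fin 4 → V3) 2 +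
        ![1 - s 0 - s 1 - s 2, s 0, s 1, s 2] 3 • (![0, x, Pi.single 1 1, Pi.single 2 1] : Fin 4 → V3) 3 =
        M *ᵥ s + 0 := by
      ext i
      rw [Pi.add_apply (M *ᵥ s), mulVec3]
      fin_cases i <;> simp [hM] <;> ring
    rw [h4] at h3
    exact h3
  · rw [mem_ofPred_eq, lam1, Pi.add_apply, mulVec3]
    simp [hM]
    exact mul_neg_of_neg_of_pos hx0 a0'

theorem tetra_bound {K : Set V3} (hc : Convex ℝ K) (hS : stdS (Fin 3) ⊆ K) {x : V3} (hx : x ∈ K)
    {k : Fin 4} (hx0 : lam k x < 0) :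
    ENNReal.ofReal (-lam k x / 6) ≤ volume (K ∩ {x | lam k x < 0}) := by
  set τ : Equiv.Perm (Fin 4) := Equiv.swap 1 k with hτ
  have hτ1 : τ 1 = k := Equiv.swap_apply_left 1 k
  have hl : lam 1 (chartP τ x) = lam k x := by rw [lam_chartP, hτ1]
  have h1 := tetra_bound1 (K := chartP τ '' K) (chartP_convex hc)
    (by rw [← chartP_image_stdS τ]; exact image_mono hS) (x := chartP τ x) ⟨x, hx, rfl⟩
    (by rw [hl]; exact hx0)
  have h2 : chartP τ '' K ∩ {x | lam 1 x < 0} = chartP τ '' (K ∩ {x | lam k x < 0}) := by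
    ext y
    constructor
    · rintro ⟨⟨z, hz, rfl⟩, h⟩
      rw [mem_ofPred_eq, lam_chartP, hτ1] at h
      exact ⟨z, ⟨hz, h⟩, rfl⟩
    · rintro ⟨z, ⟨hz, h⟩, rfl⟩
      refine ⟨⟨z, hz, rfl⟩, ?_⟩
      rw [mem_ofPred_eq, lam_chartP, hτ1]
      exact h
  rw [h2, volume_chartP, hl] at h1
  exact h1

theorem lam_ge {K : Set V3} (_hK : IsCompact K) (hc : Convex ℝ K) (hS : stdS (Fin 3) ⊆ K) {a : ℝ}
    (ha : 0 ≤ a) (hv : volume K = ENNReal.ofReal ((1 + a) / 6)) : ∀ x ∈ K, ∀ i, -a ≤ lam i x := by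
  intro x hx k
  rcases le_or_gt 0 (lam k x) with h | h
  · linarith only [ha, h]
  have h1 := tetra_bound hc hS hx h
  have h2 : Disjoint (stdS (Fin 3)) (K ∩ {x | lam k x < 0}) := by
    rw [Set.disjoint_left]
    rintro y hy ⟨_, hy2⟩
    exact absurd hy2 (not_lt.mpr (mem_stdS_iff.mp hy k))
  have h3 : volume (stdS (Fin 3)) + volume (K ∩ {x | lam k x < 0}) ≤ volume K := by
    rw [← measure_union' h2 stdS_isClosed.measurableSet]
    exact measure_mono (union_subset hS inter_subset_left)
  have h4 : ENNReal.ofReal (1 / 6 + -lam k x / 6) ≤ ENNReal.ofReal ((1 + a) / 6) := by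
    rw [← hv]
    refine le_trans ?_ h3
    rw [ENNReal.ofReal_add (by norm_num) (div_nonneg (by linarith only [h]) (by norm_num)), volume_stdS3]
    (clear * - h1; gcongr)
  have h5 := (ENNReal.ofReal_le_ofReal_iff (by positivity)).mp h4
  linarith only [h5]

theorem gain_bound {K : Set V3} (hK : IsCompact K) (hc : Convex ℝ K) (hS : stdS (Fin 3) ⊆ K)
    {a r : ℝ} (ha : 0 ≤ a) (ha1 : a ≤ 1 / 100) (hr : 0 < r) (hr1 : r ≤ 1 / 10)
    (hv : volume K = ENNReal.ofReal ((1 + a) / 6)) :
    (1 - 3 * (r + 9 * a)) * (1 - 8 * a) * ∑ j, ∑ k, eta K r j (j.succAbove k) ≤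
      a * (1 + 72 * a) := by
  refine (gain_bound' hK hc hS ha ha1 hr hr1 (lam_ge hK hc hS ha hv) hv).trans ?_
  linarith only [mul_nonneg ha ha]

end Vale.Agent.P248
end
end
end

section

section

section

/-! Duality and the defect. -/

set_option linter.unusedSectionVars false

open MeasureTheory Set
open scoped ENNReal Topology Matrix

namespace Vale.Agent.P248

/-- The simplex `y_k = -e_k / m_{k+1}`, `y_0 = (1,1,1) / m_0`. -/
noncomputable def dsimp (m : Fin 4 → ℝ) (j : Fin 4) : V3 :=
  Fin.cases (motive := fun _ => V3) (fun _ => (m 0)⁻¹) (fun k => Pi.single k (-(m k.succ)⁻¹)) j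

theorem dsimp_zero (m : Fin 4 → ℝ) : dsimp m 0 = fun _ => (m 0)⁻¹ := rfl

theorem dsimp_succ (m : Fin 4 → ℝ) (k : Fin 3) :
    dsimp m k.succ = Pi.single k (-(m k.succ)⁻¹) := rfl

theorem simpVol_dsimp {m : Fin 4 → ℝ} (hm : ∀ i, 0 < m i) :
    simpVol (dsimp m) = (∑ i, m i) / (6 * ∏ i, m i) := by
  have h0 := hm 0
  have h1 := hm 1
  have h2 := hm 2
  have h3 := hm 3
  have hdet : Matrix.det (Matrix.of fun i : Fin 3 => dsimp m i.succ - dsimp m 0) =
      -((∑ i, m i) / ∏ i, m i) := by
    rw [Matrix.det_fin_three]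
    simp only [Matrix.of_apply, dsimp_zero, dsimp_succ, Pi.sub_apply, Fin.sum_univ_four,
      Fin.prod_univ_four, Pi.single_apply]
    simp only [↓reduceIte, Fin.isValue, Fin.succ_zero_eq_one, Fin.succ_one_eq_two, Fin.reduceSucc, Fin.reduceEq, zero_sub, mul_neg, neg_mul, neg_neg, one_ne_zero, zero_ne_one]
    field_simp
    ring
  unfold simpVol
  rw [hdet, abs_neg, abs_of_nonneg (by
    rw [Fin.sum_univ_four, Fin.prod_univ_four]; positivity), div_div, mul_comm _ (6 : ℝ)]

theorem sum_sub_mul_dsimp (m : Fin 4 → ℝ) (x z : V3) (j : Fin 4) :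
    ∑ i, (x i - z i) * dsimp m j i = (lam j z - lam j x) * (m j)⁻¹ := by
  refine Fin.cases ?_ (fun k => ?_) j
  · rw [dsimp_zero, lam_zero, lam_zero, ← Finset.sum_mul, Finset.sum_sub_distrib]
    ring
  · rw [dsimp_succ, lam_succ, lam_succ, Finset.sum_eq_single k]
    · rw [Pi.single_eq_same]; ring
    · intro i _ hi
      rw [Pi.single_eq_of_ne hi, mul_zero]
    · simp only [Finset.mem_univ, not_true_eq_false, Pi.single_eq_same, mul_neg, neg_eq_zero, mul_eq_zero, inv_eq_zero, IsEmpty.forall_iff]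

theorem dsimp_mem_polarP {K : Set V3} {z : V3} {a : ℝ} (hla : ∀ x ∈ K, ∀ i, -a ≤ lam i x)
    (hz : ∀ i, 0 < lam i z + a) (j : Fin 4) : dsimp (fun i => lam i z + a) j ∈ polarP K z := by
  intro x hx
  rw [sum_sub_mul_dsimp]
  rw [mul_inv_le_iff₀ (hz j)]
  have := hla x hx j
  linarith

theorem dl_polarP_stdS_subset {z : V3} (hz : ∀ i, 0 < lam i z) :
    polarP (stdS (Fin 3)) z ⊆ convexHull ℝ (range (dsimp fun i => lam i z)) := by
  intro y hy
  have hzy : ∀ j : Fin 4, 0 ≤ 1 + ∑ i, z i * y i - Fin.cases (motive := fun _ => ℝ) 0 y j := by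
    intro j
    refine Fin.cases ?_ (fun k => ?_) j
    · have h := hy 0 ⟨fun _ => le_refl _, by simp⟩
      simp only [Pi.zero_apply, zero_sub, neg_mul, Finset.sum_neg_distrib] at h
      simp only [Fin.cases_zero]
      linarith
    · have h := hy (Pi.single k 1) ⟨fun i => by
        rw [Pi.single_apply]; split_ifs <;> norm_num, by simp⟩
      simp only [sub_mul, Finset.sum_sub_distrib] at h
      have h2 : ∑ i, (Pi.single k (1 : ℝ) : V3) i * y i = y k := by
        rw [Finset.sum_eq_single k]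
        · rw [Pi.single_eq_same, one_mul]
        · intro i _ hi
          rw [Pi.single_eq_of_ne hi, zero_mul]
        · simp
      rw [h2] at h
      simp only [Fin.cases_succ]
      linarith
  rw [mem_hull_iff]
  refine ⟨fun j => lam j z * (1 + ∑ i, z i * y i - Fin.cases (motive := fun _ => ℝ) 0 y j),
    fun j => mul_nonneg (hz j).le (hzy j), ?_, ?_⟩
  · rw [Fin.sum_univ_succ]
    simp only [Fin.cases_zero, Fin.cases_succ, lam_zero, lam_succ]
    rw [Fin.sum_univ_three, Fin.sum_univ_three, Fin.sum_univ_three]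
    ring
  · have h0 := (hz 0).ne'
    have h1 := (hz 1).ne'
    have h2 := (hz 2).ne'
    have h3 := (hz 3).ne'
    ext i
    rw [Fin.sum_univ_succ]
    simp only [Pi.add_apply, Pi.smul_apply, smul_eq_mul, Finset.sum_apply, dsimp_zero, dsimp_succ]
    simp only [Fin.cases_zero, Fin.cases_succ]
    generalize ∑ i, z i * y i = S
    rw [Finset.sum_eq_single i]
    · rw [Pi.single_eq_same]
      have hi := (hz i.succ).ne'
      field_simp
      ring
    · intro k _ hk
      rw [Pi.single_eq_of_ne hk.symm, mul_zero]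
    · simp only [Finset.mem_univ, not_true_eq_false, Pi.single_eq_same, mul_neg, neg_eq_zero, mul_eq_zero, inv_eq_zero, IsEmpty.forall_iff]

/-- An interior point satisfies strict inequalities. -/
theorem dual_lam_pos {K : Set V3} {z : V3} {a : ℝ} (hla : ∀ x ∈ K, ∀ i, -a ≤ lam i x)
    (hz : z ∈ interior K) (j : Fin 4) : 0 < lam j z + a := by
  obtain ⟨ε, hε, hball⟩ := Metric.mem_nhds_iff.mp (mem_interior_iff_mem_nhds.mp hz)
  have key : ∀ (k : Fin 3) (s : ℝ), |s| = ε / 2 → z + Pi.single k s ∈ K := by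
    intro k s hs
    apply hball
    rw [mem_ball_iff_norm, add_sub_cancel_left, Pi.norm_single, Real.norm_eq_abs, hs]
    linarith only [hε]
  refine Fin.cases ?_ (fun k => ?_) j
  · have h := hla _ (key 0 (ε / 2) (abs_of_pos (by linarith only [hε]))) 0
    rw [lam_zero] at h ⊢
    simp only [Pi.add_apply, Finset.sum_add_distrib] at h
    have h2 : ∑ i, (Pi.single 0 (ε / 2) : V3) i = ε / 2 := by simp only [Fin.isValue, Finset.sum_pi_single', Finset.mem_univ, ↓reduceIte]
    rw [h2] at h
    linarith only [h, hε]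
  · have h := hla _ (key k (-(ε / 2)) (by rw [abs_neg, abs_of_pos (by linarith only [hε])])) k.succ
    rw [lam_succ] at h ⊢
    simp only [Pi.add_apply, Pi.single_eq_same] at h
    linarith only [hε, h]

theorem simpVol_le_volume {P : Set V3} (hP : Convex ℝ P) (hb : Bornology.IsBounded P)
    {y : Fin 4 → V3} (hy : ∀ i, y i ∈ P) : simpVol y ≤ (volume P).toReal := by
  rw [← simpVol_eq]
  refine ENNReal.toReal_mono hb.measure_lt_top.ne (measure_mono ?_)
  refine convexHull_min ?_ hP
  rintro _ ⟨i, rfl⟩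
  exact hy i

/-- AM-GM step: four positive numbers with sum `1 + 4a` and large product are large. -/
theorem prod_large {m0 m1 m2 m3 a : ℝ} (h0 : 0 < m0) (h1 : 0 < m1) (h2 : 0 < m2) (h3 : 0 < m3)
    (ha1 : a ≤ 1 / 1000) (hs : m0 + m1 + m2 + m3 = 1 + 4 * a)
    (hp : 1 / 257 ≤ m0 * m1 * m2 * m3) : 1 / 8 + a ≤ m0 := by
  by_contra hcon
  push Not at hcon
  have hs3 : m1 + m2 + m3 = 1 + 4 * a - m0 := by linarith only [hs]
  have hamgm : 27 * (m1 * m2 * m3) ≤ (m1 + m2 + m3) ^ 3 := by
    nlinarith only [h1, h2, h3, mul_nonneg (add_pos (add_pos h1 h2) h3).le         (sq_nonneg (m1 - m2)), mul_nonneg (add_pos (add_pos h1 h2) h3).le (sq_nonneg (m1 - m3)), mul_nonneg (add_pos (add_pos h1 h2) h3).le (sq_nonneg (m2 - m3))]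
  rw [hs3] at hamgm
  have h4 : 27 * (m0 * m1 * m2 * m3) ≤ m0 * (1 + 4 * a - m0) ^ 3 := by
    calc 27 * (m0 * m1 * m2 * m3) = m0 * (27 * (m1 * m2 * m3)) := by ring
      _ ≤ _ := by gcongr
  -- `m0 (1 + 4 a - m0)^3 < 27 / 257`
  have h5 : m0 * (1 + 4 * a - m0) ^ 3 < 27 / 257 := by
    have h6 : m0 < 0.126 := by linarith only [hcon, ha1]
    have h7 : 1 + 4 * a - m0 ≤ 1.004 - m0 := by linarith only [ha1]
    have h8 : 0 < 1 + 4 * a - m0 := by linarith only [h0, hcon]
    have h9 : m0 * (1 + 4 * a - m0) ^ 3 ≤ m0 * (1.004 - m0) ^ 3 := by (clear * - h8 h7 h0; gcongr)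
    refine h9.trans_lt ?_
    nlinarith only [h6, mul_pos (mul_pos h0 h0) (sub_pos.mpr h6)]
  linarith only [hp, h4, h5]

theorem sum_lam_add (z : V3) (a : ℝ) : ∑ i, (lam i z + a) = 1 + 4 * a := by
  rw [Finset.sum_add_distrib, sum_lam]
  simp

theorem dual_std {K : Set V3} (hS : stdS (Fin 3) ⊆ K)
    {a : ℝ} (ha : 0 ≤ a) (ha1 : a < da) (hv : volume K = ENNReal.ofReal ((1 + a) / 6))
    (hla : ∀ x ∈ K, ∀ i, -a ≤ lam i x) {z : V3} (hz : z ∈ interior K) (hprod : volume K * volume (polarP K z) < ENNReal.ofReal c1) :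
    ∃ y : Fin 4 → V3, (∀ i, y i ∈ polarP K z) ∧ 0 < simpVol y ∧
      (volume (polarP K z)).toReal < (1 + a0) * simpVol y := by
  have ha0 : a0 = 1 / 2000000 := rfl
  have hda : da = 1 / 2000000000 := by unfold da a0; norm_num
  rw [hda] at ha1
  have hm : ∀ i, 0 < lam i z + a := fun i => dual_lam_pos hla hz i
  have hmem := dsimp_mem_polarP hla hm
  have hsv := simpVol_dsimp hm
  rw [sum_lam_add] at hsv
  have hbd := polarP_isBounded hz
  have hP : (0 : ℝ) < ∏ i, (lam i z + a) := Finset.prod_pos fun i _ => hm i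
  have hsvpos : 0 < simpVol (dsimp fun i => lam i z + a) := by
    rw [hsv]; (clear * - ha hP; positivity)
  refine ⟨dsimp fun i => lam i z + a, hmem, hsvpos, ?_⟩
  have hle := simpVol_le_volume (polarP_convex K z) hbd hmem
  -- the product is large
  have hfin : volume (polarP K z) ≠ ∞ := hbd.measure_lt_top.ne
  have h1 : (1 + a) / 6 * simpVol (dsimp fun i => lam i z + a) < c1 := by
    rw [hv, ← ENNReal.ofReal_toReal hfin, ← ENNReal.ofReal_mul (by (clear * - ha; positivity))] at hprod
    have h2 := (ENNReal.ofReal_lt_ofReal_iff (by unfold c1; rw [hda]; norm_num)).mp hprod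
    refine lt_of_le_of_lt ?_ h2
    (clear * - hle ha; gcongr)
  have hc1 : c1 = 64 / 9 * (1 + 1 / 20000000000) := by
    unfold c1; rw [hda]; norm_num
  rw [hsv, hc1] at h1
  have h3 : 1 / 257 ≤ ∏ i, (lam i z + a) := by
    by_contra hcon
    push Not at hcon
    have h4 : 257 / 36 ≤ (1 + a) / 6 * ((1 + 4 * a) / (6 * ∏ i, (lam i z + a))) := by
      rw [div_mul_div_comm, div_le_div_iff₀ (by norm_num) (by (clear * - hP; positivity))]
      (by_contra nlg; linarith only [nlg, mul_nonneg (sub_nonneg.2 ha) (sub_nonneg.2 ha), mul_nonneg (mul_self_nonneg (1 : ℝ)) (sub_nonneg.2 ha), mul_nonneg (mul_self_nonneg (1 : ℝ)) (le_of_lt (sub_pos.2 (not_le.1 nlg))), hcon])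
    norm_num at h1
    linarith only [h1, h4]
  have hsum := sum_lam_add z a
  rw [Fin.prod_univ_four] at h3
  rw [Fin.sum_univ_four] at hsum
  have hl : ∀ i, 1 / 8 ≤ lam i z := by
    have e0 := prod_large (hm 0) (hm 1) (hm 2) (hm 3) (a := a) (by linarith only [ha1]) (by linarith only [hsum])
      (by linarith only [h3])
    have e1 := prod_large (hm 1) (hm 0) (hm 2) (hm 3) (a := a) (by linarith only [ha1]) (by linarith only [hsum])
      (by linarith only [h3])
    have e2 := prod_large (hm 2) (hm 0) (hm 1) (hm 3) (a := a) (by linarith only [ha1]) (by linarith only [hsum])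
      (by linarith only [h3])
    have e3 := prod_large (hm 3) (hm 0) (hm 1) (hm 2) (a := a) (by linarith only [ha1]) (by linarith only [hsum])
      (by linarith only [h3])
    intro i
    fin_cases i
    · exact (by linarith only [e0] : 1 / 8 ≤ lam 0 z)
    · exact (by linarith only [e1] : 1 / 8 ≤ lam 1 z)
    · exact (by linarith only [e2] : 1 / 8 ≤ lam 2 z)
    · exact (by linarith only [e3] : 1 / 8 ≤ lam 3 z)
  have hl0 : ∀ i, 0 < lam i z := fun i => by have := hl i; linarith only [this]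
  -- upper bound for the volume
  have hup : (volume (polarP K z)).toReal ≤ simpVol (dsimp fun i => lam i z) := by
    rw [← simpVol_eq]
    refine ENNReal.toReal_mono ?_ (measure_mono ?_)
    · exact (isCompact_hull _).measure_lt_top.ne
    · exact Subset.trans (fun y hy x hx => hy x (hS hx)) (dl_polarP_stdS_subset hl0)
  refine hup.trans_lt ?_
  rw [simpVol_dsimp hl0, sum_lam, hsv]
  have hQ : (0 : ℝ) < ∏ i, lam i z := Finset.prod_pos fun i _ => hl0 i
  rw [← mul_div_assoc, div_lt_div_iff₀ (by (clear * - hQ; positivity)) (by (clear * - hP; positivity)), one_mul]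
  have h5 : ∏ i, (lam i z + a) ≤ ∏ i, (lam i z * (1 + 8 * a)) := by
    refine Finset.prod_le_prod (fun i _ => (hm i).le) fun i _ => ?_
    have := hl i
    linarith only [mul_nonneg (sub_nonneg.2 ha) (sub_nonneg.2 this)]
  rw [Finset.prod_mul_distrib, Finset.prod_const, Finset.card_univ, Fintype.card_fin] at h5
  have h6 : (1 + 8 * a) ^ 4 < (1 + a0) * (1 + 4 * a) := by
    rw [ha0]
    have h7 : a ^ 2 ≤ a := by nlinarith only [ha, ha1]
    have h8 : a ^ 3 ≤ a := by nlinarith only [h7]
    have h9 : a ^ 4 ≤ a := by nlinarith only [h7]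
    nlinarith only [ha1, h7]
  calc 6 * ∏ i, (lam i z + a) ≤ 6 * ((∏ i, lam i z) * (1 + 8 * a) ^ 4) := by (clear * - h5; gcongr)
    _ < 6 * ((∏ i, lam i z) * ((1 + a0) * (1 + 4 * a))) := by (clear * - h6 hQ; gcongr)
    _ = _ := by ring

theorem simpVol_mulVec (A : Matrix (Fin 3) (Fin 3) ℝ) (w : V3) (y : Fin 4 → V3) :
    simpVol (fun j => A *ᵥ y j + w) = |A.det| * simpVol y := by
  have h1 : (Matrix.of fun i : Fin 3 => (A *ᵥ y i.succ + w) - (A *ᵥ y 0 + w)) =
      (Matrix.of fun i : Fin 3 => y i.succ - y 0) * Aᵀ := by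
    ext i j
    have h2 : (A *ᵥ y i.succ + w) - (A *ᵥ y 0 + w) = A *ᵥ (y i.succ - y 0) := by
      rw [Matrix.mulVec_sub]; abel
    rw [Matrix.of_apply, h2, Matrix.mul_apply]
    simp only [Matrix.mulVec, dotProduct, Matrix.transpose_apply, Matrix.of_apply]
    exact Finset.sum_congr rfl fun k _ => mul_comm _ _
  unfold simpVol
  rw [h1, Matrix.det_mul, Matrix.det_transpose, abs_mul]
  ring

theorem defect_lt_of_simplex {P : Set V3} (hP : Convex ℝ P) (hb : Bornology.IsBounded P)
    {y : Fin 4 → V3} (hy : ∀ i, y i ∈ P) (hpos : 0 < simpVol y) {b : ℝ} (hb0 : 0 ≤ b)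
    (h : (volume P).toReal < (1 + b) * simpVol y) : defect P < b := by
  have h1 : simpVol y ≤ mval P := by
    refine le_csSup ⟨(volume P).toReal, ?_⟩ ⟨y, hy, rfl⟩
    rintro _ ⟨x, hx, rfl⟩
    exact simpVol_le_volume hP hb hx
  have h2 : 0 < mval P := hpos.trans_le h1
  have h3 : (volume P).toReal / mval P < 1 + b := by
    rw [div_lt_iff₀ h2]
    exact h.trans_le (by gcongr)
  unfold defect
  linarith

theorem convex_image_add {C : Set V3} (hC : Convex ℝ C) (w : V3) :
    Convex ℝ ((fun v => v + w) '' C) := by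
  rintro _ ⟨u, hu, rfl⟩ _ ⟨v, hv, rfl⟩ s t hs ht hst
  refine ⟨s • u + t • v, hC hu hv hs ht hst, ?_⟩
  have : w = (s + t) • w := by rw [hst, one_smul]
  conv_lhs => rw [this]
  simp only [smul_add, add_smul]
  abel

theorem dual_defect_of
    (hlg : ∀ K : Set V3, IsCompact K → Convex ℝ K → stdS (Fin 3) ⊆ K → ∀ a : ℝ, 0 ≤ a →
      volume K = ENNReal.ofReal ((1 + a) / 6) → ∀ x ∈ K, ∀ i, -a ≤ lam i x)
    {L : Set V3} (hL : IsCompact L) (hc : Convex ℝ L)
    (h0 : (0 : V3) ∈ interior L) (hd : defect L < da)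
    (hv : volume L * volume (polarP L 0) < ENNReal.ofReal c1) : defect (polarP L 0) < a0 := by
  have hi : (interior L).Nonempty := ⟨0, h0⟩
  obtain ⟨x, hx, hmx⟩ := exists_isMaxSimplex hL (hi.mono interior_subset)
  have hmpos := mval_pos hL hi
  have hdn := defect_nonneg hL hc hi
  set R : Matrix (Fin 3) (Fin 3) ℝ := Matrix.of fun i : Fin 3 => x i.succ - x 0 with hR
  have hsx : simpVol x = |R.det| / 6 := rfl
  have hRabs : 0 < |R.det| := by
    rw [hmx, hsx] at hmpos
    linarith only [hmpos]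
  have hRdet : R.det ≠ 0 := abs_pos.mp hRabs
  set M := Rᵀ with hM
  have hMdet : M.det = R.det := Matrix.det_transpose R
  have hMne : M.det ≠ 0 := by rwa [hMdet]
  have hMu : IsUnit M.det := isUnit_iff_ne_zero.mpr hMne
  -- the standard position
  set K : Set V3 := (fun v => M⁻¹ *ᵥ v + (-(M⁻¹ *ᵥ x 0))) '' L with hK
  have hfun : ∀ u, M *ᵥ (M⁻¹ *ᵥ u + (-(M⁻¹ *ᵥ x 0))) + x 0 = u := by
    intro u
    rw [Matrix.mulVec_add, Matrix.mulVec_neg, Matrix.mulVec_mulVec, Matrix.mulVec_mulVec,
      Matrix.mul_nonsing_inv M hMu, Matrix.one_mulVec, Matrix.one_mulVec]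
    abel
  have hfun' : ∀ u, M⁻¹ *ᵥ (M *ᵥ u + x 0) + (-(M⁻¹ *ᵥ x 0)) = u := by
    intro u
    rw [Matrix.mulVec_add, Matrix.mulVec_mulVec, Matrix.nonsing_inv_mul M hMu, Matrix.one_mulVec]
    abel
  have hLK : L = (fun u => M *ᵥ u + x 0) '' K := by
    rw [hK, image_image]
    simp only [hfun, image_id']
  have hmemK : ∀ u, M *ᵥ u + x 0 ∈ L → u ∈ K := by
    intro u hu
    exact ⟨_, hu, hfun' u⟩
  have hKc : IsCompact K := by
    obtain ⟨h, hh⟩ := exists_homeo_matrix M⁻¹ (by
      rw [Matrix.det_nonsing_inv, Ring.inverse_eq_inv']; exact inv_ne_zero hMne)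
      (-(M⁻¹ *ᵥ x 0))
    rw [hK]
    refine hL.image ?_
    have : (fun v => M⁻¹ *ᵥ v + (-(M⁻¹ *ᵥ x 0))) = (h : V3 → V3) := by
      funext v; exact (hh v).symm
    rw [this]
    exact h.continuous
  have hKconv : Convex ℝ K := by
    have : (fun v => M⁻¹ *ᵥ v + (-(M⁻¹ *ᵥ x 0))) =
        (fun v => v + (-(M⁻¹ *ᵥ x 0))) ∘ (Matrix.toLin' M⁻¹) := by
      funext v; rfl
    rw [hK, this, image_comp]
    have h1 : Convex ℝ (Matrix.toLin' M⁻¹ '' L) := hc.linear_image _
    exact convex_image_add h1 _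
  have hKS : stdS (Fin 3) ⊆ K := by
    rw [← stdS_eq_hull]
    refine convexHull_min ?_ hKconv
    rintro _ ⟨o, rfl⟩
    apply hmemK
    cases o with
    | none =>
      have : stdP none = 0 := rfl
      rw [this, Matrix.mulVec_zero, zero_add]
      exact hx.mem 0
    | some k =>
      have : stdP (some k) = Pi.single k 1 := rfl
      rw [this, Matrix.mulVec_single_one]
      convert hx.mem k.succ using 1
      ext i
      simp [hM, hR, Matrix.col, Matrix.transpose]
  set a := defect L with ha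
  have hLfin : volume L ≠ ∞ := hL.measure_lt_top.ne
  have hvK : volume K = ENNReal.ofReal ((1 + a) / 6) := by
    rw [hK, volume_affine_image, Matrix.det_nonsing_inv, Ring.inverse_eq_inv',
      ← ENNReal.ofReal_toReal hLfin, ← ENNReal.ofReal_mul (abs_nonneg _)]
    congr 1
    rw [ha]
    unfold defect
    rw [hmx, hsx, abs_inv, hMdet]
    field_simp
    ring
  set z : V3 := -(M⁻¹ *ᵥ x 0) with hz
  have hMz : M *ᵥ z + x 0 = 0 := by
    have := hfun 0
    rwa [Matrix.mulVec_zero, zero_add] at this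
  have hzK : z ∈ interior K := by
    obtain ⟨h, hh⟩ := exists_homeo_matrix M hMne (x 0)
    have hfe : (fun u => M *ᵥ u + x 0) = (h : V3 → V3) := by
      funext u; exact (hh u).symm
    have h1 := h0
    rw [hLK, hfe, ← h.image_interior] at h1
    obtain ⟨u, hu, hu0⟩ := h1
    rw [hh u, ← hMz] at hu0
    have h2 : u = z := by
      apply h.injective
      rw [hh, hh]; exact hu0
    rwa [← h2]
  have hpol : polarP L 0 = Matrix.toLin' Mᵀ ⁻¹' polarP K z := by
    have h1 := polarP_affine_image M (x 0) K z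
    rw [hMz, ← hLK] at h1
    exact h1
  have hMTdet : LinearMap.det (Matrix.toLin' Mᵀ) ≠ 0 := by
    rw [LinearMap.det_toLin', Matrix.det_transpose]; exact hMne
  have hvP : volume (polarP L 0) = ENNReal.ofReal |M.det⁻¹| * volume (polarP K z) := by
    rw [hpol, Measure.addHaar_preimage_linearMap volume hMTdet, LinearMap.det_toLin',
      Matrix.det_transpose]
  have hvL : volume L = ENNReal.ofReal |M.det| * volume K := by
    conv_lhs => rw [hLK]
    exact volume_affine_image M (x 0) K
  have hprod : volume K * volume (polarP K z) < ENNReal.ofReal c1 := by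
    refine lt_of_eq_of_lt ?_ hv
    rw [hvL, hvP]
    have h3 : ENNReal.ofReal |M.det| * ENNReal.ofReal |M.det⁻¹| = 1 := by
      rw [← ENNReal.ofReal_mul (abs_nonneg _), ← abs_mul, mul_inv_cancel₀ hMne, abs_one,
        ENNReal.ofReal_one]
    calc volume K * volume (polarP K z) =
        (ENNReal.ofReal |M.det| * ENNReal.ofReal |M.det⁻¹|) *
          (volume K * volume (polarP K z)) := by rw [h3, one_mul]
      _ = _ := by ring
  obtain ⟨y, hy, hypos, hyv⟩ := dual_std hKS hdn hd hvK
    (hlg K hKc hKconv hKS a hdn hvK) hzK hprod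
  have hMTu : IsUnit Mᵀ.det := by rw [Matrix.det_transpose]; exact hMu
  have hsy := simpVol_mulVec (Mᵀ)⁻¹ 0 y
  rw [Matrix.det_nonsing_inv, Ring.inverse_eq_inv', Matrix.det_transpose] at hsy
  have habs : 0 < |M.det⁻¹| := abs_pos.mpr (inv_ne_zero hMne)
  refine defect_lt_of_simplex (polarP_convex L 0) (polarP_isBounded h0)
    (y := fun j => (Mᵀ)⁻¹ *ᵥ y j + 0) (fun j => ?_) (by rw [hsy]; (clear * - hMne hypos; positivity))
    (by unfold a0; norm_num) ?_
  · rw [hpol, add_zero, mem_preimage, Matrix.toLin'_apply, Matrix.mulVec_mulVec,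
      Matrix.mul_nonsing_inv _ hMTu, Matrix.one_mulVec]
    exact hy j
  · rw [hsy, hvP, ENNReal.toReal_mul, ENNReal.toReal_ofReal (abs_nonneg _)]
    calc |M.det⁻¹| * (volume (polarP K z)).toReal
        < |M.det⁻¹| * ((1 + a0) * simpVol y) := by (clear * - hyv hMne; gcongr)
      _ = _ := by ring

end Vale.Agent.P248
end
end
end

section

section

section

/-! The fiber-sum theorem (Meyer-Reisner) in a coordinate direction. -/

set_option linter.unusedSectionVars false

open MeasureTheory Set Filter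
open scoped ENNReal Topology

namespace Vale.Agent.P248

variable {m : ℕ} {K K1 K2 : Set (Fin (m + 1) → ℝ)} {i : Fin (m + 1)} {z : Fin (m + 1) → ℝ}

/-- One side of the fibre integral. -/
noncomputable def sd (K : Set (Fin (m + 1) → ℝ)) (z : Fin (m + 1) → ℝ) (i : Fin (m + 1)) (ε : ℝ) :
    ℝ → ℝ := fun s => (fib K z i (ε * s)).toReal

theorem sd_nonneg (K : Set (Fin (m + 1) → ℝ)) (z : Fin (m + 1) → ℝ) (i : Fin (m + 1)) (ε s : ℝ) :
    0 ≤ sd K z i ε s := ENNReal.toReal_nonneg

theorem sd_measurable (hK : IsCompact K) (hn : K.Nonempty) (ε : ℝ) :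
    Measurable (sd K z i ε) :=
  ((measurable_fib hK hn).comp (measurable_const_mul ε)).ennreal_toReal

theorem EF_interior_lt_top (hK : IsCompact K) (hz : z ∈ interior K) : EF K z < ∞ := by
  rw [EF_eq hK (interior_subset hz)]
  exact ENNReal.mul_lt_top (by simp) (polarP_isBounded hz).measure_lt_top

theorem EF_sides (hK : IsCompact K) {c : ℝ} (hz : z i = 0)
    (hc : Function.update z i c ∈ interior K) (a : ℝ) :
    EF K (Function.update z i a) = lap (sd K z i 1) a + lap (sd K z i (-1)) (-a) := by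
  have hn : K.Nonempty := ⟨_, interior_subset hc⟩
  have hfin := fib_finite hK hz hc
  rw [EF_fib hK hn hz, lintegral_split]
  unfold lap sd
  congr 1
  · refine lintegral_congr fun s => ?_
    rw [ENNReal.ofReal_mul (Real.exp_pos _).le, ENNReal.ofReal_toReal (hfin _).ne, one_mul]
  · refine lintegral_congr fun s => ?_
    rw [ENNReal.ofReal_mul (Real.exp_pos _).le, ENNReal.ofReal_toReal (hfin _).ne, neg_one_mul]
    congr 3
    ring

theorem lap_sd_open (hK : IsCompact K) (hcv : Convex ℝ K) {c : ℝ} (hz : z i = 0)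
    (hc : Function.update z i c ∈ interior K) (t : ℝ) (ht : lap (sd K z i 1) t < ∞) :
    ∃ t', t < t' ∧ lap (sd K z i 1) t' < ∞ := by
  have hint : (interior K).Nonempty := ⟨_, hc⟩
  have hX : ∀ t, Function.update z i t ∈ interior K → lap (sd K z i 1) t < ∞ := by
    intro t hti
    have h1 := EF_interior_lt_top hK hti
    rw [EF_sides hK hz hc] at h1
    exact lt_of_le_of_lt le_self_add h1
  have hY : ∀ t, Function.update z i t ∈ interior K → lap (sd K z i (-1)) (-t) < ∞ := by
    intro t hti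
    have h1 := EF_interior_lt_top hK hti
    rw [EF_sides hK hz hc] at h1
    exact lt_of_le_of_lt le_add_self h1
  by_cases hti : Function.update z i t ∈ interior K
  · have hcont : Continuous fun t : ℝ => Function.update z i t :=
      continuous_const.update i continuous_id
    have hopen : IsOpen ((fun t : ℝ => Function.update z i t) ⁻¹' interior K) :=
      isOpen_interior.preimage hcont
    obtain ⟨δ, hδ, hball⟩ := Metric.isOpen_iff.mp hopen t hti
    refine ⟨t + δ / 2, by linarith, hX _ ?_⟩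
    apply hball
    rw [Metric.mem_ball, Real.dist_eq]
    rw [show t + δ / 2 - t = δ / 2 by ring, abs_of_pos (by positivity)]
    linarith only [hδ]
  · have h1 := EF_top hK hcv hint hti
    rw [EF_sides hK hz hc] at h1
    rcases lt_or_ge t c with htc | htc
    · exact ⟨c, htc, hX c hc⟩
    · exfalso
      have h2 : lap (sd K z i (-1)) (-t) ≤ lap (sd K z i (-1)) (-c) :=
        lap_mono (sd_nonneg K z i (-1)) (by linarith only [htc])
      have h3 := lt_of_le_of_lt h2 (hY c hc)
      exact (ENNReal.add_lt_top.2 ⟨ht, h3⟩).ne h1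

theorem lap_sd_continuous (hK : IsCompact K) (hcv : Convex ℝ K) {c : ℝ} (hz : z i = 0)
    (hc : Function.update z i c ∈ interior K) : Continuous (lap (sd K z i 1)) := by
  have hn : K.Nonempty := ⟨_, interior_subset hc⟩
  exact lap_continuous (sd_measurable hK hn 1) (sd_nonneg K z i 1) (lap_sd_open hK hcv hz hc)

theorem lap_sd_top (hK : IsCompact K) (hcv : Convex ℝ K) {c : ℝ} (hz : z i = 0)
    (hc : Function.update z i c ∈ interior K) : ∃ t, lap (sd K z i 1) t = ∞ := by
  have hint : (interior K).Nonempty := ⟨_, hc⟩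
  obtain ⟨M, hM⟩ := isBounded_iff_forall_norm_le.mp hK.isBounded
  set t := max c (M + 1) with ht
  have hti : Function.update z i t ∉ interior K := by
    intro hmem
    have h1 := hM _ (interior_subset hmem)
    have h2 := norm_le_pi_norm (Function.update z i t) i
    rw [Function.update_self, Real.norm_eq_abs] at h2
    have h3 := le_abs_self t
    have h4 : M + 1 ≤ t := le_max_right _ _
    linarith
  have h1 := EF_top hK hcv hint hti
  rw [EF_sides hK hz hc] at h1
  refine ⟨t, ?_⟩
  have h2 : lap (sd K z i (-1)) (-t) ≤ lap (sd K z i (-1)) (-c) :=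
    lap_mono (sd_nonneg K z i (-1)) (by have := le_max_left c (M + 1); linarith only [this])
  have h3 : lap (sd K z i (-1)) (-c) < ∞ := by
    have h4 := EF_interior_lt_top hK hc
    rw [EF_sides hK hz hc] at h4
    exact lt_of_le_of_lt le_add_self h4
  by_contra hne
  exact (ENNReal.add_lt_top.2 ⟨lt_top_iff_ne_top.2 hne, lt_of_le_of_lt h2 h3⟩).ne h1

/-- Ball's inequality for the two sides of the fibre integrals. -/
theorem lap_sd_ball (hK : IsCompact K) (hn : K.Nonempty) (hK1 : IsCompact K1) (hK2 : IsCompact K2)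
    (h : ∀ x ∈ K, ∃ r : ℝ, x + r • (Pi.single i 1 : Fin (m + 1) → ℝ) ∈ K1 ∧
      x - r • (Pi.single i 1 : Fin (m + 1) → ℝ) ∈ K2) (hz : z i = 0) {c c1 c2 : ℝ}
    (hc : Function.update z i c ∈ interior K)
    (hc1 : Function.update z i c1 ∈ interior K1) (hc2 : Function.update z i c2 ∈ interior K2)
    {ε a a1 a2 y1 y2 : ℝ} (ha : a1 + a2 = 2 * a) (hy1 : 0 < y1) (hy2 : 0 < y2)
    (h1 : ENNReal.ofReal y1 ≤ lap (sd K1 z i ε) (ε * a1))
    (h2 : ENNReal.ofReal y2 ≤ lap (sd K2 z i ε) (ε * a2)) :
    ENNReal.ofReal (2 * y1 * y2 / (y1 + y2)) ≤ lap (sd K z i ε) (ε * a) := by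
  have hn1 : K1.Nonempty := ⟨_, interior_subset hc1⟩
  have hn2 : K2.Nonempty := ⟨_, interior_subset hc2⟩
  have hfin := fib_finite hK hz hc
  have hfin1 := fib_finite hK1 hz hc1
  have hfin2 := fib_finite hK2 hz hc2
  have hcont1 : Continuous fun s => Real.exp (ε * a1 * s) * sd K1 z i ε s :=
    (Real.continuous_exp.comp (by fun_prop)).mul
      ((fib_continuous hK1 hz hc1).comp (continuous_const.mul continuous_id))
  have hcont2 : Continuous fun s => Real.exp (ε * a2 * s) * sd K2 z i ε s :=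
    (Real.continuous_exp.comp (by fun_prop)).mul
      ((fib_continuous hK2 hz hc2).comp (continuous_const.mul continuous_id))
  have hpos1 : ∀ s, 0 < sd K1 z i ε s := fun s =>
    ENNReal.toReal_pos (fib_pos hK1 hn1 _).ne' (hfin1 _).ne
  have hpos2 : ∀ s, 0 < sd K2 z i ε s := fun s =>
    ENNReal.toReal_pos (fib_pos hK2 hn2 _).ne' (hfin2 _).ne
  refine ball_ext (f := fun s => Real.exp (ε * a * s) * sd K z i ε s) ?_ hcont1.continuousOn
    hcont2.continuousOn (fun s _ => mul_pos (Real.exp_pos _) (hpos1 s))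
    (fun s _ => mul_pos (Real.exp_pos _) (hpos2 s)) (fun s1 s2 hs1 hs2 => ?_) hy1 hy2 h1 h2
  · exact (by fun_prop : Measurable fun s : ℝ => Real.exp (ε * a * s)).mul
      (sd_measurable hK hn ε)
  · have hs : 0 < s1 + s2 := by (clear * - hs1 hs2; positivity)
    set μ := s2 / (s1 + s2) with hμ
    set ν := s1 / (s1 + s2) with hν
    have hμ0 : 0 < μ := by (clear * - hs2 hs1; positivity)
    have hν0 : 0 < ν := by (clear * - hs1 hs2; positivity)
    have hμν : μ + ν = 1 := by rw [hμ, hν]; field_simp; ring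
    have e1 : μ * (ε * s1) = (ε * (2 * s1 * s2 / (s1 + s2))) / 2 := by
      rw [hμ]; (clear * - hs1 hs2; field_simp)
    have e2 : ν * (ε * s2) = (ε * (2 * s1 * s2 / (s1 + s2))) / 2 := by
      rw [hν]; (clear * - hs1 hs2; field_simp)
    have h3 := ENNReal.toReal_mono (hfin _).ne
      (fib_fiber hK hn hK1 hn1 hK2 hn2 h hz hμ0 hν0 hμν e1 e2)
    rw [ENNReal.toReal_mul, ← ENNReal.toReal_rpow, ← ENNReal.toReal_rpow] at h3
    rw [Real.mul_rpow (Real.exp_pos _).le (hpos1 s1).le,
      Real.mul_rpow (Real.exp_pos _).le (hpos2 s2).le, ← Real.exp_mul, ← Real.exp_mul]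
    have e3 : Real.exp (ε * a * (2 * s1 * s2 / (s1 + s2))) =
        Real.exp (ε * a1 * s1 * μ) * Real.exp (ε * a2 * s2 * ν) := by
      rw [← Real.exp_add]
      congr 1
      have : ε * a1 * s1 * μ + ε * a2 * s2 * ν = ε * (a1 + a2) * (s1 * s2 / (s1 + s2)) := by
        rw [hμ, hν]; (clear * - hs1 hs2; field_simp)
      rw [this, ha]
      ring
    rw [e3]
    calc Real.exp (ε * a1 * s1 * μ) * sd K1 z i ε s1 ^ μ *
          (Real.exp (ε * a2 * s2 * ν) * sd K2 z i ε s2 ^ ν)
        = Real.exp (ε * a1 * s1 * μ) * Real.exp (ε * a2 * s2 * ν) *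
          (sd K1 z i ε s1 ^ μ * sd K2 z i ε s2 ^ ν) := by ring
      _ ≤ _ := mul_le_mul_of_nonneg_left h3 (by positivity)

/-- A point of the projection of the interior lifts to the interior. -/
theorem exists_center (hcv : Convex ℝ K1) (hint : (interior K1).Nonempty)
    (hp : ∀ x ∈ K, ∃ r : ℝ, x + r • (Pi.single i 1 : Fin (m + 1) → ℝ) ∈ K1)
    (hz : z ∈ interior K) : ∃ c : ℝ, Function.update z i c ∈ interior K1 := by
  obtain ⟨w, hw⟩ := hint
  have hcont : Continuous fun ε : ℝ => z + ε • (z - w) := by fun_prop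
  have h0 : z + (0 : ℝ) • (z - w) ∈ interior K := by simpa using hz
  have hnhds : (fun ε : ℝ => z + ε • (z - w)) ⁻¹' interior K ∈ 𝓝 (0 : ℝ) :=
    (isOpen_interior.preimage hcont).mem_nhds h0
  obtain ⟨δ, hδ, hball⟩ := Metric.mem_nhds_iff.mp hnhds
  set ε := δ / 2 with hε
  have hε0 : 0 < ε := by (clear * - hδ; positivity)
  have hmem : z + ε • (z - w) ∈ K := by
    apply interior_subset
    apply hball
    rw [Metric.mem_ball, Real.dist_eq, sub_zero, abs_of_pos hε0]
    linarith only [hε0, hε]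
  obtain ⟨r, hr⟩ := hp _ hmem
  refine ⟨z i + r / (1 + ε), ?_⟩
  have h1 := hcv.combo_self_interior_mem_interior hr hw (a := 1 / (1 + ε)) (b := ε / (1 + ε))
    (by (clear * - hδ; positivity)) (by positivity) (by field_simp)
  have h2 : Function.update z i (z i + r / (1 + ε)) =
      (1 / (1 + ε)) • (z + ε • (z - w) + r • (Pi.single i 1 : Fin (m + 1) → ℝ)) +
        (ε / (1 + ε)) • w := by
    ext k
    by_cases hk : k = i
    · subst hk
      simp only [Function.update_self, Pi.add_apply, Pi.smul_apply, Pi.sub_apply, smul_eq_mul,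
        Pi.single_eq_same]
      field_simp
      ring
    · simp only [Function.update_of_ne hk, Pi.add_apply, Pi.smul_apply, Pi.sub_apply, smul_eq_mul, Pi.single_eq_of_ne hk]
      field_simp
      ring
  rw [h2]
  exact h1

/-- **Fiber-sum theorem** (Meyer-Reisner) for the exponential functional. -/
theorem fiber_sum_EF (hK : IsCompact K)
    (hK1 : IsCompact K1) (hc1 : Convex ℝ K1) (hi1 : (interior K1).Nonempty)
    (hK2 : IsCompact K2) (hc2 : Convex ℝ K2) (hi2 : (interior K2).Nonempty)
    (h : ∀ x, x ∈ K ↔ ∃ r : ℝ, x + r • (Pi.single i 1 : Fin (m + 1) → ℝ) ∈ K1 ∧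
      x - r • (Pi.single i 1 : Fin (m + 1) → ℝ) ∈ K2)
    (hp1 : ∀ x ∈ K1, ∃ r : ℝ, x + r • (Pi.single i 1 : Fin (m + 1) → ℝ) ∈ K2)
    (hp2 : ∀ x ∈ K2, ∃ r : ℝ, x + r • (Pi.single i 1 : Fin (m + 1) → ℝ) ∈ K1)
    {C : ℝ} (hC : 0 < C)
    (h1 : ∀ z ∈ interior K1, ENNReal.ofReal C ≤ volume K1 * EF K1 z)
    (h2 : ∀ z ∈ interior K2, ENNReal.ofReal C ≤ volume K2 * EF K2 z)
    (hz : z ∈ interior K) : ENNReal.ofReal C ≤ volume K * EF K z := by
  have hn : K.Nonempty := ⟨_, interior_subset hz⟩
  have hvol := volume_fiber_sum i hK hK1 hK2 (fun x r hr1 hr2 => (h x).2 ⟨r, hr1, hr2⟩) hp1 hp2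
  obtain ⟨c1, hc1'⟩ := exists_center (i := i) hc1 hi1 (fun x hx => by
    obtain ⟨r, hr, -⟩ := (h x).1 hx
    exact ⟨r, hr⟩) hz
  obtain ⟨c2, hc2'⟩ := exists_center (i := i) hc2 hi2 (fun x hx => by
    obtain ⟨r, -, hr⟩ := (h x).1 hx
    exact ⟨-r, by simpa only [neg_smul, sub_eq_add_neg] using hr⟩) hz
  set z0 := Function.update z i 0 with hz0
  have hz00 : z0 i = 0 := by simp [hz0]
  have hup : ∀ t, Function.update z0 i t = Function.update z i t := by
    intro t; simp [hz0]
  have hcc : Function.update z0 i (z i) ∈ interior K := by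
    rw [hup]; simpa using hz
  rw [← hup] at hc1' hc2'
  have hvpos : ∀ {L : Set (Fin (m + 1) → ℝ)}, (interior L).Nonempty → 0 < volume L := by
    intro L hL
    exact lt_of_lt_of_le (isOpen_interior.measure_pos volume hL) (measure_mono interior_subset)
  have hv1 := hvpos hi1
  have hv2 := hvpos hi2
  have ht1 : volume K1 < ∞ := hK1.measure_lt_top
  have ht2 : volume K2 < ∞ := hK2.measure_lt_top
  set v1 := (volume K1).toReal with hv1'
  set v2 := (volume K2).toReal with hv2'
  have hv1p : 0 < v1 := ENNReal.toReal_pos hv1.ne' ht1.ne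
  have hv2p : 0 < v2 := ENNReal.toReal_pos hv2.ne' ht2.ne
  have e1 : volume K1 = ENNReal.ofReal v1 := (ENNReal.ofReal_toReal ht1.ne).symm
  have e2 : volume K2 = ENNReal.ofReal v2 := (ENNReal.ofReal_toReal ht2.ne).symm
  have key : ∀ {v : ℝ} {X : ℝ≥0∞}, 0 < v → ENNReal.ofReal C ≤ ENNReal.ofReal v * X →
      ENNReal.ofReal (C / v) ≤ X := by
    intro v X hv h
    rw [ENNReal.ofReal_div_of_pos hv]
    exact ENNReal.div_le_of_le_mul' h
  have k1 : ∀ t, ENNReal.ofReal (C / v1) ≤ lap (sd K1 z0 i 1) t + lap (sd K1 z0 i (-1)) (-t) := by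
    intro t
    rw [← EF_sides hK1 hz00 hc1']
    by_cases ht : Function.update z0 i t ∈ interior K1
    · exact key hv1p (e1 ▸ h1 _ ht)
    · rw [EF_top hK1 hc1 hi1 ht]; exact le_top
  have k2 : ∀ t, ENNReal.ofReal (C / v2) ≤ lap (sd K2 z0 i 1) t + lap (sd K2 z0 i (-1)) (-t) := by
    intro t
    rw [← EF_sides hK2 hz00 hc2']
    by_cases ht : Function.update z0 i t ∈ interior K2
    · exact key hv2p (e2 ▸ h2 _ ht)
    · rw [EF_top hK2 hc2 hi2 ht]; exact le_top
  have hmain := cross (X1 := lap (sd K1 z0 i 1)) (X2 := lap (sd K2 z0 i 1))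
    (Y1 := fun t => lap (sd K1 z0 i (-1)) (-t)) (Y2 := fun t => lap (sd K2 z0 i (-1)) (-t))
    (XK := lap (sd K z0 i 1) (z i)) (YK := lap (sd K z0 i (-1)) (-(z i))) (a := z i)
    (by (clear * - hC hv1p; positivity) : 0 < C / v1) (by (clear * - hC hv2p; positivity) : 0 < C / v2)
    (lap_sd_continuous hK1 hc1 hz00 hc1') (lap_sd_continuous hK2 hc2 hz00 hc2')
    (lap_sd_top hK1 hc1 hz00 hc1') (lap_sd_top hK2 hc2 hz00 hc2') k1 k2
    (fun a1 a2 y1 y2 ha hy1 hy2 g1 g2 => by
      have := lap_sd_ball hK hn hK1 hK2 (fun x hx => (h x).1 hx) hz00 hcc hc1' hc2' (ε := 1) ha hy1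
        hy2 (by simpa only [one_mul] using g1) (by simpa only [one_mul] using g2)
      simpa only [ge_iff_le, one_mul] using this)
    (fun a1 a2 y1 y2 ha hy1 hy2 g1 g2 => by
      have := lap_sd_ball hK hn hK1 hK2 (fun x hx => (h x).1 hx) hz00 hcc hc1' hc2' (ε := -1) ha hy1
        hy2 (by simpa only [neg_mul, one_mul] using g1) (by simpa only [neg_mul, one_mul] using g2)
      simpa only [ge_iff_le, neg_mul, one_mul] using this)
  rw [← EF_sides hK hz00 hcc, hup] at hmain
  simp only [Function.update_eq_self] at hmain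
  have hvK : ENNReal.ofReal ((v1 + v2) / 2) ≤ volume K := by
    rw [ENNReal.ofReal_div_of_pos (by norm_num), ENNReal.ofReal_add hv1p.le hv2p.le, ← e1, ← e2]
    refine ENNReal.div_le_of_le_mul' ?_
    simpa only [ENNReal.ofReal_ofNat] using hvol
  calc ENNReal.ofReal C = ENNReal.ofReal ((v1 + v2) / 2) *
        ENNReal.ofReal (2 * (C / v1) * (C / v2) / (C / v1 + C / v2)) := by
        rw [← ENNReal.ofReal_mul (by (clear * - hv1p hv2p; positivity))]
        congr 1
        field_simp
        ring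
    _ ≤ _ := by (clear * - hvK hmain; gcongr)

end Vale.Agent.P248
end
end
end

section

section

section

/-! The fiber-sum theorem in `ℝ³` in an arbitrary direction. -/

set_option linter.unusedSectionVars false

open MeasureTheory Set
open scoped ENNReal Topology Matrix

namespace Vale.Agent.P248

theorem goodC_iff_EF {c : ℝ} {K : Set V3} (hK : IsCompact K) :
    GoodC c K ↔ ∀ z ∈ interior K, ENNReal.ofReal (6 * c) ≤ volume K * EF K z := by
  unfold GoodC
  refine forall₂_congr fun z hz => ?_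
  rw [EF_eq hK (interior_subset hz)]
  have h6 : ((Fintype.card (Fin 3)).factorial : ℝ≥0∞) = ENNReal.ofReal 6 := by
    rw [Fintype.card_fin]
    norm_num [Nat.factorial]
  rw [h6, ENNReal.ofReal_mul (by norm_num : (0 : ℝ) ≤ 6)]
  have e : volume K * (ENNReal.ofReal 6 * volume (polarP K z)) =
      ENNReal.ofReal 6 * (volume K * volume (polarP K z)) := by ring
  rw [e]
  have h60 : ENNReal.ofReal 6 ≠ 0 := (ENNReal.ofReal_pos.2 (by norm_num)).ne'
  exact (ENNReal.mul_le_mul_iff_right h60 ENNReal.ofReal_ne_top).symm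

/-- The fiber-sum theorem in a coordinate direction with a general constant. -/
theorem fiber_sum_coordC {c : ℝ} (i : Fin 3) {K K1 K2 : Set V3} (hK : IsCompact K)
    (hK1 : IsCompact K1) (hc1 : Convex ℝ K1) (hi1 : (interior K1).Nonempty)
    (hK2 : IsCompact K2) (hc2 : Convex ℝ K2) (hi2 : (interior K2).Nonempty)
    (h : ∀ x, x ∈ K ↔ ∃ r : ℝ, x + r • (Pi.single i 1 : V3) ∈ K1 ∧
      x - r • (Pi.single i 1 : V3) ∈ K2)
    (hp1 : ∀ x ∈ K1, ∃ r : ℝ, x + r • (Pi.single i 1 : V3) ∈ K2)
    (hp2 : ∀ x ∈ K2, ∃ r : ℝ, x + r • (Pi.single i 1 : V3) ∈ K1)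
    (h1 : GoodC c K1) (h2 : GoodC c K2) : GoodC c K := by
  rcases le_or_gt c 0 with hc | hc
  · intro z _
    rw [ENNReal.ofReal_of_nonpos hc]
    exact zero_le
  · rw [goodC_iff_EF hK]
    rw [goodC_iff_EF hK1] at h1
    rw [goodC_iff_EF hK2] at h2
    intro z hz
    exact fiber_sum_EF hK hK1 hc1 hi1 hK2 hc2 hi2 h hp1 hp2 (by (clear * - hc; positivity) : 0 < 6 * c) h1 h2 hz

theorem goodC_preimage_iff {c : ℝ} (A : V3 ≃L[ℝ] V3) (K : Set V3) :
    GoodC c (A ⁻¹' K) ↔ GoodC c K := by
  have hint : interior (A ⁻¹' K) = A ⁻¹' interior K := (A.toHomeomorph.preimage_interior K).symm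
  constructor
  · intro h w hw
    obtain ⟨u, rfl⟩ := A.surjective w
    rw [volume_mul_equiv]
    apply h
    rw [hint]
    exact hw
  · intro h u hu
    rw [hint] at hu
    rw [← volume_mul_equiv]
    exact h _ hu

/-- The fiber-sum theorem in a general direction with a general constant. -/
theorem fiber_sumC {c : ℝ} {K K1 K2 : Set V3} {e : V3} (he : e ≠ 0) (hK : IsCompact K)
    (hK1 : IsCompact K1) (hc1 : Convex ℝ K1) (hi1 : (interior K1).Nonempty)
    (hK2 : IsCompact K2) (hc2 : Convex ℝ K2) (hi2 : (interior K2).Nonempty)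
    (h : ∀ x, x ∈ K ↔ ∃ r : ℝ, x + r • e ∈ K1 ∧ x - r • e ∈ K2)
    (hp1 : ∀ x ∈ K1, ∃ r : ℝ, x + r • e ∈ K2) (hp2 : ∀ x ∈ K2, ∃ r : ℝ, x + r • e ∈ K1)
    (h1 : GoodC c K1) (h2 : GoodC c K2) : GoodC c K := by
  have hs : (Pi.single (0 : Fin 3) 1 : V3) ≠ 0 := by simp
  obtain ⟨A, hA⟩ := SeparatingDual.exists_continuousLinearEquiv_apply_eq (R := ℝ) hs he
  have hcpt : ∀ L : Set V3, IsCompact L → IsCompact (A ⁻¹' L) := fun L hL =>
    A.toHomeomorph.isCompact_preimage.2 hL
  have hcvx : ∀ L : Set V3, Convex ℝ L → Convex ℝ (A ⁻¹' L) := fun L hL =>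
    hL.linear_preimage (A : V3 →ₗ[ℝ] V3)
  have hint : ∀ L : Set V3, (interior L).Nonempty → (interior (A ⁻¹' L)).Nonempty := by
    intro L hL
    have hint : interior (A ⁻¹' L) = A ⁻¹' interior L :=
      (A.toHomeomorph.preimage_interior L).symm
    rw [hint]
    exact hL.preimage A.surjective
  have hadd : ∀ (x : V3) (r : ℝ), A (x + r • (Pi.single (0 : Fin 3) 1 : V3)) = A x + r • e := by
    intro x r
    rw [map_add, map_smul, hA]
  have hsub : ∀ (x : V3) (r : ℝ), A (x - r • (Pi.single (0 : Fin 3) 1 : V3)) = A x - r • e := by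
    intro x r
    rw [map_sub, map_smul, hA]
  rw [← goodC_preimage_iff A] at h1 h2 ⊢
  refine fiber_sum_coordC 0 (hcpt K hK) (hcpt K1 hK1) (hcvx K1 hc1)
    (hint K1 hi1) (hcpt K2 hK2) (hcvx K2 hc2) (hint K2 hi2) ?_ ?_ ?_ h1 h2
  · intro x
    simp only [mem_preimage, hadd, hsub]
    exact h (A x)
  · intro x hx
    obtain ⟨r, hr⟩ := hp1 (A x) hx
    exact ⟨r, by rw [mem_preimage, hadd]; exact hr⟩
  · intro x hx
    obtain ⟨r, hr⟩ := hp2 (A x) hx
    exact ⟨r, by rw [mem_preimage, hadd]; exact hr⟩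

/-- The fiber-sum theorem, as in the skeleton. -/
theorem fiber_sum {K K1 K2 : Set V3} {e : V3} (he : e ≠ 0)
    (hK : IsCompact K) (_hc : Convex ℝ K) (_hi : (interior K).Nonempty)
    (hK1 : IsCompact K1) (hc1 : Convex ℝ K1) (hi1 : (interior K1).Nonempty)
    (hK2 : IsCompact K2) (hc2 : Convex ℝ K2) (hi2 : (interior K2).Nonempty)
    (h : ∀ x, x ∈ K ↔ ∃ r : ℝ, x + r • e ∈ K1 ∧ x - r • e ∈ K2)
    (hp1 : ∀ x ∈ K1, ∃ r : ℝ, x + r • e ∈ K2) (hp2 : ∀ x ∈ K2, ∃ r : ℝ, x + r • e ∈ K1)
    (h1 : Good K1) (h2 : Good K2) : Good K :=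
  fiber_sumC he hK hK1 hc1 hi1 hK2 hc2 hi2 h hp1 hp2 h1 h2

end Vale.Agent.P248
end
end
end

section

section

section

/-! Affine invariance of the Mahler inequality with a general constant (`goodC_preimage_iff` and
the fiber-sum theorem `fiber_sumC` are in FiberSumFinal.lean). -/

set_option linter.unusedSectionVars false

open MeasureTheory Set
open scoped ENNReal Topology Matrix

namespace Vale.Agent.P248

theorem GoodC.translate {c : ℝ} {K : Set V3} (z : V3) (h : GoodC c ((fun x => x - z) '' K)) :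
    GoodC c K := by
  intro w hw
  rw [← volume_polarP_translate K z w]
  apply h
  have h1 : interior ((Homeomorph.subRight z) '' K) = (Homeomorph.subRight z) '' interior K :=
    ((Homeomorph.subRight z).image_interior K).symm
  have h2 : w - z ∈ (Homeomorph.subRight z) '' interior K := ⟨w, hw, rfl⟩
  rw [← h1] at h2
  exact h2

theorem goodC_translate_iff {c : ℝ} {K : Set V3} (z : V3) :
    GoodC c ((fun x => x - z) '' K) ↔ GoodC c K := by
  refine ⟨GoodC.translate z, fun h => GoodC.translate (-z) ?_⟩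
  have : (fun x : V3 => x - -z) '' ((fun x => x - z) '' K) = K := by
    rw [image_image]
    simp
  rw [this]
  exact h

theorem goodC_image_iff {c : ℝ} (A : V3 ≃L[ℝ] V3) (K : Set V3) :
    GoodC c (A '' K) ↔ GoodC c K := by
  rw [← goodC_preimage_iff A (A '' K), preimage_image_eq K A.injective]

/-- affine invariance -/
theorem GoodC.affine {c : ℝ} {M : Matrix (Fin 3) (Fin 3) ℝ} (hM : M.det ≠ 0) (w : V3)
    {K : Set V3} (hK : GoodC c K) : GoodC c ((fun x => M *ᵥ x + w) '' K) := by
  obtain ⟨h, hh⟩ := exists_homeo_matrix M hM w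
  have hfun : (fun x => M *ᵥ x + w) = (h : V3 → V3) := by
    funext x; exact (hh x).symm
  intro z' hz'
  rw [hfun, ← h.image_interior] at hz'
  obtain ⟨z, hz, rfl⟩ := hz'
  rw [hh z, volume_affine_image, polarP_affine_image]
  have hdet : LinearMap.det (Matrix.toLin' Mᵀ) ≠ 0 := by
    rw [LinearMap.det_toLin', Matrix.det_transpose]; exact hM
  rw [Measure.addHaar_preimage_linearMap volume hdet, LinearMap.det_toLin', Matrix.det_transpose]
  have h1 := hK z hz
  have h2 : ENNReal.ofReal |M.det| * volume K * (ENNReal.ofReal |M.det⁻¹| * volume (polarP K z)) =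
      volume K * volume (polarP K z) := by
    have h3 : ENNReal.ofReal |M.det| * ENNReal.ofReal |M.det⁻¹| = 1 := by
      rw [← ENNReal.ofReal_mul (abs_nonneg _), ← abs_mul, mul_inv_cancel₀ hM, abs_one,
        ENNReal.ofReal_one]
    calc _ = (ENNReal.ofReal |M.det| * ENNReal.ofReal |M.det⁻¹|) *
          (volume K * volume (polarP K z)) := by ring
      _ = _ := by rw [h3, one_mul]
  rw [h2]
  exact h1

/-- affine invariance, both directions -/
theorem goodC_affine_iff {c : ℝ} {M : Matrix (Fin 3) (Fin 3) ℝ} (hM : M.det ≠ 0) (w : V3)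
    {K : Set V3} : GoodC c ((fun x => M *ᵥ x + w) '' K) ↔ GoodC c K := by
  refine ⟨fun h => ?_, fun h => h.affine hM w⟩
  have hu : IsUnit M.det := isUnit_iff_ne_zero.2 hM
  have hM' : (M⁻¹).det ≠ 0 := by
    rw [Matrix.det_nonsing_inv]
    exact (hu.ringInverse).ne_zero
  have h2 := h.affine hM' (-(M⁻¹ *ᵥ w))
  have h3 : (fun x => M⁻¹ *ᵥ x + -(M⁻¹ *ᵥ w)) '' ((fun x => M *ᵥ x + w) '' K) = K := by
    rw [image_image]
    have : (fun x : V3 => M⁻¹ *ᵥ (M *ᵥ x + w) + -(M⁻¹ *ᵥ w)) = id := by
      funext x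
      rw [Matrix.mulVec_add, Matrix.mulVec_mulVec, Matrix.nonsing_inv_mul _ hu,
        Matrix.one_mulVec, add_neg_cancel_right]
      rfl
    rw [this, image_id]
  rwa [h3] at h2

end Vale.Agent.P248
end
end
end

section

section

section

/-! The path of polytopes belonging to a motion: interior points, weighted fiber sums, and
continuity of the defect. -/

set_option linter.unusedSectionVars false

open MeasureTheory Set Filter
open scoped ENNReal Topology Matrix

namespace Vale.Agent.P248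

variable {ι κ : Type} [Fintype ι] [Fintype κ]

/-! ### Interior points -/

theorem Motion.path_interior {p : ι → V3} {q : κ → V3} (h : Pres p q) {e : V3} {β : ι → ℝ}
    {a : κ → V3} (hm : Motion p q e β a) (t : ℝ) :
    (interior (convexHull ℝ (range fun i => p i + (t * β i) • e))).Nonempty := by
  rcases eq_or_ne t 0 with rfl | ht
  · simpa using df_zero_interior h
  · have h0 := df_zero_interior h
    by_contra hcon
    obtain ⟨m, hm0, c, hc⟩ := df_plane hcon
    by_cases hme : m ⬝ᵥ e = 0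
    · have h1 : ∀ i, m ⬝ᵥ p i = c := by
        intro i
        have := hc i
        rw [dotProduct_add, dotProduct_smul, hme] at this
        simpa using this
      have h2 : convexHull ℝ (range p) ⊆ {x | m ⬝ᵥ x = c} := by
        apply convexHull_min
        · rintro x ⟨i, rfl⟩; exact h1 i
        · intro x hx y hy u v _ _ huv
          simp only [mem_ofPred_eq] at hx hy ⊢
          rw [dotProduct_add, dotProduct_smul, dotProduct_smul, hx, hy]
          simp only [smul_eq_mul]
          rw [← add_mul, huv, one_mul]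
      obtain ⟨x, hx⟩ := h0
      have h3 : ∀ᶠ s : ℝ in 𝓝 0, x + s • m ∈ convexHull ℝ (range p) := by
        have hcont : Continuous fun s : ℝ => x + s • m := by fun_prop
        have : Filter.Tendsto (fun s : ℝ => x + s • m) (𝓝 0) (𝓝 x) := by
          have := hcont.tendsto 0
          simpa only [zero_smul, add_zero] using this
        exact this (mem_interior_iff_mem_nhds.mp hx)
      obtain ⟨s, hs1, hs2⟩ := ((h3.filter_mono nhdsWithin_le_nhds).and
        (self_mem_nhdsWithin (s := Ioi (0 : ℝ)))).exists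
      have h4 := h2 hs1
      have h5 := h2 (interior_subset hx)
      simp only [mem_ofPred_eq] at h4 h5
      rw [dotProduct_add, h5, dotProduct_smul, smul_eq_mul] at h4
      have h6 : 0 < s * (m ⬝ᵥ m) := mul_pos hs2 (df_ee hm0)
      linarith only [h4, h6]
    · apply hm.nontriv
      refine ⟨c / (t * (m ⬝ᵥ e)), -(t * (m ⬝ᵥ e))⁻¹ • m, fun i => ?_⟩
      have := hc i
      rw [dotProduct_add, dotProduct_smul, smul_eq_mul] at this
      rw [smul_dotProduct, smul_eq_mul]
      field_simp
      linarith only [this]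

/-! ### Weighted fiber sums -/

/-- Stretching the direction `e` by the factor `c`. -/
theorem exists_stretch {e : V3} (he : e ≠ 0) {c : ℝ} (hc : c ≠ 0) :
    ∃ A : V3 ≃L[ℝ] V3, ∀ x, A x = x + ((c - 1) * ((e ⬝ᵥ x) / (e ⬝ᵥ e))) • e := by
  have hee := df_ee he
  have hlin : ∀ c : ℝ, ∃ f : V3 →ₗ[ℝ] V3, ∀ x, f x = x + ((c - 1) * ((e ⬝ᵥ x) / (e ⬝ᵥ e))) • e := by
    intro c
    refine ⟨{ toFun := fun x => x + ((c - 1) * ((e ⬝ᵥ x) / (e ⬝ᵥ e))) • e
              map_add' := ?_
              map_smul' := ?_ }, fun x => rfl⟩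
    · intro x y
      rw [dotProduct_add, add_div, mul_add, add_smul]
      abel
    · intro r x
      rw [dotProduct_smul, smul_eq_mul, RingHom.id_apply, smul_add, smul_smul]
      congr 2
      ring
  obtain ⟨f, hf⟩ := hlin c
  obtain ⟨g, hg⟩ := hlin c⁻¹
  have hfg : ∀ x, f (g x) = x := by
    intro x
    rw [hf, hg, dotProduct_add, dotProduct_smul, smul_eq_mul, add_assoc, ← add_smul]
    have : (c⁻¹ - 1) * (e ⬝ᵥ x / e ⬝ᵥ e) +
        (c - 1) * ((e ⬝ᵥ x + (c⁻¹ - 1) * (e ⬝ᵥ x / e ⬝ᵥ e) * e ⬝ᵥ e) / e ⬝ᵥ e) = 0 := by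
      field_simp
      ring
    rw [this, zero_smul, add_zero]
  have hgf : ∀ x, g (f x) = x := by
    intro x
    rw [hf, hg, dotProduct_add, dotProduct_smul, smul_eq_mul, add_assoc, ← add_smul]
    have : (c - 1) * (e ⬝ᵥ x / e ⬝ᵥ e) +
        (c⁻¹ - 1) * ((e ⬝ᵥ x + (c - 1) * (e ⬝ᵥ x / e ⬝ᵥ e) * e ⬝ᵥ e) / e ⬝ᵥ e) = 0 := by
      field_simp
      ring
    rw [this, zero_smul, add_zero]
  refine ⟨(LinearEquiv.ofLinearMap f g (LinearMap.ext fun x => hfg x)
    (LinearMap.ext fun x => hgf x)).toContinuousLinearEquiv, fun x => ?_⟩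
  exact hf x

/-- The fiber-sum theorem with weights. -/
theorem fiber_sum_weighted {c : ℝ} {K K1 K2 : Set V3} {e : V3} (he : e ≠ 0) {s1 s2 : ℝ}
    (hs1 : 0 < s1) (hs2 : 0 < s2) (hK : IsCompact K)
    (hK1 : IsCompact K1) (hc1 : Convex ℝ K1) (hi1 : (interior K1).Nonempty)
    (hK2 : IsCompact K2) (hc2 : Convex ℝ K2) (hi2 : (interior K2).Nonempty)
    (h : ∀ x, x ∈ K ↔ ∃ r : ℝ, x + (s1 * r) • e ∈ K1 ∧ x - (s2 * r) • e ∈ K2)
    (hp1 : ∀ x ∈ K1, ∃ r : ℝ, x + r • e ∈ K2) (hp2 : ∀ x ∈ K2, ∃ r : ℝ, x + r • e ∈ K1)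
    (h1 : GoodC c K1) (h2 : GoodC c K2) : GoodC c K := by
  have hee := df_ee he
  have hs : 0 < s1 + s2 := by (clear * - hs1 hs2; positivity)
  set d1 : ℝ := (s1 + s2) / (2 * s2) with hd1
  set d2 : ℝ := (s1 + s2) / (2 * s1) with hd2
  have hd1' : 0 < d1 := by positivity
  have hd2' : 0 < d2 := by positivity
  obtain ⟨A1, hA1⟩ := exists_stretch he hd1'.ne'
  obtain ⟨A2, hA2⟩ := exists_stretch he hd2'.ne'
  have hcpt : ∀ (A : V3 ≃L[ℝ] V3) (L : Set V3), IsCompact L → IsCompact (A ⁻¹' L) := fun A L hL =>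
    A.toHomeomorph.isCompact_preimage.2 hL
  have hcvx : ∀ (A : V3 ≃L[ℝ] V3) (L : Set V3), Convex ℝ L → Convex ℝ (A ⁻¹' L) := fun A L hL =>
    hL.linear_preimage (A : V3 →ₗ[ℝ] V3)
  have hint : ∀ (A : V3 ≃L[ℝ] V3) (L : Set V3), (interior L).Nonempty →
      (interior (A ⁻¹' L)).Nonempty := by
    intro A L hL
    have hint : interior (A ⁻¹' L) = A ⁻¹' interior L :=
      (A.toHomeomorph.preimage_interior L).symm
    rw [hint]
    exact hL.preimage A.surjective
  -- the action on a line
  have hadd1 : ∀ (x : V3) (r : ℝ), A1 (x + r • e) =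
      x + ((d1 - 1) * ((e ⬝ᵥ x) / (e ⬝ᵥ e)) + d1 * r) • e := by
    intro x r
    rw [hA1, dotProduct_add, dotProduct_smul, smul_eq_mul, add_assoc, ← add_smul]
    congr 2
    field_simp
    ring
  have hadd2 : ∀ (x : V3) (r : ℝ), A2 (x + r • e) =
      x + ((d2 - 1) * ((e ⬝ᵥ x) / (e ⬝ᵥ e)) + d2 * r) • e := by
    intro x r
    rw [hA2, dotProduct_add, dotProduct_smul, smul_eq_mul, add_assoc, ← add_smul]
    congr 2
    field_simp
    ring
  have hrel1 : s2 * (d1 - 1) + s1 * (d2 - 1) = 0 := by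
    rw [hd1, hd2]
    field_simp
    ring
  have hrel2 : s2 * d1 = s1 * d2 := by
    rw [hd1, hd2]
    field_simp
  refine fiber_sumC (K1 := A1 ⁻¹' K1) (K2 := A2 ⁻¹' K2) he hK (hcpt A1 K1 hK1) (hcvx A1 K1 hc1)
    (hint A1 K1 hi1) (hcpt A2 K2 hK2) (hcvx A2 K2 hc2) (hint A2 K2 hi2) ?_ ?_ ?_
    ((goodC_preimage_iff A1 K1).2 h1) ((goodC_preimage_iff A2 K2).2 h2)
  · intro x
    rw [h x]
    set σ := (e ⬝ᵥ x) / (e ⬝ᵥ e) with hσ
    have key : ∀ r r' : ℝ, (d1 - 1) * σ + d1 * r = s1 * r' →
        (d2 - 1) * σ + d2 * -r = -(s2 * r') := by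
      intro r r' hr
      have h3 : s1 * ((d2 - 1) * σ + d2 * -r) = s1 * (-(s2 * r')) := by
        linear_combination (-s2) * hr + σ * hrel1 + r * hrel2
      exact mul_left_cancel₀ hs1.ne' h3
    constructor
    · rintro ⟨r', h3, h4⟩
      have e1 : (d1 - 1) * σ + d1 * ((s1 * r' - (d1 - 1) * σ) / d1) = s1 * r' := by
        field_simp
        ring
      refine ⟨(s1 * r' - (d1 - 1) * σ) / d1, ?_, ?_⟩
      · rw [mem_preimage, hadd1, e1]
        exact h3
      · rw [mem_preimage, sub_eq_add_neg, ← neg_smul, hadd2, key _ _ e1, neg_smul,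
          ← sub_eq_add_neg]
        exact h4
    · rintro ⟨r, h3, h4⟩
      have e1 : (d1 - 1) * σ + d1 * r = s1 * (((d1 - 1) * σ + d1 * r) / s1) := by
        (clear * - hs1; field_simp)
      refine ⟨((d1 - 1) * σ + d1 * r) / s1, ?_, ?_⟩
      · rw [mem_preimage, hadd1, e1] at h3
        exact h3
      · rw [mem_preimage, sub_eq_add_neg, ← neg_smul, hadd2, key _ _ e1, neg_smul,
          ← sub_eq_add_neg] at h4
        exact h4
  · intro x hx
    have hx' : A1 x = x + ((d1 - 1) * ((e ⬝ᵥ x) / (e ⬝ᵥ e))) • e := hA1 x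
    obtain ⟨r, hr⟩ := hp1 _ hx
    rw [hx', add_assoc, ← add_smul] at hr
    refine ⟨((d1 - 1) * ((e ⬝ᵥ x) / (e ⬝ᵥ e)) + r - (d2 - 1) * ((e ⬝ᵥ x) / (e ⬝ᵥ e))) / d2, ?_⟩
    rw [mem_preimage, hadd2]
    convert hr using 3
    field_simp
    ring
  · intro x hx
    have hx' : A2 x = x + ((d2 - 1) * ((e ⬝ᵥ x) / (e ⬝ᵥ e))) • e := hA2 x
    obtain ⟨r, hr⟩ := hp2 _ hx
    rw [hx', add_assoc, ← add_smul] at hr
    refine ⟨((d2 - 1) * ((e ⬝ᵥ x) / (e ⬝ᵥ e)) + r - (d1 - 1) * ((e ⬝ᵥ x) / (e ⬝ᵥ e))) / d1, ?_⟩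
    rw [mem_preimage, hadd1]
    convert hr using 3
    field_simp
    ring

/-- points of `K` lift to all deformed polytopes, with the same speed -/
theorem path_lift {p : ι → V3} (e : V3) (β : ι → ℝ) {x : V3} (hx : x ∈ convexHull ℝ (range p)) :
    ∃ r : ℝ, ∀ t : ℝ, x + (t * r) • e ∈ convexHull ℝ (range fun i => p i + (t * β i) • e) := by
  obtain ⟨w, hw0, hw1, rfl⟩ := df_mem_hull.mp hx
  refine ⟨∑ i, w i * β i, fun t => ?_⟩
  rw [df_mem_hull]
  refine ⟨w, hw0, hw1, ?_⟩
  rw [Finset.mul_sum, Finset.sum_smul, ← Finset.sum_add_distrib]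
  apply Finset.sum_congr rfl
  intro i _
  rw [smul_add, smul_smul]
  congr 2
  ring

/-- addition of the inequalities for `t1` and `-t2` -/
theorem path_add {p : ι → V3} {q : κ → V3} (h : Pres p q) {e : V3} {a : κ → V3} {x : V3} {r : ℝ}
    {t1 t2 : ℝ} (ht1 : 0 < t1) (ht2 : 0 < t2)
    (h1 : x + (t1 * r) • e ∈ dfH q e a t1) (h2 : x - (t2 * r) • e ∈ dfH q e a (-t2)) :
    x ∈ convexHull ℝ (range p) := by
  rw [h]
  intro j
  have h3 := h1 j
  have h4 := h2 j
  rw [dotProduct_add, dotProduct_add, dotProduct_smul, dotProduct_smul] at h3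
  rw [dotProduct_sub, dotProduct_sub, dotProduct_smul, dotProduct_smul] at h4
  simp only [smul_eq_mul] at h3 h4
  have h5 := mul_le_mul_of_nonneg_left h3 ht2.le
  have h6 := mul_le_mul_of_nonneg_left h4 ht1.le
  have h7 : (t1 + t2) * (q j ⬝ᵥ x) ≤ (t1 + t2) * 1 := by
    have h8 := add_le_add h5 h6
    have e1 : t2 * ((1 + t1 * a j ⬝ᵥ e) * (q j ⬝ᵥ x + t1 * r * q j ⬝ᵥ e) -
        t1 * q j ⬝ᵥ e * (a j ⬝ᵥ x + t1 * r * a j ⬝ᵥ e)) +
        t1 * ((1 + -t2 * a j ⬝ᵥ e) * (q j ⬝ᵥ x - t2 * r * q j ⬝ᵥ e) -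
        -t2 * q j ⬝ᵥ e * (a j ⬝ᵥ x - t2 * r * a j ⬝ᵥ e)) = (t1 + t2) * (q j ⬝ᵥ x) := by
      ring
    have e2 : t2 * (1 + t1 * a j ⬝ᵥ e) + t1 * (1 + -t2 * a j ⬝ᵥ e) = (t1 + t2) * 1 := by
      ring
    rw [e1, e2] at h8
    exact h8
  exact le_of_mul_le_mul_left h7 (by positivity)

theorem Motion.path_sum {p : ι → V3} {q : κ → V3} (h : Pres p q) {e : V3} {β : ι → ℝ}
    {a : κ → V3} (hm : Motion p q e β a) {t1 t2 : ℝ} (h1 : 0 < t1) (h1' : t1 ≤ 1) (h2 : 0 < t2)
    (h2' : t2 ≤ 1) {c : ℝ}
    (hg1 : GoodC c (convexHull ℝ (range fun i => p i + (t1 * β i) • e)))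
    (hg2 : GoodC c (convexHull ℝ (range fun i => p i + (-t2 * β i) • e))) :
    GoodC c (convexHull ℝ (range p)) := by
  have habs1 : |t1| ≤ 1 := by rw [abs_of_pos h1]; exact h1'
  have habs2 : |-t2| ≤ 1 := by rw [abs_neg, abs_of_pos h2]; exact h2'
  -- transport between two members of the path
  have htr : ∀ s s' : ℝ, ∀ x ∈ convexHull ℝ (range fun i => p i + (s * β i) • e),
      ∃ r : ℝ, x + r • e ∈ convexHull ℝ (range fun i => p i + (s' * β i) • e) := by
    intro s s' x hx
    obtain ⟨r, hr⟩ := df_proj e β hx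
    obtain ⟨r', hr'⟩ := path_lift e β hr
    refine ⟨r + s' * r', ?_⟩
    have := hr' s'
    rwa [add_assoc, ← add_smul] at this
  refine fiber_sum_weighted hm.e_ne h1 h2 (df_isCompact_hull p)
    (df_isCompact_hull _) (convex_convexHull ℝ _) (hm.path_interior h t1)
    (df_isCompact_hull _) (convex_convexHull ℝ _) (hm.path_interior h (-t2)) ?_
    (htr _ _) (htr _ _) hg1 hg2
  intro x
  constructor
  · intro hx
    obtain ⟨r, hr⟩ := path_lift e β hx
    refine ⟨r, hr t1, ?_⟩
    have := hr (-t2)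
    rwa [neg_mul, neg_smul, ← sub_eq_add_neg] at this
  · rintro ⟨r, h3, h4⟩
    exact path_add h h1 h2 (df_sub hm habs1 h3) (df_sub hm habs2 h4)

/-! ### Continuity of volume and defect along a path -/

section Volume

/-- points outside the hull stay outside -/
theorem hull_eventually_not_mem {P : ℝ → ι → V3} (hP : ∀ i, Continuous fun t => P t i) {t0 : ℝ}
    {x : V3} (hx : x ∉ convexHull ℝ (range (P t0))) :
    ∀ᶠ t in 𝓝 t0, x ∉ convexHull ℝ (range (P t)) := by
  have hW : IsCompact (stdSimplex ℝ ι) := isCompact_stdSimplex ℝ ι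
  have hcont : Continuous fun z : ℝ × (ι → ℝ) => ∑ i, z.2 i • P z.1 i := by
    apply continuous_finsetSum
    intro i _
    exact ((continuous_apply i).comp continuous_snd).smul ((hP i).comp continuous_fst)
  have key : ∀ᶠ t in 𝓝 t0, ∀ w ∈ stdSimplex ℝ ι, ∑ i, w i • P t i ≠ x := by
    refine hW.eventually_forall_of_forall_eventually (P := fun t w => ∑ i, w i • P t i ≠ x) ?_
    intro w hw
    have hne : ∑ i, w i • P t0 i ≠ x := by
      intro heq
      exact hx (df_mem_hull.mpr ⟨w, hw.1, hw.2, heq⟩)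
    exact (hcont.continuousAt (x := (t0, w))).eventually_ne hne
  filter_upwards [key] with t ht hmem
  obtain ⟨w, hw0, hw1, hw⟩ := df_mem_hull.mp hmem
  exact ht w ⟨hw0, hw1⟩ hw

/-- interior points of the hull stay inside -/
theorem hull_eventually_mem {P : ℝ → ι → V3} (hP : ∀ i, Continuous fun t => P t i) {t0 : ℝ}
    {x : V3} (hx : x ∈ interior (convexHull ℝ (range (P t0)))) :
    ∀ᶠ t in 𝓝 t0, x ∈ convexHull ℝ (range (P t)) := by
  have hne : Nonempty ι := by
    have : (convexHull ℝ (range (P t0))).Nonempty := ⟨x, interior_subset hx⟩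
    rw [convexHull_nonempty_iff] at this
    exact range_nonempty_iff_nonempty.mp this
  have hS : IsCompact (Metric.sphere (0 : V3) 1) := isCompact_sphere 0 1
  have key : ∀ᶠ t in 𝓝 t0, ∀ u ∈ Metric.sphere (0 : V3) 1, ∃ i, u ⬝ᵥ x < u ⬝ᵥ P t i := by
    refine hS.eventually_forall_of_forall_eventually
      (P := fun t u => ∃ i, u ⬝ᵥ x < u ⬝ᵥ P t i) ?_
    intro u hu
    have hu0 : u ≠ 0 := by
      rintro rfl
      simp only [mem_sphere_iff_norm, sub_self, norm_zero, zero_ne_one] at hu
    obtain ⟨i, hi⟩ : ∃ i, u ⬝ᵥ x < u ⬝ᵥ P t0 i := by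
      by_contra hcon
      push Not at hcon
      have h2 : convexHull ℝ (range (P t0)) ⊆ {y | u ⬝ᵥ y ≤ u ⬝ᵥ x} := by
        apply convexHull_min
        · rintro y ⟨i, rfl⟩; exact hcon i
        · intro y hy z hz c d hc hd hcd
          simp only [mem_ofPred_eq] at hy hz ⊢
          rw [dotProduct_add, dotProduct_smul, dotProduct_smul]
          simp only [smul_eq_mul]
          have h3 := mul_le_mul_of_nonneg_left hy hc
          have h4 := mul_le_mul_of_nonneg_left hz hd
          have h5 : c * (u ⬝ᵥ x) + d * (u ⬝ᵥ x) = u ⬝ᵥ x := by rw [← add_mul, hcd, one_mul]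
          linarith only [h3, h4, h5]
      have h3 : ∀ᶠ s : ℝ in 𝓝 0, x + s • u ∈ convexHull ℝ (range (P t0)) := by
        have hcont : Continuous fun s : ℝ => x + s • u := by fun_prop
        have : Filter.Tendsto (fun s : ℝ => x + s • u) (𝓝 0) (𝓝 x) := by
          have := hcont.tendsto 0
          simpa only [zero_smul, add_zero] using this
        exact this (mem_interior_iff_mem_nhds.mp hx)
      obtain ⟨s, hs1, hs2⟩ := ((h3.filter_mono nhdsWithin_le_nhds).and
        (self_mem_nhdsWithin (s := Ioi (0 : ℝ)))).exists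
      have h4 := h2 hs1
      simp only [mem_ofPred_eq] at h4
      rw [dotProduct_add, dotProduct_smul, smul_eq_mul] at h4
      have h6 : 0 < s * (u ⬝ᵥ u) := mul_pos hs2 (df_ee hu0)
      linarith only [h4, h6]
    have hc1 : Continuous fun z : ℝ × V3 => z.2 ⬝ᵥ x := by
      unfold dotProduct; fun_prop
    have hc2 : Continuous fun z : ℝ × V3 => z.2 ⬝ᵥ P z.1 i := by
      have h1 := (hP i).comp (continuous_fst (X := ℝ) (Y := V3))
      have h2 : ∀ k, Continuous fun z : ℝ × V3 => P z.1 i k := fun k =>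
        (continuous_apply k).comp h1
      unfold dotProduct
      exact continuous_finsetSum _ fun k _ =>
        ((continuous_apply k).comp continuous_snd).mul (h2 k)
    have := (hc1.continuousAt (x := (t0, u))).eventually_lt (hc2.continuousAt (x := (t0, u))) hi
    filter_upwards [this] with z hz
    exact ⟨i, hz⟩
  filter_upwards [key] with t ht
  by_contra hcon
  obtain ⟨f, v, hf1, hf2⟩ := geometric_hahn_banach_point_closed
    (convex_convexHull ℝ (range (P t))) (df_isCompact_hull (P t)).isClosed hcon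
  obtain ⟨m, hm⟩ := df_functional (f : V3 →ₗ[ℝ] ℝ)
  have hm' : ∀ y, f y = m ⬝ᵥ y := hm
  have hlt : ∀ i, m ⬝ᵥ x < m ⬝ᵥ P t i := by
    intro i
    rw [← hm', ← hm']
    exact hf1.trans (hf2 _ (subset_convexHull ℝ _ (mem_range_self i)))
  have hm0 : m ≠ 0 := by
    rintro rfl
    obtain ⟨i⟩ := hne
    have := hlt i
    simp at this
  have hn : 0 < ‖m‖ := norm_pos_iff.mpr hm0
  obtain ⟨i, hi⟩ := ht (-(‖m‖⁻¹) • m) (by
    rw [mem_sphere_zero_iff_norm, norm_smul, norm_neg, norm_inv, norm_norm,
      inv_mul_cancel₀ hn.ne'])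
  have h5 := hlt i
  rw [smul_dotProduct, smul_dotProduct, smul_eq_mul, smul_eq_mul] at hi
  have h6 : 0 < ‖m‖⁻¹ := inv_pos.mpr hn
  nlinarith only [hi, h5, h6]

theorem tendsto_volume_hull {P : ℝ → ι → V3} (hP : ∀ i, Continuous fun t => P t i) (t0 : ℝ) :
    Tendsto (fun t => volume (convexHull ℝ (range (P t)))) (𝓝 t0)
      (𝓝 (volume (convexHull ℝ (range (P t0))))) := by
  obtain ⟨R, hR⟩ : ∃ R : ℝ, ∀ i, ‖P t0 i‖ < R := by
    refine ⟨∑ i, ‖P t0 i‖ + 1, fun i => ?_⟩
    have := Finset.single_le_sum (f := fun i => ‖P t0 i‖) (fun i _ => norm_nonneg _)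
      (Finset.mem_univ i)
    linarith
  refine tendsto_measure_of_ae_tendsto_indicator (𝓝 t0) (B := Metric.closedBall (0 : V3) R)
    (df_isCompact_hull _).measurableSet (fun t => (df_isCompact_hull _).measurableSet)
    measurableSet_closedBall ?_ ?_ ?_
  · exact (isCompact_closedBall (0 : V3) R).measure_lt_top.ne
  · have h1 : ∀ᶠ t in 𝓝 t0, ∀ i, ‖P t i‖ < R := by
      rw [Filter.eventually_all]
      intro i
      exact (((hP i).norm).tendsto t0).eventually_lt_const (hR i)
    filter_upwards [h1] with t ht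
    apply convexHull_min _ (convex_closedBall (0 : V3) R)
    rintro y ⟨i, rfl⟩
    rw [mem_closedBall_zero_iff]
    exact (ht i).le
  · have hfr : volume (frontier (convexHull ℝ (range (P t0)))) = 0 :=
      (convex_convexHull ℝ _).addHaar_frontier volume
    have hae : ∀ᵐ x ∂(volume : Measure V3), x ∉ frontier (convexHull ℝ (range (P t0))) :=
      measure_eq_zero_iff_ae_notMem.mp hfr
    filter_upwards [hae] with x hx
    by_cases hmem : x ∈ convexHull ℝ (range (P t0))
    · have hint : x ∈ interior (convexHull ℝ (range (P t0))) := by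
        by_contra hcon
        exact hx ⟨subset_closure hmem, hcon⟩
      filter_upwards [hull_eventually_mem hP hint] with t ht
      exact ⟨fun _ => hmem, fun _ => ht⟩
    · filter_upwards [hull_eventually_not_mem hP hmem] with t ht
      exact ⟨fun h => absurd h ht, fun h => absurd h hmem⟩

theorem continuous_simpVol : Continuous simpVol := by
  unfold simpVol
  apply Continuous.div_const
  apply Continuous.abs
  apply Continuous.matrix_det
  apply continuous_matrix
  intro i j
  simp only [Matrix.of_apply, Pi.sub_apply]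
  fun_prop

theorem continuous_mval_hull {P : ℝ → ι → V3} (hP : ∀ i, Continuous fun t => P t i) :
    Continuous fun t => mval (convexHull ℝ (range (P t))) := by
  set W : Set (Fin 4 → ι → ℝ) := Set.pi univ fun _ => stdSimplex ℝ ι with hW
  have hWc : IsCompact W := isCompact_univ_pi fun _ => isCompact_stdSimplex ℝ ι
  have hcont : Continuous fun z : ℝ × (Fin 4 → ι → ℝ) =>
      simpVol fun k => ∑ i, z.2 k i • P z.1 i := by
    have hF : Continuous fun z : ℝ × (Fin 4 → ι → ℝ) =>
        (fun k => ∑ i, z.2 k i • P z.1 i : Fin 4 → V3) := by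
      apply continuous_pi
      intro k
      apply continuous_finsetSum
      intro i _
      have h1 : Continuous fun z : ℝ × (Fin 4 → ι → ℝ) => z.2 k i := by fun_prop
      exact h1.smul ((hP i).comp continuous_fst)
    exact continuous_simpVol.comp hF
  have hmain := hWc.continuous_sSup
    (f := fun (t : ℝ) (w : Fin 4 → ι → ℝ) => simpVol fun k => ∑ i, w k i • P t i) hcont
  convert hmain using 2 with t
  unfold mval
  congr 1
  ext v
  constructor
  · rintro ⟨x, hx, rfl⟩
    choose w hw0 hw1 hw using fun k => df_mem_hull.mp (hx k)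
    refine ⟨w, fun k _ => ⟨hw0 k, hw1 k⟩, ?_⟩
    simp only [hw]
  · rintro ⟨w, hw, rfl⟩
    refine ⟨fun k => ∑ i, w k i • P t i, fun k => ?_, rfl⟩
    have := hw k (mem_univ k)
    exact df_mem_hull.mpr ⟨w k, this.1, this.2, rfl⟩

theorem mval_ne_zero_of_interior {K : Set V3} (hK : IsCompact K) (hi : (interior K).Nonempty) :
    mval K ≠ 0 := by
  obtain ⟨x, hx⟩ := hi
  have h1 : ∀ k : Fin 3, ∀ᶠ s : ℝ in 𝓝 0, x + s • (Pi.single k 1 : V3) ∈ K := by
    intro k
    have hcont : Continuous fun s : ℝ => x + s • (Pi.single k 1 : V3) := by fun_prop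
    have : Filter.Tendsto (fun s : ℝ => x + s • (Pi.single k 1 : V3)) (𝓝 0) (𝓝 x) := by
      have := hcont.tendsto 0
      simpa only [zero_smul, add_zero] using this
    exact this (mem_interior_iff_mem_nhds.mp hx)
  have h2 : ∀ᶠ s : ℝ in 𝓝 0, ∀ k : Fin 3, x + s • (Pi.single k 1 : V3) ∈ K :=
    Filter.eventually_all.mpr h1
  obtain ⟨s, hs1, hs2⟩ := ((h2.filter_mono nhdsWithin_le_nhds).and
    (self_mem_nhdsWithin (s := Ioi (0 : ℝ)))).exists
  have hs0 : 0 < s := hs2
  set y : Fin 4 → V3 := Fin.cons x fun k => x + s • (Pi.single k 1 : V3) with hy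
  have hyK : ∀ i, y i ∈ K := by
    intro i
    refine Fin.cases ?_ (fun k => ?_) i
    · exact interior_subset hx
    · exact hs1 k
  have hval : simpVol y = s ^ 3 / 6 := by
    unfold simpVol
    have hM : (Matrix.of fun i : Fin 3 => y i.succ - y 0) = s • (1 : Matrix (Fin 3) (Fin 3) ℝ) := by
      ext i j
      simp only [hy, Fin.cons_succ, Fin.cons_zero, Matrix.of_apply, Pi.sub_apply, Pi.add_apply, Pi.smul_apply, smul_eq_mul, Matrix.smul_apply]
      rw [Matrix.one_apply, Pi.single_apply]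
      simp only [eq_comm (a := j)]
      ring
    rw [hM, Matrix.det_smul, Matrix.det_one, Fintype.card_fin, mul_one, abs_of_pos (by positivity)]
  have hbdd : BddAbove (simpVol '' {x | ∀ i, x i ∈ K}) := by
    have hc : IsCompact {x : Fin 4 → V3 | ∀ i, x i ∈ K} := by
      have : {x : Fin 4 → V3 | ∀ i, x i ∈ K} = Set.pi univ fun _ => K := by
        ext x; simp only [mem_ofPred_eq, Set.mem_pi, mem_univ, forall_const]
      rw [this]
      exact isCompact_univ_pi fun _ => hK
    exact (hc.image continuous_simpVol).bddAbove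
  have h3 : s ^ 3 / 6 ≤ mval K := by
    rw [← hval]
    exact le_csSup hbdd ⟨y, hyK, rfl⟩
  have h4 : 0 < s ^ 3 / 6 := by positivity
  exact (h4.trans_le h3).ne'

end Volume

theorem Motion.path_defect {p : ι → V3} {q : κ → V3} (h : Pres p q) {e : V3} {β : ι → ℝ}
    {a : κ → V3} (hm : Motion p q e β a) :
    ContinuousOn (fun t : ℝ => defect (convexHull ℝ (range fun i => p i + (t * β i) • e)))
      (Icc (-1) 1) := by
  apply Continuous.continuousOn
  have hP : ∀ i, Continuous fun t : ℝ => p i + (t * β i) • e := by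
    intro i
    fun_prop
  have hvol : Continuous fun t : ℝ =>
      (volume (convexHull ℝ (range fun i => p i + (t * β i) • e))).toReal := by
    rw [continuous_iff_continuousAt]
    intro t0
    refine (ENNReal.tendsto_toReal ?_).comp (tendsto_volume_hull hP t0)
    exact (df_isCompact_hull _).measure_lt_top.ne
  unfold defect
  refine (hvol.div (continuous_mval_hull hP) fun t => ?_).sub continuous_const
  exact mval_ne_zero_of_interior (df_isCompact_hull _) (hm.path_interior h t)

end Vale.Agent.P248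
end
end
end

section

section

section

/-! The Mahler inequality in dimension three with a gain for bodies that are far from simplices. -/

set_option linter.unusedSectionVars false

open MeasureTheory Set
open scoped ENNReal Topology Matrix

namespace Vale.Agent.P248

theorem local_std {K : Set V3} (hK : IsCompact K) (hc : Convex ℝ K) (hS : stdS (Fin 3) ⊆ K)
    (h1 : ∀ x ∈ K, ∀ i, lam i x ≤ 1) {a : ℝ} (ha : 0 ≤ a) (ha1 : a ≤ a0)
    (hv : volume K = ENNReal.ofReal ((1 + a) / 6)) : GoodC (64 / 9 * (1 + a / 10)) K :=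
  local_std_of loss_bound phi_bound lam_ge gain_bound hK hc hS h1 ha ha1 hv

/-- The local theorem: near simplices the volume product grows linearly with the defect. -/
theorem local_good {K : Set V3} (hK : IsCompact K) (hc : Convex ℝ K)
    (hi : (interior K).Nonempty) (hd : defect K ≤ a0) :
    GoodC (64 / 9 * (1 + defect K / 10)) K :=
  local_good_of_std local_std hK hc hi hd

theorem dual_defect {L : Set V3} (hL : IsCompact L) (hc : Convex ℝ L)
    (h0 : (0 : V3) ∈ interior L) (hd : defect L < da)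
    (hv : volume L * volume (polarP L 0) < ENNReal.ofReal c1) : defect (polarP L 0) < a0 :=
  dual_defect_of (fun _ hK hc hS _ ha hv => lam_ge hK hc hS ha hv) hL hc h0 hd hv

variable {ι κ : Type} [Fintype ι] [Fintype κ]

/-- The gain: if the defect is at least `da`, then the volume product is at least `c1`. -/
def Gain (K : Set V3) : Prop := da ≤ defect K → GoodC c1 K

theorem Gain.of_local {K : Set V3} (hK : IsCompact K) (hc : Convex ℝ K)
    (hi : (interior K).Nonempty) (hd : defect K ≤ a0) : Gain K := by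
  intro h
  refine (local_good hK hc hi hd).mono ?_
  unfold c1
  gcongr

theorem Gain.translate {K : Set V3} (z : V3) (h : Gain ((fun x => x - z) '' K)) : Gain K := by
  intro hd
  rw [← defect_translate z] at hd
  exact (h hd).translate z

theorem a0_pos : 0 < a0 := by unfold a0; norm_num

theorem da_pos : 0 < da := by unfold da; have := a0_pos; positivity

theorem da_lt_a0 : da < a0 := by unfold da; have := a0_pos; linarith

theorem c1_gt : 64 / 9 < c1 := by unfold c1; have := da_pos; linarith only [this]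

/-- A polytope with four vertices has defect zero. -/
theorem defect_simplex {p : ι → V3} (h4 : Fintype.card ι = 4)
    (hi : (interior (convexHull ℝ (range p))).Nonempty) : defect (convexHull ℝ (range p)) = 0 := by
  classical
  let e := Fintype.equivFinOfCardEq h4
  have hr : range p = range (p ∘ e.symm) := by
    rw [range_comp, e.symm.surjective.range_eq, image_univ]
  refine le_antisymm ?_ (defect_nonneg (isCompact_hull p) (convex_convexHull ℝ _) hi)
  have h1 : simpVol (p ∘ e.symm) ≤ mval (convexHull ℝ (range p)) :=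
    le_mval (isCompact_hull p) fun i => subset_convexHull ℝ _ ⟨_, rfl⟩
  have h2 : (volume (convexHull ℝ (range p))).toReal = simpVol (p ∘ e.symm) := by
    rw [hr]; exact simpVol_eq
  have h3 := mval_pos (isCompact_hull p) hi
  unfold defect
  rw [sub_nonpos, div_le_one h3, h2]
  exact h1

/-- At one side of the motion we can stop at a polytope for which the gain is known. -/
theorem exists_stop {F : ℝ → Set V3} (hF : ContinuousOn (fun t => defect (F t)) (Icc 0 1))
    (hcpt : ∀ t, IsCompact (F t)) (hcv : ∀ t, Convex ℝ (F t))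
    (hint : ∀ t, (interior (F t)).Nonempty) (h0 : a0 < defect (F 0)) (h1 : Gain (F 1)) :
    ∃ t, 0 < t ∧ t ≤ 1 ∧ GoodC c1 (F t) := by
  rcases le_or_gt da (defect (F 1)) with hd | hd
  · exact ⟨1, one_pos, le_rfl, h1 hd⟩
  · have hmem : a0 ∈ Icc (defect (F 1)) (defect (F 0)) :=
      ⟨(hd.trans da_lt_a0).le, h0.le⟩
    obtain ⟨t, ht, hta⟩ := intermediate_value_Icc' zero_le_one hF hmem
    have ht0 : t ≠ 0 := by
      rintro rfl
      simp only at hta
      rw [hta] at h0
      exact lt_irrefl _ h0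
    have hta' : defect (F t) = a0 := hta
    exact ⟨t, lt_of_le_of_ne ht.1 (Ne.symm ht0), ht.2,
      Gain.of_local (hcpt t) (hcv t) (hint t) hta'.le (by rw [hta']; exact da_lt_a0.le)⟩

theorem gain_of_irred_step {p : ι → V3} {q : κ → V3} (h : Pres p q) (hi : Irred p q)
    (h1 : Fintype.card ι ≤ Fintype.card κ) (h2 : 5 ≤ Fintype.card ι)
    (IH : ∀ (p' : ι → V3) (q' : κ → V3), Pres p' q' → inc p q < inc p' q' →
      Gain (convexHull ℝ (range p'))) : Gain (convexHull ℝ (range p)) := by
  rcases le_or_gt (defect (convexHull ℝ (range p))) a0 with hd | hd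
  · exact Gain.of_local (isCompact_hull p) (convex_convexHull ℝ _) ⟨0, h.zero_mem_interior⟩ hd
  intro _
  obtain ⟨e, β, a, hm⟩ := exists_motion h hi h1 h2
  have hspan := h.span_facet hi
  have key : ∀ t : ℝ, t = 1 ∨ t = -1 →
      Gain (convexHull ℝ (range fun i => p i + (t * β i) • e)) := by
    intro t ht
    obtain ⟨z, q', hq', hinc⟩ := hm.deform h hspan ht
    have := IH _ _ hq' hinc
    rw [hull_translate] at this
    exact this.translate z
  have hpd := hm.path_defect h
  have hz : (convexHull ℝ (range fun i => p i + ((0 : ℝ) * β i) • e)) =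
      convexHull ℝ (range p) := by simp
  obtain ⟨t1, ht1, ht1', hg1⟩ := exists_stop
    (F := fun t => convexHull ℝ (range fun i => p i + (t * β i) • e))
    (hpd.mono (Icc_subset_Icc (by norm_num) le_rfl)) (fun t => isCompact_hull _)
    (fun t => convex_convexHull ℝ _) (fun t => hm.path_interior h t)
    (by rw [hz]; exact hd) (key 1 (Or.inl rfl))
  obtain ⟨t2, ht2, ht2', hg2⟩ := exists_stop
    (F := fun t => convexHull ℝ (range fun i => p i + (-t * β i) • e))
    (by
      have : ContinuousOn ((fun t : ℝ => defect (convexHull ℝ (range fun i =>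
          p i + (t * β i) • e))) ∘ (fun t : ℝ => -t)) (Icc 0 1) := by
        refine hpd.comp continuous_neg.continuousOn ?_
        intro t ht
        exact ⟨by linarith only [ht.2], by linarith only [ht.1]⟩
      exact this) (fun t => isCompact_hull _)
    (fun t => convex_convexHull ℝ _) (fun t => hm.path_interior h (-t))
    (by simp only [neg_zero]; rw [hz]; exact hd) (key (-1) (Or.inr rfl))
  exact hm.path_sum h ht1 ht1' ht2 ht2' hg1 hg2

theorem gain_step_le {p : ι → V3} {q : κ → V3} (h : Pres p q) (hi : Irred p q)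
    (h1 : Fintype.card ι ≤ Fintype.card κ)
    (IH : ∀ (p' : ι → V3) (q' : κ → V3), Pres p' q' → inc p q < inc p' q' →
      Gain (convexHull ℝ (range p'))) : Gain (convexHull ℝ (range p)) := by
  have h4 := card_ge_four ⟨0, h.zero_mem_interior⟩
  rcases Nat.lt_or_ge 4 (Fintype.card ι) with h5 | h5
  · exact gain_of_irred_step h hi h1 h5 IH
  · intro hd
    rw [defect_simplex (le_antisymm h5 h4) ⟨0, h.zero_mem_interior⟩] at hd
    exact absurd hd (not_le.mpr da_pos)

theorem hull_sub_eq (p : ι → V3) (z : V3) :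
    convexHull ℝ (range fun i => p i - z) = (fun x => x - z) '' convexHull ℝ (range p) :=
  hull_translate p z

theorem Gain.of_dual {p : ι → V3} {q : κ → V3} (h : Pres p q)
    (hd : ∀ z ∈ interior (convexHull ℝ (range p)),
      Gain (convexHull ℝ (range fun j => (1 - q j ⬝ᵥ z)⁻¹ • q j))) :
    Gain (convexHull ℝ (range p)) := by
  intro hda z hz
  have hr := h.recenter hz
  have hi : (interior (convexHull ℝ (range p))).Nonempty := ⟨z, hz⟩
  -- volume of the translate
  have h2 : volume (convexHull ℝ (range fun i => p i - z)) = volume (convexHull ℝ (range p)) := by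
    have : convexHull ℝ (range fun i => p i - z) = (fun x => x + z) ⁻¹' (convexHull ℝ (range p)) := by
      ext x; rw [mem_hull_translate]; rfl
    rw [this, measure_preimage_add_right]
  have h3 : polarP (convexHull ℝ (range p)) z = convexHull ℝ (range fun j => (1 - q j ⬝ᵥ z)⁻¹ • q j) := by
    rw [← hr.polar]
    ext y
    constructor
    · intro hy x hx
      rw [mem_hull_translate] at hx
      have := hy _ hx
      simpa only [Pi.zero_apply, sub_zero, ge_iff_le, Pi.add_apply, add_sub_cancel_right] using this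
    · intro hy x hx
      have hx' : x - z ∈ convexHull ℝ (range fun i => p i - z) := by
        rw [mem_hull_translate]; simpa using hx
      have := hy _ hx'
      simpa only [ge_iff_le, Pi.sub_apply, Pi.zero_apply, sub_zero] using this
  rw [h3]
  by_contra hcon
  rw [not_le] at hcon
  set L := convexHull ℝ (range fun j => (1 - q j ⬝ᵥ z)⁻¹ • q j) with hL
  have hLp : polarP L 0 = convexHull ℝ (range fun i => p i - z) := hr.dual.polar
  have hcon' : volume L * volume (polarP L 0) < ENNReal.ofReal c1 := by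
    rw [hLp, h2, mul_comm]; exact hcon
  have hLint : (0 : V3) ∈ interior L := hr.dual.zero_mem_interior
  rcases le_or_gt da (defect L) with hdL | hdL
  · exact absurd (hd z hz hdL 0 hLint) (not_le.mpr hcon')
  · have h5 := dual_defect (isCompact_hull _) (convex_convexHull ℝ _) hLint hdL hcon'
    rw [hLp, hull_sub_eq, defect_translate] at h5
    have h6 := Gain.of_local (isCompact_hull p) (convex_convexHull ℝ _) hi h5.le hda z hz
    rw [h3] at h6
    exact absurd h6 (not_le.mpr hcon)

theorem gain_of_pres_aux (N : ℕ) : ∀ M : ℕ, ∀ (ι κ : Type) [Fintype ι] [Fintype κ]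
    (p : ι → V3) (q : κ → V3), Pres p q → Fintype.card ι + Fintype.card κ = N →
    Fintype.card ι * Fintype.card κ - inc p q = M → Gain (convexHull ℝ (range p)) := by
  classical
  induction N using Nat.strong_induction_on with
  | _ N ihN =>
    intro M
    induction M using Nat.strong_induction_on with
    | _ M ihM =>
      intro ι κ _ _ p q h hN hM
      by_cases hi : Irred p q
      · -- irredundant
        have IH : ∀ (p' : ι → V3) (q' : κ → V3), Pres p' q' → inc p q < inc p' q' →
            Gain (convexHull ℝ (range p')) := by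
          intro p' q' h' hinc
          have h3 := inc_le p' q'
          exact ihM _ (by (clear * - hM hinc h3; omega)) ι κ p' q' h' hN rfl
        rcases le_or_gt (Fintype.card ι) (Fintype.card κ) with hle | hlt
        · exact gain_step_le h hi hle IH
        · refine Gain.of_dual h fun z hz => ?_
          have hr := h.recenter hz
          have hinc := inc_recenter h hz
          by_cases hi2 : Irred (fun j => (1 - q j ⬝ᵥ z)⁻¹ • q j) (fun i => p i - z)
          · refine gain_step_le hr.dual hi2 hlt.le ?_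
            intro p' q' h' hinc'
            rw [inc_dual, hinc] at hinc'
            have h3 := inc_le p' q'
            refine ihM _ ?_ κ ι p' q' h' (by omega) rfl
            rw [← hM, mul_comm (Fintype.card κ)]
            rw [mul_comm] at h3
            (clear * - hM hinc' h3; omega)
          · -- redundant: smaller presentation
            exact gain_of_not_irred hr.dual hi2 fun ι' κ' _ _ p' q' h' hlt' =>
              ihN _ (by omega) _ ι' κ' p' q' h' rfl rfl
      · exact gain_of_not_irred h hi fun ι' κ' _ _ p' q' h' hlt' =>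
              ihN _ (by omega) _ ι' κ' p' q' h' rfl rfl
where
  gain_of_not_irred {ι κ : Type} [Fintype ι] [Fintype κ] {p : ι → V3} {q : κ → V3} (h : Pres p q)
    (hi : ¬ Irred p q) (ih : ∀ (ι' κ' : Type) [Fintype ι'] [Fintype κ'] (p' : ι' → V3)
      (q' : κ' → V3), Pres p' q' →
      Fintype.card ι' + Fintype.card κ' < Fintype.card ι + Fintype.card κ →
      Gain (convexHull ℝ (range p'))) : Gain (convexHull ℝ (range p)) := by
    classical
    have h1 : (∃ i, Pres (fun i' : {i' : ι // i' ≠ i} => p i'.1) q) ∨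
        (∃ j, Pres p (fun j' : {j' : κ // j' ≠ j} => q j'.1)) := by
      by_contra hcon
      push Not at hcon
      exact hi ⟨hcon.1, hcon.2⟩
    rcases h1 with ⟨i, h1⟩ | ⟨j, h1⟩
    · have h2 : convexHull ℝ (range p) =
          convexHull ℝ (range (fun i' : {i' : ι // i' ≠ i} => p i'.1)) := by rw [h, h1]
      rw [h2]
      refine ih _ _ _ _ h1 ?_
      have : Fintype.card {i' : ι // i' ≠ i} < Fintype.card ι :=
        Fintype.card_subtype_lt (x := i) (by simp)
      omega
    · refine ih _ _ _ _ h1 ?_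
      have : Fintype.card {j' : κ // j' ≠ j} < Fintype.card κ :=
        Fintype.card_subtype_lt (x := j) (by simp)
      omega

theorem gain_of_pres {p : ι → V3} {q : κ → V3} (h : Pres p q) :
    Gain (convexHull ℝ (range p)) :=
  gain_of_pres_aux _ _ ι κ p q h rfl rfl

theorem gain_polytope {p : ι → V3} (hi : (interior (convexHull ℝ (range p))).Nonempty) :
    Gain (convexHull ℝ (range p)) := by
  obtain ⟨z, hz⟩ := hi
  refine Gain.translate z ?_
  rw [← hull_translate]
  obtain ⟨κ, _, q, hq⟩ := exists_pres (p := fun i => p i - z) (by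
    rw [hull_translate]
    have h3 : (fun x : V3 => x - z) '' (convexHull ℝ (range p)) =
          (Homeomorph.subRight z) '' (convexHull ℝ (range p)) := rfl
    rw [h3, ← Homeomorph.image_interior]
    exact ⟨z, hz, by simp⟩)
  exact gain_of_pres hq

/-- Every polytope satisfies a stable form of the Mahler inequality. -/
theorem stable_polytope {p : ι → V3} (hi : (interior (convexHull ℝ (range p))).Nonempty) :
    GoodC (64 / 9 * (1 + min (defect (convexHull ℝ (range p))) da / 10))
      (convexHull ℝ (range p)) := by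
  rcases le_or_gt da (defect (convexHull ℝ (range p))) with h | h
  · rw [min_eq_right h]
    exact gain_polytope hi h
  · rw [min_eq_left h.le]
    exact local_good (isCompact_hull p) (convex_convexHull ℝ _) hi (h.le.trans da_lt_a0.le)

/-- Stability in the Mahler inequality of dimension three. -/
theorem stable_of_isConvexBody {K : Set V3} (hK : IsCompact K) (hc : Convex ℝ K)
    (hi : (interior K).Nonempty) : GoodC (64 / 9 * (1 + min (defect K / 2) da / 10)) K := by
  have hd0 := defect_nonneg hK hc hi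
  rcases hd0.eq_or_lt with h0 | hpos
  · -- defect zero
    refine goodC_of_approx hK hc one_pos fun ι _ p h1 _ _ => (stable_polytope h1).mono ?_
    have h3 := defect_nonneg (isCompact_hull p) (convex_convexHull ℝ _) h1
    have h4 : min (defect K / 2) da ≤ min (defect (convexHull ℝ (range p))) da := by
      refine min_le_min ?_ le_rfl
      rw [← h0]; simpa only [zero_div] using h3
    linarith
  · have hm := mval_pos hK hi
    refine goodC_of_approx hK hc (ε0 := defect K / (2 * (1 + defect K))) (by positivity)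
      fun ι _ p h1 h2 h3 => (stable_polytope h1).mono ?_
    have hm2 : mval (convexHull ℝ (range p)) ≤ mval K :=
      mval_mono hK (h1.mono interior_subset) h2
    have hm3 := mval_pos (isCompact_hull p) h1
    have hvK : (volume K).toReal = (1 + defect K) * mval K := by
      unfold defect; field_simp; ring
    have hvQ : (volume (convexHull ℝ (range p))).toReal =
        (1 + defect (convexHull ℝ (range p))) * mval (convexHull ℝ (range p)) := by
      unfold defect; field_simp; ring
    have h5 : (1 - defect K / (2 * (1 + defect K))) * (1 + defect K) = 1 + defect K / 2 := by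
      field_simp; ring
    have h6 : (1 + defect K / 2) * mval K ≤
        (1 + defect (convexHull ℝ (range p))) * mval K := by
      calc (1 + defect K / 2) * mval K
          = (1 - defect K / (2 * (1 + defect K))) * (volume K).toReal := by
            rw [hvK, ← mul_assoc, h5]
        _ ≤ (1 + defect (convexHull ℝ (range p))) * mval (convexHull ℝ (range p)) := by
            rw [← hvQ]; exact h3
        _ ≤ _ := by
            have := defect_nonneg (isCompact_hull p) (convex_convexHull ℝ _) h1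
            (clear * - hm2 this; gcongr)
    have h7 : defect K / 2 ≤ defect (convexHull ℝ (range p)) := by
      have := le_of_mul_le_mul_right h6 hm
      linarith only [this]
    have h4 : min (defect K / 2) da ≤ min (defect (convexHull ℝ (range p))) da :=
      min_le_min h7 le_rfl
    linarith only [h4]

end Vale.Agent.P248
end
end
end

section

section

section

/-!
# The general Mahler conjecture in dimension three, with its equality case and stability
-/

set_option linter.unusedSectionVars false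

open MeasureTheory Set
open scoped ENNReal Topology Matrix

namespace Vale.Agent.P248

/-- A convex body whose image in a frame is a hull of `n + 1` points is a simplex. -/
theorem isSimplex_of_frame {n : ℕ} {K : Set (EuclideanSpace ℝ (Fin n))} (hK : IsConvexBody K)
    (p : EuclideanSpace ℝ (Fin n)) (b : Module.Basis (Fin n) ℝ (EuclideanSpace ℝ (Fin n)))
    {v : Fin (n + 1) → Fin n → ℝ} (hv : frame p b ⁻¹' K = convexHull ℝ (range v)) :
    IsSimplex K := by
  obtain ⟨hh, hhe⟩ := frame_homeo p b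
  have hfun : frame p b = hh := funext fun u => (hhe u).symm
  have himg : K = convexHull ℝ (range (fun i => frame p b (v i))) := by
    let f : (Fin n → ℝ) →ᵃ[ℝ] EuclideanSpace ℝ (Fin n) :=
      b.equivFun.symm.toLinearMap.toAffineMap + AffineMap.const ℝ (Fin n → ℝ) p
    have hf : (f : (Fin n → ℝ) → EuclideanSpace ℝ (Fin n)) = frame p b := by
      funext u
      show b.equivFun.symm u + p = p + b.equivFun.symm u
      exact add_comm _ _
    have h3 : K = frame p b '' (frame p b ⁻¹' K) := by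
      rw [hfun, image_preimage_eq _ hh.surjective]
    rw [h3, hv, ← hf, AffineMap.image_convexHull, ← range_comp]
    rfl
  refine ⟨fun i => frame p b (v i), ?_, himg⟩
  have hKi := hK.2.2
  rw [himg] at hKi
  have hspan := interior_convexHull_nonempty_iff_affineSpan_eq_top.mp hKi
  refine (affineIndependent_iff_finrank_vectorSpan_eq ℝ _
    (by simp : Fintype.card (Fin (n + 1)) = n + 1)).mpr ?_
  have h1 : vectorSpan ℝ (range fun i => frame p b (v i)) = ⊤ := by
    rw [← direction_affineSpan, hspan, AffineSubspace.direction_top]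
  rw [h1, finrank_top]
  simp only [finrank_euclideanSpace, Fintype.card_fin]

/-- The standard frame of `ℝ³`. -/
noncomputable def stdB : Module.Basis (Fin 3) ℝ (EuclideanSpace ℝ (Fin 3)) :=
  (EuclideanSpace.basisFun (Fin 3) ℝ).toBasis

theorem frame_body {K : Set (EuclideanSpace ℝ (Fin 3))} (hK : IsConvexBody K) :
    IsCompact (frame 0 stdB ⁻¹' K) ∧ Convex ℝ (frame 0 stdB ⁻¹' K) ∧
      (interior (frame 0 stdB ⁻¹' K)).Nonempty := by
  refine ⟨frame_preimage_isCompact 0 stdB hK.1, frame_preimage_convex 0 stdB hK.2.1, ?_⟩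
  obtain ⟨hh, hhe⟩ := frame_homeo (0 : EuclideanSpace ℝ (Fin 3)) stdB
  have hfun : frame 0 stdB = hh := funext fun u => (hhe u).symm
  rw [frame_preimage_interior, hfun]
  obtain ⟨x, hx⟩ := hK.2.2
  obtain ⟨u, rfl⟩ := hh.surjective x
  exact ⟨u, hx⟩

/-- Stability in terms of the defect. -/
theorem volumeProduct_ge_defect {K : Set (EuclideanSpace ℝ (Fin 3))} (hK : IsConvexBody K) :
    ENNReal.ofReal (64 / 9 * (1 + min (defect (frame 0 stdB ⁻¹' K) / 2) da / 10)) ≤
      volumeProduct K := by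
  obtain ⟨h1, h2, h3⟩ := frame_body hK
  rw [volumeProduct_frame 0 stdB]
  exact le_iInf₂ fun u hu => stable_of_isConvexBody h1 h2 h3 u hu

theorem cst3 : (((3 : ℕ) : ℝ) + 1) ^ (3 + 1) / ((Nat.factorial 3 : ℕ) : ℝ) ^ 2 = 64 / 9 := by
  norm_num [Nat.factorial]

/-- **The general Mahler conjecture in dimension three.** -/
theorem mahler_three {K : Set (EuclideanSpace ℝ (Fin 3))} (hK : IsConvexBody K) :
    ENNReal.ofReal (64 / 9) ≤ volumeProduct K ∧
      (volumeProduct K = ENNReal.ofReal (64 / 9) ↔ IsSimplex K) := by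
  obtain ⟨h1, h2, h3⟩ := frame_body hK
  have hd := defect_nonneg h1 h2 h3
  have hs := volumeProduct_ge_defect hK
  have hm : 0 ≤ min (defect (frame 0 stdB ⁻¹' K) / 2) da :=
    le_min (by linarith) da_pos.le
  refine ⟨le_trans (ENNReal.ofReal_le_ofReal (by linarith only [hm])) hs, fun h => ?_, fun h => ?_⟩
  · rw [h, ENNReal.ofReal_le_ofReal_iff (by norm_num)] at hs
    have h4 : min (defect (frame 0 stdB ⁻¹' K) / 2) da ≤ 0 := by linarith only [hs]
    have h5 : defect (frame 0 stdB ⁻¹' K) = 0 := by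
      rcases min_le_iff.mp h4 with h6 | h6
      · linarith only [hd, h6]
      · exact absurd h6 (not_le.mpr da_pos)
    obtain ⟨x, _, hx⟩ := simplex_of_defect_zero h1 h2 h3 h5
    exact isSimplex_of_frame hK 0 stdB hx
  · rw [h.volumeProduct_eq, cst3]

end Vale.Agent.P248
end
end
end

section

section

section

/-!
# Stability in the Mahler inequality of dimension three
-/

set_option linter.unusedSectionVars false

open MeasureTheory Set
open scoped ENNReal Topology Matrix

namespace Vale.Agent.P248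

theorem lam_neg_two {x : V3} (h : ∀ i, lam i x ≤ 1) (i : Fin 4) : -2 ≤ lam i x := by
  have h1 := sum_lam x
  rw [Fin.sum_univ_four] at h1
  have h0 := h 0
  have h1' := h 1
  have h2 := h 2
  have h3 := h 3
  fin_cases i
  · show -2 ≤ lam 0 x; linarith
  · show -2 ≤ lam 1 x; linarith only [h1, h0, h2, h3]
  · show -2 ≤ lam 2 x; linarith
  · show -2 ≤ lam 3 x; linarith

theorem mem_stdS_of_lam {x : V3} (h : ∀ i, 0 ≤ lam i x) : x ∈ stdS (Fin 3) := by
  refine ⟨fun i => ?_, ?_⟩
  · have := h i.succ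
    rwa [lam_succ] at this
  · have := h 0
    rw [lam_zero] at this
    linarith

theorem lam_segment (i : Fin 4) (g v : V3) (t : ℝ) :
    lam i (g + t • (v - g)) = lam i g + t * (lam i v - lam i g) := by
  refine Fin.cases ?_ (fun k => ?_) i
  · simp only [lam_zero, Pi.add_apply, Pi.smul_apply, Pi.sub_apply, smul_eq_mul,
      Fin.sum_univ_three]
    ring
  · simp only [lam_succ, Pi.add_apply, Pi.smul_apply, Pi.sub_apply, smul_eq_mul]

theorem lam_quarter (i : Fin 4) : lam i (fun _ => (1 / 4 : ℝ)) = 1 / 4 := by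
  refine Fin.cases ?_ (fun k => ?_) i
  · simp only [lam_zero, Fin.sum_univ_three]; norm_num
  · simp only [lam_succ]

/-- A convex body with small defect lies between a simplex and a slightly larger homothetic
simplex. -/
theorem sandwich {K : Set V3} (hK : IsCompact K) (hc : Convex ℝ K) (hi : (interior K).Nonempty)
    {ε : ℝ} (hε : 0 ≤ ε) (h : min (defect K / 2) da ≤ 10 * ε) :
    ∃ (x : Fin 4 → V3) (g : V3), (interior (convexHull ℝ (range x))).Nonempty ∧
      convexHull ℝ (range x) ⊆ K ∧ g ∈ convexHull ℝ (range x) ∧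
      ∀ y ∈ K, ∃ u ∈ convexHull ℝ (range x), y = g + (1 + 80 / da * ε) • (u - g) := by
  obtain ⟨K', R, w, hR, hKK', h1, h2, h3, h4, h5, h6⟩ := exists_normal_form hK hc hi
  have hd := defect_nonneg hK hc hi
  have hda := da_pos
  have hda1 : da < 1 := by unfold da a0; norm_num
  have hlam := lam_ge h1 h2 h3 hd h5
  set s : ℝ := 20 / da * ε with hs
  have hs0 : 0 ≤ s := by (clear * - hda hε; positivity)
  have hls : ∀ v ∈ K', ∀ i, -s ≤ lam i v := by
    intro v hv i
    rcases min_le_iff.mp h with h7 | h7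
    · have h8 : defect K ≤ s := by
        have h9 : 20 * ε ≤ 20 / da * ε := by
          have : (20 : ℝ) ≤ 20 / da := by
            rw [le_div_iff₀ hda]; linarith only [hda1]
          exact mul_le_mul_of_nonneg_right this hε
        linarith only [h7, h9]
      linarith only [h8, hlam v hv i]
    · have h8 : 2 ≤ s := by
        have h9 : 1 ≤ 10 * ε / da := by rw [le_div_iff₀ hda]; linarith only [h7]
        have h10 : s = 2 * (10 * ε / da) := by rw [hs]; ring
        linarith only [h9, h10]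
      linarith only [h8, lam_neg_two (h4 v hv) i]
  have hull : convexHull ℝ (range fun i => R *ᵥ stdV i + w) =
      (fun v => R *ᵥ v + w) '' stdS (Fin 3) := by rw [hull_affine, stdV_hull]
  refine ⟨fun i => R *ᵥ stdV i + w, R *ᵥ (fun _ => (1 / 4 : ℝ)) + w, ?_, ?_, ?_, ?_⟩
  · rw [hull]
    obtain ⟨hh, hhe⟩ := exists_homeo_matrix R hR w
    have hfun : (fun v => R *ᵥ v + w) = (hh : V3 → V3) := by
      funext v; exact (hhe v).symm
    rw [hfun, ← hh.image_interior]
    exact ⟨_, mem_image_of_mem _ (cen_mem_interior 3)⟩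
  · rw [hull, hKK']
    exact image_mono h3
  · rw [hull]
    refine ⟨_, mem_stdS_of_lam fun i => ?_, rfl⟩
    rw [lam_quarter]; norm_num
  · intro y hy
    rw [hKK'] at hy
    obtain ⟨v, hv, rfl⟩ := hy
    have ht : 0 < 1 + 4 * s := by (clear * - hda hε; positivity)
    have ht' : 1 + 80 / da * ε = 1 + 4 * s := by rw [hs]; ring
    refine ⟨R *ᵥ ((fun _ => (1 / 4 : ℝ)) + (1 + 4 * s)⁻¹ • (v - fun _ => (1 / 4 : ℝ))) + w, ?_, ?_⟩
    · rw [hull]
      refine ⟨_, mem_stdS_of_lam fun i => ?_, rfl⟩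
      rw [lam_segment, lam_quarter]
      have h7 := hls v hv i
      have h8 : (1 + 4 * s)⁻¹ * (-s - 1 / 4) = -(1 / 4) := by field_simp; ring
      have h9 : (1 + 4 * s)⁻¹ * (-s - 1 / 4) ≤ (1 + 4 * s)⁻¹ * (lam i v - 1 / 4) :=
        mul_le_mul_of_nonneg_left (by linarith only [h7]) (inv_nonneg.mpr ht.le)
      linarith only [h8, h9]
    · rw [ht']
      have h7 : (1 + 4 * s) * (1 + 4 * s)⁻¹ = 1 := mul_inv_cancel₀ ht.ne'
      rw [add_sub_add_right_eq_sub, ← Matrix.mulVec_sub, add_sub_cancel_left,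
        Matrix.mulVec_smul, smul_smul, h7, one_smul, Matrix.mulVec_sub]
      simp only
      abel

/-- **Stability** in the general Mahler inequality of dimension three: if the volume product of
`K` is at most `1 + ε` times the minimal value, then `K` lies between a simplex and its homothetic
copy with ratio `1 + C ε`. -/
theorem mahler_three_stable : ∃ C : ℝ, 0 < C ∧
    ∀ (K : Set (EuclideanSpace ℝ (Fin 3))) (ε : ℝ), IsConvexBody K → 0 ≤ ε →
      volumeProduct K ≤ ENNReal.ofReal (64 / 9 * (1 + ε)) →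
      ∃ (T : Set (EuclideanSpace ℝ (Fin 3))) (g : EuclideanSpace ℝ (Fin 3)), IsSimplex T ∧
        g ∈ T ∧ T ⊆ K ∧ K ⊆ (fun x => g + (1 + C * ε) • (x - g)) '' T := by
  refine ⟨80 / da, by have := da_pos; positivity, ?_⟩
  intro K ε hK hε hP
  obtain ⟨h1, h2, h3⟩ := frame_body hK
  have hs := (volumeProduct_ge_defect hK).trans hP
  rw [ENNReal.ofReal_le_ofReal_iff (by positivity)] at hs
  obtain ⟨x, g, hx1, hx2, hx3, hx4⟩ := sandwich h1 h2 h3 hε (by linarith only [hs])
  obtain ⟨hh, hhe⟩ := frame_homeo (0 : EuclideanSpace ℝ (Fin 3)) stdB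
  have hfun : frame 0 stdB = hh := funext fun u => (hhe u).symm
  have hpre : frame 0 stdB ⁻¹' (frame 0 stdB '' convexHull ℝ (range x)) =
      convexHull ℝ (range x) := by rw [hfun, preimage_image_eq _ hh.injective]
  have haff : ∀ (a b : V3) (t : ℝ), frame 0 stdB (a + t • (b - a)) =
      frame 0 stdB a + t • (frame 0 stdB b - frame 0 stdB a) := by
    intro a b t
    have h4 : a + t • (b - a) = (1 - t) • a + t • b := by
      rw [smul_sub, sub_smul, one_smul]; abel
    rw [h4, frame_affine 0 stdB a b (by ring)]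
    rw [smul_sub, sub_smul, one_smul]; abel
  have hT : IsConvexBody (frame 0 stdB '' convexHull ℝ (range x)) := by
    refine ⟨?_, ?_, ?_⟩
    · rw [hfun]; exact (isCompact_hull x).image hh.continuous
    · rintro _ ⟨a, ha, rfl⟩ _ ⟨b, hb, rfl⟩ s t hs0 ht0 hst
      rw [← frame_affine 0 stdB a b hst]
      exact mem_image_of_mem _ (convex_convexHull ℝ _ ha hb hs0 ht0 hst)
    · rw [hfun, ← hh.image_interior]
      exact hx1.image _
  refine ⟨frame 0 stdB '' convexHull ℝ (range x), frame 0 stdB g, ?_, ?_, ?_, ?_⟩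
  · exact isSimplex_of_frame hT 0 stdB hpre
  · exact mem_image_of_mem _ hx3
  · rintro _ ⟨a, ha, rfl⟩
    exact hx2 ha
  · intro y hy
    obtain ⟨u, rfl⟩ := hh.surjective y
    rw [hhe] at hy ⊢
    obtain ⟨a, ha, hua⟩ := hx4 u hy
    refine ⟨frame 0 stdB a, mem_image_of_mem _ ha, ?_⟩
    rw [hua, haff]

end Vale.Agent.P248
end
end
end
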