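import Mathlib
import Vale.Agent.P254.Bdl.B12
import Vale.Agent.P248.Defs

section

/-! P248, comparison principle: the matrix part (helper978). -/

set_option linter.all false

open Matrix

namespace Vale.Agent.P248.Cmp

variable {n : Type*} [Fintype n] [DecidableEq n]

theorem spec {A : Matrix n n ℝ} (hA : A.IsHermitian) :
    ∃ U : Matrix n n ℝ, Uᵀ * U = 1 ∧ U * Uᵀ = 1 ∧ A = U * diagonal hA.eigenvalues * Uᵀ := by
  refine ⟨(hA.eigenvectorUnitary : Matrix n n ℝ), ?_, ?_, ?_⟩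
  · have := Matrix.mem_unitaryGroup_iff'.mp hA.eigenvectorUnitary.2
    rwa [Matrix.star_eq_conjTranspose, Matrix.conjTranspose_eq_transpose_of_trivial] at this
  · have := Matrix.mem_unitaryGroup_iff.mp hA.eigenvectorUnitary.2
    rwa [Matrix.star_eq_conjTranspose, Matrix.conjTranspose_eq_transpose_of_trivial] at this
  · have h := hA.spectral_theorem
    rw [Unitary.conjStarAlgAut_apply, Matrix.star_eq_conjTranspose,
      Matrix.conjTranspose_eq_transpose_of_trivial] at h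
    exact h

theorem exists_root {P : Matrix n n ℝ} (hP : P.PosDef) :
    ∃ S : Matrix n n ℝ, IsUnit S ∧ P = Sᵀ * S := by
  obtain ⟨U, h1, h2, h3⟩ := spec hP.isHermitian
  set l := hP.isHermitian.eigenvalues
  have hl : ∀ i, 0 < l i := fun i => hP.eigenvalues_pos i
  have hS : P = (diagonal (fun i => √(l i)) * Uᵀ)ᵀ * (diagonal (fun i => √(l i)) * Uᵀ) := by
    rw [Matrix.transpose_mul, Matrix.transpose_transpose, Matrix.diagonal_transpose]
    conv_lhs => rw [h3]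
    calc U * diagonal l * Uᵀ = U * (diagonal (fun i => √(l i)) * diagonal (fun i => √(l i))) * Uᵀ := by
          rw [Matrix.diagonal_mul_diagonal]
          congr 3
          funext i
          rw [Real.mul_self_sqrt (hl i).le]
      _ = _ := by simp only [Matrix.mul_assoc]
  refine ⟨_, ?_, hS⟩
  rw [Matrix.isUnit_iff_isUnit_det]
  have hd := congrArg Matrix.det hS
  rw [Matrix.det_mul, Matrix.det_transpose] at hd
  rw [isUnit_iff_ne_zero]
  intro h0
  rw [h0, mul_zero] at hd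
  exact hP.det_pos.ne' hd

theorem det_le_det {P Q : Matrix n n ℝ}
    (hP : P.PosDef) (h : (Q - P).PosSemidef) : P.det ≤ Q.det := by
  obtain ⟨S, hS, rfl⟩ := exists_root hP
  have hSd : IsUnit S.det := (Matrix.isUnit_iff_isUnit_det _).mp hS
  have hSd' : IsUnit (Sᵀ).det := by
    rw [Matrix.det_transpose]; exact hSd
  set E : Matrix n n ℝ := (S⁻¹)ᵀ * (Q - Sᵀ * S) * S⁻¹ with hE
  have hEp : E.PosSemidef := by
    have := h.conjTranspose_mul_mul_same S⁻¹
    rwa [Matrix.conjTranspose_eq_transpose_of_trivial] at this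
  have hQ : Q = Sᵀ * (1 + E) * S := by
    have h1 : Sᵀ * E * S = Q - Sᵀ * S := by
      rw [hE, Matrix.transpose_nonsing_inv]
      calc Sᵀ * ((Sᵀ)⁻¹ * (Q - Sᵀ * S) * S⁻¹) * S
          = (Sᵀ * (Sᵀ)⁻¹) * (Q - Sᵀ * S) * (S⁻¹ * S) := by simp only [Matrix.mul_assoc]
        _ = Q - Sᵀ * S := by
            rw [Matrix.mul_nonsing_inv _ hSd', Matrix.nonsing_inv_mul _ hSd, Matrix.one_mul,
              Matrix.mul_one]
    rw [Matrix.mul_add, Matrix.mul_one, Matrix.add_mul, h1]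
    abel
  obtain ⟨U, hU1, hU2, hU3⟩ := spec hEp.isHermitian
  have hdet : 1 ≤ (1 + E).det := by
    have h1 : 1 + E = U * diagonal (fun i => 1 + hEp.isHermitian.eigenvalues i) * Uᵀ := by
      conv_lhs => rw [hU3]
      have : (diagonal (fun i => 1 + hEp.isHermitian.eigenvalues i))
          = 1 + diagonal hEp.isHermitian.eigenvalues := by
        rw [← Matrix.diagonal_one, Matrix.diagonal_add]
      rw [this, Matrix.mul_add, Matrix.mul_one, Matrix.add_mul, hU2]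
    have h2 : (U.det) * (U.det) = 1 := by
      have := congrArg Matrix.det hU2
      rwa [Matrix.det_mul, Matrix.det_transpose, Matrix.det_one] at this
    rw [h1, Matrix.det_mul, Matrix.det_mul, Matrix.det_transpose, Matrix.det_diagonal]
    have h3 : 1 ≤ ∏ i, (1 + hEp.isHermitian.eigenvalues i) := by
      calc (1 : ℝ) = ∏ _i : n, (1 : ℝ) := by rw [Finset.prod_const_one]
        _ ≤ _ := Finset.prod_le_prod (fun _ _ => zero_le_one) fun i _ => by
            have := hEp.eigenvalues_nonneg i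
            linarith only [this]
    calc (1 : ℝ) ≤ ∏ i, (1 + hEp.isHermitian.eigenvalues i) := h3
      _ = (U.det * U.det) * ∏ i, (1 + hEp.isHermitian.eigenvalues i) := by rw [h2, one_mul]
      _ = _ := by ring
  rw [hQ, Matrix.det_mul, Matrix.det_mul, Matrix.det_mul, Matrix.det_transpose]
  have h5 : 0 ≤ S.det * S.det := mul_self_nonneg _
  nlinarith only [hdet]

/-- `c (⟨Pb,b⟩ + ⟨Qa,a⟩) + 2⟨a,b⟩ ≥ 0` for all `a, b` gives `1 ≤ c^(2N) det P det Q` -/
theorem one_le_det {P Q : Matrix n n ℝ} (hP : P.PosDef) (hQ : Q.PosDef) {c : ℝ} (hc : 0 < c)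
    (h : ∀ a b : n → ℝ, 0 ≤ c * (b ⬝ᵥ P *ᵥ b + a ⬝ᵥ Q *ᵥ a) + 2 * (a ⬝ᵥ b)) :
    1 ≤ c ^ (2 * Fintype.card n) * (P.det * Q.det) := by
  have hcP : (c • P).PosDef := hP.smul hc
  have hcQ : (c • Q).PosDef := hQ.smul hc
  have hinv : ((c • Q)⁻¹).PosDef := hcQ.inv
  have hdQ : IsUnit (c • Q).det := (Matrix.isUnit_iff_isUnit_det _).mp hcQ.isUnit
  have hpsd : (c • P - (c • Q)⁻¹).PosSemidef := by
    refine Matrix.PosSemidef.of_dotProduct_mulVec_nonneg (hcP.isHermitian.sub hinv.isHermitian) ?_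
    intro b
    have h1 := h (-((c • Q)⁻¹ *ᵥ b)) b
    have h2 : (c • Q) *ᵥ ((c • Q)⁻¹ *ᵥ b) = b := by
      rw [Matrix.mulVec_mulVec, Matrix.mul_nonsing_inv _ hdQ, Matrix.one_mulVec]
    have h3 : c * ((-((c • Q)⁻¹ *ᵥ b)) ⬝ᵥ Q *ᵥ (-((c • Q)⁻¹ *ᵥ b))) = ((c • Q)⁻¹ *ᵥ b) ⬝ᵥ b := by
      have : c * ((-((c • Q)⁻¹ *ᵥ b)) ⬝ᵥ Q *ᵥ (-((c • Q)⁻¹ *ᵥ b)))
          = ((c • Q)⁻¹ *ᵥ b) ⬝ᵥ ((c • Q) *ᵥ ((c • Q)⁻¹ *ᵥ b)) := by
        rw [Matrix.mulVec_neg, neg_dotProduct_neg, Matrix.smul_mulVec, dotProduct_smul, smul_eq_mul]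
      rw [this, h2]
    have h4 : (-((c • Q)⁻¹ *ᵥ b)) ⬝ᵥ b = -(((c • Q)⁻¹ *ᵥ b) ⬝ᵥ b) := neg_dotProduct _ _
    rw [h4, mul_add, h3] at h1
    rw [star_trivial, Matrix.sub_mulVec, dotProduct_sub, Matrix.smul_mulVec, dotProduct_smul,
      smul_eq_mul, dotProduct_comm b ((c • Q)⁻¹ *ᵥ b)]
    linarith
  have hdet := det_le_det hinv hpsd
  rw [Matrix.det_nonsing_inv, Ring.inverse_eq_inv'] at hdet
  have hpos : 0 < (c • Q).det := hcQ.det_pos
  have h6 : 1 ≤ (c • P).det * (c • Q).det := by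
    rw [inv_le_iff_one_le_mul₀ hpos] at hdet
    linarith
  rw [Matrix.det_smul, Matrix.det_smul] at h6
  calc (1 : ℝ) ≤ _ := h6
    _ = _ := by rw [two_mul, pow_add]; ring

end Vale.Agent.P248.Cmp

end

section

/-! P248, comparison principle for two log-homogeneous potentials on a pair of open cones
(helper541's note 11145 (3), pairs version; helper978). -/

set_option linter.all false

open Matrix Filter Topology Set

namespace Vale.Agent.P248.Cmp

variable {N : ℕ}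

/-- the symmetric second difference of `f` at `y` in direction `b` is `q` -/
def SD (f : (Fin N → ℝ) → ℝ) (y b : Fin N → ℝ) (q : ℝ) : Prop :=
  Tendsto (fun t : ℝ => (f (y + t • b) + f (y - t • b) - 2 * f y) / t ^ 2) (𝓝[≠] 0) (𝓝 q)

theorem log_sd {p q r t : ℝ} (hp : 0 < p) (h1 : 0 < p + t * q + t ^ 2 * r)
    (h2 : 0 < p - t * q + t ^ 2 * r) :
    Real.log (p + t * q + t ^ 2 * r) + Real.log (p - t * q + t ^ 2 * r) - 2 * Real.log p ≤
      t ^ 2 * (2 * r / p) + t ^ 4 * (r ^ 2 / p ^ 2) := by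
  have h3 : Real.log (p + t * q + t ^ 2 * r) + Real.log (p - t * q + t ^ 2 * r) - 2 * Real.log p
      = Real.log ((p + t * q + t ^ 2 * r) * (p - t * q + t ^ 2 * r) / p ^ 2) := by
    rw [Real.log_div (mul_pos h1 h2).ne' (pow_pos hp 2).ne', Real.log_mul h1.ne' h2.ne',
      Real.log_pow]
    push_cast
    ring
  have h4 : 0 < (p + t * q + t ^ 2 * r) * (p - t * q + t ^ 2 * r) / p ^ 2 := by positivity
  rw [h3]
  refine le_trans (Real.log_le_sub_one_of_pos h4) ?_
  have h5 : (p + t * q + t ^ 2 * r) * (p - t * q + t ^ 2 * r) / p ^ 2 - 1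
      = t ^ 2 * (2 * r / p) + t ^ 4 * (r ^ 2 / p ^ 2) - t ^ 2 * q ^ 2 / p ^ 2 := by
    field_simp
    ring
  rw [h5]
  have : 0 ≤ t ^ 2 * q ^ 2 / p ^ 2 := by positivity
  linarith

/-- the penalised function -/
noncomputable def Fe (u g : (Fin N → ℝ) → ℝ) (x1 y1 : Fin N → ℝ) (η : ℝ) (x y : Fin N → ℝ) : ℝ :=
  (u y + g x + N * Real.log (x ⬝ᵥ y)) + η * (u y + N * Real.log (x1 ⬝ᵥ y)) +
    η * (g x + N * Real.log (x ⬝ᵥ y1))

theorem dot_line (x a y b : Fin N → ℝ) (t : ℝ) :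
    (x + t • a) ⬝ᵥ (y + t • b) = x ⬝ᵥ y + t * (a ⬝ᵥ y + x ⬝ᵥ b) + t ^ 2 * (a ⬝ᵥ b) := by
  rw [add_dotProduct, dotProduct_add, dotProduct_add, smul_dotProduct, smul_dotProduct,
    dotProduct_smul, dotProduct_smul]
  simp only [smul_eq_mul]
  ring

theorem dot_line' (x a y b : Fin N → ℝ) (t : ℝ) :
    (x - t • a) ⬝ᵥ (y - t • b) = x ⬝ᵥ y - t * (a ⬝ᵥ y + x ⬝ᵥ b) + t ^ 2 * (a ⬝ᵥ b) := by
  have := dot_line x a y b (-t)
  rw [neg_smul, neg_smul, ← sub_eq_add_neg, ← sub_eq_add_neg] at this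
  rw [this]
  ring

theorem ev_mem {C : Set (Fin N → ℝ)} (hC : IsOpen C) {x a : Fin N → ℝ} (hx : x ∈ C) :
    ∀ᶠ t : ℝ in 𝓝[≠] 0, x + t • a ∈ C ∧ x - t • a ∈ C := by
  have h1 : Tendsto (fun t : ℝ => x + t • a) (𝓝 0) (𝓝 x) := by
    have : Continuous (fun t : ℝ => x + t • a) := by fun_prop
    have h := this.tendsto 0
    simpa using h
  have h2 : Tendsto (fun t : ℝ => x - t • a) (𝓝 0) (𝓝 x) := by
    have : Continuous (fun t : ℝ => x - t • a) := by fun_prop
    have h := this.tendsto 0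
    simpa using h
  exact ((h1.eventually (hC.mem_nhds hx)).and (h2.eventually (hC.mem_nhds hx))).filter_mono
    nhdsWithin_le_nhds

/-- second variation at a minimiser -/
theorem second_var {C C' : Set (Fin N → ℝ)} (hC : IsOpen C) (hC' : IsOpen C')
    (hpos : ∀ x ∈ C, ∀ y ∈ C', 0 < x ⬝ᵥ y) {u g : (Fin N → ℝ) → ℝ} {x1 y1 x0 y0 : Fin N → ℝ}
    (hx1 : x1 ∈ C) (hy1 : y1 ∈ C') (hx0 : x0 ∈ C) (hy0 : y0 ∈ C') (hN : 0 < N)
    (h0 : x0 ⬝ᵥ y0 = N) {η : ℝ} (hη : 0 ≤ η)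
    (hmin : ∀ x ∈ C, ∀ y ∈ C', Fe u g x1 y1 η x0 y0 ≤ Fe u g x1 y1 η x y)
    {a b : Fin N → ℝ} {p q : ℝ} (hp : SD u y0 b p) (hq : SD g x0 a q) :
    0 ≤ (1 + η) * (p + q) + 2 * (a ⬝ᵥ b) := by
  have hNr : (0 : ℝ) < N := by exact_mod_cast hN
  have hlim : Tendsto (fun t : ℝ => (1 + η) * (((u (y0 + t • b) + u (y0 - t • b) - 2 * u y0) / t ^ 2)
      + ((g (x0 + t • a) + g (x0 - t • a) - 2 * g x0) / t ^ 2)) + 2 * (a ⬝ᵥ b)
      + t ^ 2 * ((a ⬝ᵥ b) ^ 2 / N)) (𝓝[≠] 0)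
      (𝓝 ((1 + η) * (p + q) + 2 * (a ⬝ᵥ b) + 0 ^ 2 * ((a ⬝ᵥ b) ^ 2 / N))) := by
    refine Tendsto.add (Tendsto.add (Tendsto.const_mul _ (Tendsto.add hp hq)) tendsto_const_nhds) ?_
    have : Continuous (fun t : ℝ => t ^ 2 * ((a ⬝ᵥ b) ^ 2 / N)) := by fun_prop
    exact (this.tendsto 0).mono_left nhdsWithin_le_nhds
  have hres := ge_of_tendsto hlim (b := 0) ?_
  · simpa using hres
  · filter_upwards [ev_mem hC (a := a) hx0, ev_mem hC' (a := b) hy0, self_mem_nhdsWithin] with t hx hy ht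
    have ht0 : t ≠ 0 := ht
    have ht2 : 0 < t ^ 2 := by positivity
    have e1 := hmin _ hx.1 _ hy.1
    have e2 := hmin _ hx.2 _ hy.2
    have p1 := hpos _ hx.1 _ hy.1
    have p2 := hpos _ hx.2 _ hy.2
    have p3 := hpos _ hx1 _ hy.1
    have p4 := hpos _ hx1 _ hy.2
    have p5 := hpos _ hx.1 _ hy1
    have p6 := hpos _ hx.2 _ hy1
    have q3 := hpos _ hx1 _ hy0
    have q5 := hpos _ hx0 _ hy1
    have d3 : x1 ⬝ᵥ (y0 + t • b) = x1 ⬝ᵥ y0 + t * (x1 ⬝ᵥ b) + t ^ 2 * 0 := by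
      rw [dotProduct_add, dotProduct_smul, smul_eq_mul]; ring
    have d4 : x1 ⬝ᵥ (y0 - t • b) = x1 ⬝ᵥ y0 - t * (x1 ⬝ᵥ b) + t ^ 2 * 0 := by
      rw [dotProduct_sub, dotProduct_smul, smul_eq_mul]; ring
    have d5 : (x0 + t • a) ⬝ᵥ y1 = x0 ⬝ᵥ y1 + t * (a ⬝ᵥ y1) + t ^ 2 * 0 := by
      rw [add_dotProduct, smul_dotProduct, smul_eq_mul]; ring
    have d6 : (x0 - t • a) ⬝ᵥ y1 = x0 ⬝ᵥ y1 - t * (a ⬝ᵥ y1) + t ^ 2 * 0 := by
      rw [sub_dotProduct, smul_dotProduct, smul_eq_mul]; ring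
    rw [dot_line, h0] at p1
    rw [dot_line', h0] at p2
    rw [d3] at p3
    rw [d4] at p4
    rw [d5] at p5
    rw [d6] at p6
    have l1 := log_sd hNr p1 p2
    have l2 := log_sd q3 p3 p4
    have l3 := log_sd q5 p5 p6
    simp only [Fe] at e1 e2
    rw [dot_line, h0, d3, d5] at e1
    rw [dot_line', h0, d4, d6] at e2
    have l1' := mul_le_mul_of_nonneg_left l1 hNr.le
    have l2' := mul_le_mul_of_nonneg_left l2 (mul_nonneg hη hNr.le)
    have l3' := mul_le_mul_of_nonneg_left l3 (mul_nonneg hη hNr.le)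
    have s1 : (N : ℝ) * (t ^ 2 * (2 * (a ⬝ᵥ b) / N) + t ^ 4 * ((a ⬝ᵥ b) ^ 2 / (N : ℝ) ^ 2))
        = t ^ 2 * (2 * (a ⬝ᵥ b) + t ^ 2 * ((a ⬝ᵥ b) ^ 2 / N)) := by
      field_simp
    have s2 : η * N * (t ^ 2 * (2 * 0 / x1 ⬝ᵥ y0) + t ^ 4 * (0 ^ 2 / (x1 ⬝ᵥ y0) ^ 2)) = 0 := by
      simp
    have s3 : η * N * (t ^ 2 * (2 * 0 / x0 ⬝ᵥ y1) + t ^ 4 * (0 ^ 2 / (x0 ⬝ᵥ y1) ^ 2)) = 0 := by
      simp
    rw [s1] at l1'
    rw [s2] at l2'
    rw [s3] at l3'
    have hfin : 0 ≤ (1 + η) * ((u (y0 + t • b) + u (y0 - t • b) - 2 * u y0)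
        + (g (x0 + t • a) + g (x0 - t • a) - 2 * g x0))
        + t ^ 2 * (2 * (a ⬝ᵥ b) + t ^ 2 * ((a ⬝ᵥ b) ^ 2 / N)) := by
      nlinarith
    have hdiv := div_nonneg hfin ht2.le
    have e : ((1 + η) * ((u (y0 + t • b) + u (y0 - t • b) - 2 * u y0)
        + (g (x0 + t • a) + g (x0 - t • a) - 2 * g x0))
        + t ^ 2 * (2 * (a ⬝ᵥ b) + t ^ 2 * ((a ⬝ᵥ b) ^ 2 / N))) / t ^ 2
        = (1 + η) * (((u (y0 + t • b) + u (y0 - t • b) - 2 * u y0) / t ^ 2)
      + ((g (x0 + t • a) + g (x0 - t • a) - 2 * g x0) / t ^ 2)) + 2 * (a ⬝ᵥ b)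
      + t ^ 2 * ((a ⬝ᵥ b) ^ 2 / N) := by
      field_simp
      ring
    rw [e] at hdiv
    exact hdiv

end Vale.Agent.P248.Cmp

end

section

/-! P248, comparison principle: existence of the minimiser of the penalised function and conclusion
(helper978). -/

set_option linter.all false

open Matrix Filter Topology Set

namespace Vale.Agent.P248.Cmp

variable {N : ℕ}

/-- a pair of open cones in duality with two log-homogeneous potentials -/
structure Dat (C C' : Set (Fin N → ℝ)) (u g : (Fin N → ℝ) → ℝ)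
    (P Q : (Fin N → ℝ) → Matrix (Fin N) (Fin N) ℝ) (D : ℝ) : Prop where
  Npos : 0 < N
  opC : IsOpen C
  opC' : IsOpen C'
  smC : ∀ x ∈ C, ∀ t : ℝ, 0 < t → t • x ∈ C
  smC' : ∀ y ∈ C', ∀ t : ℝ, 0 < t → t • y ∈ C'
  pos : ∀ x ∈ C, ∀ y ∈ C', 0 < x ⬝ᵥ y
  contu : ContinuousOn u C'
  contg : ContinuousOn g C
  homu : ∀ y ∈ C', ∀ t : ℝ, 0 < t → u (t • y) = u y - N * Real.log t
  homg : ∀ x ∈ C, ∀ t : ℝ, 0 < t → g (t • x) = g x - N * Real.log t
  Ppos : ∀ y ∈ C', (P y).PosDef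
  Qpos : ∀ x ∈ C, (Q x).PosDef
  sdu : ∀ y ∈ C', ∀ b, SD u y b (b ⬝ᵥ P y *ᵥ b)
  sdg : ∀ x ∈ C, ∀ a, SD g x a (a ⬝ᵥ Q x *ᵥ a)
  Dpos : 0 < D
  detu : ∀ y ∈ C', (P y).det ≤ D * Real.exp (2 * u y)
  detg : ∀ x ∈ C, (Q x).det ≤ D * Real.exp (2 * g x)

variable {C C' : Set (Fin N → ℝ)} {u g : (Fin N → ℝ) → ℝ}
  {P Q : (Fin N → ℝ) → Matrix (Fin N) (Fin N) ℝ} {D : ℝ}

theorem Dat.ne_zero (h : Dat C C' u g P Q D) {x y : Fin N → ℝ} (hx : x ∈ C) (hy : y ∈ C') :
    x ≠ 0 ∧ y ≠ 0 := by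
  have := h.pos x hx y hy
  constructor
  · rintro rfl
    simp at this
  · rintro rfl
    simp at this

theorem Dat.Fe_hom (h : Dat C C' u g P Q D) {x1 y1 x y : Fin N → ℝ} (hx1 : x1 ∈ C) (hy1 : y1 ∈ C')
    (hx : x ∈ C) (hy : y ∈ C') {η s t : ℝ} (hs : 0 < s) (ht : 0 < t) :
    Fe u g x1 y1 η (s • x) (t • y) = Fe u g x1 y1 η x y := by
  simp only [Fe]
  rw [h.homu y hy t ht, h.homg x hx s hs, smul_dotProduct, smul_dotProduct, dotProduct_smul,
    dotProduct_smul]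
  simp only [smul_eq_mul]
  rw [Real.log_mul hs.ne' (mul_pos ht (h.pos x hx y hy)).ne', Real.log_mul ht.ne' (h.pos x hx y hy).ne',
    Real.log_mul ht.ne' (h.pos x1 hx1 y hy).ne', Real.log_mul hs.ne' (h.pos x hx y1 hy1).ne']
  ring

theorem Dat.contF (h : Dat C C' u g P Q D) {x1 y1 : Fin N → ℝ} (hx1 : x1 ∈ C) (hy1 : y1 ∈ C') (η : ℝ) :
    ContinuousOn (fun z : (Fin N → ℝ) × (Fin N → ℝ) => Fe u g x1 y1 η z.1 z.2) (C ×ˢ C') := by
  have e1 : ContinuousOn (fun z : (Fin N → ℝ) × (Fin N → ℝ) => u z.2) (C ×ˢ C') :=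
    h.contu.comp continuous_snd.continuousOn fun z hz => hz.2
  have e2 : ContinuousOn (fun z : (Fin N → ℝ) × (Fin N → ℝ) => g z.1) (C ×ˢ C') :=
    h.contg.comp continuous_fst.continuousOn fun z hz => hz.1
  have d1 : Continuous (fun z : (Fin N → ℝ) × (Fin N → ℝ) => z.1 ⬝ᵥ z.2) := by
    unfold dotProduct
    fun_prop
  have d2 : Continuous (fun z : (Fin N → ℝ) × (Fin N → ℝ) => x1 ⬝ᵥ z.2) := by
    unfold dotProduct
    fun_prop
  have d3 : Continuous (fun z : (Fin N → ℝ) × (Fin N → ℝ) => z.1 ⬝ᵥ y1) := by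
    unfold dotProduct
    fun_prop
  have l1 : ContinuousOn (fun z : (Fin N → ℝ) × (Fin N → ℝ) => Real.log (z.1 ⬝ᵥ z.2)) (C ×ˢ C') :=
    d1.continuousOn.log fun z hz => (h.pos z.1 hz.1 z.2 hz.2).ne'
  have l2 : ContinuousOn (fun z : (Fin N → ℝ) × (Fin N → ℝ) => Real.log (x1 ⬝ᵥ z.2)) (C ×ˢ C') :=
    d2.continuousOn.log fun z hz => (h.pos x1 hx1 z.2 hz.2).ne'
  have l3 : ContinuousOn (fun z : (Fin N → ℝ) × (Fin N → ℝ) => Real.log (z.1 ⬝ᵥ y1)) (C ×ˢ C') :=
    d3.continuousOn.log fun z hz => (h.pos z.1 hz.1 y1 hy1).ne'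
  exact (((e1.add e2).add (continuousOn_const.mul l1)).add
    (continuousOn_const.mul (e1.add (continuousOn_const.mul l2)))).add
    (continuousOn_const.mul (e2.add (continuousOn_const.mul l3)))

/-- the value at a minimiser -/
theorem Dat.at_min (h : Dat C C' u g P Q D) {x1 y1 x0 y0 : Fin N → ℝ} (hx1 : x1 ∈ C) (hy1 : y1 ∈ C')
    (hx0 : x0 ∈ C) (hy0 : y0 ∈ C') {η : ℝ} (hη : 0 ≤ η)
    (hmin : ∀ x ∈ C, ∀ y ∈ C', Fe u g x1 y1 η x0 y0 ≤ Fe u g x1 y1 η x y) :
    N * Real.log N - Real.log D - N * Real.log (1 + η) ≤ u y0 + g x0 + N * Real.log (x0 ⬝ᵥ y0) := by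
  have hNr : (0 : ℝ) < N := by exact_mod_cast h.Npos
  have hp0 := h.pos x0 hx0 y0 hy0
  set s : ℝ := N / (x0 ⬝ᵥ y0) with hs
  have hs0 : 0 < s := div_pos hNr hp0
  have hy : s • y0 ∈ C' := h.smC' y0 hy0 s hs0
  have hN0 : x0 ⬝ᵥ (s • y0) = N := by
    rw [dotProduct_smul, smul_eq_mul, hs]
    field_simp
  have hmin' : ∀ x ∈ C, ∀ y ∈ C', Fe u g x1 y1 η x0 (s • y0) ≤ Fe u g x1 y1 η x y := by
    intro x hx y hyy
    have e := h.Fe_hom hx1 hy1 hx0 hy0 (η := η) (s := 1) (t := s) one_pos hs0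
    rw [one_smul] at e
    rw [e]
    exact hmin x hx y hyy
  have hc : 0 < 1 + η := by linarith
  have hdet := one_le_det (h.Ppos _ hy) (h.Qpos _ hx0) hc (fun a b =>
    second_var h.opC h.opC' h.pos hx1 hy1 hx0 hy h.Npos hN0 hη hmin' (h.sdu _ hy b) (h.sdg _ hx0 a))
  rw [Fintype.card_fin] at hdet
  have hdP := h.detu _ hy
  have hdQ := h.detg _ hx0
  have hPp := (h.Ppos _ hy).det_pos
  have hQp := (h.Qpos _ hx0).det_pos
  have hmul : (P (s • y0)).det * (Q x0).det ≤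
      (D * Real.exp (2 * u (s • y0))) * (D * Real.exp (2 * g x0)) :=
    mul_le_mul hdP hdQ hQp.le (mul_nonneg h.Dpos.le (Real.exp_pos _).le)
  have hle : 1 ≤ (1 + η) ^ (2 * N) * ((D * Real.exp (2 * u (s • y0))) * (D * Real.exp (2 * g x0))) :=
    hdet.trans (mul_le_mul_of_nonneg_left hmul (pow_pos hc _).le)
  have hlog := Real.log_le_log one_pos hle
  rw [Real.log_one, Real.log_mul (pow_pos hc _).ne' (by have := h.Dpos; positivity),
    Real.log_mul (by have := h.Dpos; positivity) (by have := h.Dpos; positivity),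
    Real.log_mul h.Dpos.ne' (Real.exp_pos _).ne', Real.log_mul h.Dpos.ne' (Real.exp_pos _).ne',
    Real.log_exp, Real.log_exp, Real.log_pow] at hlog
  push_cast at hlog
  rw [h.homu y0 hy0 s hs0] at hlog
  have hls : Real.log s = Real.log N - Real.log (x0 ⬝ᵥ y0) := by
    rw [hs, Real.log_div hNr.ne' hp0.ne']
  rw [hls] at hlog
  nlinarith

/-- **comparison theorem**: `N^N / D ≤ e^(u y + g x) ⟨x,y⟩^N` in logarithmic form -/
theorem Dat.main (h : Dat C C' u g P Q D) {x1 y1 : Fin N → ℝ} (hx1 : x1 ∈ C) (hy1 : y1 ∈ C')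
    (prou : ∀ c : ℝ, IsCompact {y | y ∈ C' ∧ ‖y‖ = 1 ∧ u y + N * Real.log (x1 ⬝ᵥ y) ≤ c})
    (prog : ∀ c : ℝ, IsCompact {x | x ∈ C ∧ ‖x‖ = 1 ∧ g x + N * Real.log (x ⬝ᵥ y1) ≤ c})
    {M : ℝ} (hM : ∀ x ∈ C, ∀ y ∈ C', -M ≤ u y + g x + N * Real.log (x ⬝ᵥ y))
    {xa ya : Fin N → ℝ} (hxa : xa ∈ C) (hya : ya ∈ C') :
    N * Real.log N - Real.log D ≤ u ya + g xa + N * Real.log (xa ⬝ᵥ ya) := by
  -- normalisation
  have nrm : ∀ x ∈ C, ∃ x' ∈ C, ‖x'‖ = 1 ∧ ∃ t : ℝ, 0 < t ∧ x = t • x' := by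
    intro x hx
    have hx0 : x ≠ 0 := (h.ne_zero hx hy1).1
    have hn : 0 < ‖x‖ := norm_pos_iff.2 hx0
    refine ⟨‖x‖⁻¹ • x, h.smC x hx _ (inv_pos.2 hn), ?_, ‖x‖, hn, ?_⟩
    · rw [norm_smul, norm_inv, norm_norm, inv_mul_cancel₀ hn.ne']
    · rw [smul_smul, mul_inv_cancel₀ hn.ne', one_smul]
  have nrm' : ∀ y ∈ C', ∃ y' ∈ C', ‖y'‖ = 1 ∧ ∃ t : ℝ, 0 < t ∧ y = t • y' := by
    intro x hx
    have hx0 : x ≠ 0 := (h.ne_zero hx1 hx).2
    have hn : 0 < ‖x‖ := norm_pos_iff.2 hx0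
    refine ⟨‖x‖⁻¹ • x, h.smC' x hx _ (inv_pos.2 hn), ?_, ‖x‖, hn, ?_⟩
    · rw [norm_smul, norm_inv, norm_norm, inv_mul_cancel₀ hn.ne']
    · rw [smul_smul, mul_inv_cancel₀ hn.ne', one_smul]
  obtain ⟨xh, hxh, nxh, tx, htx, rfl⟩ := nrm xa hxa
  obtain ⟨yh, hyh, nyh, ty, hty, rfl⟩ := nrm' ya hya
  -- penalties
  set α : (Fin N → ℝ) → ℝ := fun y => u y + N * Real.log (x1 ⬝ᵥ y) with hα
  set β : (Fin N → ℝ) → ℝ := fun x => g x + N * Real.log (x ⬝ᵥ y1) with hβ
  have cα : ContinuousOn α C' := by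
    have d2 : Continuous (fun z : (Fin N → ℝ) => x1 ⬝ᵥ z) := by
      unfold dotProduct
      fun_prop
    exact h.contu.add (continuousOn_const.mul (d2.continuousOn.log fun z hz => (h.pos x1 hx1 z hz).ne'))
  have cβ : ContinuousOn β C := by
    have d2 : Continuous (fun z : (Fin N → ℝ) => z ⬝ᵥ y1) := by
      unfold dotProduct
      fun_prop
    exact h.contg.add (continuousOn_const.mul (d2.continuousOn.log fun z hz => (h.pos z hz y1 hy1).ne'))
  have αhom : ∀ y ∈ C', ∀ t : ℝ, 0 < t → α (t • y) = α y := by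
    intro y hy t ht
    simp only [hα]
    rw [h.homu y hy t ht, dotProduct_smul, smul_eq_mul, Real.log_mul ht.ne' (h.pos x1 hx1 y hy).ne']
    ring
  have βhom : ∀ x ∈ C, ∀ t : ℝ, 0 < t → β (t • x) = β x := by
    intro y hy t ht
    simp only [hβ]
    rw [h.homg y hy t ht, smul_dotProduct, smul_eq_mul, Real.log_mul ht.ne' (h.pos y hy y1 hy1).ne']
    ring
  obtain ⟨αm, hαm⟩ : ∃ m, ∀ y ∈ C', m ≤ α y := by
    obtain ⟨z, hz, hz2⟩ := (prou (α yh)).exists_isMinOn ⟨yh, hyh, nyh, le_rfl⟩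
      (cα.mono fun y hy => hy.1)
    refine ⟨α z, fun y hy => ?_⟩
    obtain ⟨y', hy', ny', t, ht, rfl⟩ := nrm' y hy
    rw [αhom y' hy' t ht]
    by_cases hc : α y' ≤ α yh
    · exact hz2 ⟨hy', ny', hc⟩
    · have h1 : α z ≤ α yh := hz.2.2
      linarith
  obtain ⟨βm, hβm⟩ : ∃ m, ∀ x ∈ C, m ≤ β x := by
    obtain ⟨z, hz, hz2⟩ := (prog (β xh)).exists_isMinOn ⟨xh, hxh, nxh, le_rfl⟩
      (cβ.mono fun y hy => hy.1)
    refine ⟨β z, fun y hy => ?_⟩
    obtain ⟨y', hy', ny', t, ht, rfl⟩ := nrm y hy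
    rw [βhom y' hy' t ht]
    by_cases hc : β y' ≤ β xh
    · exact hz2 ⟨hy', ny', hc⟩
    · have h1 : β z ≤ β xh := hz.2.2
      linarith
  -- the bound for each positive penalty
  have key : ∀ η : ℝ, 0 < η → N * Real.log N - Real.log D - N * Real.log (1 + η) + η * (αm + βm)
      ≤ (u yh + g xh + N * Real.log (xh ⬝ᵥ yh)) + η * (α yh + β xh) := by
    intro η hη
    set T : ℝ := Fe u g x1 y1 η xh yh with hT
    set A : ℝ := (T + M - η * βm) / η with hA
    set B : ℝ := (T + M - η * αm) / η with hB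
    set K : Set ((Fin N → ℝ) × (Fin N → ℝ)) :=
      {x | x ∈ C ∧ ‖x‖ = 1 ∧ β x ≤ B} ×ˢ {y | y ∈ C' ∧ ‖y‖ = 1 ∧ α y ≤ A} with hK
    have hKc : IsCompact K := (prog B).prod (prou A)
    have hin : ∀ x ∈ C, ‖x‖ = 1 → ∀ y ∈ C', ‖y‖ = 1 → Fe u g x1 y1 η x y ≤ T → (x, y) ∈ K := by
      intro x hx nx y hy ny hle
      have e : Fe u g x1 y1 η x y = (u y + g x + N * Real.log (x ⬝ᵥ y)) + η * α y + η * β x := rfl
      have h1 := hM x hx y hy
      have h2 := hαm y hy
      have h3 := hβm x hx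
      rw [e] at hle
      refine ⟨⟨hx, nx, ?_⟩, ⟨hy, ny, ?_⟩⟩
      · rw [hB, le_div_iff₀ hη]
        nlinarith
      · rw [hA, le_div_iff₀ hη]
        nlinarith
    have hne : K.Nonempty := ⟨(xh, yh), hin xh hxh nxh yh hyh nyh le_rfl⟩
    obtain ⟨⟨x0, y0⟩, hz, hz2⟩ := hKc.exists_isMinOn hne
      ((h.contF hx1 hy1 η).mono fun z hz => ⟨hz.1.1, hz.2.1⟩)
    have hx0 : x0 ∈ C := hz.1.1
    have hy0 : y0 ∈ C' := hz.2.1
    have hminT : Fe u g x1 y1 η x0 y0 ≤ T := hz2 (hin xh hxh nxh yh hyh nyh le_rfl)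
    have hmin : ∀ x ∈ C, ∀ y ∈ C', Fe u g x1 y1 η x0 y0 ≤ Fe u g x1 y1 η x y := by
      intro x hx y hy
      obtain ⟨x', hx', nx', s, hs, rfl⟩ := nrm x hx
      obtain ⟨y', hy', ny', t, ht, rfl⟩ := nrm' y hy
      rw [h.Fe_hom hx1 hy1 hx' hy' hs ht]
      by_cases hc : Fe u g x1 y1 η x' y' ≤ T
      · exact hz2 (hin x' hx' nx' y' hy' ny' hc)
      · exact hminT.trans (not_le.1 hc).le
    have hval := h.at_min hx1 hy1 hx0 hy0 hη.le hmin
    have e0 : Fe u g x1 y1 η x0 y0 = (u y0 + g x0 + N * Real.log (x0 ⬝ᵥ y0)) + η * α y0 + η * β x0 := rfl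
    have eT : T = (u yh + g xh + N * Real.log (xh ⬝ᵥ yh)) + η * α yh + η * β xh := rfl
    have h2 := hαm y0 hy0
    have h3 := hβm x0 hx0
    rw [e0, eT] at hminT
    nlinarith
  -- the limit
  have hhom : u (ty • yh) + g (tx • xh) + N * Real.log ((tx • xh) ⬝ᵥ (ty • yh))
      = u yh + g xh + N * Real.log (xh ⬝ᵥ yh) := by
    rw [h.homu yh hyh ty hty, h.homg xh hxh tx htx, smul_dotProduct, dotProduct_smul, smul_eq_mul,
      smul_eq_mul, Real.log_mul htx.ne' (mul_pos hty (h.pos xh hxh yh hyh)).ne',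
      Real.log_mul hty.ne' (h.pos xh hxh yh hyh).ne']
    ring
  rw [hhom]
  have l1 : Tendsto (fun η : ℝ => N * Real.log N - Real.log D - N * Real.log (1 + η) + η * (αm + βm))
      (𝓝[>] 0) (𝓝 (N * Real.log N - Real.log D)) := by
    have c1 : ContinuousAt (fun η : ℝ => N * Real.log N - Real.log D - N * Real.log (1 + η)
        + η * (αm + βm)) 0 := by
      have c2 : ContinuousAt (fun η : ℝ => Real.log (1 + η)) 0 := by
        refine ContinuousAt.log (by fun_prop) (by norm_num)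
      fun_prop
    have := c1.tendsto.mono_left (nhdsWithin_le_nhds (s := Ioi (0 : ℝ)))
    simpa using this
  have l2 : Tendsto (fun η : ℝ => (u yh + g xh + N * Real.log (xh ⬝ᵥ yh)) + η * (α yh + β xh))
      (𝓝[>] 0) (𝓝 (u yh + g xh + N * Real.log (xh ⬝ᵥ yh))) := by
    have c1 : ContinuousAt (fun η : ℝ => (u yh + g xh + N * Real.log (xh ⬝ᵥ yh))
        + η * (α yh + β xh)) 0 := by
      fun_prop
    have := c1.tendsto.mono_left (nhdsWithin_le_nhds (s := Ioi (0 : ℝ)))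
    simpa using this
  exact le_of_tendsto_of_tendsto l1 l2 (by
    filter_upwards [self_mem_nhdsWithin] with η hη
    exact key η hη)

end Vale.Agent.P248.Cmp

end

section

/-!
P248, general Mahler conjecture up to an explicit exponential factor, in every dimension
(helper830): statements.  `C` = closed convex cone in `ℝᴺ`, `D` = its dual cone.
-/

open MeasureTheory Set Matrix Filter Topology

namespace Vale.Agent.P248.NS

open Vale.Agent.P254.R304 (covF limDens cone)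

/-- Laplace transform of the cone `C` -/
noncomputable def Z {N : ℕ} (C : Set (Fin N → ℝ)) (y : Fin N → ℝ) : ℝ :=
  ∫ z in C, Real.exp (-(y ⬝ᵥ z))

/-- dual cone -/
def dual {N : ℕ} (C : Set (Fin N → ℝ)) : Set (Fin N → ℝ) := {w | ∀ z ∈ C, 0 ≤ w ⬝ᵥ z}

/-- `y` is positive on `C` without the origin -/
def Pos {N : ℕ} (C : Set (Fin N → ℝ)) (y : Fin N → ℝ) : Prop :=
  ∃ a : ℝ, 0 < a ∧ ∀ z ∈ C, a * ‖z‖ ≤ y ⬝ᵥ z

/-- pointed closed convex cone with nonempty interior -/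
structure CC {N : ℕ} (C : Set (Fin N → ℝ)) : Prop where
  closed : IsClosed C
  conv : Convex ℝ C
  cone : ∀ z ∈ C, ∀ t : ℝ, 0 ≤ t → t • z ∈ C
  int : (interior C).Nonempty
  pos : ∃ y, Pos C y

/-- covariance matrix of the density `exp (-⟨y, z⟩)` on `C` -/
noncomputable def cov {N : ℕ} (C : Set (Fin N → ℝ)) (y : Fin N → ℝ) : Matrix (Fin N) (Fin N) ℝ :=
  covF (limDens 0 (-y) C)

/-- block T1: elementary facts on dual cones -/
def StmtDual : Prop := ∀ (N : ℕ) (C : Set (Fin N → ℝ)), CC C →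
  CC (dual C) ∧ (∀ x ∈ interior C, Pos (dual C) x) ∧ (∀ y, Pos C y → y ∈ interior (dual C))

/-- block T2: scaling, positivity -/
def StmtScale : Prop := ∀ (N : ℕ) (C : Set (Fin N → ℝ)), CC C → ∀ y, Pos C y →
  0 < Z C y ∧ ∀ s : ℝ, 0 < s → Z C (s • y) = (s ^ N)⁻¹ * Z C y

/-- block T2: the loss inequality in terms of `Z` -/
def StmtLoss : Prop := ∀ (δ : ℝ) (N : ℕ), Vale.Agent.P254.X.Loss.NiceDDL δ N →
  ∀ (C : Set (Fin N → ℝ)), CC C → ∀ y, Pos C y →
    1 / 2 * Real.log (cov C y).det - δ * N ≤ Real.log (Z C y)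

/-- block T3: second differences -/
def StmtDiff : Prop := ∀ (N : ℕ) (C : Set (Fin N → ℝ)), CC C → ∀ y, Pos C y → ∀ η : Fin N → ℝ,
  ∃ B t0 : ℝ, 0 < t0 ∧ ∀ t : ℝ, |t| < t0 →
    Z C (y + t • η) * Z C (y - t • η) ≤
      Z C y ^ 2 * (1 + t ^ 2 * (η ⬝ᵥ cov C y *ᵥ η) + B * |t| ^ 3)

/-- block T4: a crude lower bound -/
def StmtCrude : Prop := ∀ (N : ℕ) (C : Set (Fin N → ℝ)), 0 < N → CC C →
  ∃ c : ℝ, 0 < c ∧ ∀ x y, Pos (dual C) x → Pos C y →
    c ≤ Z C y * Z (dual C) x * (x ⬝ᵥ y) ^ N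

/-- the penalised functional -/
noncomputable def G {N : ℕ} (C : Set (Fin N → ℝ)) (x1 y1 : Fin N → ℝ) (ε : ℝ)
    (x y : Fin N → ℝ) : ℝ :=
  Real.log (Z C y) + Real.log (Z (dual C) x) + ((N : ℝ) - ε) * Real.log (x ⬝ᵥ y)
    + ε * (Real.log (x1 ⬝ᵥ y) + Real.log (x ⬝ᵥ y1))

/-- block T5: existence of a minimum point -/
def StmtMin : Prop := ∀ (N : ℕ) (C : Set (Fin N → ℝ)), 0 < N → CC C → ∀ x1 y1 : Fin N → ℝ,
  x1 ∈ interior C → Pos C y1 → ∀ ε : ℝ, 0 < ε → ε < 1 →
    ∃ x0 y0, Pos (dual C) x0 ∧ Pos C y0 ∧ ∀ x y, Pos (dual C) x → Pos C y →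
      G C x1 y1 ε x0 y0 ≤ G C x1 y1 ε x y

/-- block T6: second order condition at the minimum point -/
def StmtSecond : Prop := ∀ (N : ℕ) (C : Set (Fin N → ℝ)), 0 < N → CC C → ∀ x1 y1 : Fin N → ℝ,
  x1 ∈ interior C → Pos C y1 → ∀ ε : ℝ, 0 < ε → ε < 1 → ∀ x0 y0, Pos (dual C) x0 → Pos C y0 →
    (∀ x y, Pos (dual C) x → Pos C y → G C x1 y1 ε x0 y0 ≤ G C x1 y1 ε x y) →
    ∀ ξ η : Fin N → ℝ, 0 ≤ η ⬝ᵥ cov C y0 *ᵥ η + ξ ⬝ᵥ cov (dual C) x0 *ᵥ ξ
      + 2 * (((N : ℝ) - ε) / (x0 ⬝ᵥ y0)) * (ξ ⬝ᵥ η)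

/-- block T7: matrix lemma -/
def StmtMat : Prop := ∀ (N : ℕ) (A B : Matrix (Fin N) (Fin N) ℝ) (k : ℝ), A.PosDef → B.PosDef →
  0 ≤ k → (∀ ξ η : Fin N → ℝ, 0 ≤ η ⬝ᵥ A *ᵥ η + ξ ⬝ᵥ B *ᵥ ξ + 2 * k * (ξ ⬝ᵥ η)) →
    k ^ (2 * N) ≤ A.det * B.det

/-- block T8: the main inequality for cones -/
def StmtMain : Prop := ∀ (δ : ℝ) (N : ℕ), 0 < N → Vale.Agent.P254.X.Loss.NiceDDL δ N →
  ∀ (C : Set (Fin N → ℝ)), CC C → ∀ x y, Pos (dual C) x → Pos C y →
    Real.exp (-(2 * δ * N)) * (N : ℝ) ^ N ≤ Z C y * Z (dual C) x * (x ⬝ᵥ y) ^ N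

/-- polar body of `K` with respect to `z`, coordinates `Fin n → ℝ` -/
def polarP {n : ℕ} (K : Set (Fin n → ℝ)) (z : Fin n → ℝ) : Set (Fin n → ℝ) :=
  {w | ∀ x ∈ K, w ⬝ᵥ (x - z) ≤ 1}

/-- block T9: the cone over `K` -/
def StmtCone : Prop := ∀ (n : ℕ) (K : Set (Fin n → ℝ)), Vale.Agent.P254.IsConvexBody K →
  ∀ z ∈ interior K, CC (cone K) ∧ Pos (cone K) (Fin.cons 1 0) ∧
    Pos (dual (cone K)) (Fin.cons 1 z) ∧
    Z (cone K) (Fin.cons 1 0) = (n.factorial : ℝ) * (volume K).toReal ∧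
    Z (dual (cone K)) (Fin.cons 1 z) = (n.factorial : ℝ) * (volume (polarP K z)).toReal

end Vale.Agent.P248.NS

end

section

/-! # P248/MC: derivatives of `u(y) = log ∫_V e^{-⟨y,x⟩} dx` along lines (helper700). -/

open MeasureTheory Set Matrix Filter Topology Metric

namespace Vale.Agent.P248.MC.SD700

open Vale.Agent.P254.R304

variable {n : ℕ}

/-- moments of `e^{-⟨y,x⟩}` on `V` -/
noncomputable def J (V : Set (Fin n → ℝ)) (φ : (Fin n → ℝ) → ℝ) (y : Fin n → ℝ) : ℝ :=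
  ∫ x in V, φ x * Real.exp (-(y ⬝ᵥ x))

/-- the density `1_V e^{-⟨y,x⟩}` -/
noncomputable def den (V : Set (Fin n → ℝ)) (y : Fin n → ℝ) : (Fin n → ℝ) → ℝ :=
  V.indicator fun x => Real.exp (-(y ⬝ᵥ x))

theorem int_den {V : Set (Fin n → ℝ)} (hV : MeasurableSet V) (φ : (Fin n → ℝ) → ℝ) (y : Fin n → ℝ) :
    ∫ x, φ x * den V y x = J V φ y := by
  unfold J den
  rw [← integral_indicator hV]
  refine integral_congr_ae (Eventually.of_forall fun x => ?_)
  by_cases hx : x ∈ V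
  · simp [hx]
  · simp [hx]

theorem int_den1 {V : Set (Fin n → ℝ)} (hV : MeasurableSet V) (y : Fin n → ℝ) :
    ∫ x, den V y x = J V (fun _ => 1) y := by
  rw [← int_den hV]
  simp

theorem dot_le (y x : Fin n → ℝ) : |y ⬝ᵥ x| ≤ n * ‖y‖ * ‖x‖ := abs_dot_le' y x

theorem pg_dot (b : Fin n → ℝ) : PolyGrowth (fun x : Fin n → ℝ => b ⬝ᵥ x) := by
  refine ⟨?_, n * ‖b‖, 1, fun x => ?_⟩
  · refine Continuous.aestronglyMeasurable ?_
    simp only [dotProduct]
    fun_prop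
  · refine (dot_le b x).trans ?_
    rw [pow_one]
    have : 0 ≤ (n : ℝ) * ‖b‖ := by positivity
    nlinarith [norm_nonneg x]

/-- decay on `V` along the line -/
theorem dec_line {V : Set (Fin n → ℝ)} {y0 b : Fin n → ℝ} {a : ℝ} (hdec : ∀ x ∈ V, a * ‖x‖ ≤ y0 ⬝ᵥ x)
    (t : ℝ) {x : Fin n → ℝ} (hx : x ∈ V) : (a - |t| * (n * ‖b‖)) * ‖x‖ ≤ (y0 + t • b) ⬝ᵥ x := by
  rw [add_dotProduct, smul_dotProduct, smul_eq_mul]
  have h1 := hdec x hx
  have h2 : |t * (b ⬝ᵥ x)| ≤ |t| * (n * ‖b‖ * ‖x‖) := by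
    rw [abs_mul]
    exact mul_le_mul_of_nonneg_left (dot_le b x) (abs_nonneg t)
  have h3 := (abs_le.1 h2).1
  nlinarith

theorem exp_bound {V : Set (Fin n → ℝ)} {y : Fin n → ℝ} {s : ℝ} (h : ∀ x ∈ V, s * ‖x‖ ≤ y ⬝ᵥ x)
    {x : Fin n → ℝ} (hx : x ∈ V) : Real.exp (-(y ⬝ᵥ x)) ≤ Real.exp (-(s * ‖x‖)) :=
  Real.exp_le_exp.2 (neg_le_neg (h x hx))

theorem meas_exp (y : Fin n → ℝ) : Continuous fun x : Fin n → ℝ => Real.exp (-(y ⬝ᵥ x)) := by
  simp only [dotProduct]
  fun_prop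

theorem pg_integrable {s : ℝ} (hs : 0 < s) {φ : (Fin n → ℝ) → ℝ} (hφ : PolyGrowth φ) :
    Integrable fun x : Fin n → ℝ => |φ x| * Real.exp (-(s * ‖x‖)) := by
  obtain ⟨hm, A, N, hA⟩ := hφ
  refine ((integrable_poly_exp n hs N).const_mul A).mono' ?_ (Eventually.of_forall fun x => ?_)
  · refine (by simpa only [Real.norm_eq_abs] using hm.norm : AEStronglyMeasurable (fun x => |φ x|) volume).mul ?_
    exact (by fun_prop : Continuous fun x : Fin n → ℝ => Real.exp (-(s * ‖x‖))).aestronglyMeasurable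
  · rw [Real.norm_eq_abs, abs_of_nonneg (by positivity), ← mul_assoc]
    exact mul_le_mul_of_nonneg_right (hA x) (Real.exp_pos _).le

theorem integrable_J {V : Set (Fin n → ℝ)} (hV : MeasurableSet V) {y : Fin n → ℝ} {s : ℝ} (hs : 0 < s)
    (h : ∀ x ∈ V, s * ‖x‖ ≤ y ⬝ᵥ x) {φ : (Fin n → ℝ) → ℝ} (hφ : PolyGrowth φ) :
    IntegrableOn (fun x => φ x * Real.exp (-(y ⬝ᵥ x))) V := by
  refine ((pg_integrable hs hφ).integrableOn (s := V)).mono'
    ((hφ.1.mul (meas_exp y).aestronglyMeasurable).restrict) ?_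
  refine (ae_restrict_iff' hV).2 (Eventually.of_forall fun x hx => ?_)
  rw [norm_mul, Real.norm_eq_abs, Real.norm_eq_abs, Real.abs_exp]
  exact mul_le_mul_of_nonneg_left (exp_bound h hx) (abs_nonneg _)

/-- derivative of a moment along a line -/
theorem J_der {V : Set (Fin n → ℝ)} (hV : MeasurableSet V) {y0 b : Fin n → ℝ} {a : ℝ}
    (hdec : ∀ x ∈ V, a * ‖x‖ ≤ y0 ⬝ᵥ x) {φ : (Fin n → ℝ) → ℝ} (hφ : PolyGrowth φ) {t : ℝ}
    (ht : |t| * (n * ‖b‖) < a) :
    HasDerivAt (fun t : ℝ => J V φ (y0 + t • b)) (-J V (fun x => φ x * (b ⬝ᵥ x)) (y0 + t • b)) t := by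
  set s : ℝ := (a - |t| * (n * ‖b‖)) / 2 with hs
  have hs0 : 0 < s := by rw [hs]; linarith
  set ε : ℝ := s / (n * ‖b‖ + 1) with hε
  have hnb : 0 ≤ (n : ℝ) * ‖b‖ := by positivity
  have hε0 : 0 < ε := by rw [hε]; positivity
  have hball : ∀ r ∈ ball t ε, ∀ x ∈ V, s * ‖x‖ ≤ (y0 + r • b) ⬝ᵥ x := by
    intro r hr x hx
    refine le_trans ?_ (dec_line hdec r hx)
    refine mul_le_mul_of_nonneg_right ?_ (norm_nonneg x)
    rw [mem_ball, Real.dist_eq] at hr
    have h1 : |r| ≤ |t| + ε := by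
      have := abs_sub_abs_le_abs_sub r t
      linarith
    have h2 : ε * (n * ‖b‖) ≤ s := by
      rw [hε, div_mul_eq_mul_div, div_le_iff₀ (by positivity)]
      nlinarith
    have h3 : |r| * (n * ‖b‖) ≤ (|t| + ε) * (n * ‖b‖) := mul_le_mul_of_nonneg_right h1 hnb
    have h4 : 2 * s = a - |t| * (n * ‖b‖) := by rw [hs]; ring
    nlinarith
  have hφb : PolyGrowth (fun x => φ x * (b ⬝ᵥ x)) := hφ.mul (pg_dot b)
  have key := hasDerivAt_integral_of_dominated_loc_of_deriv_le (μ := volume.restrict V)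
    (F := fun (r : ℝ) x => φ x * Real.exp (-((y0 + r • b) ⬝ᵥ x)))
    (F' := fun (r : ℝ) x => -(φ x * (b ⬝ᵥ x) * Real.exp (-((y0 + r • b) ⬝ᵥ x))))
    (x₀ := t) (s := ball t ε) (bound := fun x => |φ x * (b ⬝ᵥ x)| * Real.exp (-(s * ‖x‖)))
    (ball_mem_nhds t hε0)
    (Eventually.of_forall fun r => (hφ.1.mul (meas_exp _).aestronglyMeasurable).restrict)
    (integrable_J hV hs0 (hball t (mem_ball_self hε0)) hφ)
    ((hφb.1.mul (meas_exp _).aestronglyMeasurable).neg.restrict)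
    ((ae_restrict_iff' hV).2 (Eventually.of_forall fun x hx r hr => by
      rw [norm_neg, norm_mul, Real.norm_eq_abs, Real.norm_eq_abs, Real.abs_exp]
      exact mul_le_mul_of_nonneg_left (exp_bound (hball r hr) hx) (abs_nonneg _)))
    ((pg_integrable hs0 hφb).restrict)
    (Eventually.of_forall fun x r _ => by
      have e1 : ∀ r : ℝ, -((y0 + r • b) ⬝ᵥ x) = -(y0 ⬝ᵥ x) - r * (b ⬝ᵥ x) := fun r => by
        rw [add_dotProduct, smul_dotProduct, smul_eq_mul]; ring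
      have h1 : HasDerivAt (fun r : ℝ => -((y0 + r • b) ⬝ᵥ x)) (-(b ⬝ᵥ x)) r := by
        simp only [e1]
        have := ((hasDerivAt_id r).mul_const (b ⬝ᵥ x)).const_sub (-(y0 ⬝ᵥ x))
        simpa using this
      have h2 := (h1.exp).const_mul (φ x)
      refine h2.congr_deriv ?_
      ring)
  have h := key.2
  unfold J
  refine h.congr_deriv ?_
  rw [integral_neg]

theorem J_pos {V : Set (Fin n → ℝ)} (hV : MeasurableSet V) (hi : (interior V).Nonempty) {y : Fin n → ℝ}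
    {s : ℝ} (hs : 0 < s) (h : ∀ x ∈ V, s * ‖x‖ ≤ y ⬝ᵥ x) : 0 < J V (fun _ => 1) y := by
  unfold J
  have hint := integrable_J hV hs h (φ := fun _ => 1) pg_one
  have hvol : 0 < volume V :=
    (isOpen_interior.measure_pos volume hi).trans_le (measure_mono interior_subset)
  rw [setIntegral_pos_iff_support_of_nonneg_ae (Eventually.of_forall fun x => by positivity) hint]
  have hsupp : Function.support (fun x : Fin n → ℝ => (1 : ℝ) * Real.exp (-(y ⬝ᵥ x))) = univ := by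
    ext x
    simp [Function.mem_support, Real.exp_ne_zero]
  rw [hsupp, univ_inter]
  exact hvol

/-- `⟨b, Cov b⟩ = E⟨b,x⟩² - (E⟨b,x⟩)²` -/
theorem quad_cov {V : Set (Fin n → ℝ)} (hV : MeasurableSet V) {y : Fin n → ℝ} {s : ℝ} (hs : 0 < s)
    (h : ∀ x ∈ V, s * ‖x‖ ≤ y ⬝ᵥ x) (b : Fin n → ℝ) :
    b ⬝ᵥ covF (den V y) *ᵥ b = J V (fun x => 1 * (b ⬝ᵥ x) * (b ⬝ᵥ x)) y / J V (fun _ => 1) y
      - (J V (fun x => 1 * (b ⬝ᵥ x)) y / J V (fun _ => 1) y) ^ 2 := by
  have e1 : J V (fun x => 1 * (b ⬝ᵥ x)) y = ∑ i, b i * J V (fun x => x i) y := by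
    unfold J
    have : ∀ x : Fin n → ℝ, 1 * (b ⬝ᵥ x) * Real.exp (-(y ⬝ᵥ x)) = ∑ i, b i * (x i * Real.exp (-(y ⬝ᵥ x))) := by
      intro x
      rw [one_mul, dotProduct, Finset.sum_mul]
      exact Finset.sum_congr rfl fun i _ => by ring
    simp only [this]
    rw [integral_finsetSum _ fun i _ => (integrable_J hV hs h (pg_coord i)).const_mul _]
    exact Finset.sum_congr rfl fun i _ => integral_const_mul _ _
  have e2 : J V (fun x => 1 * (b ⬝ᵥ x) * (b ⬝ᵥ x)) y = ∑ i, ∑ j, b i * b j * J V (fun x => x i * x j) y := by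
    unfold J
    have : ∀ x : Fin n → ℝ, 1 * (b ⬝ᵥ x) * (b ⬝ᵥ x) * Real.exp (-(y ⬝ᵥ x)) =
        ∑ i, ∑ j, b i * b j * (x i * x j * Real.exp (-(y ⬝ᵥ x))) := by
      intro x
      rw [one_mul, dotProduct, Finset.sum_mul_sum, Finset.sum_mul]
      refine Finset.sum_congr rfl fun i _ => ?_
      rw [Finset.sum_mul]
      exact Finset.sum_congr rfl fun j _ => by ring
    simp only [this]
    rw [integral_finsetSum _ fun i _ => integrable_finsetSum _ fun j _ =>
      (integrable_J hV hs h (pg_coord2 i j)).const_mul _]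
    refine Finset.sum_congr rfl fun i _ => ?_
    rw [integral_finsetSum _ fun j _ => (integrable_J hV hs h (pg_coord2 i j)).const_mul _]
    exact Finset.sum_congr rfl fun j _ => integral_const_mul _ _
  rw [e1, e2]
  have e3 : b ⬝ᵥ covF (den V y) *ᵥ b = ∑ i, ∑ j, b i * b j *
      (J V (fun x => x i * x j) y / J V (fun _ => 1) y -
        J V (fun x => x i) y / J V (fun _ => 1) y * (J V (fun x => x j) y / J V (fun _ => 1) y)) := by
    simp only [dotProduct, mulVec, covF, of_apply, Ef, Finset.mul_sum]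
    refine Finset.sum_congr rfl fun i _ => Finset.sum_congr rfl fun j _ => ?_
    rw [int_den hV (fun x => x i * x j), int_den hV (fun x => x i), int_den hV (fun x => x j), int_den1 hV]
    ring
  rw [e3]
  set Z := J V (fun _ => 1) y
  have e4 : (∑ i, b i * J V (fun x => x i) y) / Z = ∑ i, b i * (J V (fun x => x i) y / Z) := by
    rw [Finset.sum_div]
    exact Finset.sum_congr rfl fun i _ => by ring
  rw [e4, pow_two, Finset.sum_mul_sum, Finset.sum_div, ← Finset.sum_sub_distrib]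
  refine Finset.sum_congr rfl fun i _ => ?_
  rw [Finset.sum_div, ← Finset.sum_sub_distrib]
  exact Finset.sum_congr rfl fun j _ => by ring

/-- the first derivative of `t ↦ log ∫_V e^{-⟨y0 + t b, x⟩}` -/
theorem log_der {V : Set (Fin n → ℝ)} (hV : MeasurableSet V) (hi : (interior V).Nonempty)
    {y0 b : Fin n → ℝ} {a : ℝ} (hdec : ∀ x ∈ V, a * ‖x‖ ≤ y0 ⬝ᵥ x) {t : ℝ} (ht : |t| * (n * ‖b‖) < a) :
    HasDerivAt (fun t : ℝ => Real.log (∫ x in V, Real.exp (-((y0 + t • b) ⬝ᵥ x))))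
      (-(J V (fun x => 1 * (b ⬝ᵥ x)) (y0 + t • b) / J V (fun _ => 1) (y0 + t • b))) t := by
  have hs : 0 < a - |t| * (n * ‖b‖) := by linarith
  have hpos := J_pos hV hi hs (fun x hx => dec_line hdec t hx)
  have h1 := (J_der hV hdec (b := b) (φ := fun _ => 1) pg_one ht).log hpos.ne'
  have e : (fun t : ℝ => Real.log (∫ x in V, Real.exp (-((y0 + t • b) ⬝ᵥ x)))) =
      fun t : ℝ => Real.log (J V (fun _ => 1) (y0 + t • b)) := by
    funext t
    unfold J
    simp
  rw [e]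
  refine h1.congr_deriv ?_
  rw [neg_div]

/-- the second derivative -/
theorem log_der2 {V : Set (Fin n → ℝ)} (hV : MeasurableSet V) (hi : (interior V).Nonempty)
    {y0 b : Fin n → ℝ} {a : ℝ} (hdec : ∀ x ∈ V, a * ‖x‖ ≤ y0 ⬝ᵥ x) {t : ℝ} (ht : |t| * (n * ‖b‖) < a) :
    HasDerivAt (fun t : ℝ => -(J V (fun x => 1 * (b ⬝ᵥ x)) (y0 + t • b) / J V (fun _ => 1) (y0 + t • b)))
      (b ⬝ᵥ covF (den V (y0 + t • b)) *ᵥ b) t := by
  have hs : 0 < a - |t| * (n * ‖b‖) := by linarith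
  have hpos := J_pos hV hi hs (fun x hx => dec_line hdec t hx)
  have h1 := J_der hV hdec (b := b) (φ := fun _ => 1) pg_one ht
  have h2 := J_der hV hdec (b := b) (φ := fun x => 1 * (b ⬝ᵥ x)) (pg_one.mul (pg_dot b)) ht
  have h3 := (h2.div h1 hpos.ne').neg
  refine h3.congr_deriv ?_
  rw [quad_cov hV hs (fun x hx => dec_line hdec t hx) b]
  have hne := hpos.ne'
  field_simp
  ring

/-- moments are continuous along the line -/
theorem J_cont {V : Set (Fin n → ℝ)} (hV : MeasurableSet V) {y0 b : Fin n → ℝ} {a : ℝ} (ha : 0 < a)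
    (hdec : ∀ x ∈ V, a * ‖x‖ ≤ y0 ⬝ᵥ x) {φ : (Fin n → ℝ) → ℝ} (hφ : PolyGrowth φ) :
    ContinuousAt (fun t : ℝ => J V φ (y0 + t • b)) 0 :=
  (J_der hV hdec hφ (t := 0) (by simpa using ha)).continuousAt

/-- the second derivative is continuous at `t = 0` -/
theorem cov_cont {V : Set (Fin n → ℝ)} (hV : MeasurableSet V) (hi : (interior V).Nonempty)
    {y0 b : Fin n → ℝ} {a : ℝ} (ha : 0 < a) (hdec : ∀ x ∈ V, a * ‖x‖ ≤ y0 ⬝ᵥ x) (c : Fin n → ℝ) :
    ContinuousAt (fun t : ℝ => c ⬝ᵥ covF (den V (y0 + t • b)) *ᵥ c) 0 := by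
  have hpos := J_pos hV hi ha hdec
  have hne : J V (fun _ => 1) (y0 + (0 : ℝ) • b) ≠ 0 := by
    rw [zero_smul, add_zero]; exact hpos.ne'
  have h1 := J_cont hV (b := b) ha hdec pg_one
  have hent : ∀ i j, ContinuousAt (fun t : ℝ => covF (den V (y0 + t • b)) i j) 0 := by
    intro i j
    simp only [covF, of_apply, Ef]
    simp only [int_den hV (fun x => x i * x j), int_den hV (fun x => x i), int_den hV (fun x => x j), int_den1 hV]
    exact ((J_cont hV (b := b) ha hdec (pg_coord2 i j)).div h1 hne).sub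
      (((J_cont hV (b := b) ha hdec (pg_coord i)).div h1 hne).mul
        ((J_cont hV (b := b) ha hdec (pg_coord j)).div h1 hne))
  simp only [dotProduct, mulVec]
  refine tendsto_finsetSum _ fun i _ => Tendsto.mul tendsto_const_nhds ?_
  exact tendsto_finsetSum _ fun j _ => Tendsto.mul (hent i j) tendsto_const_nhds

end Vale.Agent.P248.MC.SD700

end

section

/-! P248/NS, block T1: dual cones. -/

open MeasureTheory Set Matrix Filter Topology Metric

namespace Vale.Agent.P248.NS.T1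

variable {N : ℕ} {C : Set (Fin N → ℝ)}

lemma abs_dot_le (v z : Fin N → ℝ) : |v ⬝ᵥ z| ≤ (∑ i, |v i|) * ‖z‖ := by
  unfold dotProduct
  rw [Finset.sum_mul]
  refine (Finset.abs_sum_le_sum_abs _ _).trans (Finset.sum_le_sum fun i _ => ?_)
  rw [abs_mul]
  exact mul_le_mul_of_nonneg_left (norm_le_pi_norm z i) (abs_nonneg _)

lemma sum_abs_le (v : Fin N → ℝ) : ∑ i, |v i| ≤ N * ‖v‖ := by
  refine (Finset.sum_le_card_nsmul _ _ ‖v‖ fun i _ => norm_le_pi_norm v i).trans ?_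
  simp

lemma norm_le_sum_abs (v : Fin N → ℝ) : ‖v‖ ≤ ∑ i, |v i| := by
  refine (pi_norm_le_iff_of_nonneg (Finset.sum_nonneg fun i _ => abs_nonneg _)).2 fun i => ?_
  exact Finset.single_le_sum (f := fun i => |v i|) (fun i _ => abs_nonneg _) (Finset.mem_univ i)

/-- (b) -/
lemma pos_dual {x : Fin N → ℝ} (hx : x ∈ interior C) : Pos (dual C) x := by
  obtain ⟨r, hr, hb⟩ := Metric.isOpen_iff.1 isOpen_interior x hx
  refine ⟨r / 2, by positivity, fun w hw => ?_⟩
  set s : Fin N → ℝ := fun i => (SignType.sign (w i) : ℝ) with hs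
  have hz : x - (r / 2) • s ∈ C := by
    refine interior_subset (hb ?_)
    rw [mem_ball, dist_eq_norm, show x - (r / 2) • s - x = -((r / 2) • s) by abel, norm_neg, norm_smul,
      Real.norm_of_nonneg (by positivity)]
    have h1 : ‖s‖ ≤ 1 := by
      refine (pi_norm_le_iff_of_nonneg zero_le_one).2 fun i => ?_
      simp only [hs]
      rcases lt_trichotomy (w i) 0 with h | h | h
      · simp [sign_neg h]
      · simp [h]
      · simp [sign_pos h]
    nlinarith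
  have h2 := hw _ hz
  have h3 : w ⬝ᵥ s = ∑ i, |w i| := by
    unfold dotProduct
    refine Finset.sum_congr rfl fun i _ => ?_
    simp only [hs]
    rw [mul_comm]
    exact sign_mul_self (w i)
  rw [dotProduct_sub, dotProduct_smul, h3, smul_eq_mul, dotProduct_comm w x] at h2
  have h4 := norm_le_sum_abs w
  nlinarith

/-- (c) -/
lemma mem_interior_dual {y : Fin N → ℝ} (hy : Pos C y) : y ∈ interior (dual C) := by
  obtain ⟨a, ha, h⟩ := hy
  refine mem_interior.2 ⟨ball y (a / (N + 1)), fun w hw z hz => ?_, isOpen_ball,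
    mem_ball_self (by positivity)⟩
  have h1 := h z hz
  have h2 : w ⬝ᵥ z = y ⬝ᵥ z + (w - y) ⬝ᵥ z := by rw [sub_dotProduct]; ring
  have h3 := abs_dot_le (w - y) z
  have h4 := sum_abs_le (w - y)
  rw [mem_ball, dist_eq_norm, lt_div_iff₀ (by positivity)] at hw
  have h5 : (∑ i, |(w - y) i|) * ‖z‖ ≤ a * ‖z‖ := by
    refine mul_le_mul_of_nonneg_right (h4.trans ?_) (norm_nonneg _)
    nlinarith [norm_nonneg (w - y)]
  have h6 := neg_abs_le ((w - y) ⬝ᵥ z)
  rw [h2]
  linarith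

lemma closed_dual (C : Set (Fin N → ℝ)) : IsClosed (dual C) := by
  have : dual C = ⋂ z ∈ C, {w | 0 ≤ w ⬝ᵥ z} := by
    ext w
    simp [dual]
  rw [this]
  refine isClosed_biInter fun z _ => isClosed_le continuous_const ?_
  unfold dotProduct
  fun_prop

lemma conv_dual (C : Set (Fin N → ℝ)) : Convex ℝ (dual C) := by
  intro u hu v hv a b ha hb _ z hz
  rw [add_dotProduct, smul_dotProduct, smul_dotProduct, smul_eq_mul, smul_eq_mul]
  have := hu z hz
  have := hv z hz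
  positivity

theorem stmtDual : StmtDual := by
  intro N C hC
  obtain ⟨y, hy⟩ := hC.pos
  obtain ⟨x, hx⟩ := hC.int
  refine ⟨⟨closed_dual C, conv_dual C, fun w hw t ht z hz => ?_, ⟨y, mem_interior_dual hy⟩,
    ⟨x, pos_dual hx⟩⟩, fun x hx => pos_dual hx, fun y hy => mem_interior_dual hy⟩
  rw [smul_dotProduct, smul_eq_mul]
  exact mul_nonneg ht (hw z hz)

end Vale.Agent.P248.NS.T1

end

section

/-! P248/NS, block T2: scaling and positivity of the Laplace transform of a cone. -/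

open MeasureTheory Set Matrix Filter Topology Metric
open scoped Pointwise

namespace Vale.Agent.P248.NS.T2a

variable {N : ℕ} {C : Set (Fin N → ℝ)}

lemma smul_cone (hC : CC C) {s : ℝ} (hs : 0 < s) : s • C = C := by
  ext z
  constructor
  · rintro ⟨w, hw, rfl⟩
    exact hC.cone w hw s hs.le
  · intro hz
    refine ⟨s⁻¹ • z, hC.cone z hz _ (by positivity), ?_⟩
    simp only [smul_smul]
    rw [mul_inv_cancel₀ hs.ne', one_smul]

lemma continuous_exp_dot (y : Fin N → ℝ) :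
    Continuous fun z : Fin N → ℝ => Real.exp (-(y ⬝ᵥ z)) := by
  unfold dotProduct
  fun_prop

lemma integrableOn_exp (hC : CC C) {y : Fin N → ℝ} (hy : Pos C y) :
    IntegrableOn (fun z => Real.exp (-(y ⬝ᵥ z))) C := by
  obtain ⟨a, ha, h⟩ := hy
  have h1 : Integrable (fun z : Fin N → ℝ => Real.exp (-(a * ‖z‖))) := by
    have := Vale.Agent.P254.R304.integrable_poly_exp N ha 0
    simpa using this
  refine Integrable.mono' h1.integrableOn
    (continuous_exp_dot y).aestronglyMeasurable ?_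
  filter_upwards [ae_restrict_mem hC.closed.measurableSet] with z hz
  rw [Real.norm_of_nonneg (Real.exp_pos _).le]
  exact Real.exp_le_exp.2 (neg_le_neg (h z hz))

lemma Z_pos (hC : CC C) {y : Fin N → ℝ} (hy : Pos C y) : 0 < Z C y := by
  have h0 : (volume C) ≠ 0 := by
    have h1 : 0 < volume (interior C) := isOpen_interior.measure_pos _ hC.int
    exact (h1.trans_le (measure_mono interior_subset)).ne'
  have : NeZero (volume.restrict C) := ⟨by rwa [Ne, Measure.restrict_eq_zero]⟩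
  exact integral_exp_pos (μ := volume.restrict C) (f := fun z => -(y ⬝ᵥ z)) (integrableOn_exp hC hy)

theorem stmtScale : StmtScale := by
  intro N C hC y hy
  refine ⟨Z_pos hC hy, fun s hs => ?_⟩
  have h := Measure.setIntegral_comp_smul_of_pos (volume : Measure (Fin N → ℝ))
    (fun z => Real.exp (-(y ⬝ᵥ z))) C hs
  rw [smul_cone hC hs, Module.finrank_fin_fun, smul_eq_mul] at h
  unfold Z
  rw [← h]
  refine integral_congr_ae (Eventually.of_forall fun z => ?_)
  simp only [smul_dotProduct, dotProduct_smul]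

end Vale.Agent.P248.NS.T2a

end

section

/-! # P248/NS, block T4: the crude lower bound (helper187). -/

open MeasureTheory Set Matrix Filter Topology

namespace Vale.Agent.P248.NS.T4

variable {N : ℕ}

theorem cont_dot (y : Fin N → ℝ) : Continuous fun z : Fin N → ℝ => y ⬝ᵥ z := by
  unfold dotProduct
  fun_prop

theorem intOn_exp {S : Set (Fin N → ℝ)} (hS : MeasurableSet S) {y : Fin N → ℝ}
    (hy : Pos S y) : IntegrableOn (fun z => Real.exp (-(y ⬝ᵥ z))) S := by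
  obtain ⟨a, ha, h⟩ := hy
  have h1 : IntegrableOn (fun x : Fin N → ℝ => (1 + ‖x‖) ^ 0 * Real.exp (-(a * ‖x‖))) S :=
    (Vale.Agent.P254.R304.integrable_poly_exp N ha 0).integrableOn
  have hc : Continuous fun z : Fin N → ℝ => Real.exp (-(y ⬝ᵥ z)) :=
    Real.continuous_exp.comp (cont_dot y).neg
  refine Integrable.mono' h1 hc.aestronglyMeasurable ?_
  refine (ae_restrict_iff' hS).2 (Eventually.of_forall fun z hz => ?_)
  rw [Real.norm_eq_abs, abs_of_pos (Real.exp_pos _), pow_zero, one_mul]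
  exact Real.exp_le_exp.2 (neg_le_neg (h z hz))

theorem Z_ge {S : Set (Fin N → ℝ)} (hS : MeasurableSet S) {y : Fin N → ℝ} (hy : Pos S y)
    {M : Matrix (Fin N) (Fin N) ℝ} {b : ℝ} (hb : 0 ≤ b)
    (hmem : ∀ l : Fin N → ℝ, (∀ i, 0 ≤ l i) → (∀ i, l i ≤ b) →
      M *ᵥ l ∈ S ∧ y ⬝ᵥ (M *ᵥ l) ≤ 1) :
    Real.exp (-1) * (|M.det| * b ^ N) ≤ Z S y := by
  have hTc : IsCompact ((Matrix.toLin' M) '' (Icc (0 : Fin N → ℝ) (fun _ => b))) :=
    isCompact_Icc.image (LinearMap.continuous_of_finiteDimensional _)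
  have hvol : volume ((Matrix.toLin' M) '' (Icc (0 : Fin N → ℝ) (fun _ => b)))
      = ENNReal.ofReal (|M.det| * b ^ N) := by
    rw [Measure.addHaar_image_linearMap, LinearMap.det_toLin', Real.volume_Icc_pi,
      ENNReal.ofReal_mul (abs_nonneg _), ENNReal.ofReal_pow hb]
    simp
  have hpt : ∀ z ∈ (Matrix.toLin' M) '' (Icc (0 : Fin N → ℝ) (fun _ => b)),
      z ∈ S ∧ y ⬝ᵥ z ≤ 1 := by
    rintro z ⟨l, hl, rfl⟩
    rw [Matrix.toLin'_apply]
    exact hmem l (fun i => hl.1 i) (fun i => hl.2 i)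
  have hint := intOn_exp hS hy
  have hreal : volume.real ((Matrix.toLin' M) '' (Icc (0 : Fin N → ℝ) (fun _ => b)))
      = |M.det| * b ^ N := by
    rw [measureReal_def, hvol, ENNReal.toReal_ofReal (by positivity)]
  have h1 := setIntegral_ge_of_const_le (c := Real.exp (-1)) hTc.measurableSet
    hTc.measure_lt_top.ne
    (fun z hz => Real.exp_le_exp.2 (neg_le_neg (hpt z hz).2))
    (hint.mono_set fun z hz => (hpt z hz).1)
  rw [hreal, smul_eq_mul] at h1
  have h2 : ∫ z in (Matrix.toLin' M) '' (Icc (0 : Fin N → ℝ) (fun _ => b)),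
      Real.exp (-(y ⬝ᵥ z)) ≤ Z S y :=
    setIntegral_mono_set hint (Eventually.of_forall fun z => (Real.exp_pos _).le)
      (Eventually.of_forall fun z hz => (hpt z hz).1)
  linarith

theorem closed_dual (C : Set (Fin N → ℝ)) : IsClosed (dual C) := by
  have : dual C = ⋂ z ∈ C, {w : Fin N → ℝ | 0 ≤ w ⬝ᵥ z} := by
    ext w
    simp [dual]
  rw [this]
  refine isClosed_biInter fun z _ => ?_
  refine isClosed_le continuous_const ?_
  have : (fun w : Fin N → ℝ => w ⬝ᵥ z) = fun w => z ⬝ᵥ w := by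
    ext w
    exact dotProduct_comm _ _
  rw [this]
  exact cont_dot z

theorem add_mem {C : Set (Fin N → ℝ)} (hC : CC C) {u v : Fin N → ℝ} (hu : u ∈ C) (hv : v ∈ C) :
    u + v ∈ C := by
  have h1 : (1 / 2 : ℝ) • u + (1 / 2 : ℝ) • v ∈ C :=
    hC.conv hu hv (by norm_num) (by norm_num) (by norm_num)
  have h2 := hC.cone _ h1 2 (by norm_num)
  rw [smul_add, smul_smul, smul_smul] at h2
  norm_num at h2
  exact h2

theorem zero_mem {C : Set (Fin N → ℝ)} (hC : CC C) : (0 : Fin N → ℝ) ∈ C := by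
  obtain ⟨z, hz⟩ := hC.int
  have := hC.cone z (interior_subset hz) 0 le_rfl
  rwa [zero_smul] at this

theorem sum_mem {C : Set (Fin N → ℝ)} (hC : CC C) {V : Matrix (Fin N) (Fin N) ℝ}
    (hV : ∀ i, V i ∈ C) {l : Fin N → ℝ} (hl : ∀ i, 0 ≤ l i) : Vᵀ *ᵥ l ∈ C := by
  have e : Vᵀ *ᵥ l = ∑ i, l i • V i := by
    ext j
    simp [mulVec, dotProduct, Finset.sum_apply, mul_comm]
  rw [e]
  classical
  have : ∀ s : Finset (Fin N), ∑ i ∈ s, l i • V i ∈ C := by
    intro s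
    induction s using Finset.induction_on with
    | empty => simpa using zero_mem hC
    | insert a s ha ih =>
      rw [Finset.sum_insert ha]
      exact add_mem hC (hC.cone _ (hV a) _ (hl a)) ih
  exact this _

theorem dot_tr (x l : Fin N → ℝ) (W : Matrix (Fin N) (Fin N) ℝ) :
    x ⬝ᵥ (Wᵀ *ᵥ l) = ∑ i, l i * (W i ⬝ᵥ x) := by
  rw [Matrix.mulVec_transpose, dotProduct_comm, ← Matrix.dotProduct_mulVec]
  rfl

/-- a nondegenerate system in the cone -/
theorem exists_nondeg {C : Set (Fin N → ℝ)} (hC : CC C) {y : Fin N → ℝ} (_hy : Pos C y) :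
    ∃ V : Matrix (Fin N) (Fin N) ℝ, V.det ≠ 0 ∧ (∀ i, V i ∈ C) ∧ ∀ i, y ⬝ᵥ V i ≤ 1 := by
  obtain ⟨z0, hz0⟩ := hC.int
  obtain ⟨r, hr, hball⟩ := Metric.isOpen_iff.1 isOpen_interior z0 hz0
  have key : ∃ t : ℝ, 0 < t ∧ t < r ∧ 1 + z0 ⬝ᵥ (fun _ => t⁻¹) ≠ 0 := by
    have hsum : ∀ t : ℝ, z0 ⬝ᵥ (fun _ => t⁻¹) = (∑ i, z0 i) * t⁻¹ := by
      intro t
      simp [dotProduct, Finset.sum_mul]
    by_cases h : 1 + (∑ i, z0 i) * (r / 2)⁻¹ = 0
    · refine ⟨r / 4, by positivity, by linarith, ?_⟩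
      rw [hsum]
      intro h2
      have e1 : (∑ i, z0 i) = -(r / 2) := by
        have hr2 : (r / 2) ≠ 0 := by positivity
        field_simp at h
        linarith
      rw [e1] at h2
      have hr0 : r ≠ 0 := hr.ne'
      field_simp at h2
      norm_num at h2
    · exact ⟨r / 2, by positivity, by linarith, by rw [hsum]; exact h⟩
  obtain ⟨t, ht0, htr, hdet⟩ := key
  set V : Matrix (Fin N) (Fin N) ℝ :=
    t • (1 + replicateCol Unit (fun _ => t⁻¹) * replicateRow Unit z0) with hV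
  have hVe : ∀ i j, V i j = (if i = j then t else 0) + z0 j := by
    intro i j
    rw [hV]
    simp only [Matrix.smul_apply, Matrix.add_apply, Matrix.mul_apply, replicateCol_apply,
      replicateRow_apply, Matrix.one_apply, smul_eq_mul, Finset.univ_unique, Finset.sum_singleton]
    split_ifs
    · field_simp
    · field_simp
      ring
  have hVdet : V.det ≠ 0 := by
    rw [hV, Matrix.det_smul, Matrix.det_one_add_replicateCol_mul_replicateRow]
    exact mul_ne_zero (pow_ne_zero _ ht0.ne') hdet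
  have hVC : ∀ i, V i ∈ C := by
    intro i
    refine interior_subset (hball ?_)
    rw [Metric.mem_ball]
    refine lt_of_le_of_lt ((dist_pi_le_iff ht0.le).2 fun j => ?_) htr
    rw [hVe, Real.dist_eq, add_sub_cancel_right]
    split_ifs
    · rw [abs_of_pos ht0]
    · rw [abs_zero]; exact ht0.le
  -- scaling
  set s : ℝ := (1 + ∑ i, |y ⬝ᵥ V i|)⁻¹ with hs
  have hpos : 0 < 1 + ∑ i, |y ⬝ᵥ V i| := by positivity
  have hs0 : 0 < s := inv_pos.2 hpos
  refine ⟨s • V, ?_, fun i => ?_, fun i => ?_⟩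
  · rw [Matrix.det_smul]
    exact mul_ne_zero (pow_ne_zero _ hs0.ne') hVdet
  · exact hC.cone _ (hVC i) s hs0.le
  · have e : y ⬝ᵥ (s • V) i = s * (y ⬝ᵥ V i) := by
      have : (s • V) i = s • V i := rfl
      rw [this, dotProduct_smul, smul_eq_mul]
    rw [e]
    have h1 : y ⬝ᵥ V i ≤ 1 + ∑ i, |y ⬝ᵥ V i| := by
      have := Finset.single_le_sum (f := fun i => |y ⬝ᵥ V i|) (fun i _ => abs_nonneg _)
        (Finset.mem_univ i)
      have h3 := le_abs_self (y ⬝ᵥ V i)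
      linarith
    rw [hs, inv_mul_le_iff₀ hpos]
    linarith

/-- a system in the truncated cone with maximal determinant -/
theorem exists_max {C : Set (Fin N → ℝ)} (hC : CC C) {y : Fin N → ℝ} (hy : Pos C y) :
    ∃ V : Matrix (Fin N) (Fin N) ℝ, V.det ≠ 0 ∧ (∀ i, V i ∈ C) ∧ (∀ i, y ⬝ᵥ V i ≤ 1) ∧
      ∀ i, ∀ z ∈ C, y ⬝ᵥ z ≤ 1 → |(V.updateRow i z).det| ≤ |V.det| := by
  obtain ⟨V1, hd1, hC1, hy1⟩ := exists_nondeg hC hy
  obtain ⟨a, ha, hpos⟩ := hy
  set K : Set (Fin N → ℝ) := C ∩ {z | y ⬝ᵥ z ≤ 1} with hK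
  have hKc : IsCompact K := by
    refine Metric.isCompact_of_isClosed_isBounded
      (hC.closed.inter (isClosed_le (cont_dot y) continuous_const)) ?_
    refine (Metric.isBounded_closedBall (x := (0 : Fin N → ℝ)) (r := a⁻¹)).subset ?_
    intro z hz
    rw [mem_closedBall_zero_iff]
    have h1 := hpos z hz.1
    have h2 : a * ‖z‖ ≤ 1 := h1.trans hz.2
    rw [← one_div, le_div_iff₀ ha]
    linarith
  have hP : IsCompact (Set.pi univ fun _ : Fin N => K) := isCompact_univ_pi fun _ => hKc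
  have hcont : Continuous fun V : Fin N → Fin N → ℝ => |(Matrix.of V).det| := by
    refine continuous_abs.comp (Continuous.matrix_det ?_)
    exact continuous_id
  obtain ⟨V, hVP, hmax⟩ := hP.exists_isMaxOn ⟨V1, fun i _ => ⟨hC1 i, hy1 i⟩⟩
    hcont.continuousOn
  have hV1 : |V1.det| ≤ |(Matrix.of V).det| := hmax (fun i _ => ⟨hC1 i, hy1 i⟩)
  refine ⟨Matrix.of V, ?_, fun i => (hVP i (mem_univ i)).1, fun i => (hVP i (mem_univ i)).2, ?_⟩
  · intro h0
    rw [h0, abs_zero] at hV1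
    exact hd1 (abs_eq_zero.1 (le_antisymm hV1 (abs_nonneg _)))
  · intro i z hz hyz
    have hmem : (fun k => (Matrix.of V).updateRow i z k) ∈ Set.pi univ fun _ : Fin N => K := by
      intro k _
      by_cases hk : k = i
      · subst hk
        simp only [Matrix.updateRow_self]
        exact ⟨hz, hyz⟩
      · simp only [Matrix.updateRow_ne hk]
        exact hVP k (mem_univ k)
    exact hmax hmem

theorem stmtCrude : StmtCrude := by
  intro N C hN hC
  have hNr : (0 : ℝ) < N := by exact_mod_cast hN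
  refine ⟨Real.exp (-1) * Real.exp (-1) * ((1 / (N : ℝ)) ^ N * (1 / (2 * (N : ℝ))) ^ N),
    by positivity, ?_⟩
  intro x y hx hy
  obtain ⟨V, hdet, hVC, hVy, hmax⟩ := exists_max hC hy
  -- coordinates
  have hcr : ∀ (z : Fin N → ℝ) (i : Fin N), ((Vᵀ)⁻¹ *ᵥ z) i = (V.updateRow i z).det / V.det := by
    intro z i
    rw [Matrix.inv_def, Matrix.smul_mulVec, ← Matrix.cramer_eq_adjugate_mulVec, Pi.smul_apply,
      Matrix.cramer_transpose_apply, Matrix.det_transpose, Ring.inverse_eq_inv', smul_eq_mul]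
    field_simp
  have hyC : ∀ z ∈ C, 0 ≤ y ⬝ᵥ z := by
    intro z hz
    obtain ⟨a, ha, h⟩ := hy
    exact le_trans (by positivity) (h z hz)
  have hl : ∀ z ∈ C, ∀ i, |((Vᵀ)⁻¹ *ᵥ z) i| ≤ y ⬝ᵥ z := by
    intro z hz i
    rw [hcr, abs_div, div_le_iff₀ (abs_pos.2 hdet)]
    rcases (hyC z hz).eq_or_lt with h0 | h0
    · obtain ⟨a, ha, h⟩ := hy
      have h1 := h z hz
      rw [← h0] at h1
      have hz0 : z = 0 := by
        have : ‖z‖ ≤ 0 := by
          by_contra hcon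
          have := mul_pos ha (not_le.1 hcon)
          linarith
        exact norm_le_zero_iff.1 this
      have e : (V.updateRow i z).det = 0 := by
        have : z = (0 : ℝ) • z := by rw [hz0, smul_zero]
        rw [this, Matrix.det_updateRow_smul, zero_mul]
      rw [e, abs_zero, ← h0, zero_mul]
    · have hs := hC.cone z hz (y ⬝ᵥ z)⁻¹ (inv_nonneg.2 h0.le)
      have h1 := hmax i _ hs (by
        rw [dotProduct_smul, smul_eq_mul, inv_mul_cancel₀ h0.ne'])
      rw [Matrix.det_updateRow_smul, abs_mul, abs_of_pos (inv_pos.2 h0),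
        inv_mul_le_iff₀ h0] at h1
      exact h1
  -- the dual system
  set E : Matrix (Fin N) (Fin N) ℝ := (Vᵀ)⁻¹ with hE
  set W : Matrix (Fin N) (Fin N) ℝ :=
    replicateCol Unit (fun _ : Fin N => (1 : ℝ)) * replicateRow Unit y + E with hW
  have hWdot : ∀ (i : Fin N) (z : Fin N → ℝ), W i ⬝ᵥ z = y ⬝ᵥ z + (E *ᵥ z) i := by
    intro i z
    have : W i = y + E i := by
      ext j
      rw [hW]
      simp [Matrix.mul_apply]
    rw [this, add_dotProduct]
    rfl
  have hWD : ∀ i, ∀ z ∈ C, 0 ≤ W i ⬝ᵥ z := by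
    intro i z hz
    rw [hWdot]
    have := (abs_le.1 (hl z hz i)).1
    linarith
  have hxD : ∀ w ∈ dual C, 0 ≤ x ⬝ᵥ w := by
    intro w hw
    obtain ⟨a, ha, h⟩ := hx
    exact le_trans (by positivity) (h w hw)
  have hyD : y ∈ dual C := hyC
  have hWx : ∀ i, W i ⬝ᵥ x ≤ 2 * (x ⬝ᵥ y) := by
    intro i
    have hmem : y - E i ∈ dual C := by
      intro z hz
      rw [sub_dotProduct]
      have h1 := (abs_le.1 (hl z hz i)).2
      have h2 : E i ⬝ᵥ z = (E *ᵥ z) i := rfl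
      rw [h2]
      linarith
    have h1 := hxD _ hmem
    rw [dotProduct_sub, dotProduct_comm x (E i)] at h1
    rw [hWdot]
    have h2 : E i ⬝ᵥ x = (E *ᵥ x) i := rfl
    rw [← h2, dotProduct_comm y x]
    linarith
  -- positivity of the product
  have hp : 0 < x ⬝ᵥ y := by
    have hy0 : y ≠ 0 := by
      intro h0
      obtain ⟨a, ha, h⟩ := hy
      have h1 := h _ (hVC ⟨0, hN⟩)
      rw [h0, zero_dotProduct] at h1
      have hz0 : V ⟨0, hN⟩ = 0 := by
        have : ‖V ⟨0, hN⟩‖ ≤ 0 := by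
          by_contra hcon
          have := mul_pos ha (not_le.1 hcon)
          linarith
        exact norm_le_zero_iff.1 this
      exact hdet (Matrix.det_eq_zero_of_row_eq_zero ⟨0, hN⟩ fun j => congrFun hz0 j)
    obtain ⟨a, ha, h⟩ := hx
    exact lt_of_lt_of_le (mul_pos ha (norm_pos_iff.2 hy0)) (h y hyD)
  -- the two volumes
  have hZC : Real.exp (-1) * (|(Vᵀ).det| * (1 / (N : ℝ)) ^ N) ≤ Z C y := by
    refine Z_ge hC.closed.measurableSet hy (by positivity) fun l hl0 hl1 => ⟨sum_mem hC hVC hl0, ?_⟩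
    rw [dot_tr]
    calc ∑ i, l i * (V i ⬝ᵥ y) ≤ ∑ _i : Fin N, 1 / (N : ℝ) := by
          refine Finset.sum_le_sum fun i _ => ?_
          rw [dotProduct_comm (V i) y]
          calc l i * (y ⬝ᵥ V i) ≤ l i * 1 := mul_le_mul_of_nonneg_left (hVy i) (hl0 i)
            _ ≤ 1 / (N : ℝ) := by rw [mul_one]; exact hl1 i
      _ = 1 := by
          rw [Finset.sum_const, Finset.card_univ, Fintype.card_fin, nsmul_eq_mul]
          field_simp
  have hZD : Real.exp (-1) * (|(Wᵀ).det| * (1 / (2 * (N : ℝ) * (x ⬝ᵥ y))) ^ N) ≤ Z (dual C) x := by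
    refine Z_ge (closed_dual C).measurableSet hx (by positivity) fun l hl0 hl1 => ⟨?_, ?_⟩
    · intro z hz
      rw [dotProduct_comm, dot_tr]
      exact Finset.sum_nonneg fun i _ => mul_nonneg (hl0 i) (hWD i z hz)
    · rw [dot_tr]
      calc ∑ i, l i * (W i ⬝ᵥ x) ≤ ∑ _i : Fin N, 1 / (N : ℝ) := by
            refine Finset.sum_le_sum fun i _ => ?_
            calc l i * (W i ⬝ᵥ x) ≤ l i * (2 * (x ⬝ᵥ y)) :=
                  mul_le_mul_of_nonneg_left (hWx i) (hl0 i)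
              _ ≤ 1 / (2 * (N : ℝ) * (x ⬝ᵥ y)) * (2 * (x ⬝ᵥ y)) :=
                  mul_le_mul_of_nonneg_right (hl1 i) (by positivity)
              _ = 1 / (N : ℝ) := by
                  field_simp
        _ = 1 := by
            rw [Finset.sum_const, Finset.card_univ, Fintype.card_fin, nsmul_eq_mul]
            field_simp
  -- the determinants
  have hdets : 1 ≤ |(Vᵀ).det| * |(Wᵀ).det| := by
    have hWV : W * Vᵀ = 1 + replicateCol Unit (fun _ : Fin N => (1 : ℝ))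
        * replicateRow Unit (fun j => y ⬝ᵥ V j) := by
      rw [hW, add_mul, hE, Matrix.nonsing_inv_mul _ (by
        rw [Matrix.det_transpose]; exact isUnit_iff_ne_zero.2 hdet), add_comm]
      congr 1
      ext i j
      simp [Matrix.mul_apply, dotProduct]
    have h1 : W.det * V.det = 1 + ∑ j, y ⬝ᵥ V j := by
      have := congrArg Matrix.det hWV
      rw [Matrix.det_mul, Matrix.det_transpose,
        Matrix.det_one_add_replicateCol_mul_replicateRow] at this
      rw [this]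
      simp [dotProduct]
    rw [Matrix.det_transpose, Matrix.det_transpose, ← abs_mul, mul_comm V.det, h1]
    have h2 : 0 ≤ ∑ j, y ⬝ᵥ V j := Finset.sum_nonneg fun j _ => hyC _ (hVC j)
    rw [abs_of_nonneg (by linarith)]
    linarith
  have hm := mul_le_mul hZC hZD (by positivity) (le_trans (by positivity) hZC)
  have hm2 := mul_le_mul_of_nonneg_right hm (pow_nonneg hp.le N)
  refine le_trans ?_ hm2
  have e : Real.exp (-1) * (|(Vᵀ).det| * (1 / (N : ℝ)) ^ N) *
      (Real.exp (-1) * (|(Wᵀ).det| * (1 / (2 * (N : ℝ) * (x ⬝ᵥ y))) ^ N)) * (x ⬝ᵥ y) ^ N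
      = (|(Vᵀ).det| * |(Wᵀ).det|) * (Real.exp (-1) * Real.exp (-1) *
        ((1 / (N : ℝ)) ^ N * (1 / (2 * (N : ℝ))) ^ N)) := by
    have h3 : (1 / (2 * (N : ℝ) * (x ⬝ᵥ y))) ^ N * (x ⬝ᵥ y) ^ N = (1 / (2 * (N : ℝ))) ^ N := by
      rw [← mul_pow]
      congr 1
      field_simp
    rw [← h3]
    ring
  rw [e]
  have hc0 : 0 ≤ Real.exp (-1) * Real.exp (-1) *
      ((1 / (N : ℝ)) ^ N * (1 / (2 * (N : ℝ))) ^ N) := by positivity
  nlinarith [mul_le_mul_of_nonneg_right hdets hc0]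

end Vale.Agent.P248.NS.T4

end

section

/-!
P248, near-sharp bound: the main inequality for cones from the blocks T1-T7.
-/

open MeasureTheory Set Matrix Filter Topology

namespace Vale.Agent.P248.NS.T8

open Vale.Agent.P254.R304 (covF limDens cone Good good_limDens tilt)

variable {N : ℕ} {C : Set (Fin N → ℝ)}

/-- the density of the cone is good -/
lemma good_cone (hC : CC C) {y : Fin N → ℝ} (hy : Pos C y) :
    ∃ a : ℝ, Good (limDens 0 (-y) C) (Real.exp 0) a := by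
  obtain ⟨a, ha, h⟩ := hy
  refine ⟨a, good_limDens Matrix.PosSemidef.zero hC.closed hC.int ha fun z hz => ?_⟩
  have := h z hz
  rw [neg_dotProduct]
  linarith

lemma cov_posDef (hC : CC C) {y : Fin N → ℝ} (hy : Pos C y) : (cov C y).PosDef := by
  obtain ⟨a, h⟩ := good_cone hC hy
  exact h.covF_posDef

lemma norm_pos_of_pos (hN : 0 < N) (hC : CC C) {y : Fin N → ℝ} (hy : Pos C y) : 0 < ‖y‖ := by
  have : Nonempty (Fin N) := ⟨⟨0, hN⟩⟩
  rw [norm_pos_iff]
  rintro rfl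
  obtain ⟨a, ha, h⟩ := hy
  -- `C ⊆ {0}`, contradiction with nonempty interior
  have h0 : C ⊆ {0} := fun z hz => by
    have := h z hz
    rw [zero_dotProduct] at this
    have hz0 : ‖z‖ ≤ 0 := by
      by_contra hc
      push Not at hc
      have := mul_pos ha hc
      linarith
    simpa using hz0
  have h1 := hC.int.mono (interior_mono h0)
  rw [interior_singleton] at h1
  exact Set.not_nonempty_empty h1

lemma exists_lower (hC : CC C) (hD : StmtDual) {x1 : Fin N → ℝ}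
    (hx1 : x1 ∈ interior C) :
    ∃ a : ℝ, 0 < a ∧ ∀ y, Pos C y → a * ‖y‖ ≤ x1 ⬝ᵥ y := by
  obtain ⟨h1, h2, h3⟩ := hD N C hC
  obtain ⟨a, ha, h⟩ := h2 x1 hx1
  exact ⟨a, ha, fun y hy => h y (interior_subset (h3 y hy))⟩

lemma pairing_pos (hN : 0 < N) (hC : CC C) (hD : StmtDual) {x y : Fin N → ℝ}
    (hx : Pos (dual C) x) (hy : Pos C y) : 0 < x ⬝ᵥ y := by
  obtain ⟨h1, h2, h3⟩ := hD N C hC
  obtain ⟨a, ha, h⟩ := hx
  have := h y (interior_subset (h3 y hy))
  have h4 := norm_pos_of_pos hN hC hy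
  exact (mul_pos ha h4).trans_le this

lemma dot_le {x y : Fin N → ℝ} : x ⬝ᵥ y ≤ N * ‖x‖ * ‖y‖ :=
  (le_abs_self _).trans (Vale.Agent.P254.R304.abs_dot_le' x y)

/-- one `ε` -/
theorem step (hN : 0 < N) (hC : CC C) (hD : StmtDual) (hL : StmtLoss) (hMin : StmtMin)
    (hSec : StmtSecond) (hMat : StmtMat) {δ : ℝ}
    (hNice : Vale.Agent.P254.X.Loss.NiceDDL δ N)
    {x1 y1 : Fin N → ℝ} (hx1 : x1 ∈ interior C) (hy1 : Pos C y1) {r : ℝ} (hr0 : 0 < r)
    (hr : ∀ x y, Pos (dual C) x → Pos C y → r * (x ⬝ᵥ y) ≤ (x1 ⬝ᵥ y) * (x ⬝ᵥ y1))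
    {ε : ℝ} (hε : 0 < ε) (hε1 : ε < 1) {x y : Fin N → ℝ} (hx : Pos (dual C) x) (hy : Pos C y) :
    N * Real.log ((N : ℝ) - ε) - 2 * δ * N + ε * Real.log r ≤ G C x1 y1 ε x y := by
  obtain ⟨hCD, h2, h3⟩ := hD N C hC
  obtain ⟨x0, y0, hx0, hy0, hmin⟩ := hMin N C hN hC x1 y1 hx1 hy1 ε hε hε1
  refine le_trans ?_ (hmin x y hx hy)
  have hp0 : 0 < x0 ⬝ᵥ y0 := pairing_pos hN hC hD hx0 hy0
  have hN1 : (1 : ℝ) ≤ N := by exact_mod_cast hN
  have hk : 0 < ((N : ℝ) - ε) / (x0 ⬝ᵥ y0) := div_pos (by linarith) hp0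
  have hs := hSec N C hN hC x1 y1 hx1 hy1 ε hε hε1 x0 y0 hx0 hy0 hmin
  have hA := cov_posDef hC hy0
  have hB := cov_posDef hCD hx0
  have hdet := hMat N _ _ _ hA hB hk.le hs
  have hl1 := hL δ N hNice C hC y0 hy0
  have hl2 := hL δ N hNice (dual C) hCD x0 hx0
  have hlog : 2 * N * (Real.log ((N : ℝ) - ε) - Real.log (x0 ⬝ᵥ y0)) ≤
      Real.log (cov C y0).det + Real.log (cov (dual C) x0).det := by
    rw [← Real.log_mul hA.det_pos.ne' hB.det_pos.ne', ← Real.log_div (by linarith) hp0.ne']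
    have := Real.log_le_log (pow_pos hk _) hdet
    rw [Real.log_pow] at this
    push_cast at this
    exact this
  have hx1y : 0 < x1 ⬝ᵥ y0 := by
    obtain ⟨a, ha, h⟩ := exists_lower hC hD hx1
    exact (mul_pos ha (norm_pos_of_pos hN hC hy0)).trans_le (h y0 hy0)
  have hxy1 : 0 < x0 ⬝ᵥ y1 := pairing_pos hN hC hD hx0 hy1
  have hR : Real.log r + Real.log (x0 ⬝ᵥ y0) ≤ Real.log (x1 ⬝ᵥ y0) + Real.log (x0 ⬝ᵥ y1) := by
    rw [← Real.log_mul hr0.ne' hp0.ne', ← Real.log_mul hx1y.ne' hxy1.ne']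
    exact Real.log_le_log (by positivity) (hr x0 y0 hx0 hy0)
  have hR' := mul_le_mul_of_nonneg_left hR hε.le
  unfold G
  nlinarith

theorem stmtMain_of (hD : StmtDual) (hSc : StmtScale) (hL : StmtLoss) (hMin : StmtMin)
    (hSec : StmtSecond) (hMat : StmtMat) : StmtMain := by
  intro δ N hN hNice C hC x y hx hy
  obtain ⟨hCD, h2, h3⟩ := hD N C hC
  obtain ⟨x1, hx1⟩ := hC.int
  obtain ⟨y1, hy1⟩ := hC.pos
  obtain ⟨a, ha, hla⟩ := exists_lower hC hD hx1
  have hlb : ∃ b : ℝ, 0 < b ∧ ∀ x, Pos (dual C) x → b * ‖x‖ ≤ x ⬝ᵥ y1 := by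
    obtain ⟨b, hb, h⟩ := exists_lower hCD hD (h3 y1 hy1)
    exact ⟨b, hb, fun x hx => by rw [dotProduct_comm]; exact h x hx⟩
  obtain ⟨b, hb, hlb⟩ := hlb
  have hN1 : (1 : ℝ) ≤ N := by exact_mod_cast hN
  set r : ℝ := a * b / N with hrd
  have hr0 : 0 < r := by positivity
  have hr : ∀ x y, Pos (dual C) x → Pos C y → r * (x ⬝ᵥ y) ≤ (x1 ⬝ᵥ y) * (x ⬝ᵥ y1) := by
    intro x y hx hy
    have e1 := hla y hy
    have e2 := hlb x hx
    calc r * (x ⬝ᵥ y) ≤ r * (N * ‖x‖ * ‖y‖) := mul_le_mul_of_nonneg_left dot_le hr0.le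
      _ = (a * ‖y‖) * (b * ‖x‖) := by rw [hrd]; field_simp
      _ ≤ _ := mul_le_mul e1 e2 (by positivity) ((by positivity : (0:ℝ) ≤ a * ‖y‖).trans e1)
  have hp : 0 < x ⬝ᵥ y := pairing_pos hN hC hD hx hy
  -- the limit `ε → 0`
  have hstep : ∀ ε : ℝ, 0 < ε → ε < 1 →
      N * Real.log ((N : ℝ) - ε) - 2 * δ * N + ε * Real.log r ≤ G C x1 y1 ε x y :=
    fun ε hε hε1 => step hN hC hD hL hMin hSec hMat hNice hx1 hy1 hr0 hr hε hε1 hx hy
  have hlim : N * Real.log (N : ℝ) - 2 * δ * N ≤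
      Real.log (Z C y) + Real.log (Z (dual C) x) + (N : ℝ) * Real.log (x ⬝ᵥ y) := by
    have c1 : Tendsto (fun ε : ℝ => N * Real.log ((N : ℝ) - ε) - 2 * δ * N + ε * Real.log r)
        (𝓝[>] 0) (𝓝 (N * Real.log ((N : ℝ) - 0) - 2 * δ * N + 0 * Real.log r)) := by
      refine Tendsto.mono_left ?_ nhdsWithin_le_nhds
      have : ContinuousAt (fun ε : ℝ => N * Real.log ((N : ℝ) - ε) - 2 * δ * N + ε * Real.log r)
          0 := by
        have h1 : ContinuousAt (fun ε : ℝ => Real.log ((N : ℝ) - ε)) 0 :=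
          ContinuousAt.log (by fun_prop) (by rw [sub_zero]; positivity)
        fun_prop
      exact this.tendsto
    have c2 : Tendsto (fun ε : ℝ => G C x1 y1 ε x y) (𝓝[>] 0) (𝓝 (G C x1 y1 0 x y)) := by
      refine Tendsto.mono_left ?_ nhdsWithin_le_nhds
      have : ContinuousAt (fun ε : ℝ => G C x1 y1 ε x y) 0 := by
        unfold G
        fun_prop
      exact this.tendsto
    have h := le_of_tendsto_of_tendsto c1 c2 (by
      filter_upwards [Ioo_mem_nhdsGT (show (0:ℝ) < 1 by norm_num)] with ε hε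
      exact hstep ε hε.1 hε.2)
    unfold G at h
    simpa using h
  have hZ1 := (hSc N C hC y hy).1
  have hZ2 := (hSc N (dual C) hCD x hx).1
  rw [← Real.log_le_log_iff (by positivity) (by positivity), Real.log_mul (by positivity)
    (by positivity), Real.log_exp, Real.log_pow, Real.log_mul (by positivity) (by positivity),
    Real.log_mul hZ1.ne' hZ2.ne', Real.log_pow]
  linarith

end Vale.Agent.P248.NS.T8

end

section

/-!
P248, near-sharp bound: the main inequality for cones, through the comparison theorem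
`Cmp.Dat.main` (helper541).
-/

open MeasureTheory Set Matrix Filter Topology Metric

namespace Vale.Agent.P248.NS.Asm541

open Vale.Agent.P254.R304 (covF limDens cone Good good_limDens tilt abs_dot_le')
open Vale.Agent.P248.Cmp (SD Dat)
open Vale.Agent.P248.MC.SD700 (J den log_der log_der2)

variable {N : ℕ} {C : Set (Fin N → ℝ)}

lemma lower {y : Fin N → ℝ} {a : ℝ} (ha : 0 < a) (h : ∀ z ∈ C, a * ‖z‖ ≤ y ⬝ᵥ z)
    {y' : Fin N → ℝ} (hy' : y' ∈ ball y (a / (2 * (N + 1)))) {z : Fin N → ℝ} (hz : z ∈ C) :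
    a / 2 * ‖z‖ ≤ y' ⬝ᵥ z := by
  rw [mem_ball, dist_eq_norm, lt_div_iff₀ (by positivity)] at hy'
  have h1 := h z hz
  have h2 : y' ⬝ᵥ z = y ⬝ᵥ z + (y' - y) ⬝ᵥ z := by rw [sub_dotProduct]; ring
  have h3 := abs_dot_le' (y' - y) z
  have h4 := neg_abs_le ((y' - y) ⬝ᵥ z)
  have h5 : (N : ℝ) * ‖y' - y‖ ≤ a / 2 := by nlinarith [norm_nonneg (y' - y)]
  have h6 := mul_le_mul_of_nonneg_right h5 (norm_nonneg z)
  rw [h2]
  linarith

lemma isOpen_pos (C : Set (Fin N → ℝ)) : IsOpen {y | Pos C y} := by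
  rw [Metric.isOpen_iff]
  rintro y ⟨a, ha, h⟩
  exact ⟨a / (2 * (N + 1)), by positivity, fun y' hy' =>
    ⟨a / 2, by positivity, fun z hz => lower ha h hy' hz⟩⟩

lemma pos_smul {y : Fin N → ℝ} (hy : Pos C y) {t : ℝ} (ht : 0 < t) : Pos C (t • y) := by
  obtain ⟨a, ha, h⟩ := hy
  refine ⟨t * a, by positivity, fun z hz => ?_⟩
  rw [smul_dotProduct, smul_eq_mul, mul_assoc]
  exact mul_le_mul_of_nonneg_left (h z hz) ht.le

lemma Z_cont (hC : CC C) {y : Fin N → ℝ} (hy : Pos C y) : ContinuousAt (Z C) y := by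
  obtain ⟨a, ha, h⟩ := hy
  have e : Z C = fun y => ∫ z in C, Real.exp (-(y ⬝ᵥ z)) := rfl
  rw [e]
  refine continuousAt_of_dominated (bound := fun z => Real.exp (-(a / 2 * ‖z‖))) ?_ ?_ ?_ ?_
  · exact Eventually.of_forall fun y => (T2a.continuous_exp_dot y).aestronglyMeasurable
  · filter_upwards [ball_mem_nhds y (show 0 < a / (2 * ((N : ℝ) + 1)) by positivity)] with y' hy'
    filter_upwards [ae_restrict_mem hC.closed.measurableSet] with z hz
    rw [Real.norm_of_nonneg (Real.exp_pos _).le]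
    exact Real.exp_le_exp.2 (neg_le_neg (lower ha h hy' hz))
  · have := Vale.Agent.P254.R304.integrable_poly_exp N (show 0 < a / 2 by positivity) 0
    have h2 : Integrable (fun z : Fin N → ℝ => Real.exp (-(a / 2 * ‖z‖))) := by simpa using this
    exact h2.integrableOn
  · refine Eventually.of_forall fun z => ?_
    have : Continuous fun y : Fin N → ℝ => Real.exp (-(y ⬝ᵥ z)) := by
      unfold dotProduct
      fun_prop
    exact this.continuousAt

lemma den_eq (C : Set (Fin N → ℝ)) (y : Fin N → ℝ) : den C y = limDens 0 (-y) C := by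
  unfold den limDens
  congr 1
  ext z
  unfold tilt
  simp

/-- the second difference of a function with second derivative `q` -/
lemma sd_real {φ ψ : ℝ → ℝ} {q : ℝ} (h1 : ∀ᶠ t in 𝓝 (0 : ℝ), HasDerivAt φ (ψ t) t)
    (h2 : HasDerivAt ψ q 0) :
    Tendsto (fun t : ℝ => (φ t + φ (-t) - 2 * φ 0) / t ^ 2) (𝓝[≠] 0) (𝓝 q) := by
  have hneg : Tendsto (fun t : ℝ => -t) (𝓝 0) (𝓝 0) := by
    have := (continuous_neg (G := ℝ)).tendsto 0
    simpa using this
  have h1' : ∀ᶠ t in 𝓝 (0 : ℝ), HasDerivAt φ (ψ (-t)) (-t) := hneg.eventually h1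
  have hc : ContinuousAt φ 0 := (h1.self_of_nhds).continuousAt
  refine HasDerivAt.lhopital_zero_nhdsNE (f' := fun t => ψ t - ψ (-t)) (g' := fun t => 2 * t)
    ?_ ?_ ?_ ?_ ?_ ?_
  · filter_upwards [h1.filter_mono nhdsWithin_le_nhds, h1'.filter_mono nhdsWithin_le_nhds] with t ha hb
    have hb' : HasDerivAt (fun t => φ (-t)) (-(ψ (-t))) t := by
      have := hb.comp t (hasDerivAt_neg t)
      simpa [Function.comp_def] using this
    have := (ha.add hb').sub_const (2 * φ 0)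
    exact this.congr_deriv (by ring)
  · refine Eventually.of_forall fun t => ?_
    have := hasDerivAt_pow 2 t
    simpa using this
  · filter_upwards [self_mem_nhdsWithin] with t ht
    exact mul_ne_zero two_ne_zero ht
  · have hc' : Tendsto (fun t => φ (-t)) (𝓝 0) (𝓝 (φ 0)) := hc.tendsto.comp hneg
    have h3 : Tendsto (fun t => φ t + φ (-t) - 2 * φ 0) (𝓝 0) (𝓝 (φ 0 + φ 0 - 2 * φ 0)) :=
      (hc.tendsto.add hc').sub_const _
    have e : φ 0 + φ 0 - 2 * φ 0 = 0 := by ring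
    rw [e] at h3
    exact h3.mono_left nhdsWithin_le_nhds
  · have : Continuous fun t : ℝ => t ^ 2 := by fun_prop
    have h := this.tendsto 0
    simp only [ne_eq, OfNat.ofNat_ne_zero, not_false_eq_true, zero_pow] at h
    exact h.mono_left nhdsWithin_le_nhds
  · rw [hasDerivAt_iff_tendsto_slope_zero] at h2
    have hneg' : Tendsto (fun t : ℝ => -t) (𝓝[≠] 0) (𝓝[≠] 0) := by
      refine tendsto_nhdsWithin_of_tendsto_nhds_of_eventually_within _
        (hneg.mono_left nhdsWithin_le_nhds) ?_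
      filter_upwards [self_mem_nhdsWithin] with t ht
      simpa using ht
    have h3 := h2.comp hneg'
    have h4 := (h2.add h3).const_mul (1 / 2 : ℝ)
    have e : 1 / 2 * (q + q) = q := by ring
    rw [e] at h4
    refine h4.congr' ?_
    filter_upwards [self_mem_nhdsWithin] with t ht
    have ht0 : t ≠ 0 := ht
    simp only [Function.comp_apply, zero_add, smul_eq_mul]
    field_simp
    ring

lemma sd (hC : CC C) {y : Fin N → ℝ} (hy : Pos C y) (b : Fin N → ℝ) :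
    SD (fun y => Real.log (Z C y)) y b (b ⬝ᵥ cov C y *ᵥ b) := by
  obtain ⟨a, ha, h⟩ := hy
  have hm := hC.closed.measurableSet
  have hev : ∀ᶠ t : ℝ in 𝓝 0, |t| * (N * ‖b‖) < a := by
    have h1 : ContinuousAt (fun t : ℝ => |t| * (N * ‖b‖)) 0 := by fun_prop
    exact h1.eventually_lt continuousAt_const (by simpa using ha)
  have h2 := log_der2 hm hC.int (b := b) h (t := 0) (by simpa using ha)
  rw [zero_smul, add_zero, den_eq] at h2
  have h3 := sd_real (hev.mono fun t ht => log_der hm hC.int (b := b) h ht) h2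
  unfold SD
  refine h3.congr fun t => ?_
  have e1 : y + -t • b = y - t • b := by rw [neg_smul, ← sub_eq_add_neg]
  simp only [e1, zero_smul, add_zero]
  rfl

lemma add_mem (hC : CC C) {x y : Fin N → ℝ} (hx : x ∈ C) (hy : y ∈ C) : x + y ∈ C := by
  have h1 := hC.conv hx hy (show (0 : ℝ) ≤ 1 / 2 by norm_num) (show (0 : ℝ) ≤ 1 / 2 by norm_num)
    (by norm_num)
  have h2 := hC.cone _ h1 2 (by norm_num)
  rw [smul_add, smul_smul, smul_smul] at h2
  norm_num at h2
  exact h2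

/-- strict positivity on the cone is uniform -/
lemma pos_of_strict (hC : CC C) {y : Fin N → ℝ} (h : ∀ z ∈ C, z ≠ 0 → 0 < y ⬝ᵥ z) : Pos C y := by
  have hc : IsCompact (C ∩ sphere (0 : Fin N → ℝ) 1) := (isCompact_sphere 0 1).inter_left hC.closed
  have hcont : Continuous fun z : Fin N → ℝ => y ⬝ᵥ z := by
    unfold dotProduct
    fun_prop
  rcases (C ∩ sphere (0 : Fin N → ℝ) 1).eq_empty_or_nonempty with he | hne
  · refine ⟨1, one_pos, fun z hz => ?_⟩
    have hz0 : z = 0 := by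
      by_contra hz0
      have hn : 0 < ‖z‖ := norm_pos_iff.2 hz0
      have : ‖z‖⁻¹ • z ∈ C ∩ sphere (0 : Fin N → ℝ) 1 := by
        refine ⟨hC.cone z hz _ (by positivity), ?_⟩
        rw [mem_sphere_zero_iff_norm, norm_smul, norm_inv, norm_norm, inv_mul_cancel₀ hn.ne']
      rw [he] at this
      exact this
    rw [hz0]
    simp
  · obtain ⟨z1, hz1, hmin⟩ := hc.exists_isMinOn hne hcont.continuousOn
    have hz1n : z1 ≠ 0 := by
      rintro rfl
      have := hz1.2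
      simp at this
    refine ⟨y ⬝ᵥ z1, h z1 hz1.1 hz1n, fun z hz => ?_⟩
    by_cases hz0 : z = 0
    · rw [hz0]; simp
    have hn : 0 < ‖z‖ := norm_pos_iff.2 hz0
    have hmem : ‖z‖⁻¹ • z ∈ C ∩ sphere (0 : Fin N → ℝ) 1 := by
      refine ⟨hC.cone z hz _ (by positivity), ?_⟩
      rw [mem_sphere_zero_iff_norm, norm_smul, norm_inv, norm_norm, inv_mul_cancel₀ hn.ne']
    have h1 : y ⬝ᵥ z1 ≤ y ⬝ᵥ (‖z‖⁻¹ • z) := hmin hmem
    rw [dotProduct_smul, smul_eq_mul] at h1
    have h2 := mul_le_mul_of_nonneg_right h1 hn.le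
    have e : ‖z‖⁻¹ * (y ⬝ᵥ z) * ‖z‖ = y ⬝ᵥ z := by field_simp
    rw [e] at h2
    exact h2

/-- blow-up at the boundary of the dual cone -/
lemma blow (hC : CC C) {y : Fin N → ℝ} (hy : y ∈ dual C)
    (hfin : ∫⁻ z in C, ENNReal.ofReal (Real.exp (-(y ⬝ᵥ z))) ≠ ⊤) : Pos C y := by
  refine pos_of_strict hC fun z0 hz0 hne => ?_
  by_contra hle
  have h0 : y ⬝ᵥ z0 = 0 := le_antisymm (not_lt.1 hle) (hy z0 hz0)
  obtain ⟨y1, a, ha, h1⟩ := hC.pos
  obtain ⟨z, hz⟩ := hC.int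
  have hp : 0 < y1 ⬝ᵥ z0 := lt_of_lt_of_le (mul_pos ha (norm_pos_iff.2 hne)) (h1 z0 hz0)
  have hzp : 0 ≤ y1 ⬝ᵥ z := (mul_nonneg ha.le (norm_nonneg z)).trans (h1 z (interior_subset hz))
  set k : ℝ := (y1 ⬝ᵥ z) / (y1 ⬝ᵥ z0) + 1 with hk
  have hk0 : 0 ≤ k := by positivity
  set w : Fin N → ℝ := k • z0 with hw
  have hwC : w ∈ C := hC.cone z0 hz0 k hk0
  have hwy : y ⬝ᵥ w = 0 := by rw [hw, dotProduct_smul, h0, smul_zero]
  set f : (Fin N → ℝ) → ENNReal := fun z => ENNReal.ofReal (Real.exp (-(y ⬝ᵥ z))) with hf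
  have hfm : Measurable f := (T2a.continuous_exp_dot y).measurable.ennreal_ofReal
  have hfw : ∀ z, f (z - w) = f z := fun z => by
    simp only [hf, dotProduct_sub, hwy, sub_zero]
  set S : Set (Fin N → ℝ) := {z | z - w ∈ C} with hS
  have hSc : IsClosed S := hC.closed.preimage (by fun_prop : Continuous fun z : Fin N → ℝ => z - w)
  have hSC : S ⊆ C := fun z hz => by
    have := add_mem hC (show z - w ∈ C from hz) hwC
    rwa [sub_add_cancel] at this
  have hint : ∫⁻ z in S, f z = ∫⁻ z in C, f z := by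
    rw [← lintegral_indicator hSc.measurableSet, ← lintegral_indicator hC.closed.measurableSet,
      ← lintegral_sub_right_eq_self (fun z => C.indicator f z) w]
    refine lintegral_congr fun z => ?_
    by_cases hz : z - w ∈ C
    · rw [indicator_of_mem (show z ∈ S from hz), indicator_of_mem hz, hfw]
    · rw [indicator_of_notMem (show z ∉ S from hz), indicator_of_notMem hz]
  have hadd := lintegral_inter_add_diff (μ := (volume : Measure (Fin N → ℝ))) f C hSc.measurableSet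
  rw [inter_eq_self_of_subset_right hSC, hint] at hadd
  have hzero : ∫⁻ z in C \ S, f z = 0 := by
    have h5 : (∫⁻ z in C, f z) + ∫⁻ z in C \ S, f z = (∫⁻ z in C, f z) + 0 := by rw [hadd, add_zero]
    exact (ENNReal.add_right_inj hfin).1 h5
  have hzS : z ∉ S := fun hzS => by
    have h6 : 0 ≤ y1 ⬝ᵥ (z - w) :=
      (mul_nonneg ha.le (norm_nonneg _)).trans (h1 _ (show z - w ∈ C from hzS))
    rw [dotProduct_sub, hw, dotProduct_smul, smul_eq_mul, hk] at h6
    have e : ((y1 ⬝ᵥ z) / (y1 ⬝ᵥ z0) + 1) * (y1 ⬝ᵥ z0) = y1 ⬝ᵥ z + y1 ⬝ᵥ z0 := by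
      field_simp
    rw [e] at h6
    linarith
  have hopen : IsOpen (interior C \ S) := isOpen_interior.sdiff hSc
  have hpos : 0 < volume (interior C \ S) := hopen.measure_pos _ ⟨z, hz, hzS⟩
  have hsup : 0 < ∫⁻ z in C \ S, f z := by
    rw [setLIntegral_pos_iff hfm]
    refine hpos.trans_le (measure_mono fun x hx => ⟨?_, interior_subset hx.1, hx.2⟩)
    simp only [hf, Function.mem_support, ne_eq, ENNReal.ofReal_eq_zero, not_le]
    exact Real.exp_pos _
  exact hsup.ne' hzero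

/-- properness -/
lemma compact_sub (hN : 0 < N) (hC : CC C) {x1 : Fin N → ℝ} (hx1 : Pos (dual C) x1) (c : ℝ) :
    IsCompact {y | y ∈ {y | Pos C y} ∧ ‖y‖ = 1 ∧
      Real.log (Z C y) + N * Real.log (x1 ⬝ᵥ y) ≤ c} := by
  obtain ⟨a, ha, hxa⟩ := hx1
  have hdual : ∀ y, Pos C y → y ∈ dual C := fun y hy => interior_subset (T1.mem_interior_dual hy)
  refine Metric.isCompact_of_isClosed_isBounded ?_ ?_
  · refine IsSeqClosed.isClosed fun u y hu hlim => ?_
    have hn : ‖y‖ = 1 := by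
      have h1 : Tendsto (fun k => ‖u k‖) atTop (𝓝 ‖y‖) := hlim.norm
      have h2 : (fun k => ‖u k‖) = fun _ => (1 : ℝ) := funext fun k => (hu k).2.1
      rw [h2] at h1
      exact (tendsto_nhds_unique h1 tendsto_const_nhds)
    have hyd : y ∈ dual C := (T1.closed_dual C).mem_of_tendsto hlim
      (Eventually.of_forall fun k => hdual _ (hu k).1)
    -- bound of the integrals
    have hZ : ∀ k, Z C (u k) ≤ Real.exp (c - N * Real.log a) := by
      intro k
      have h1 : a ≤ x1 ⬝ᵥ u k := by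
        have := hxa (u k) (hdual _ (hu k).1)
        rwa [(hu k).2.1, mul_one] at this
      have h2 := Real.log_le_log ha h1
      have h3 := (hu k).2.2
      have hN0 : (0 : ℝ) ≤ N := Nat.cast_nonneg N
      have h4 := mul_le_mul_of_nonneg_left h2 hN0
      rw [← Real.log_le_iff_le_exp (T2a.Z_pos hC (hu k).1)]
      linarith
    have hL : ∀ k, ∫⁻ z in C, ENNReal.ofReal (Real.exp (-(u k ⬝ᵥ z))) ≤
        ENNReal.ofReal (Real.exp (c - N * Real.log a)) := by
      intro k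
      rw [← ofReal_integral_eq_lintegral_ofReal (T2a.integrableOn_exp hC (hu k).1)
        (Eventually.of_forall fun z => (Real.exp_pos _).le)]
      exact ENNReal.ofReal_le_ofReal (hZ k)
    have hfin : ∫⁻ z in C, ENNReal.ofReal (Real.exp (-(y ⬝ᵥ z))) ≠ ⊤ := by
      have h1 : ∫⁻ z in C, ENNReal.ofReal (Real.exp (-(y ⬝ᵥ z))) ≤
          liminf (fun k => ∫⁻ z in C, ENNReal.ofReal (Real.exp (-(u k ⬝ᵥ z)))) atTop := by
        have h2 : ∫⁻ z in C, ENNReal.ofReal (Real.exp (-(y ⬝ᵥ z))) =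
            ∫⁻ z in C, liminf (fun k => ENNReal.ofReal (Real.exp (-(u k ⬝ᵥ z)))) atTop := by
          refine lintegral_congr fun z => ?_
          have hc : Continuous fun y : Fin N → ℝ => ENNReal.ofReal (Real.exp (-(y ⬝ᵥ z))) := by
            refine ENNReal.continuous_ofReal.comp ?_
            unfold dotProduct
            fun_prop
          exact ((hc.tendsto y).comp hlim).liminf_eq.symm
        rw [h2]
        exact lintegral_liminf_le fun k => (T2a.continuous_exp_dot (u k)).measurable.ennreal_ofReal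
      have h9 : liminf (fun k => ∫⁻ z in C, ENNReal.ofReal (Real.exp (-(u k ⬝ᵥ z)))) atTop ≤
          ENNReal.ofReal (Real.exp (c - N * Real.log a)) :=
        liminf_le_of_frequently_le' (Frequently.of_forall hL)
      exact ne_top_of_le_ne_top ENNReal.ofReal_ne_top (h1.trans h9)
    have hpos := blow hC hyd hfin
    refine ⟨hpos, hn, ?_⟩
    have hp : 0 < x1 ⬝ᵥ y := by
      have := hxa y hyd
      rw [hn, mul_one] at this
      exact ha.trans_le this
    have hc1 : ContinuousAt (fun y => Real.log (Z C y) + N * Real.log (x1 ⬝ᵥ y)) y := by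
      have h1 : ContinuousAt (fun y : Fin N → ℝ => x1 ⬝ᵥ y) y := by
        have : Continuous fun y : Fin N → ℝ => x1 ⬝ᵥ y := by
          unfold dotProduct
          fun_prop
        exact this.continuousAt
      exact ((Z_cont hC hpos).log (T2a.Z_pos hC hpos).ne').add
        (continuousAt_const.mul (h1.log hp.ne'))
    exact le_of_tendsto (hc1.tendsto.comp hlim) (Eventually.of_forall fun k => (hu k).2.2)
  · refine (isBounded_closedBall (x := (0 : Fin N → ℝ)) (r := 1)).subset fun y hy => ?_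
    rw [mem_closedBall_zero_iff]
    exact hy.2.1.le

theorem stmtMain_of (hL : StmtLoss) : StmtMain := by
  intro δ N hN hNice C hC x y hx hy
  have hD := T1.stmtDual
  obtain ⟨hCD, h2, h3⟩ := hD N C hC
  obtain ⟨c, hc, hcr⟩ := T4.stmtCrude N C hN hC
  have hZ1 : ∀ {y}, Pos C y → 0 < Z C y := fun h => T2a.Z_pos hC h
  have hZ2 : ∀ {x}, Pos (dual C) x → 0 < Z (dual C) x := fun h => T2a.Z_pos hCD h
  have hp : ∀ x, Pos (dual C) x → ∀ y, Pos C y → 0 < x ⬝ᵥ y := fun x hx y hy =>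
    T8.pairing_pos hN hC hD hx hy
  have hom : ∀ {V : Set (Fin N → ℝ)}, CC V → ∀ y ∈ {y | Pos V y}, ∀ t : ℝ, 0 < t →
      Real.log (Z V (t • y)) = Real.log (Z V y) - N * Real.log t := by
    intro V hV y hy t ht
    rw [(T2a.stmtScale N V hV y hy).2 t ht, Real.log_mul (by positivity) (T2a.Z_pos hV hy).ne',
      Real.log_inv, Real.log_pow]
    ring
  have hdet : ∀ {V : Set (Fin N → ℝ)}, CC V → ∀ y ∈ {y | Pos V y},
      (cov V y).det ≤ Real.exp (2 * δ * N) * Real.exp (2 * Real.log (Z V y)) := by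
    intro V hV y hy
    have h := hL δ N hNice V hV y hy
    have hdp := (T8.cov_posDef hV hy).det_pos
    rw [← Real.exp_add, ← Real.log_le_iff_le_exp hdp]
    linarith
  have hcontZ : ∀ {V : Set (Fin N → ℝ)}, CC V → ContinuousOn (fun y => Real.log (Z V y)) {y | Pos V y} :=
    fun hV y hy => ((Z_cont hV hy).log (T2a.Z_pos hV hy).ne').continuousWithinAt
  have hdat : Dat {x | Pos (dual C) x} {y | Pos C y} (fun y => Real.log (Z C y))
      (fun x => Real.log (Z (dual C) x)) (cov C) (cov (dual C)) (Real.exp (2 * δ * N)) :=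
    { Npos := hN
      opC := isOpen_pos _
      opC' := isOpen_pos _
      smC := fun x hx t ht => pos_smul hx ht
      smC' := fun y hy t ht => pos_smul hy ht
      pos := fun x hx y hy => hp x hx y hy
      contu := hcontZ hC
      contg := hcontZ hCD
      homu := hom hC
      homg := hom hCD
      Ppos := fun y hy => T8.cov_posDef hC hy
      Qpos := fun x hx => T8.cov_posDef hCD hx
      sdu := fun y hy b => sd hC hy b
      sdg := fun x hx b => sd hCD hx b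
      Dpos := Real.exp_pos _
      detu := hdet hC
      detg := hdet hCD }
  have hprog : ∀ c : ℝ, IsCompact {x | x ∈ {x | Pos (dual C) x} ∧ ‖x‖ = 1 ∧
      Real.log (Z (dual C) x) + N * Real.log (x ⬝ᵥ y) ≤ c} := by
    intro c
    have hy2 : Pos (dual (dual C)) y := T1.pos_dual (h3 y hy)
    have := compact_sub hN hCD hy2 c
    simpa only [dotProduct_comm y] using this
  have hM : ∀ x ∈ {x | Pos (dual C) x}, ∀ y ∈ {y | Pos C y},
      -(-Real.log c) ≤ Real.log (Z C y) + Real.log (Z (dual C) x) + N * Real.log (x ⬝ᵥ y) := by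
    intro x hx y hy
    have h1 := hcr x y hx hy
    have h4 := hp x hx y hy
    have h5 := hZ1 hy
    have h6 := hZ2 hx
    have h7 := Real.log_le_log hc h1
    rw [Real.log_mul (by positivity) (by positivity), Real.log_mul h5.ne' h6.ne', Real.log_pow] at h7
    linarith
  have hfin := hdat.main (x1 := x) (y1 := y) hx hy (fun c => compact_sub hN hC hx c) hprog hM hx hy
  have h4 := hp x hx y hy
  have h5 := hZ1 hy
  have h6 := hZ2 hx
  have hN0 : (0 : ℝ) < N := by exact_mod_cast hN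
  rw [Real.log_exp] at hfin
  rw [← Real.log_le_log_iff (by positivity) (by positivity), Real.log_mul (Real.exp_pos _).ne'
    (by positivity), Real.log_exp, Real.log_pow, Real.log_mul (by positivity) (by positivity),
    Real.log_mul h5.ne' h6.ne', Real.log_pow]
  linarith

end Vale.Agent.P248.NS.Asm541

end

section

/-!
P248, block T2 (helper595): scaling of the Laplace transform of a cone, and the loss inequality
in terms of `Z`.
-/

open MeasureTheory Set Matrix Filter Topology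
open scoped Pointwise

namespace Vale.Agent.P248.NS.T2

open Vale.Agent.P254.R304

variable {N : ℕ} {C : Set (Fin N → ℝ)} {y : Fin N → ℝ}

lemma limDens_eq (C : Set (Fin N → ℝ)) (y : Fin N → ℝ) :
    limDens 0 (-y) C = C.indicator (fun z => Real.exp (-(y ⬝ᵥ z))) := by
  unfold limDens
  congr 1
  ext z
  simp [tilt, neg_dotProduct]

lemma Z_eq (hC : MeasurableSet C) (y : Fin N → ℝ) : Z C y = ∫ z, limDens 0 (-y) C z := by
  rw [limDens_eq, integral_indicator hC]
  rfl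

lemma good (hC : CC C) (hy : Pos C y) :
    ∃ a, Good (limDens 0 (-y) C) (Real.exp 0) a := by
  obtain ⟨a, ha, h⟩ := hy
  exact ⟨a, good_limDens Matrix.PosSemidef.zero hC.closed hC.int ha (fun z hz => by
    have := h z hz
    rw [neg_dotProduct]; linarith)⟩

lemma Z_pos (hC : CC C) (hy : Pos C y) : 0 < Z C y := by
  obtain ⟨a, hg⟩ := good hC hy
  rw [Z_eq hC.closed.measurableSet]
  exact hg.mass_pos

lemma smul_cone (hC : CC C) {s : ℝ} (hs : 0 < s) : s • C = C := by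
  ext z
  constructor
  · rintro ⟨w, hw, rfl⟩
    exact hC.cone w hw s hs.le
  · intro hz
    refine ⟨s⁻¹ • z, hC.cone z hz _ (inv_pos.2 hs).le, ?_⟩
    simp [smul_smul, hs.ne']

lemma Z_smul (hC : CC C) (y : Fin N → ℝ) {s : ℝ} (hs : 0 < s) :
    Z C (s • y) = (s ^ N)⁻¹ * Z C y := by
  have h := Measure.setIntegral_comp_smul_of_pos (μ := volume)
    (fun z : Fin N → ℝ => Real.exp (-(y ⬝ᵥ z))) C hs
  rw [smul_cone hC hs, Module.finrank_fin_fun, smul_eq_mul] at h
  unfold Z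
  rw [← h]
  congr 1
  ext z
  rw [dotProduct_smul, smul_dotProduct]

theorem stmtScale : StmtScale := fun _ _ hC y hy => ⟨Z_pos hC hy, fun _ hs => Z_smul hC y hs⟩

lemma pg_dot (y : Fin N → ℝ) : PolyGrowth (fun x : Fin N → ℝ => y ⬝ᵥ x) := by
  refine ⟨?_, N * ‖y‖, 1, fun x => ?_⟩
  · apply Continuous.aestronglyMeasurable
    simp only [dotProduct]
    fun_prop
  · have h1 := abs_dot_le' y x
    have h2 : 0 ≤ (N : ℝ) * ‖y‖ := by positivity
    rw [pow_one]
    nlinarith [norm_nonneg x]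

/-- the mean of `⟨y, z⟩` is `N` -/
lemma mean (hC : CC C) (hy : Pos C y) :
    ∫ z, (y ⬝ᵥ z) * limDens 0 (-y) C z = N * Z C y := by
  obtain ⟨a, hg⟩ := good hC hy
  have hZ := Z_pos hC hy
  set I := ∫ z, (y ⬝ᵥ z) * limDens 0 (-y) C z with hI
  have key : ∀ s : ℝ, 0 < s → Z C y - (s - 1) * I ≤ (s ^ N)⁻¹ * Z C y := by
    intro s hs
    rw [← Z_smul hC y hs]
    have hsy : Pos C (s • y) := by
      obtain ⟨a', ha', h'⟩ := hy
      refine ⟨s * a', mul_pos hs ha', fun z hz => ?_⟩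
      rw [smul_dotProduct, smul_eq_mul, mul_assoc]
      exact mul_le_mul_of_nonneg_left (h' z hz) hs.le
    obtain ⟨a', hg'⟩ := good hC hsy
    rw [Z_eq hC.closed.measurableSet, Z_eq hC.closed.measurableSet, hI, ← integral_const_mul,
      ← integral_sub hg.int1 ((hg.int (pg_dot y)).const_mul _)]
    refine integral_mono (hg.int1.sub ((hg.int (pg_dot y)).const_mul _)) hg'.int1 fun z => ?_
    rw [limDens_eq, limDens_eq]
    by_cases hz : z ∈ C
    · simp only [indicator_of_mem hz, smul_dotProduct, smul_eq_mul]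
      have e1 : Real.exp (-(s * (y ⬝ᵥ z))) =
          Real.exp (-(y ⬝ᵥ z)) * Real.exp (-((s - 1) * (y ⬝ᵥ z))) := by
        rw [← Real.exp_add]; congr 1; ring
      rw [e1]
      have e2 := Real.add_one_le_exp (-((s - 1) * (y ⬝ᵥ z)))
      have e3 := (Real.exp_pos (-(y ⬝ᵥ z))).le
      nlinarith [mul_le_mul_of_nonneg_left e2 e3]
    · simp [indicator_of_notMem hz]
  have hmin : IsLocalMin (fun s : ℝ => (s ^ N)⁻¹ * Z C y + (s - 1) * I) 1 := by
    filter_upwards [Ioi_mem_nhds (show (0 : ℝ) < 1 by norm_num)] with s hs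
    have := key s hs
    simp only [one_pow, inv_one, one_mul, sub_self, zero_mul, add_zero]
    linarith
  have hd : HasDerivAt (fun s : ℝ => (s ^ N)⁻¹ * Z C y + (s - 1) * I) (-N * Z C y + 1 * I) 1 := by
    have h1 : HasDerivAt (fun s : ℝ => (s ^ N)⁻¹) (-N) 1 := by
      have := (hasDerivAt_pow N (1 : ℝ)).fun_inv (by simp)
      simpa using this
    exact (h1.mul_const _).add (((hasDerivAt_id (1 : ℝ)).sub_const 1).mul_const I)
  have := hmin.hasDerivAt_eq_zero hd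
  linarith

lemma entF_eq (hC : CC C) (hy : Pos C y) : entF (limDens 0 (-y) C) = Real.log (Z C y) + N := by
  have hZ := Z_pos hC hy
  unfold entF
  rw [← Z_eq hC.closed.measurableSet]
  have e : ∫ x, limDens 0 (-y) C x * Real.log (limDens 0 (-y) C x) = -(N * Z C y) := by
    rw [← mean hC hy, ← integral_neg]
    congr 1
    ext z
    rw [limDens_eq]
    by_cases hz : z ∈ C
    · simp only [indicator_of_mem hz, Real.log_exp]
      ring
    · simp [indicator_of_notMem hz]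
  rw [e]
  field_simp
  ring

theorem stmtLoss : StmtLoss := by
  intro δ N hN C hC y hy
  have hent := entF_eq hC hy
  obtain ⟨a, ha, h⟩ := hy
  have h1 := Vale.Agent.P254.X.Loss.DD_limDens_loss hN Matrix.PosSemidef.zero (c := -y)
    hC.closed hC.conv hC.int (b := 0) ha
    (fun z hz => by
      have := h z hz
      rw [neg_dotProduct]; linarith)
  unfold DD at h1
  rw [hent] at h1
  unfold cov
  linarith

end Vale.Agent.P248.NS.T2

end

section

/-!
P248, near-sharp general Mahler bound, block T9: the cone over a convex body and its dual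
(helper575).
-/

open MeasureTheory Set Matrix Filter Topology

namespace Vale.Agent.P248.NS.T9

open Vale.Agent.P254.R304 (covF limDens cone)
open Vale.Agent.P254 (IsConvexBody)
open Vale.Agent.P248.NS

variable {n : ℕ}

lemma dot_cons (a : ℝ) (u : Fin n → ℝ) (w : Fin (n + 1) → ℝ) :
    (Fin.cons a u : Fin (n + 1) → ℝ) ⬝ᵥ w = a * w 0 + u ⬝ᵥ Fin.tail w := by
  unfold dotProduct
  rw [Fin.sum_univ_succ]
  simp [Fin.tail]

lemma dot_eq (v w : Fin (n + 1) → ℝ) :
    v ⬝ᵥ w = v 0 * w 0 + Fin.tail v ⬝ᵥ Fin.tail w := by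
  unfold dotProduct
  rw [Fin.sum_univ_succ]
  simp [Fin.tail]

lemma pos_cone {K : Set (Fin n → ℝ)} (hK : IsCompact K) :
    Pos (cone K) (Fin.cons 1 0) := by
  obtain ⟨a, ha, h⟩ := Vale.Agent.P254.R304.cone_decay hK
  refine ⟨a, ha, fun z hz => ?_⟩
  have h1 := h z hz
  rw [Vale.Agent.P254.R304.mc_dot] at h1
  rw [dot_cons]
  simp
  linarith

lemma cc_cone {K : Set (Fin n → ℝ)} (hK : Vale.Agent.P254.IsConvexBody K) : CC (cone K) where
  closed := Vale.Agent.P254.R304.isClosed_cone hK.2.1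
  conv := Vale.Agent.P254.R304.convex_cone hK.1
  cone := by
    rintro z ⟨h0, y, hy, h⟩ t ht
    refine ⟨by simpa using mul_nonneg ht h0, y, hy, ?_⟩
    have : Fin.tail (t • z) = t • Fin.tail z := by
      ext i; simp [Fin.tail]
    rw [this, h, smul_smul]
    simp
  int := Vale.Agent.P254.R304.cone_interior hK.2.2
  pos := ⟨_, pos_cone hK.2.1⟩

/-- members of the dual cone -/
lemma mem_dual {K : Set (Fin n → ℝ)} (w : Fin (n + 1) → ℝ) :
    w ∈ dual (cone K) ↔ ∀ x ∈ K, 0 ≤ w 0 + Fin.tail w ⬝ᵥ x := by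
  constructor
  · intro h x hx
    have h1 := h (Fin.cons 1 x) ⟨by simp, x, hx, by simp⟩
    rw [dot_eq] at h1
    simpa [Fin.tail] using h1
  · rintro h z ⟨h0, y, hy, hz⟩
    rw [dot_eq, hz, dotProduct_smul]
    have h1 := mul_nonneg h0 (h y hy)
    simp only [smul_eq_mul]
    nlinarith

/-- the interior point gives a uniform lower bound on the dual cone -/
lemma dual_low {K : Set (Fin n → ℝ)} {z : Fin n → ℝ} (hz : z ∈ interior K) :
    ∃ r : ℝ, 0 < r ∧ ∀ w ∈ dual (cone K),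
      r * ∑ i, |Fin.tail w i| ≤ w 0 + z ⬝ᵥ Fin.tail w := by
  obtain ⟨r, hr, hb⟩ := Metric.mem_nhds_iff.1 (isOpen_interior.mem_nhds hz)
  refine ⟨r / 2, by positivity, fun w hw => ?_⟩
  rw [mem_dual] at hw
  set x : Fin n → ℝ := fun i => z i - r / 2 * SignType.sign (Fin.tail w i) with hx
  have hxK : x ∈ K := by
    apply interior_subset
    apply hb
    rw [Metric.mem_ball, dist_pi_lt_iff hr]
    intro i
    rw [Real.dist_eq, hx]
    simp only
    have h1 : |((SignType.sign (Fin.tail w i) : SignType) : ℝ)| ≤ 1 := by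
      rcases lt_trichotomy (Fin.tail w i) 0 with h | h | h
      · simp [h]
      · simp [h]
      · simp [h]
    have h2 : |z i - r / 2 * (SignType.sign (Fin.tail w i) : ℝ) - z i| =
        r / 2 * |((SignType.sign (Fin.tail w i) : SignType) : ℝ)| := by
      rw [sub_sub_cancel_left, abs_neg, abs_mul, abs_of_pos (by positivity : 0 < r / 2)]
    rw [h2]
    nlinarith
  have h3 := hw x hxK
  have h4 : Fin.tail w ⬝ᵥ x = z ⬝ᵥ Fin.tail w - r / 2 * ∑ i, |Fin.tail w i| := by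
    unfold dotProduct
    rw [Finset.mul_sum, ← Finset.sum_sub_distrib]
    refine Finset.sum_congr rfl fun i _ => ?_
    rw [hx]
    simp only
    have : (Fin.tail w i) * (SignType.sign (Fin.tail w i) : ℝ) = |Fin.tail w i| := by
      rw [self_mul_sign]
    rw [← this]
    ring
  rw [h4] at h3
  linarith

lemma pos_dual {K : Set (Fin n → ℝ)} {z : Fin n → ℝ} (hz : z ∈ interior K) :
    Pos (dual (cone K)) (Fin.cons 1 z) := by
  obtain ⟨r, hr, h⟩ := dual_low hz
  refine ⟨r / (1 + r + ‖z‖), by positivity, fun w hw => ?_⟩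
  have h1 := h w hw
  rw [dot_cons, one_mul]
  set S := ∑ i, |Fin.tail w i| with hS
  set T := w 0 + z ⬝ᵥ Fin.tail w with hT
  have hS0 : 0 ≤ S := Finset.sum_nonneg fun i _ => abs_nonneg _
  have hT0 : 0 ≤ T := (mul_nonneg hr.le hS0).trans h1
  have hzt : |z ⬝ᵥ Fin.tail w| ≤ ‖z‖ * S := by
    unfold dotProduct
    rw [hS, Finset.mul_sum]
    refine (Finset.abs_sum_le_sum_abs _ _).trans (Finset.sum_le_sum fun i _ => ?_)
    rw [abs_mul]
    exact mul_le_mul_of_nonneg_right (norm_le_pi_norm z i) (abs_nonneg _)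
  have hD : 0 < 1 + r + ‖z‖ := by positivity
  have hw0 : r * |w 0| ≤ (r + ‖z‖) * T := by
    have e : w 0 = T - z ⬝ᵥ Fin.tail w := by rw [hT]; ring
    have : |w 0| ≤ T + ‖z‖ * S := by
      rw [e]
      refine (abs_sub _ _).trans ?_
      rw [abs_of_nonneg hT0]
      linarith
    calc r * |w 0| ≤ r * (T + ‖z‖ * S) := by gcongr
      _ = r * T + ‖z‖ * (r * S) := by ring
      _ ≤ r * T + ‖z‖ * T := by gcongr
      _ = (r + ‖z‖) * T := by ring
  have key : r * ‖w‖ ≤ (1 + r + ‖z‖) * T := by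
    have h5 : ‖w‖ ≤ (1 + r + ‖z‖) * T / r := by
      rw [pi_norm_le_iff_of_nonneg (by positivity)]
      intro i
      rw [le_div_iff₀ hr, Real.norm_eq_abs]
      refine Fin.cases ?_ (fun j => ?_) i
      · nlinarith
      · have h6 : |w j.succ| ≤ S := by
          rw [hS]
          exact Finset.single_le_sum (f := fun i => |Fin.tail w i|)
            (fun i _ => abs_nonneg _) (Finset.mem_univ j)
        have h7 : 0 ≤ ‖z‖ := norm_nonneg z
        nlinarith [mul_nonneg h7 hT0]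
    rw [le_div_iff₀ hr] at h5
    linarith
  rw [div_mul_eq_mul_div, div_le_iff₀ hD]
  linarith

lemma Z_cone {K : Set (Fin n → ℝ)} (hK : IsCompact K) :
    Z (cone K) (Fin.cons 1 0) = (n.factorial : ℝ) * (volume K).toReal := by
  have hm : MeasurableSet (cone K) := (Vale.Agent.P254.R304.isClosed_cone hK).measurableSet
  rw [← Vale.Agent.P254.K468.mom0 hK,
    integral_congr_ae (Vale.Agent.P254.R304.coneF_ae (K := K))]
  unfold Z Vale.Agent.P254.R304.coneDens
  rw [integral_indicator hm]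
  refine setIntegral_congr_fun hm fun z _ => ?_
  show Real.exp (-((Fin.cons 1 0 : Fin (n + 1) → ℝ) ⬝ᵥ z)) = Real.exp (-z 0)
  rw [dot_cons]
  simp

/-! the shear -/

/-- the shear `(s, v) ↦ (s + z ⬝ᵥ v, v)` -/
noncomputable def shear (z : Fin n → ℝ) : (Fin (n + 1) → ℝ) →ₗ[ℝ] (Fin (n + 1) → ℝ) :=
  Matrix.toLin' (1 + replicateCol Unit (Pi.single 0 1 : Fin (n + 1) → ℝ) *
    replicateRow Unit (Fin.cons 0 z : Fin (n + 1) → ℝ))

lemma shear_apply (z : Fin n → ℝ) (w : Fin (n + 1) → ℝ) :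
    shear z w = Fin.cons (w 0 + z ⬝ᵥ Fin.tail w) (Fin.tail w) := by
  unfold shear
  rw [Matrix.toLin'_apply, Matrix.add_mulVec, Matrix.one_mulVec, ← Matrix.mulVec_mulVec]
  have h : replicateRow Unit (Fin.cons 0 z : Fin (n + 1) → ℝ) *ᵥ w =
      fun _ => z ⬝ᵥ Fin.tail w := by
    ext i
    show (Fin.cons 0 z : Fin (n + 1) → ℝ) ⬝ᵥ w = _
    rw [dot_cons]
    simp
  rw [h]
  ext i
  refine Fin.cases ?_ (fun j => ?_) i
  · simp [Matrix.mulVec, dotProduct]
  · simp [Matrix.mulVec, dotProduct, Fin.tail]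

lemma det_shear (z : Fin n → ℝ) : LinearMap.det (shear z) = 1 := by
  unfold shear
  rw [LinearMap.det_toLin', Matrix.det_one_add_replicateCol_mul_replicateRow]
  simp

lemma mp_shear (z : Fin n → ℝ) :
    MeasurePreserving (shear z) (volume : Measure (Fin (n + 1) → ℝ)) volume := by
  refine ⟨(LinearMap.continuous_of_finiteDimensional (shear z)).measurable, ?_⟩
  have h : LinearMap.det (shear z) ≠ 0 := by rw [det_shear]; exact one_ne_zero
  rw [Measure.map_linearMap_addHaar_eq_smul_addHaar volume h, det_shear]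
  simp

/-- reflected polar body -/
def refl (K : Set (Fin n → ℝ)) (z : Fin n → ℝ) : Set (Fin n → ℝ) :=
  {v | ∀ x ∈ K, -1 ≤ v ⬝ᵥ (x - z)}

lemma refl_low {K : Set (Fin n → ℝ)} {z : Fin n → ℝ} (hz : z ∈ interior K) :
    ∃ r : ℝ, 0 < r ∧ ∀ (v : Fin n → ℝ) (s : ℝ), (∀ x ∈ K, -s ≤ v ⬝ᵥ (x - z)) →
      r * ∑ i, |v i| ≤ s := by
  obtain ⟨r, hr, h⟩ := dual_low hz
  refine ⟨r, hr, fun v s hv => ?_⟩
  have h1 := h (Fin.cons (s - z ⬝ᵥ v) v) (by
    rw [mem_dual]
    intro x hx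
    have h2 := hv x hx
    rw [dotProduct_sub] at h2
    simp only [Fin.cons_zero, Fin.tail_cons]
    rw [dotProduct_comm z v]
    linarith)
  simp only [Fin.cons_zero, Fin.tail_cons] at h1
  linarith

lemma isCompact_refl {K : Set (Fin n → ℝ)} {z : Fin n → ℝ} (hz : z ∈ interior K) :
    IsCompact (refl K z) := by
  obtain ⟨r, hr, h⟩ := refl_low hz
  rw [Metric.isCompact_iff_isClosed_bounded]
  constructor
  · have : refl K z = ⋂ x ∈ K, {v | -1 ≤ v ⬝ᵥ (x - z)} := by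
      ext v; simp [refl]
    rw [this]
    refine isClosed_biInter fun x _ => ?_
    refine isClosed_le continuous_const ?_
    unfold dotProduct
    fun_prop
  · rw [Metric.isBounded_iff_subset_closedBall 0]
    refine ⟨1 / r, fun v hv => ?_⟩
    rw [mem_closedBall_zero_iff, pi_norm_le_iff_of_nonneg (by positivity)]
    intro i
    rw [le_div_iff₀ hr, Real.norm_eq_abs]
    have h1 := h v 1 hv
    have h2 : |v i| ≤ ∑ i, |v i| :=
      Finset.single_le_sum (f := fun i => |v i|) (fun i _ => abs_nonneg _) (Finset.mem_univ i)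
    nlinarith

lemma shear_preimage {K : Set (Fin n → ℝ)} {z : Fin n → ℝ} (hz : z ∈ interior K) :
    shear z ⁻¹' (cone (refl K z)) = dual (cone K) := by
  obtain ⟨r, hr, h⟩ := refl_low hz
  ext w
  rw [mem_preimage, mem_dual, shear_apply]
  constructor
  · rintro ⟨h0, v, hv, hw⟩ x hx
    simp only [Fin.cons_zero, Fin.tail_cons] at h0 hw
    have h1 := mul_le_mul_of_nonneg_left (hv x hx) h0
    have h2 : (w 0 + z ⬝ᵥ Fin.tail w) * (v ⬝ᵥ (x - z)) = Fin.tail w ⬝ᵥ (x - z) := by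
      conv_rhs => rw [hw, smul_dotProduct]
      rfl
    rw [h2, dotProduct_sub, dotProduct_comm (Fin.tail w) z] at h1
    linarith
  · intro hw
    have h0 : 0 ≤ w 0 + z ⬝ᵥ Fin.tail w := by
      rw [dotProduct_comm]; exact hw z (interior_subset hz)
    have h3 : ∀ x ∈ K, -(w 0 + z ⬝ᵥ Fin.tail w) ≤ Fin.tail w ⬝ᵥ (x - z) := by
      intro x hx
      have := hw x hx
      rw [dotProduct_sub, dotProduct_comm (Fin.tail w) z]
      linarith
    refine ⟨by simpa using h0, ?_⟩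
    simp only [Fin.cons_zero, Fin.tail_cons]
    rcases h0.eq_or_lt with h1 | h1
    · refine ⟨0, fun x _ => by simp, ?_⟩
      have h4 := h (Fin.tail w) _ h3
      rw [← h1] at h4
      have h5 : ∑ i, |Fin.tail w i| = 0 := by
        refine le_antisymm ?_ (Finset.sum_nonneg fun i _ => abs_nonneg _)
        by_contra hc
        push Not at hc
        have := mul_pos hr hc
        linarith
      ext i
      have h6 := (Finset.sum_eq_zero_iff_of_nonneg (fun i _ => abs_nonneg _)).1 h5 i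
        (Finset.mem_univ i)
      simpa using h6
    · refine ⟨(w 0 + z ⬝ᵥ Fin.tail w)⁻¹ • Fin.tail w, fun x hx => ?_, ?_⟩
      · rw [smul_dotProduct, smul_eq_mul]
        have h4 := h3 x hx
        rw [← div_eq_inv_mul, le_div_iff₀ h1]
        linarith
      · rw [smul_smul, mul_inv_cancel₀ h1.ne', one_smul]

lemma volume_refl {K : Set (Fin n → ℝ)} {z : Fin n → ℝ} :
    volume (refl K z) = volume (polarP K z) := by
  have : refl K z = (fun v => -v) ⁻¹' (polarP K z) := by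
    ext v
    simp only [refl, polarP, mem_preimage, mem_ofPred_eq, neg_dotProduct]
    refine forall₂_congr fun x _ => ?_
    constructor <;> intro h <;> linarith
  rw [this]
  exact Measure.measure_preimage_neg _ _

lemma Z_dual {K : Set (Fin n → ℝ)} {z : Fin n → ℝ} (hz : z ∈ interior K) :
    Z (dual (cone K)) (Fin.cons 1 z) = (n.factorial : ℝ) * (volume (polarP K z)).toReal := by
  have hc := isCompact_refl hz
  have hm : MeasurableSet (cone (refl K z)) :=
    (Vale.Agent.P254.R304.isClosed_cone hc).measurableSet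
  have hm' : MeasurableSet (dual (cone K)) := by
    rw [← shear_preimage hz]
    exact (mp_shear z).measurable hm
  rw [← volume_refl, ← Z_cone hc]
  unfold Z
  rw [← integral_indicator hm, ← integral_indicator hm']
  have h1 : (cone (refl K z)).indicator
      (fun w => Real.exp (-((Fin.cons 1 0 : Fin (n + 1) → ℝ) ⬝ᵥ w))) ∘ (shear z) =
      (dual (cone K)).indicator
        (fun w => Real.exp (-((Fin.cons 1 z : Fin (n + 1) → ℝ) ⬝ᵥ w))) := by
    rw [← shear_preimage hz]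
    ext w
    by_cases hw : shear z w ∈ cone (refl K z)
    · rw [Function.comp_apply, indicator_of_mem hw, indicator_of_mem (mem_preimage.2 hw),
        dot_cons, dot_cons, shear_apply]
      simp
    · rw [Function.comp_apply, indicator_of_notMem hw,
        indicator_of_notMem (fun h => hw (mem_preimage.1 h))]
  have hmeas : Measurable ((cone (refl K z)).indicator
      (fun w => Real.exp (-((Fin.cons 1 0 : Fin (n + 1) → ℝ) ⬝ᵥ w)))) := by
    refine Measurable.indicator ?_ hm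
    unfold dotProduct
    fun_prop
  rw [← h1]
  have h2 := integral_map (μ := (volume : Measure (Fin (n + 1) → ℝ)))
    (mp_shear z).measurable.aemeasurable
    (f := (cone (refl K z)).indicator
      (fun w => Real.exp (-((Fin.cons 1 0 : Fin (n + 1) → ℝ) ⬝ᵥ w))))
    hmeas.aestronglyMeasurable
  rw [(mp_shear z).map_eq] at h2
  exact h2.symm

theorem stmtCone : StmtCone := fun _ _ hK _ hz =>
  ⟨cc_cone hK, pos_cone hK.2.1, pos_dual hz, Z_cone hK.2.1, Z_dual hz⟩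

end Vale.Agent.P248.NS.T9

end

section

/-!
P248, near-sharp bound: from the inequality for cones to the volume product of convex bodies.
-/

open MeasureTheory Set Matrix Filter Topology

namespace Vale.Agent.P248.NS.T10

open Vale.Agent.P254.R304 (cone)

/-- the inequality for convex bodies, coordinates `Fin n → ℝ` -/
theorem body_of (hMain : StmtMain) (hCone : StmtCone) {δ : ℝ} {n : ℕ}
    (hNice : Vale.Agent.P254.X.Loss.NiceDDL δ (n + 1)) {K : Set (Fin n → ℝ)}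
    (hK : Vale.Agent.P254.IsConvexBody K) {z : Fin n → ℝ} (hz : z ∈ interior K) :
    Real.exp (-(2 * δ * ((n : ℝ) + 1))) * (((n : ℝ) + 1) ^ (n + 1) / (n.factorial : ℝ) ^ 2) ≤
      (volume K).toReal * (volume (polarP K z)).toReal := by
  obtain ⟨h1, h2, h3, h4, h5⟩ := hCone n K hK z hz
  have h := hMain δ (n + 1) (Nat.succ_pos n) hNice (cone K) h1 _ _ h3 h2
  rw [h4, h5] at h
  have e : (Fin.cons 1 z : Fin (n + 1) → ℝ) ⬝ᵥ (Fin.cons 1 0 : Fin (n + 1) → ℝ) = 1 := by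
    unfold dotProduct
    rw [Fin.sum_univ_succ]
    simp
  rw [e, one_pow, mul_one] at h
  push_cast at h
  have hf : (0 : ℝ) < (n.factorial : ℝ) := by positivity
  rw [← mul_div_assoc, div_le_iff₀ (by positivity)]
  calc _ ≤ _ := h
    _ = _ := by ring

/-- the measure preserving identification `EuclideanSpace ℝ (Fin n) ≃ (Fin n → ℝ)` -/
theorem volumeProduct_ge {n : ℕ} {c : ℝ}
    (h : ∀ K : Set (Fin n → ℝ), Vale.Agent.P254.IsConvexBody K → ∀ z ∈ interior K,
      c ≤ (volume K).toReal * (volume (polarP K z)).toReal)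
    {K : Set (EuclideanSpace ℝ (Fin n))} (hK : Vale.Agent.P248.IsConvexBody K) :
    ENNReal.ofReal c ≤ Vale.Agent.P248.volumeProduct K := by
  set e : EuclideanSpace ℝ (Fin n) ≃L[ℝ] (Fin n → ℝ) := EuclideanSpace.equiv (Fin n) ℝ with he
  have hmp : MeasurePreserving (e : EuclideanSpace ℝ (Fin n) → (Fin n → ℝ)) :=
    PiLp.volume_preserving_ofLp (Fin n)
  have hme : MeasurableEmbedding (e : EuclideanSpace ℝ (Fin n) → (Fin n → ℝ)) :=
    e.toHomeomorph.measurableEmbedding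
  have hvol : ∀ S : Set (EuclideanSpace ℝ (Fin n)), volume (e '' S) = volume S := by
    intro S
    rw [← hmp.measure_preimage_emb hme, Set.preimage_image_eq _ e.injective]
  unfold Vale.Agent.P248.volumeProduct
  refine le_iInf₂ fun z hz => ?_
  have hK' : Vale.Agent.P254.IsConvexBody (e '' K) := by
    refine ⟨?_, hK.1.image e.continuous, ?_⟩
    · exact hK.2.1.linear_image e.toLinearMap
    · have h3 := e.toHomeomorph.image_interior K
      have h4 : (e.toHomeomorph '' interior K).Nonempty := hK.2.2.image _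
      rw [h3] at h4
      exact h4
  have hz' : e z ∈ interior (e '' K) := by
    have := e.toHomeomorph.image_interior K
    have h2 : e z ∈ e.toHomeomorph '' interior K := ⟨z, hz, rfl⟩
    rw [this] at h2
    exact h2
  have h1 := h (e '' K) hK' (e z) hz'
  have hpol : polarP (e '' K) (e z) = e '' (Vale.Agent.P248.polarAt K z) := by
    ext w
    constructor
    · intro hw
      refine ⟨e.symm w, fun x hx => ?_, by simp⟩
      have h5 : w ⬝ᵥ (e x - e z) ≤ 1 := hw (e x) ⟨x, hx, rfl⟩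
      rw [EuclideanSpace.inner_eq_star_dotProduct]
      change (e x - e z) ⬝ᵥ star w ≤ 1
      rw [star_trivial, dotProduct_comm]
      exact h5
    · rintro ⟨y, hy, rfl⟩ _ ⟨x, hx, rfl⟩
      have h5 := hy x hx
      rw [EuclideanSpace.inner_eq_star_dotProduct] at h5
      change (e x - e z) ⬝ᵥ star (e y) ≤ 1 at h5
      rw [star_trivial, dotProduct_comm] at h5
      exact h5
  rw [hpol, hvol, hvol] at h1
  refine (ENNReal.ofReal_le_ofReal h1).trans ?_
  rw [ENNReal.ofReal_mul ENNReal.toReal_nonneg]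
  exact mul_le_mul' ENNReal.ofReal_toReal_le ENNReal.ofReal_toReal_le

/-- the near-sharp general Mahler inequality, `δ` = loss of stage 3 -/
theorem near_sharp_of (hMain : StmtMain) (hCone : StmtCone) {δ : ℝ}
    (hNice : ∀ N, Vale.Agent.P254.X.Loss.NiceDDL δ N) {n : ℕ}
    {K : Set (EuclideanSpace ℝ (Fin n))} (hK : Vale.Agent.P248.IsConvexBody K) :
    ENNReal.ofReal (Real.exp (-(2 * δ * ((n : ℝ) + 1))) *
      (((n : ℝ) + 1) ^ (n + 1) / (n.factorial : ℝ) ^ 2)) ≤ Vale.Agent.P248.volumeProduct K :=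
  volumeProduct_ge (fun _ hK _ hz => body_of hMain hCone (hNice (n + 1)) hK hz) hK

end Vale.Agent.P248.NS.T10

end

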