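import Vale.Agent.P248.Bdl.B2
import Vale.Agent.P254.Bdl.B19

/-!
P248, near-sharp bound for the volume product of all convex bodies (no hypotheses).
-/

open MeasureTheory Set

namespace Vale.Agent.P248.NS.Top

theorem nice (n : ℕ) : Vale.Agent.P254.X.Loss.NiceDDL (19 / 100) n :=
  (Vale.Agent.P254.X.Top.niceFrL Vale.Agent.P254.St625.W833.wp
    (Vale.Agent.P254.S5.N710.stmtNice_of (Vale.Agent.P254.X.Chain.stmtStatic_of_sc
      (Vale.Agent.P227.M.HL.stmtSC_of_heat Vale.Agent.P227.M.SC.stmtHeat))) n).niceDDL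

theorem near_sharp {n : ℕ} {K : Set (EuclideanSpace ℝ (Fin n))}
    (hK : Vale.Agent.P248.IsConvexBody K) :
    ENNReal.ofReal (Real.exp (-(2 * (19 / 100) * ((n : ℝ) + 1))) *
      (((n : ℝ) + 1) ^ (n + 1) / (n.factorial : ℝ) ^ 2)) ≤ Vale.Agent.P248.volumeProduct K :=
  T10.volumeProduct_ge
    (fun _ hK _ hz => T10.body_of (Asm541.stmtMain_of T2.stmtLoss) T9.stmtCone (nice (n + 1)) hK hz) hK

end Vale.Agent.P248.NS.Top
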